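import Vale.Agent.P369.MathlibUsed
import Vale.Agent.P369.Setup

set_option linter.all false

namespace AFast8dfed0x5a
theorem a0 : CovariantClass ℝ ℝ (Function.swap fun x1 x2 => x1 + x2) fun x1 x2 => x1 ≤ x2 := inferInstance
theorem a1 : AddLeftMono ℝ := inferInstance
theorem a2 : ContinuousSMul ℝ ℂ := inferInstance
theorem a3 : ContinuousSMul ℝ ℝ := inferInstance
theorem a4 : AddRightReflectLE ℝ := inferInstance
theorem a5 : IsRightCancelAdd ℝ := inferInstance
theorem a6 : AddLeftReflectLE ℝ := inferInstance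
@[reducible] noncomputable def a7 : SMulZeroClass ℝ ℂ := inferInstance
theorem a8 : PosMulReflectLT ℝ := inferInstance
theorem a9 : ContravariantClass ℝ ℝ (fun x1 x2 => x1 + x2) fun x1 x2 => x1 < x2 := inferInstance
@[reducible] def a10 : SMulZeroClass ℝ ℝ := inferInstance
@[reducible] noncomputable def a11 : DistribMulAction ℝ ℂ := inferInstance
@[reducible] noncomputable def a12 : DistribSMul ℝ ℂ := inferInstance
theorem a13 : CharZero ℝ := inferInstance
theorem a14 : T2Space ℝ := inferInstance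
theorem a15 {x1 : Type} [x2 : NormedAddCommGroup x1] [x3 : InnerProductSpace ℂ x1] [x4 : CompleteSpace x1] : ContinuousFunctionalCalculus ℂ (x1 →L[ℂ] x1) IsStarNormal := inferInstance
@[reducible] def a16 : Monoid ℂ := inferInstance
@[reducible] def a17 {x1 : Type} [x2 : NormedAddCommGroup x1] [x3 : InnerProductSpace ℂ x1] : Semiring (x1 →L[ℂ] x1) := inferInstance
@[reducible] noncomputable def a18 {x1 : Type} [x2 : NormedAddCommGroup x1] [x3 : InnerProductSpace ℂ x1] [x4 : CompleteSpace x1] : StarAddMonoid (x1 →L[ℂ] x1) := inferInstance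
@[reducible] def a19 {x1 : Type} [x2 : NormedAddCommGroup x1] [x3 : InnerProductSpace ℂ x1] : AddCommMonoid (x1 →L[ℂ] x1) := inferInstance
theorem a20 : IsLeftCancelAdd ℝ := inferInstance
@[reducible] def a21 {x1 : Type} [x2 : NormedAddCommGroup x1] [x3 : InnerProductSpace ℂ x1] : Distrib (x1 →L[ℂ] x1) := inferInstance
@[reducible] noncomputable def a22 : NormedSpace ℝ ℝ := inferInstance
theorem a23 : AddMonoidHomClass (PowerSeries ℝ →ₗ[ℝ] ℝ) (PowerSeries ℝ) ℝ := inferInstance
theorem a24 {x1 : Type} [x2 : NormedAddCommGroup x1] [x3 : InnerProductSpace ℂ x1] : IsScalarTower ℂ ℂ (x1 →L[ℂ] x1) := inferInstance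
@[reducible] def a25 {x1 : Type} [x2 : NormedAddCommGroup x1] [x3 : InnerProductSpace ℂ x1] : NonUnitalNonAssocSemiring (x1 →L[ℂ] x1) := inferInstance
theorem a26 : ContinuousSub ℝ := inferInstance
@[reducible] def a27 {x1 : Type} [x2 : NormedAddCommGroup x1] [x3 : InnerProductSpace ℂ x1] : NonUnitalNonAssocRing (x1 →L[ℂ] x1) := inferInstance
theorem a28 : DistribMulActionSemiHomClass (PowerSeries ℝ →ₗ[ℝ] ℝ) (⇑(RingHom.id ℝ)) (PowerSeries ℝ) ℝ := inferInstance
theorem a29 : IsLeftCancelMulZero ℝ := inferInstance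
theorem a30 : PosMulStrictMono ℝ := inferInstance
@[reducible] def a31 {x1 : Type} [x2 : NormedAddCommGroup x1] [x3 : InnerProductSpace ℂ x1] : Ring (x1 →L[ℂ] x1) := inferInstance
theorem a32 : PosMulReflectLE ℝ := inferInstance
@[reducible] noncomputable def a33 {x1 : Type} [x2 : NormedAddCommGroup x1] [x3 : InnerProductSpace ℂ x1] : TopologicalSpace (x1 →L[ℂ] x1) := inferInstance
@[reducible] def a34 : DistribMulAction ℝ ℝ := inferInstance
end AFast8dfed0x5a
attribute [local instance] AFast8dfed0x5a.a0 AFast8dfed0x5a.a1 AFast8dfed0x5a.a2 AFast8dfed0x5a.a3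
  AFast8dfed0x5a.a4 AFast8dfed0x5a.a5 AFast8dfed0x5a.a6 AFast8dfed0x5a.a7 AFast8dfed0x5a.a8
  AFast8dfed0x5a.a9 AFast8dfed0x5a.a10 AFast8dfed0x5a.a11 AFast8dfed0x5a.a12 AFast8dfed0x5a.a13
  AFast8dfed0x5a.a14 AFast8dfed0x5a.a15 AFast8dfed0x5a.a16 AFast8dfed0x5a.a17 AFast8dfed0x5a.a18
  AFast8dfed0x5a.a19 AFast8dfed0x5a.a20 AFast8dfed0x5a.a21 AFast8dfed0x5a.a22 AFast8dfed0x5a.a23
  AFast8dfed0x5a.a24 AFast8dfed0x5a.a25 AFast8dfed0x5a.a26 AFast8dfed0x5a.a27 AFast8dfed0x5a.a28
  AFast8dfed0x5a.a29 AFast8dfed0x5a.a30 AFast8dfed0x5a.a31 AFast8dfed0x5a.a32 AFast8dfed0x5a.a33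
  AFast8dfed0x5a.a34
namespace AFast8dfed0x5b
@[reducible] noncomputable def a0 {x1 : Type} [x2 : NormedAddCommGroup x1] [x3 : InnerProductSpace ℂ x1] : Algebra ℝ (x1 →L[ℂ] x1) := inferInstance
theorem a1 {x1 : Type} [x2 : NormedAddCommGroup x1] [x3 : InnerProductSpace ℂ x1] : IsScalarTower ℝ (x1 →L[ℂ] x1) (x1 →L[ℂ] x1) := inferInstance
theorem a2 {x1 : Type} [x2 : NormedAddCommGroup x1] [x3 : InnerProductSpace ℂ x1] : SMulCommClass ℝ (x1 →L[ℂ] x1) (x1 →L[ℂ] x1) := inferInstance
@[reducible] def a3 {x1 : Type} [x2 : NormedAddCommGroup x1] [x3 : InnerProductSpace ℂ x1] : Algebra ℂ (x1 →L[ℂ] x1) := inferInstance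
@[reducible] def a4 {x1 : Type} [x2 : NormedAddCommGroup x1] [x3 : InnerProductSpace ℂ x1] : Module ℂ (x1 →L[ℂ] x1) := inferInstance
theorem a5 {x1 : Type} [x2 : NormedAddCommGroup x1] [x3 : InnerProductSpace ℂ x1] [x4 : CompleteSpace x1] : NonnegSpectrumClass ℝ (x1 →L[ℂ] x1) := inferInstance
@[reducible] noncomputable def a6 {x1 : Type} [x2 : NormedAddCommGroup x1] [x3 : InnerProductSpace ℂ x1] : Module ℝ (x1 →L[ℂ] x1) := inferInstance
@[reducible] noncomputable def a7 {x1 : Type} [x2 : NormedAddCommGroup x1] [x3 : InnerProductSpace ℂ x1] : SMul ℝ (x1 →L[ℂ] x1) := inferInstance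
theorem a8 {x1 : Type} [x2 : NormedAddCommGroup x1] [x3 : InnerProductSpace ℂ x1] [x4 : CompleteSpace x1] : NonUnitalContinuousFunctionalCalculus ℝ (x1 →L[ℂ] x1) IsSelfAdjoint := inferInstance
@[reducible] noncomputable def a9 : Module ℝ ℂ := inferInstance
theorem a10 : AddHomClass (ℝ →+* PowerSeries ℝ) ℝ (PowerSeries ℝ) := inferInstance
@[reducible] def a11 {x1 : Type} [x2 : NormedAddCommGroup x1] [x3 : InnerProductSpace ℂ x1] : SMul ℂ (x1 →L[ℂ] x1) := inferInstance
theorem a12 {x1 : Type} [x2 : NormedAddCommGroup x1] [x3 : InnerProductSpace ℂ x1] : IsScalarTower ℂ (x1 →L[ℂ] x1) (x1 →L[ℂ] x1) := inferInstance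
theorem a13 {x1 : Type} [x2 : NormedAddCommGroup x1] [x3 : InnerProductSpace ℂ x1] : SMulCommClass ℂ (x1 →L[ℂ] x1) (x1 →L[ℂ] x1) := inferInstance
theorem a14 : AddMonoidHomClass (ℝ →+* PowerSeries ℝ) ℝ (PowerSeries ℝ) := inferInstance
theorem a15 {x1 : Type} [x2 : NormedAddCommGroup x1] [x3 : InnerProductSpace ℂ x1] [x4 : CompleteSpace x1] : ContinuousFunctionalCalculus ℝ (x1 →L[ℂ] x1) IsSelfAdjoint := inferInstance
theorem a16 {x1 : Type} [x2 : NormedAddCommGroup x1] [x3 : InnerProductSpace ℂ x1] : IsScalarTower ℝ ℂ (x1 →L[ℂ] x1) := inferInstance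
theorem a17 {x1 : Type} [x2 : NormedAddCommGroup x1] [x3 : InnerProductSpace ℂ x1] : IsSemitopologicalRing (x1 →L[ℂ] x1) := inferInstance
theorem a18 {x1 : Type} [x2 : NormedAddCommGroup x1] [x3 : InnerProductSpace ℂ x1] : T2Space (x1 →L[ℂ] x1) := inferInstance
theorem a19 {x1 : Type} [x2 : NormedAddCommGroup x1] [x3 : InnerProductSpace ℂ x1] : AddMonoidHomClass (x1 →L[ℂ] x1) x1 x1 := inferInstance
theorem a20 {x1 : Type} [x2 : NormedAddCommGroup x1] [x3 : InnerProductSpace ℂ x1] : DistribMulActionSemiHomClass (x1 →L[ℂ] x1) (⇑(RingHom.id ℂ)) x1 x1 := inferInstance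
theorem a21 {x1 : Type} [x2 : NormedAddCommGroup x1] [x3 : InnerProductSpace ℂ x1] : SemilinearMapClass (x1 →L[ℂ] x1) (RingHom.id ℂ) x1 x1 := inferInstance
end AFast8dfed0x5b
attribute [local instance] AFast8dfed0x5b.a0 AFast8dfed0x5b.a1 AFast8dfed0x5b.a2 AFast8dfed0x5b.a3
  AFast8dfed0x5b.a4 AFast8dfed0x5b.a5 AFast8dfed0x5b.a6 AFast8dfed0x5b.a7 AFast8dfed0x5b.a8
  AFast8dfed0x5b.a9 AFast8dfed0x5b.a10 AFast8dfed0x5b.a11 AFast8dfed0x5b.a12 AFast8dfed0x5b.a13
  AFast8dfed0x5b.a14 AFast8dfed0x5b.a15 AFast8dfed0x5b.a16 AFast8dfed0x5b.a17 AFast8dfed0x5b.a18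
  AFast8dfed0x5b.a19 AFast8dfed0x5b.a20 AFast8dfed0x5b.a21
section

attribute [-instance] ProperSMul.toContinuousSMul IsTopologicalTorsor.toContinuousSMul IdemSemiring.toCanonicallyOrderedAdd IdemSemiring.toMulLeftMono IdemSemiring.toMulRightMono AddQuantale.instAddLeftMono AddQuantale.instAddRightMono Quantale.instMulLeftMono Quantale.instMulRightMono FiniteDimensional.rclike_to_real IsScalarTower.complexToReal FiniteDimensional.complexToReal

section

section

/-! Scalar tangent-plane lemma for the dissipation inequality. -/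

namespace Vale.Agent.P369

open Real MeasureTheory

noncomputable def beta (x : ℝ) : ℝ := Real.log (1 + 1 / x)

noncomputable def theta (x : ℝ) : ℝ := 1 / beta x

noncomputable def Phi (r w u : ℝ) : ℝ := theta r * (r * w - u) * Real.log ((w + u) / u)

/-- weighted geometric mean of `r` and `r+1`, written as an exponential. -/
noncomputable def gm (t r : ℝ) : ℝ := r * Real.exp (t * beta r)

theorem beta_pos {x : ℝ} (hx : 0 < x) : 0 < beta x := by
  unfold beta
  apply Real.log_pos
  have : 0 < 1 / x := by positivity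
  linarith only [this]

theorem theta_pos {x : ℝ} (hx : 0 < x) : 0 < theta x := by
  unfold theta
  have := beta_pos hx
  positivity

theorem exp_beta {x : ℝ} (hx : 0 < x) : Real.exp (beta x) = (x + 1) / x := by
  unfold beta
  rw [Real.exp_log (by positivity)]
  (clear * - hx; field_simp)

theorem gm_pos {t r : ℝ} (hr : 0 < r) : 0 < gm t r := by
  unfold gm; positivity

theorem gm_zero (r : ℝ) : gm 0 r = r := by simp only [gm, zero_mul, exp_zero, mul_one]

theorem gm_one {r : ℝ} (hr : 0 < r) : gm 1 r = r + 1 := by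
  unfold gm
  rw [one_mul, exp_beta hr]
  (clear * - hr; field_simp)

theorem le_gm {t r : ℝ} (ht : 0 ≤ t) (hr : 0 < r) : r ≤ gm t r := by
  unfold gm
  have h1 : 1 ≤ Real.exp (t * beta r) := by
    apply Real.one_le_exp
    exact mul_nonneg ht (beta_pos hr).le
  (clear * - hr h1; nlinarith)

theorem continuous_gm (r : ℝ) : Continuous fun t => gm t r := by
  unfold gm
  fun_prop

theorem gm_eq_rpow {t r : ℝ} (hr : 0 < r) : gm t r = r ^ (1 - t) * (r + 1) ^ t := by
  have h1 : (0:ℝ) < r + 1 := by linarith only [hr]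
  unfold gm
  have h2 : beta r = Real.log (r + 1) - Real.log r := by
    unfold beta
    rw [← Real.log_div h1.ne' hr.ne']
    congr 1
    field_simp
  rw [h2, Real.rpow_def_of_pos hr, Real.rpow_def_of_pos h1, ← Real.exp_add]
  nth_rewrite 1 [← Real.exp_log hr]
  rw [← Real.exp_add]
  congr 1
  ring

theorem gm_concave {t : ℝ} (ht0 : 0 ≤ t) (ht1 : t ≤ 1) : ConcaveOn ℝ (Set.Ioi 0) (gm t) := by
  refine ⟨convex_Ioi 0, ?_⟩
  intro x hx y hy a b ha hb hab
  simp only [Set.mem_Ioi] at hx hy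
  simp only [smul_eq_mul]
  have hR : 0 < a * x + b * y := by
    rcases ha.eq_or_lt with h | h
    · have : b = 1 := by linarith only [hab, h]
      subst this; rw [← h]; simpa only [zero_mul, one_mul, zero_add, gt_iff_lt] using hy
    · have := mul_pos h hx
      have := mul_nonneg hb hy.le
      (clear t ht0 ht1 ha hab; linarith)
  set R := a * x + b * y with hRdef
  have hS : 0 < R + 1 := by linarith only [hR]
  have key : ∀ z : ℝ, 0 < z → gm t z ≤ ((1 - t) * (z / R) + t * ((z + 1) / (R + 1))) * gm t R := by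
    intro z hz
    have hz1 : 0 < z + 1 := by linarith
    have h := Real.geom_mean_le_arith_mean2_weighted (w₁ := 1 - t) (w₂ := t) (p₁ := z / R)
      (p₂ := (z + 1) / (R + 1)) (by linarith only [ht1]) ht0 (by (clear * - hz hR; positivity)) (by (clear * - hz hR; positivity)) (by ring)
    have hg : 0 < gm t R := gm_pos hR
    have e : gm t z = ((z / R) ^ (1 - t) * ((z + 1) / (R + 1)) ^ t) * gm t R := by
      rw [gm_eq_rpow hz, gm_eq_rpow hR, Real.div_rpow hz.le hR.le, Real.div_rpow hz1.le hS.le]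
      have p1 : 0 < R ^ (1 - t) := Real.rpow_pos_of_pos hR _
      have p2 : 0 < (R + 1) ^ t := Real.rpow_pos_of_pos hS _
      (clear * - hR hz; field_simp)
    rw [e]
    exact mul_le_mul_of_nonneg_right h hg.le
  have h1 := mul_le_mul_of_nonneg_left (key x hx) ha
  have h2 := mul_le_mul_of_nonneg_left (key y hy) hb
  have e : a * (((1 - t) * (x / R) + t * ((x + 1) / (R + 1))) * gm t R) +
      b * (((1 - t) * (y / R) + t * ((y + 1) / (R + 1))) * gm t R) = gm t R := by
    have : a * (((1 - t) * (x / R) + t * ((x + 1) / (R + 1))) * gm t R) +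
      b * (((1 - t) * (y / R) + t * ((y + 1) / (R + 1))) * gm t R) =
      ((1 - t) * ((a * x + b * y) / R) + t * ((a * x + b * y + (a + b)) / (R + 1))) * gm t R := by
      field_simp
      ring
    rw [this, hab, ← hRdef, div_self hR.ne', div_self hS.ne']
    ring
  linarith only [h1, h2, e]

theorem den_pos {t r w u : ℝ} (ht : 0 ≤ t) (hr : 0 < r) (hw : 0 ≤ w) (hu : 0 < u) :
    0 < u - r * w + w * gm t r := by
  have := mul_le_mul_of_nonneg_left (le_gm ht hr) hw
  linarith

theorem integral_formula {r w u : ℝ} (hr : 0 < r) (hw : 0 ≤ w) (hu : 0 < u) :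
    ∫ t in (0:ℝ)..1, (u - r * w) * (w * gm t r) / (u - r * w + w * gm t r) = - Phi r w u := by
  have hb := beta_pos hr
  have hderiv : ∀ t ∈ Set.uIcc (0:ℝ) 1, HasDerivAt
      (fun t => (u - r * w) / beta r * Real.log (u - r * w + w * gm t r))
      ((u - r * w) * (w * gm t r) / (u - r * w + w * gm t r)) t := by
    intro t ht
    rw [Set.uIcc_of_le zero_le_one] at ht
    have hd := den_pos ht.1 hr hw hu
    have h1 : HasDerivAt (fun t => gm t r) (gm t r * beta r) t := by
      unfold gm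
      have h2 : HasDerivAt (fun t : ℝ => t * beta r) (beta r) t := by
        simpa only [id_eq, one_mul] using (hasDerivAt_id t).mul_const (beta r)
      have h3 := (h2.exp).const_mul r
      have e : r * Real.exp (t * beta r) * beta r = r * (Real.exp (t * beta r) * beta r) := by ring
      rw [e]
      exact h3
    have h4 : HasDerivAt (fun t => u - r * w + w * gm t r) (w * (gm t r * beta r)) t :=
      (h1.const_mul w).const_add _
    have h5 := (h4.log hd.ne').const_mul ((u - r * w) / beta r)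
    have e : (u - r * w) * (w * gm t r) / (u - r * w + w * gm t r) =
        (u - r * w) / beta r * (w * (gm t r * beta r) / (u - r * w + w * gm t r)) := by
      have hb' := hb.ne'
      have hd' := hd.ne'
      (clear * - hb' hd'; field_simp)
    rw [e]
    exact h5
  have hcont : ContinuousOn (fun t => (u - r * w) * (w * gm t r) / (u - r * w + w * gm t r))
      (Set.uIcc (0:ℝ) 1) := by
    have hg := continuous_gm r
    apply ContinuousOn.div
    · (clear * - hg; fun_prop)
    · (clear * - hg; fun_prop)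
    · intro t ht
      rw [Set.uIcc_of_le zero_le_one] at ht
      exact (den_pos ht.1 hr hw hu).ne'
  rw [intervalIntegral.integral_eq_sub_of_hasDerivAt hderiv hcont.intervalIntegrable]
  rw [gm_zero, gm_one hr]
  have e1 : u - r * w + w * (r + 1) = w + u := by ring
  have e2 : u - r * w + w * r = u := by ring
  rw [e1, e2]
  unfold Phi theta
  rw [Real.log_div (by positivity) hu.ne']
  field_simp
  ring

theorem par_le {D M l : ℝ} (h : 0 < D + M) :
    D * M / (D + M) ≤ (1 - l) ^ 2 * M + l ^ 2 * D := by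
  rw [div_le_iff₀ h]
  nlinarith [sq_nonneg ((M + D) * l - M)]

theorem par_eq {D M : ℝ} (h : 0 < D + M) :
    D * M / (D + M) = (1 - M / (D + M)) ^ 2 * M + (M / (D + M)) ^ 2 * D := by
  field_simp
  ring

/-- Tangent plane lemma. -/
theorem tangent_plane {c W U : ℝ} (hc : 0 < c) (hW : 0 ≤ W) (hU : 0 < U) :
    ∃ (a : ℝ → ℝ) (b : ℝ), 0 ≤ b ∧ ConcaveOn ℝ (Set.Ioi 0) a ∧
      (∀ r w u : ℝ, 0 < r → 0 ≤ w → 0 < u → Phi r w u ≥ -(a r) * w - b * (u - r * w)) ∧
      Phi c W U = -(a c) * W - b * (U - c * W) := by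
  set lam : ℝ → ℝ := fun t => W * gm t c / (U - c * W + W * gm t c) with hlam
  have hlamc : ContinuousOn lam (Set.uIcc (0:ℝ) 1) := by
    have hg := continuous_gm c
    apply ContinuousOn.div
    · (clear * - hg; fun_prop)
    · (clear * - hg; fun_prop)
    · intro t ht
      rw [Set.uIcc_of_le zero_le_one] at ht
      exact (den_pos ht.1 hc hW hU).ne'
  have hI1 : ∀ r : ℝ, IntervalIntegrable (fun t => (1 - lam t) ^ 2 * gm t r) volume 0 1 := by
    intro r
    have hg := continuous_gm r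
    apply ContinuousOn.intervalIntegrable
    exact ((continuousOn_const.sub hlamc).pow 2).mul hg.continuousOn
  have hI2 : IntervalIntegrable (fun t => (lam t) ^ 2) volume 0 1 :=
    (hlamc.pow 2).intervalIntegrable
  refine ⟨fun r => ∫ t in (0:ℝ)..1, (1 - lam t) ^ 2 * gm t r, ∫ t in (0:ℝ)..1, (lam t) ^ 2,
    ?_, ?_, ?_, ?_⟩
  · exact intervalIntegral.integral_nonneg zero_le_one (fun t _ => by (clear * -; positivity))
  · refine ⟨convex_Ioi 0, ?_⟩
    intro x hx y hy a b ha hb hab
    simp only [smul_eq_mul]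
    rw [← intervalIntegral.integral_const_mul, ← intervalIntegral.integral_const_mul,
      ← intervalIntegral.integral_add ((hI1 x).const_mul a)
      ((hI1 y).const_mul b)]
    apply intervalIntegral.integral_mono_on zero_le_one (((hI1 x).const_mul a).add ((hI1 y).const_mul b)) (hI1 _)
    intro t ht
    have h := (gm_concave ht.1 ht.2).2 hx hy ha hb hab
    simp only [smul_eq_mul] at h
    have h2 := mul_le_mul_of_nonneg_left h (sq_nonneg (1 - lam t))
    calc a * ((1 - lam t) ^ 2 * gm t x) + b * ((1 - lam t) ^ 2 * gm t y)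
        = (1 - lam t) ^ 2 * (a * gm t x + b * gm t y) := by ring
      _ ≤ _ := h2
  · intro r w u hr hw hu
    have h1 := integral_formula hr hw hu
    have hcont : ContinuousOn (fun t => (u - r * w) * (w * gm t r) / (u - r * w + w * gm t r))
        (Set.uIcc (0:ℝ) 1) := by
      have hg := continuous_gm r
      apply ContinuousOn.div
      · fun_prop
      · fun_prop
      · intro t ht
        rw [Set.uIcc_of_le zero_le_one] at ht
        exact (den_pos ht.1 hr hw hu).ne'
    have h2 : ∫ t in (0:ℝ)..1, (u - r * w) * (w * gm t r) / (u - r * w + w * gm t r) ≤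
        ∫ t in (0:ℝ)..1, (((1 - lam t) ^ 2 * gm t r) * w + (lam t) ^ 2 * (u - r * w)) := by
      apply intervalIntegral.integral_mono_on zero_le_one hcont.intervalIntegrable
        (((hI1 r).mul_const w).add (hI2.mul_const _))
      intro t ht
      have hd := den_pos ht.1 hr hw hu
      have := par_le (D := u - r * w) (M := w * gm t r) (l := lam t) hd
      linarith only [this]
    rw [intervalIntegral.integral_add ((hI1 r).mul_const w) (hI2.mul_const _), intervalIntegral.integral_mul_const,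
      intervalIntegral.integral_mul_const] at h2
    rw [h1] at h2
    simp only
    linarith only [h2]
  · have h1 := integral_formula hc hW hU
    have h2 : ∫ t in (0:ℝ)..1, (U - c * W) * (W * gm t c) / (U - c * W + W * gm t c) =
        ∫ t in (0:ℝ)..1, (((1 - lam t) ^ 2 * gm t c) * W + (lam t) ^ 2 * (U - c * W)) := by
      apply intervalIntegral.integral_congr
      intro t ht
      rw [Set.uIcc_of_le zero_le_one] at ht
      have hd := den_pos ht.1 hc hW hU
      have := par_eq (D := U - c * W) (M := W * gm t c) hd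
      simp only [hlam]
      rw [this]
      ring
    rw [intervalIntegral.integral_add ((hI1 c).mul_const W) (hI2.mul_const _), intervalIntegral.integral_mul_const,
      intervalIntegral.integral_mul_const] at h2
    rw [h1] at h2
    simp only
    linarith only [h2]

end Vale.Agent.P369
end
end
end

section

attribute [-instance] ProperSMul.toContinuousSMul IsTopologicalTorsor.toContinuousSMul IdemSemiring.toCanonicallyOrderedAdd IdemSemiring.toMulLeftMono IdemSemiring.toMulRightMono AddQuantale.instAddLeftMono AddQuantale.instAddRightMono Quantale.instMulLeftMono Quantale.instMulRightMono FiniteDimensional.rclike_to_real IsScalarTower.complexToReal FiniteDimensional.complexToReal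

section

section

/-!
Classical definitions used in the proof: thermal distributions, the birth-death generator,
entropy of a distribution, the entropy production rate.
-/

namespace Vale.Agent.P369

noncomputable section

/-- thermal distribution of mean `r`. -/
def tau (r : ℝ) (k : ℕ) : ℝ := r ^ k / (r + 1) ^ (k + 1)

/-- forward generator of the thermal attenuator with environment of mean `r`. -/
def gen (r : ℝ) (p : ℕ → ℝ) (k : ℕ) : ℝ :=
  r * k * p (k - 1) + (r + 1) * (k + 1) * p (k + 1) - (r * (k + 1) + (r + 1) * k) * p k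

/-- Shannon entropy. -/
def Hs {ι : Type} (p : ι → ℝ) : ℝ := ∑' k, Real.negMulLog (p k)

/-- entropy rate along the flow with generator `gen r`. -/
def rate (r : ℝ) (p : ℕ → ℝ) : ℝ :=
  ∑' k : ℕ, ((k : ℝ) + 1) * (r * p k - (r + 1) * p (k + 1)) *
    (Real.log (p k) - Real.log (p (k + 1)))

/-- shift in the first index. -/
def shA (f : ℕ → ℕ → ℝ) : ℕ → ℕ → ℝ
  | 0, _ => 0
  | i + 1, j => f i j

/-- shift in the second index. -/
def shB (f : ℕ → ℕ → ℝ) : ℕ → ℕ → ℝ
  | _, 0 => 0
  | i, j + 1 => f i j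

/-- `coef s c i j k l` is the coefficient of `x^k y^l` in `(s x - c y)^i (c x + s y)^j`. -/
def coef (s c : ℝ) : ℕ → ℕ → ℕ → ℕ → ℝ
  | 0, 0 => fun k l => if k = 0 ∧ l = 0 then 1 else 0
  | 0, j + 1 => fun k l => c * shA (coef s c 0 j) k l + s * shB (coef s c 0 j) k l
  | i + 1, j => fun k l => s * shA (coef s c i j) k l - c * shB (coef s c i j) k l

section coefs

variable (s c : ℝ)

theorem coef_zero_zero (k l : ℕ) : coef s c 0 0 k l = if k = 0 ∧ l = 0 then 1 else 0 := by
  simp [coef]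

theorem coef_succ_left (i j k l : ℕ) : coef s c (i + 1) j k l =
    s * shA (coef s c i j) k l - c * shB (coef s c i j) k l := by
  rw [coef]

theorem coef_zero_succ (j k l : ℕ) : coef s c 0 (j + 1) k l =
    c * shA (coef s c 0 j) k l + s * shB (coef s c 0 j) k l := by
  rw [coef]

end coefs

/-- beam splitter amplitude `⟨k, l| U |i, j⟩`. -/
def amp (s c : ℝ) (k l i j : ℕ) : ℝ :=
  Real.sqrt ((k.factorial * l.factorial : ℝ) / (i.factorial * j.factorial)) * coef s c i j k l

/-- transition probability: `k` photons at the output, given `i` and `j` at the inputs. -/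
def ker (η : ℝ) (k i j : ℕ) : ℝ :=
  if k ≤ i + j then (amp (Real.sqrt η) (Real.sqrt (1 - η)) k (i + j - k) i j) ^ 2 else 0

/-- one-mode output distribution. -/
def out (η : ℝ) (p q : ℕ → ℝ) (k : ℕ) : ℝ := ∑' ij : ℕ × ℕ, ker η k ij.1 ij.2 * (p ij.1 * q ij.2)

/-- `n`-mode transition probability. -/
def kern {n : ℕ} (η : ℝ) (m k l : Fin n → ℕ) : ℝ := ∏ j, ker η (m j) (k j) (l j)

/-- `n`-mode output distribution. -/
def outn {n : ℕ} (η : ℝ) (p q : (Fin n → ℕ) → ℝ) (m : Fin n → ℕ) : ℝ :=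
  ∑' kl : (Fin n → ℕ) × (Fin n → ℕ), kern η m kl.1 kl.2 * (p kl.1 * q kl.2)

/-- a probability distribution. -/
def IsProb {ι : Type} (p : ι → ℝ) : Prop := (∀ k, 0 ≤ p k) ∧ HasSum p 1

end

end Vale.Agent.P369
end
end
end

section

attribute [-instance] ProperSMul.toContinuousSMul IsTopologicalTorsor.toContinuousSMul IdemSemiring.toCanonicallyOrderedAdd IdemSemiring.toMulLeftMono IdemSemiring.toMulRightMono AddQuantale.instAddLeftMono AddQuantale.instAddRightMono Quantale.instMulLeftMono Quantale.instMulRightMono FiniteDimensional.rclike_to_real IsScalarTower.complexToReal FiniteDimensional.complexToReal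

section

section

/-! Beam splitter amplitudes and transition probabilities. -/

namespace Vale.Agent.P369

open Finset

section coefs

variable (s c : ℝ)

@[simp] theorem shA_zero (f : ℕ → ℕ → ℝ) (j : ℕ) : shA f 0 j = 0 := rfl
@[simp] theorem shA_succ (f : ℕ → ℕ → ℝ) (i j : ℕ) : shA f (i + 1) j = f i j := rfl
@[simp] theorem shB_zero (f : ℕ → ℕ → ℝ) (i : ℕ) : shB f i 0 = 0 := by cases i <;> rfl
@[simp] theorem shB_succ (f : ℕ → ℕ → ℝ) (i j : ℕ) : shB f i (j + 1) = f i j := by
  cases i <;> rfl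

theorem coef_succ_right (i j k l : ℕ) : coef s c i (j + 1) k l =
    c * shA (coef s c i j) k l + s * shB (coef s c i j) k l := by
  induction i generalizing k l with
  | zero => exact coef_zero_succ s c j k l
  | succ i ih =>
    cases k with
    | zero =>
      cases l with
      | zero => simp [coef_succ_left]
      | succ l =>
        simp only [coef_succ_left, shA_zero, shB_succ]
        rw [ih]
        cases l with
        | zero => simp
        | succ l => simp only [shA_zero, shB_succ]; ring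
    | succ k =>
      cases l with
      | zero =>
        simp only [coef_succ_left, shA_succ, shB_zero]
        rw [ih]
        cases k with
        | zero => simp
        | succ k => simp only [shA_succ, shB_zero]; ring
      | succ l =>
        simp only [coef_succ_left, shA_succ, shB_succ]
        rw [ih, ih]
        cases k with
        | zero =>
          cases l with
          | zero => simp only [zero_add, shA_zero, mul_zero, shB_succ, shA_succ, shB_zero, add_zero, zero_sub, mul_neg, sub_zero]; ring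
          | succ l => simp only [shA_zero, shB_succ, shA_succ]; ring
        | succ k =>
          cases l with
          | zero => simp only [shA_succ, shB_zero, shB_succ]; ring
          | succ l => simp only [shA_succ, shB_succ]; ring

theorem coef_hom (i j k l : ℕ) (h : k + l ≠ i + j) : coef s c i j k l = 0 := by
  induction i generalizing k l with
  | zero =>
    induction j generalizing k l with
    | zero =>
      rw [coef_zero_zero]
      rw [if_neg]
      intro hh
      omega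
    | succ j ih =>
      rw [coef_zero_succ]
      cases k with
      | zero =>
        cases l with
        | zero => simp
        | succ l =>
          simp only [shA_zero, shB_succ]
          rw [ih _ _ (by omega)]; ring
      | succ k =>
        cases l with
        | zero =>
          simp only [shA_succ, shB_zero]
          rw [ih _ _ (by omega)]; ring
        | succ l =>
          simp only [shA_succ, shB_succ]
          rw [ih _ _ (by omega), ih _ _ (by omega)]; ring
  | succ i ih =>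
    rw [coef_succ_left]
    cases k with
    | zero =>
      cases l with
      | zero => simp
      | succ l =>
        simp only [shA_zero, shB_succ]
        rw [ih _ _ (by omega)]; ring
    | succ k =>
      cases l with
      | zero =>
        simp only [shA_succ, shB_zero]
        rw [ih _ _ (by omega)]; ring
      | succ l =>
        simp only [shA_succ, shB_succ]
        rw [ih _ _ (by omega), ih _ _ (by omega)]; ring

theorem shA_D (f : ℕ → ℕ → ℝ) (k l : ℕ) :
    shA (fun a b => ((a : ℝ) + 1) * f (a + 1) b) k l = k * f k l := by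
  cases k with
  | zero => simp
  | succ k => simp only [shA_succ, Nat.cast_add, Nat.cast_one]

theorem shB_D (f : ℕ → ℕ → ℝ) (k l : ℕ) :
    shB (fun a b => ((b : ℝ) + 1) * f a (b + 1)) k l = l * f k l := by
  cases l with
  | zero => simp
  | succ l => simp only [shB_succ, Nat.cast_add, Nat.cast_one]

theorem coef_D1 (i j k l : ℕ) : ((k : ℝ) + 1) * coef s c i j (k + 1) l =
    i * s * coef s c (i - 1) j k l + j * c * coef s c i (j - 1) k l := by
  induction i generalizing k l with
  | zero =>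
    induction j generalizing k l with
    | zero => simp only [coef_zero_zero, Nat.add_eq_zero_iff, one_ne_zero, and_false, false_and, ↓reduceIte, mul_zero, CharP.cast_eq_zero, zero_mul, zero_tsub, mul_ite, mul_one, ite_self, add_zero]
    | succ j ih =>
      simp only [Nat.cast_zero, zero_mul, zero_add, Nat.add_sub_cancel] at ih ⊢
      rw [coef_zero_succ]
      simp only [shA_succ]
      have h1 : (k : ℝ) * coef s c 0 j k l = shA (fun a b => (j : ℝ) * c * coef s c 0 (j - 1) a b) k l := by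
        rw [← shA_D]
        cases k with
        | zero => simp only [shA_zero]
        | succ k => simp only [shA_succ]; exact ih k l
      have h2 : ((k : ℝ) + 1) * shB (coef s c 0 j) (k + 1) l =
          shB (fun a b => (j : ℝ) * c * coef s c 0 (j - 1) a b) k l := by
        cases l with
        | zero => simp only [shB_zero, mul_zero]
        | succ l => simp only [shB_succ]; exact ih k l
      have h3 : c * shA (fun a b => (j : ℝ) * c * coef s c 0 (j - 1) a b) k l +
          s * shB (fun a b => (j : ℝ) * c * coef s c 0 (j - 1) a b) k l =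
          j * c * coef s c 0 j k l := by
        cases j with
        | zero => simp only [CharP.cast_eq_zero, zero_mul, zero_tsub]; cases k <;> cases l <;> simp
        | succ j =>
          rw [coef_zero_succ]
          simp only [Nat.add_sub_cancel]
          cases k <;> cases l <;> simp only [shA_zero, shA_succ, shB_zero, shB_succ] <;> ring
      push_cast
      linear_combination c * h1 + s * h2 + h3
  | succ i ih =>
    rw [coef_succ_left]
    simp only [shA_succ, Nat.add_sub_cancel]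
    have h1 : (k : ℝ) * coef s c i j k l =
        shA (fun a b => (i : ℝ) * s * coef s c (i - 1) j a b + j * c * coef s c i (j - 1) a b) k l := by
      rw [← shA_D]
      cases k with
      | zero => simp only [shA_zero]
      | succ k => simp only [shA_succ]; exact ih k l
    have h2 : ((k : ℝ) + 1) * shB (coef s c i j) (k + 1) l =
        shB (fun a b => (i : ℝ) * s * coef s c (i - 1) j a b + j * c * coef s c i (j - 1) a b) k l := by
      cases l with
      | zero => simp only [shB_zero, mul_zero]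
      | succ l => simp only [shB_succ]; exact ih k l
    have h3 : s * shA (fun a b => (i : ℝ) * s * coef s c (i - 1) j a b + j * c * coef s c i (j - 1) a b) k l -
        c * shB (fun a b => (i : ℝ) * s * coef s c (i - 1) j a b + j * c * coef s c i (j - 1) a b) k l =
        i * s * coef s c i j k l + j * c * coef s c (i + 1) (j - 1) k l := by
      rw [coef_succ_left s c i (j - 1)]
      cases i with
      | zero =>
        cases k <;> cases l <;> simp only [shA_zero, shA_succ, shB_zero, shB_succ, Nat.cast_zero] <;> ring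
      | succ i =>
        rw [coef_succ_left s c i j]
        simp only [Nat.add_sub_cancel]
        cases k <;> cases l <;> simp only [shA_zero, shA_succ, shB_zero, shB_succ] <;> ring
    push_cast
    linear_combination s * h1 - c * h2 + h3

theorem coef_D2 (i j k l : ℕ) : ((l : ℝ) + 1) * coef s c i j k (l + 1) =
    -(i * c * coef s c (i - 1) j k l) + j * s * coef s c i (j - 1) k l := by
  induction i generalizing k l with
  | zero =>
    induction j generalizing k l with
    | zero => simp [coef_zero_zero]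
    | succ j ih =>
      simp only [Nat.cast_zero, zero_mul, neg_zero, zero_add, Nat.add_sub_cancel] at ih ⊢
      rw [coef_zero_succ]
      simp only [shB_succ]
      have h1 : (l : ℝ) * coef s c 0 j k l = shB (fun a b => (j : ℝ) * s * coef s c 0 (j - 1) a b) k l := by
        rw [← shB_D]
        cases l with
        | zero => simp
        | succ l => simp only [shB_succ]; exact ih k l
      have h2 : ((l : ℝ) + 1) * shA (coef s c 0 j) k (l + 1) =
          shA (fun a b => (j : ℝ) * s * coef s c 0 (j - 1) a b) k l := by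
        cases k with
        | zero => simp
        | succ k => simp only [shA_succ]; exact ih k l
      have h3 : c * shA (fun a b => (j : ℝ) * s * coef s c 0 (j - 1) a b) k l +
          s * shB (fun a b => (j : ℝ) * s * coef s c 0 (j - 1) a b) k l =
          j * s * coef s c 0 j k l := by
        cases j with
        | zero => simp; cases k <;> cases l <;> simp
        | succ j =>
          rw [coef_zero_succ]
          simp only [Nat.add_sub_cancel]
          cases k <;> cases l <;> simp only [shA_zero, shA_succ, shB_zero, shB_succ] <;> ring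
      push_cast
      linear_combination s * h1 + c * h2 + h3
  | succ i ih =>
    rw [coef_succ_left]
    simp only [shB_succ, Nat.add_sub_cancel]
    have h1 : (l : ℝ) * coef s c i j k l =
        shB (fun a b => -((i : ℝ) * c * coef s c (i - 1) j a b) + j * s * coef s c i (j - 1) a b) k l := by
      rw [← shB_D]
      cases l with
      | zero => simp
      | succ l => simp only [shB_succ]; exact ih k l
    have h2 : ((l : ℝ) + 1) * shA (coef s c i j) k (l + 1) =
        shA (fun a b => -((i : ℝ) * c * coef s c (i - 1) j a b) + j * s * coef s c i (j - 1) a b) k l := by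
      cases k with
      | zero => simp
      | succ k => simp only [shA_succ]; exact ih k l
    have h3 : s * shA (fun a b => -((i : ℝ) * c * coef s c (i - 1) j a b) + j * s * coef s c i (j - 1) a b) k l -
        c * shB (fun a b => -((i : ℝ) * c * coef s c (i - 1) j a b) + j * s * coef s c i (j - 1) a b) k l =
        -(i * c * coef s c i j k l) + j * s * coef s c (i + 1) (j - 1) k l := by
      rw [coef_succ_left s c i (j - 1)]
      cases i with
      | zero =>
        cases k <;> cases l <;> simp only [shA_zero, shA_succ, shB_zero, shB_succ, Nat.cast_zero] <;> ring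
      | succ i =>
        rw [coef_succ_left s c i j]
        simp only [Nat.add_sub_cancel]
        cases k <;> cases l <;> simp only [shA_zero, shA_succ, shB_zero, shB_succ] <;> ring
    push_cast
    linear_combination s * h2 - c * h1 + h3

/-- the normalization factor of `amp`. -/
noncomputable def nrm (k l i j : ℕ) : ℝ :=
  Real.sqrt ((k.factorial * l.factorial : ℝ) / (i.factorial * j.factorial))

theorem amp_eq (k l i j : ℕ) : amp s c k l i j = nrm k l i j * coef s c i j k l := rfl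

theorem nrm_i (k l i j : ℕ) : Real.sqrt (i + 1) * nrm k l (i + 1) j = nrm k l i j := by
  unfold nrm
  rw [← Real.sqrt_mul (by positivity)]
  congr 1
  rw [Nat.factorial_succ]
  push_cast
  have h1 : (i.factorial : ℝ) ≠ 0 := by positivity
  have h2 : (j.factorial : ℝ) ≠ 0 := by positivity
  field_simp

theorem nrm_j (k l i j : ℕ) : Real.sqrt (j + 1) * nrm k l i (j + 1) = nrm k l i j := by
  unfold nrm
  rw [← Real.sqrt_mul (by positivity)]
  congr 1
  rw [Nat.factorial_succ]
  push_cast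
  have h1 : (i.factorial : ℝ) ≠ 0 := by positivity
  have h2 : (j.factorial : ℝ) ≠ 0 := by positivity
  field_simp

theorem nrm_k (k l i j : ℕ) : nrm (k + 1) l i j = Real.sqrt (k + 1) * nrm k l i j := by
  unfold nrm
  rw [← Real.sqrt_mul (by positivity)]
  congr 1
  rw [Nat.factorial_succ]
  push_cast
  have h1 : (i.factorial : ℝ) ≠ 0 := by positivity
  have h2 : (j.factorial : ℝ) ≠ 0 := by positivity
  field_simp

theorem nrm_l (k l i j : ℕ) : nrm k (l + 1) i j = Real.sqrt (l + 1) * nrm k l i j := by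
  unfold nrm
  rw [← Real.sqrt_mul (by positivity)]
  congr 1
  rw [Nat.factorial_succ]
  push_cast
  have h1 : (i.factorial : ℝ) ≠ 0 := by positivity
  have h2 : (j.factorial : ℝ) ≠ 0 := by positivity
  field_simp

theorem amp_hom (k l i j : ℕ) (h : k + l ≠ i + j) : amp s c k l i j = 0 := by
  rw [amp_eq, coef_hom s c i j k l h, mul_zero]

theorem amp_zero_zero (i j : ℕ) : amp s c 0 0 i j = if i = 0 ∧ j = 0 then 1 else 0 := by
  by_cases h : i = 0 ∧ j = 0
  · obtain ⟨rfl, rfl⟩ := h
    simp only [amp_eq, nrm, Nat.factorial_zero, Nat.cast_one, mul_one, ne_eq, one_ne_zero, not_false_eq_true, div_self, Real.sqrt_one, coef_zero_zero, and_self, ↓reduceIte]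
  · rw [if_neg h]
    exact amp_hom s c 0 0 i j (by omega)

/-- raising an input photon number. -/
theorem amp_A3 (k l i j : ℕ) : Real.sqrt (i + 1) * amp s c k l (i + 1) j =
    s * Real.sqrt k * amp s c (k - 1) l i j - c * Real.sqrt l * amp s c k (l - 1) i j := by
  rw [amp_eq, ← mul_assoc, nrm_i, coef_succ_left]
  cases k with
  | zero =>
    cases l with
    | zero => simp only [shA_zero, mul_zero, shB_zero, sub_self, CharP.cast_eq_zero, Real.sqrt_zero, zero_tsub, zero_mul]
    | succ l =>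
      simp only [shA_zero, shB_succ, Nat.add_sub_cancel, amp_eq, nrm_l]
      push_cast
      simp only [mul_zero, zero_sub, mul_neg, Real.sqrt_zero, zero_mul, neg_inj]
      ring
  | succ k =>
    cases l with
    | zero =>
      simp only [shA_succ, shB_zero, Nat.add_sub_cancel, amp_eq, nrm_k]
      push_cast
      simp only [mul_zero, sub_zero, Real.sqrt_zero, zero_mul]
      ring
    | succ l =>
      simp only [shA_succ, shB_succ, Nat.add_sub_cancel, amp_eq]
      rw [nrm_k k (l+1), nrm_l k l, nrm_k k l]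
      push_cast
      ring

theorem amp_A4 (k l i j : ℕ) : Real.sqrt (j + 1) * amp s c k l i (j + 1) =
    c * Real.sqrt k * amp s c (k - 1) l i j + s * Real.sqrt l * amp s c k (l - 1) i j := by
  rw [amp_eq, ← mul_assoc, nrm_j, coef_succ_right]
  cases k with
  | zero =>
    cases l with
    | zero => simp
    | succ l =>
      simp only [shA_zero, shB_succ, Nat.add_sub_cancel, amp_eq, nrm_l]
      push_cast
      simp only [mul_zero, zero_add, Real.sqrt_zero, zero_mul]
      ring
  | succ k =>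
    cases l with
    | zero =>
      simp only [shA_succ, shB_zero, Nat.add_sub_cancel, amp_eq, nrm_k]
      push_cast
      simp only [mul_zero, add_zero, Real.sqrt_zero, zero_mul]
      ring
    | succ l =>
      simp only [shA_succ, shB_succ, Nat.add_sub_cancel, amp_eq]
      rw [nrm_k k (l+1), nrm_l k l, nrm_k k l]
      push_cast
      ring

theorem amp_A1 (k l i j : ℕ) : Real.sqrt (k + 1) * amp s c (k + 1) l i j =
    s * Real.sqrt i * amp s c k l (i - 1) j + c * Real.sqrt j * amp s c k l i (j - 1) := by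
  have hk : Real.sqrt ((k : ℝ) + 1) * Real.sqrt ((k : ℝ) + 1) = k + 1 :=
    Real.mul_self_sqrt (by positivity)
  have h := coef_D1 s c i j k l
  have h0 : Real.sqrt (k + 1) * amp s c (k + 1) l i j =
      nrm k l i j * (((k : ℝ) + 1) * coef s c i j (k + 1) l) := by
    rw [amp_eq, nrm_k]; linear_combination (nrm k l i j * coef s c i j (k + 1) l) * hk
  rw [h0, h, mul_add]
  congr 1
  · cases i with
    | zero => simp
    | succ i =>
      have hi : Real.sqrt ((i : ℝ) + 1) * Real.sqrt ((i : ℝ) + 1) = i + 1 :=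
        Real.mul_self_sqrt (by (clear * -; positivity))
      simp only [Nat.add_sub_cancel, amp_eq]
      rw [← nrm_i k l i j]
      push_cast
      linear_combination (-(nrm k l (i + 1) j * s * coef s c i j k l)) * hi
  · cases j with
    | zero => simp only [CharP.cast_eq_zero, zero_mul, zero_tsub, mul_zero, Real.sqrt_zero]
    | succ j =>
      have hj : Real.sqrt ((j : ℝ) + 1) * Real.sqrt ((j : ℝ) + 1) = j + 1 :=
        Real.mul_self_sqrt (by (clear * -; positivity))
      simp only [Nat.add_sub_cancel, amp_eq]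
      rw [← nrm_j k l i j]
      push_cast
      linear_combination (-(nrm k l i (j + 1) * c * coef s c i j k l)) * hj

theorem amp_A2 (k l i j : ℕ) : Real.sqrt (l + 1) * amp s c k (l + 1) i j =
    -(c * Real.sqrt i * amp s c k l (i - 1) j) + s * Real.sqrt j * amp s c k l i (j - 1) := by
  have hk : Real.sqrt ((l : ℝ) + 1) * Real.sqrt ((l : ℝ) + 1) = l + 1 :=
    Real.mul_self_sqrt (by positivity)
  have h := coef_D2 s c i j k l
  have h0 : Real.sqrt (l + 1) * amp s c k (l + 1) i j =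
      nrm k l i j * (((l : ℝ) + 1) * coef s c i j k (l + 1)) := by
    rw [amp_eq, nrm_l]; linear_combination (nrm k l i j * coef s c i j k (l + 1)) * hk
  rw [h0, h, mul_add]
  congr 1
  · cases i with
    | zero => simp
    | succ i =>
      have hi : Real.sqrt ((i : ℝ) + 1) * Real.sqrt ((i : ℝ) + 1) = i + 1 :=
        Real.mul_self_sqrt (by (clear * -; positivity))
      simp only [Nat.add_sub_cancel, amp_eq]
      rw [← nrm_i k l i j]
      push_cast
      linear_combination (nrm k l (i + 1) j * c * coef s c i j k l) * hi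
  · cases j with
    | zero => simp only [CharP.cast_eq_zero, zero_mul, zero_tsub, mul_zero, Real.sqrt_zero]
    | succ j =>
      have hj : Real.sqrt ((j : ℝ) + 1) * Real.sqrt ((j : ℝ) + 1) = j + 1 :=
        Real.mul_self_sqrt (by positivity)
      simp only [Nat.add_sub_cancel, amp_eq]
      rw [← nrm_j k l i j]
      push_cast
      linear_combination (-(nrm k l i (j + 1) * s * coef s c i j k l)) * hj

variable {s c}

/-- lowering an output photon number. -/
theorem amp_A7 (h : s ^ 2 + c ^ 2 = 1) (k l i j : ℕ) : Real.sqrt k * amp s c (k - 1) l i j =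
    s * (Real.sqrt (i + 1) * amp s c k l (i + 1) j) +
      c * (Real.sqrt (j + 1) * amp s c k l i (j + 1)) := by
  rw [amp_A3, amp_A4]
  linear_combination (-(Real.sqrt k * amp s c (k - 1) l i j)) * h

theorem amp_A8 (h : s ^ 2 + c ^ 2 = 1) (k l i j : ℕ) : Real.sqrt l * amp s c k (l - 1) i j =
    -(c * (Real.sqrt (i + 1) * amp s c k l (i + 1) j)) +
      s * (Real.sqrt (j + 1) * amp s c k l i (j + 1)) := by
  rw [amp_A3, amp_A4]
  linear_combination (-(Real.sqrt l * amp s c k (l - 1) i j)) * h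

/-- lowering an input photon number. -/
theorem amp_A5 (h : s ^ 2 + c ^ 2 = 1) (k l i j : ℕ) : Real.sqrt i * amp s c k l (i - 1) j =
    s * (Real.sqrt (k + 1) * amp s c (k + 1) l i j) -
      c * (Real.sqrt (l + 1) * amp s c k (l + 1) i j) := by
  rw [amp_A1, amp_A2]
  linear_combination (-(Real.sqrt i * amp s c k l (i - 1) j)) * h

theorem amp_A6 (h : s ^ 2 + c ^ 2 = 1) (k l i j : ℕ) : Real.sqrt j * amp s c k l i (j - 1) =
    c * (Real.sqrt (k + 1) * amp s c (k + 1) l i j) +
      s * (Real.sqrt (l + 1) * amp s c k (l + 1) i j) := by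
  rw [amp_A1, amp_A2]
  linear_combination (-(Real.sqrt j * amp s c k l i (j - 1))) * h

end coefs

section kernel

theorem alg_rec {K L I J s c z a u1 u2 v1 v2 sK sL sI sJ : ℝ} (hK : sK * sK = K)
    (hL : sL * sL = L) (hI : sI * sI = I) (hJ : sJ * sJ = J) (hsc : s ^ 2 + c ^ 2 = 1)
    (h3 : sK * z = s * sI * u1 + c * sJ * u2) (h4 : sL * z = -(c * sI * v1) + s * sJ * v2)
    (h7 : sK * a = s * (sI * v2) + c * (sJ * v1))
    (h8 : sL * a = -(c * (sI * u2)) + s * (sJ * u1))
    (hsum : K + L = I + J) (hpos : 0 < I + J) :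
    z ^ 2 + a ^ 2 = s ^ 2 * u1 ^ 2 + c ^ 2 * u2 ^ 2 + c ^ 2 * v1 ^ 2 + s ^ 2 * v2 ^ 2 := by
  have h : (I + J) * (z ^ 2 + a ^ 2) =
      (I + J) * (s ^ 2 * u1 ^ 2 + c ^ 2 * u2 ^ 2 + c ^ 2 * v1 ^ 2 + s ^ 2 * v2 ^ 2) := by
    have e1 : K * z ^ 2 = (s * sI * u1 + c * sJ * u2) ^ 2 := by rw [← h3, ← hK]; ring
    have e2 : L * z ^ 2 = (-(c * sI * v1) + s * sJ * v2) ^ 2 := by rw [← h4, ← hL]; ring
    have e3 : K * a ^ 2 = (s * (sI * v2) + c * (sJ * v1)) ^ 2 := by rw [← h7, ← hK]; ring
    have e4 : L * a ^ 2 = (-(c * (sI * u2)) + s * (sJ * u1)) ^ 2 := by rw [← h8, ← hL]; ring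
    rw [← hsum]
    have e5 : (K + L) * (z ^ 2 + a ^ 2) =
      (s * sI * u1 + c * sJ * u2) ^ 2 + (-(c * sI * v1) + s * sJ * v2) ^ 2 +
      (s * (sI * v2) + c * (sJ * v1)) ^ 2 + (-(c * (sI * u2)) + s * (sJ * u1)) ^ 2 := by
      rw [← e1, ← e2, ← e3, ← e4]; ring
    rw [e5, hsum, ← hI, ← hJ]
    ring
  exact mul_left_cancel₀ hpos.ne' h

variable {η : ℝ}

theorem sc_sq (h0 : 0 ≤ η) (h1 : η ≤ 1) : (Real.sqrt η) ^ 2 + (Real.sqrt (1 - η)) ^ 2 = 1 := by
  rw [Real.sq_sqrt h0, Real.sq_sqrt (by linarith)]; ring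

theorem ker_nonneg (η : ℝ) (k i j : ℕ) : 0 ≤ ker η k i j := by
  unfold ker; split_ifs <;> positivity

theorem ker_zero_of_lt {k i j : ℕ} (h : i + j < k) : ker η k i j = 0 := by
  unfold ker; rw [if_neg (by omega)]

theorem ker_eq {k l i j : ℕ} (h : k + l = i + j) :
    ker η k i j = (amp (Real.sqrt η) (Real.sqrt (1 - η)) k l i j) ^ 2 := by
  unfold ker
  rw [if_pos (by omega)]
  have : i + j - k = l := by omega
  rw [this]

theorem ker_rec (h0 : 0 ≤ η) (h1 : η ≤ 1) (k i j : ℕ) :
    ker η (k + 1) i j - (1 - η) * shA (ker η (k + 1)) i j - η * shB (ker η (k + 1)) i j =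
    η * shA (ker η k) i j + (1 - η) * shB (ker η k) i j - shA (shB (ker η k)) i j := by
  have hsc := sc_sq h0 h1
  have hs : (Real.sqrt η) ^ 2 = η := Real.sq_sqrt h0
  have hc : (Real.sqrt (1 - η)) ^ 2 = 1 - η := Real.sq_sqrt (by linarith only [h1])
  have hr : ∀ m : ℕ, Real.sqrt ((m : ℝ) + 1) * Real.sqrt ((m : ℝ) + 1) = (m : ℝ) + 1 :=
    fun m => Real.mul_self_sqrt (by (clear * -; positivity))
  by_cases hk : k + 1 ≤ i + j
  · obtain ⟨l, hl⟩ := Nat.exists_eq_add_of_le hk
    cases i with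
    | zero =>
      cases j with
      | zero => omega
      | succ j =>
        cases l with
        | zero =>
          have A := amp_A1 (Real.sqrt η) (Real.sqrt (1 - η)) k 0 0 (j + 1)
          simp only [Nat.cast_zero, Real.sqrt_zero, mul_zero, zero_mul, zero_add,
            Nat.add_sub_cancel] at A
          push_cast at A
          have key := alg_rec (K := (k : ℝ) + 1) (L := 0) (I := 0) (J := (j : ℝ) + 1)
            (z := amp (Real.sqrt η) (Real.sqrt (1 - η)) (k + 1) 0 0 (j + 1)) (a := 0)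
            (u1 := 0) (u2 := amp (Real.sqrt η) (Real.sqrt (1 - η)) k 0 0 j) (v1 := 0) (v2 := 0)
            (sK := Real.sqrt (k + 1)) (sL := 0) (sI := 0) (sJ := Real.sqrt (j + 1))
            (hr k) (by ring) (by ring) (hr j) hsc (by rw [A]; ring) (by ring) (by ring) (by ring)
            (by have : (k : ℝ) = j := by
                  have : k = j := by omega
                  exact_mod_cast this
                rw [this]; ring) (by (clear * -; positivity))
          simp only [shA_zero, shB_succ]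
          rw [ker_eq (k := k + 1) (l := 0) (i := 0) (j := j + 1) (by (clear * - hl; omega)),
            ker_eq (k := k) (l := 0) (i := 0) (j := j) (by omega),
            ker_zero_of_lt (k := k + 1) (i := 0) (j := j) (by omega)]
          rw [hs, hc] at key
          linear_combination key
        | succ l =>
          have A := amp_A1 (Real.sqrt η) (Real.sqrt (1 - η)) k (l + 1) 0 (j + 1)
          have B := amp_A2 (Real.sqrt η) (Real.sqrt (1 - η)) (k + 1) l 0 (j + 1)
          simp only [Nat.cast_zero, Real.sqrt_zero, mul_zero, zero_mul, zero_add,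
            Nat.add_sub_cancel, neg_zero] at A B
          push_cast at A B
          have key := alg_rec (K := (k : ℝ) + 1) (L := (l : ℝ) + 1) (I := 0) (J := (j : ℝ) + 1)
            (z := amp (Real.sqrt η) (Real.sqrt (1 - η)) (k + 1) (l + 1) 0 (j + 1)) (a := 0)
            (u1 := 0) (u2 := amp (Real.sqrt η) (Real.sqrt (1 - η)) k (l + 1) 0 j) (v1 := 0)
            (v2 := amp (Real.sqrt η) (Real.sqrt (1 - η)) (k + 1) l 0 j)
            (sK := Real.sqrt (k + 1)) (sL := Real.sqrt (l + 1)) (sI := 0)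
            (sJ := Real.sqrt (j + 1))
            (hr k) (hr l) (by ring) (hr j) hsc (by rw [A]; ring) (by rw [B]; ring) (by ring)
            (by ring)
            (by have : (k : ℝ) + 1 + (l + 1) = j + 1 := by
                  have : k + 1 + (l + 1) = j + 1 := by omega
                  exact_mod_cast this
                rw [this]; ring) (by (clear * -; positivity))
          simp only [shA_zero, shB_succ]
          rw [ker_eq (k := k + 1) (l := l + 1) (i := 0) (j := j + 1) (by omega),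
            ker_eq (k := k) (l := l + 1) (i := 0) (j := j) (by omega),
            ker_eq (k := k + 1) (l := l) (i := 0) (j := j) (by omega)]
          rw [hs, hc] at key
          linear_combination key
    | succ i =>
      cases j with
      | zero =>
        cases l with
        | zero =>
          have A := amp_A1 (Real.sqrt η) (Real.sqrt (1 - η)) k 0 (i + 1) 0
          simp only [Nat.cast_zero, Real.sqrt_zero, mul_zero, zero_mul, add_zero,
            Nat.add_sub_cancel] at A
          push_cast at A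
          have key := alg_rec (K := (k : ℝ) + 1) (L := 0) (I := (i : ℝ) + 1) (J := 0)
            (z := amp (Real.sqrt η) (Real.sqrt (1 - η)) (k + 1) 0 (i + 1) 0) (a := 0)
            (u1 := amp (Real.sqrt η) (Real.sqrt (1 - η)) k 0 i 0) (u2 := 0) (v1 := 0) (v2 := 0)
            (sK := Real.sqrt (k + 1)) (sL := 0) (sI := Real.sqrt (i + 1)) (sJ := 0)
            (hr k) (by ring) (hr i) (by ring) hsc (by rw [A]; ring) (by ring) (by ring) (by ring)
            (by have : (k : ℝ) = i := by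
                  have : k = i := by omega
                  exact_mod_cast this
                rw [this]) (by (clear * -; positivity))
          simp only [shB_zero, shA_succ]
          rw [ker_eq (k := k + 1) (l := 0) (i := i + 1) (j := 0) (by omega),
            ker_eq (k := k) (l := 0) (i := i) (j := 0) (by omega),
            ker_zero_of_lt (k := k + 1) (i := i) (j := 0) (by omega)]
          rw [hs, hc] at key
          linear_combination key
        | succ l =>
          have A := amp_A1 (Real.sqrt η) (Real.sqrt (1 - η)) k (l + 1) (i + 1) 0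
          have B := amp_A2 (Real.sqrt η) (Real.sqrt (1 - η)) (k + 1) l (i + 1) 0
          simp only [Nat.cast_zero, Real.sqrt_zero, mul_zero, zero_mul, add_zero,
            Nat.add_sub_cancel] at A B
          push_cast at A B
          have key := alg_rec (K := (k : ℝ) + 1) (L := (l : ℝ) + 1) (I := (i : ℝ) + 1) (J := 0)
            (z := amp (Real.sqrt η) (Real.sqrt (1 - η)) (k + 1) (l + 1) (i + 1) 0) (a := 0)
            (u1 := amp (Real.sqrt η) (Real.sqrt (1 - η)) k (l + 1) i 0) (u2 := 0)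
            (v1 := amp (Real.sqrt η) (Real.sqrt (1 - η)) (k + 1) l i 0) (v2 := 0)
            (sK := Real.sqrt (k + 1)) (sL := Real.sqrt (l + 1)) (sI := Real.sqrt (i + 1))
            (sJ := 0)
            (hr k) (hr l) (hr i) (by ring) hsc (by rw [A]; ring) (by rw [B]; ring) (by ring)
            (by ring)
            (by have : (k : ℝ) + 1 + (l + 1) = i + 1 := by
                  have : k + 1 + (l + 1) = i + 1 := by omega
                  exact_mod_cast this
                rw [this]; ring) (by (clear * -; positivity))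
          simp only [shB_zero, shA_succ]
          rw [ker_eq (k := k + 1) (l := l + 1) (i := i + 1) (j := 0) (by omega),
            ker_eq (k := k) (l := l + 1) (i := i) (j := 0) (by omega),
            ker_eq (k := k + 1) (l := l) (i := i) (j := 0) (by omega)]
          rw [hs, hc] at key
          linear_combination key
      | succ j =>
        cases l with
        | zero =>
          have A := amp_A1 (Real.sqrt η) (Real.sqrt (1 - η)) k 0 (i + 1) (j + 1)
          have E := amp_A8 hsc k 0 i j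
          simp only [Nat.cast_zero, Real.sqrt_zero, mul_zero, zero_mul, add_zero,
            Nat.add_sub_cancel] at A E
          push_cast at A E
          have key := alg_rec (K := (k : ℝ) + 1) (L := 0) (I := (i : ℝ) + 1) (J := (j : ℝ) + 1)
            (z := amp (Real.sqrt η) (Real.sqrt (1 - η)) (k + 1) 0 (i + 1) (j + 1)) (a := 0)
            (u1 := amp (Real.sqrt η) (Real.sqrt (1 - η)) k 0 i (j + 1))
            (u2 := amp (Real.sqrt η) (Real.sqrt (1 - η)) k 0 (i + 1) j) (v1 := 0) (v2 := 0)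
            (sK := Real.sqrt (k + 1)) (sL := 0) (sI := Real.sqrt (i + 1))
            (sJ := Real.sqrt (j + 1))
            (hr k) (by ring) (hr i) (hr j) hsc (by rw [A]) (by ring) (by ring)
            (by rw [← E]; ring)
            (by have : (k : ℝ) + 1 = i + 1 + (j + 1) := by
                  have : k + 1 = i + 1 + (j + 1) := by omega
                  exact_mod_cast this
                rw [this]; ring) (by (clear * -; positivity))
          simp only [shB_succ, shA_succ]
          rw [ker_eq (k := k + 1) (l := 0) (i := i + 1) (j := j + 1) (by omega),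
            ker_eq (k := k) (l := 0) (i := i) (j := j + 1) (by omega),
            ker_eq (k := k) (l := 0) (i := i + 1) (j := j) (by omega),
            ker_zero_of_lt (k := k + 1) (i := i) (j := j + 1) (by omega),
            ker_zero_of_lt (k := k + 1) (i := i + 1) (j := j) (by omega),
            ker_zero_of_lt (k := k) (i := i) (j := j) (by omega)]
          rw [hs, hc] at key
          linear_combination key
        | succ l =>
          have A := amp_A1 (Real.sqrt η) (Real.sqrt (1 - η)) k (l + 1) (i + 1) (j + 1)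
          have B := amp_A2 (Real.sqrt η) (Real.sqrt (1 - η)) (k + 1) l (i + 1) (j + 1)
          have D := amp_A7 hsc (k + 1) l i j
          have E := amp_A8 hsc k (l + 1) i j
          simp only [Nat.add_sub_cancel] at A B D E
          push_cast at A B D E
          have key := alg_rec (K := (k : ℝ) + 1) (L := (l : ℝ) + 1) (I := (i : ℝ) + 1)
            (J := (j : ℝ) + 1)
            (z := amp (Real.sqrt η) (Real.sqrt (1 - η)) (k + 1) (l + 1) (i + 1) (j + 1))
            (a := amp (Real.sqrt η) (Real.sqrt (1 - η)) k l i j)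
            (u1 := amp (Real.sqrt η) (Real.sqrt (1 - η)) k (l + 1) i (j + 1))
            (u2 := amp (Real.sqrt η) (Real.sqrt (1 - η)) k (l + 1) (i + 1) j)
            (v1 := amp (Real.sqrt η) (Real.sqrt (1 - η)) (k + 1) l i (j + 1))
            (v2 := amp (Real.sqrt η) (Real.sqrt (1 - η)) (k + 1) l (i + 1) j)
            (sK := Real.sqrt (k + 1)) (sL := Real.sqrt (l + 1)) (sI := Real.sqrt (i + 1))
            (sJ := Real.sqrt (j + 1))
            (hr k) (hr l) (hr i) (hr j) hsc A B D E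
            (by have : (k : ℝ) + 1 + (l + 1) = i + 1 + (j + 1) := by
                  have : k + 1 + (l + 1) = i + 1 + (j + 1) := by omega
                  exact_mod_cast this
                rw [this]) (by (clear * -; positivity))
          simp only [shB_succ, shA_succ]
          rw [ker_eq (k := k + 1) (l := l + 1) (i := i + 1) (j := j + 1) (by omega),
            ker_eq (k := k) (l := l + 1) (i := i) (j := j + 1) (by omega),
            ker_eq (k := k) (l := l + 1) (i := i + 1) (j := j) (by omega),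
            ker_eq (k := k + 1) (l := l) (i := i) (j := j + 1) (by (clear * - hl; omega)),
            ker_eq (k := k + 1) (l := l) (i := i + 1) (j := j) (by omega),
            ker_eq (k := k) (l := l) (i := i) (j := j) (by omega)]
          rw [hs, hc] at key
          linear_combination key
  · rw [ker_zero_of_lt (by omega)]
    cases i with
    | zero =>
      cases j with
      | zero => simp
      | succ j =>
        simp only [shA_zero, shB_succ]
        rw [ker_zero_of_lt (by omega), ker_zero_of_lt (by omega)]; ring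
    | succ i =>
      cases j with
      | zero =>
        simp only [shB_zero, shA_succ]
        rw [ker_zero_of_lt (by omega), ker_zero_of_lt (by omega)]; ring
      | succ j =>
        simp only [shB_succ, shA_succ]
        rw [ker_zero_of_lt (by omega), ker_zero_of_lt (by omega), ker_zero_of_lt (by omega),
          ker_zero_of_lt (by omega), ker_zero_of_lt (by omega)]; ring

end kernel

end Vale.Agent.P369
end
end
end

section

attribute [-instance] ProperSMul.toContinuousSMul IsTopologicalTorsor.toContinuousSMul IdemSemiring.toCanonicallyOrderedAdd IdemSemiring.toMulLeftMono IdemSemiring.toMulRightMono AddQuantale.instAddLeftMono AddQuantale.instAddRightMono Quantale.instMulLeftMono Quantale.instMulRightMono FiniteDimensional.rclike_to_real IsScalarTower.complexToReal FiniteDimensional.complexToReal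

section

section

/-!
More identities for the beam splitter kernel: the dual kernel `dker`, sums, and the generator
identity.
-/

namespace Vale.Agent.P369

open Real

section dual

variable {η : ℝ}

theorem ker_zero_rec (h0 : 0 ≤ η) (h1 : η ≤ 1) (i j : ℕ) :
    ker η 0 i j - (1 - η) * shA (ker η 0) i j - η * shB (ker η 0) i j =
    if i = 0 ∧ j = 0 then 1 else 0 := by
  have hsc := sc_sq h0 h1
  have hs : (Real.sqrt η) ^ 2 = η := Real.sq_sqrt h0
  have hc : (Real.sqrt (1 - η)) ^ 2 = 1 - η := Real.sq_sqrt (by linarith)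
  have hr : ∀ m : ℕ, Real.sqrt ((m : ℝ) + 1) * Real.sqrt ((m : ℝ) + 1) = (m : ℝ) + 1 :=
    fun m => Real.mul_self_sqrt (by positivity)
  cases i with
  | zero =>
    cases j with
    | zero =>
      simp only [shA_zero, shB_zero]
      rw [ker_eq (k := 0) (l := 0) (i := 0) (j := 0) (by omega), amp_zero_zero]
      simp
    | succ j =>
      have B := amp_A2 (Real.sqrt η) (Real.sqrt (1 - η)) 0 j 0 (j + 1)
      simp only [Nat.cast_zero, Real.sqrt_zero, mul_zero, zero_mul, neg_zero, zero_add,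
        Nat.add_sub_cancel] at B
      push_cast at B
      have key := alg_rec (K := 0) (L := (j : ℝ) + 1) (I := 0) (J := (j : ℝ) + 1)
        (z := amp (Real.sqrt η) (Real.sqrt (1 - η)) 0 (j + 1) 0 (j + 1)) (a := 0)
        (u1 := 0) (u2 := 0) (v1 := 0)
        (v2 := amp (Real.sqrt η) (Real.sqrt (1 - η)) 0 j 0 j)
        (sK := 0) (sL := Real.sqrt (j + 1)) (sI := 0)
        (sJ := Real.sqrt (j + 1))
        (by ring) (hr j) (by ring) (hr j) hsc (by ring) (by rw [B]; ring) (by ring)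
        (by ring) (by ring) (by (clear * -; positivity))
      simp only [shA_zero, shB_succ]
      rw [ker_eq (k := 0) (l := j + 1) (i := 0) (j := j + 1) (by omega),
        ker_eq (k := 0) (l := j) (i := 0) (j := j) (by omega), if_neg (by omega)]
      rw [hs, hc] at key
      linear_combination key
  | succ i =>
    cases j with
    | zero =>
      have B := amp_A2 (Real.sqrt η) (Real.sqrt (1 - η)) 0 i (i + 1) 0
      simp only [Nat.cast_zero, Real.sqrt_zero, mul_zero, zero_mul, add_zero,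
        Nat.add_sub_cancel] at B
      push_cast at B
      have key := alg_rec (K := 0) (L := (i : ℝ) + 1) (I := (i : ℝ) + 1) (J := 0)
        (z := amp (Real.sqrt η) (Real.sqrt (1 - η)) 0 (i + 1) (i + 1) 0) (a := 0)
        (u1 := 0) (u2 := 0) (v1 := amp (Real.sqrt η) (Real.sqrt (1 - η)) 0 i i 0)
        (v2 := 0)
        (sK := 0) (sL := Real.sqrt (i + 1)) (sI := Real.sqrt (i + 1))
        (sJ := 0)
        (by ring) (hr i) (hr i) (by ring) hsc (by ring) (by rw [B]; ring) (by ring)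
        (by ring) (by ring) (by (clear * -; positivity))
      simp only [shB_zero, shA_succ]
      rw [ker_eq (k := 0) (l := i + 1) (i := i + 1) (j := 0) (by omega),
        ker_eq (k := 0) (l := i) (i := i) (j := 0) (by omega), if_neg (by omega)]
      rw [hs, hc] at key
      linear_combination key
    | succ j =>
      have B := amp_A2 (Real.sqrt η) (Real.sqrt (1 - η)) 0 (i + j + 1) (i + 1) (j + 1)
      have D := amp_A7 hsc 0 (i + j + 1) i j
      simp only [Nat.cast_zero, Real.sqrt_zero, mul_zero, zero_mul, add_zero,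
        Nat.add_sub_cancel] at B D
      push_cast at B D
      have key := alg_rec (K := 0) (L := (i : ℝ) + j + 1 + 1) (I := (i : ℝ) + 1)
        (J := (j : ℝ) + 1)
        (z := amp (Real.sqrt η) (Real.sqrt (1 - η)) 0 (i + j + 1 + 1) (i + 1) (j + 1)) (a := 0)
        (u1 := 0) (u2 := 0)
        (v1 := amp (Real.sqrt η) (Real.sqrt (1 - η)) 0 (i + j + 1) i (j + 1))
        (v2 := amp (Real.sqrt η) (Real.sqrt (1 - η)) 0 (i + j + 1) (i + 1) j)
        (sK := 0) (sL := Real.sqrt ((i : ℝ) + j + 1 + 1)) (sI := Real.sqrt (i + 1))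
        (sJ := Real.sqrt (j + 1))
        (by ring) (Real.mul_self_sqrt (by (clear * -; positivity))) (hr i) (hr j) hsc (by ring)
        (by rw [B]) (by linear_combination D)
        (by ring) (by ring) (by (clear * -; positivity))
      simp only [shB_succ, shA_succ]
      rw [ker_eq (k := 0) (l := i + j + 1 + 1) (i := i + 1) (j := j + 1) (by omega),
        ker_eq (k := 0) (l := i + j + 1) (i := i) (j := j + 1) (by omega),
        ker_eq (k := 0) (l := i + j + 1) (i := i + 1) (j := j) (by omega), if_neg (by omega)]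
      rw [hs, hc] at key
      linear_combination key

/-- `1 - (1-η) S_A - η S_B`. -/
def opD (η : ℝ) (f : ℕ → ℕ → ℝ) (i j : ℕ) : ℝ := f i j - (1 - η) * shA f i j - η * shB f i j

/-- `η S_A + (1-η) S_B - S_A S_B`. -/
def opN (η : ℝ) (f : ℕ → ℕ → ℝ) (i j : ℕ) : ℝ :=
  η * shA f i j + (1 - η) * shB f i j - shA (shB f) i j

theorem two_induction {P : ℕ → ℕ → Prop}
    (h : ∀ i j, (∀ i' j', i' ≤ i → j' ≤ j → i' + j' < i + j → P i' j') → P i j) (i j : ℕ) :
    P i j := by
  have key : ∀ n, ∀ i j, i + j = n → P i j := by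
    intro n
    induction n using Nat.strong_induction_on with
    | _ n ih =>
      intro i j hij
      exact h i j (fun i' j' _ _ hl => ih (i' + j') (by omega) i' j' rfl)
  exact key _ i j rfl

theorem opD_inj {f g : ℕ → ℕ → ℝ} (h : ∀ i j, opD η f i j = opD η g i j) (i j : ℕ) :
    f i j = g i j := by
  induction i, j using two_induction with
  | h i j ih =>
    have := h i j
    unfold opD at this
    have hA : shA f i j = shA g i j := by
      cases i with
      | zero => rfl
      | succ i => exact ih i j (by omega) le_rfl (by omega)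
    have hB : shB f i j = shB g i j := by
      cases j with
      | zero => simp
      | succ j => simpa using ih i j le_rfl (by omega) (by omega)
    rw [hA, hB] at this
    linarith only [this]

/-- the dual kernel `D⁻¹ ker`. -/
noncomputable def dker (η : ℝ) (k i : ℕ) : ℕ → ℝ :=
  Nat.rec (motive := fun _ => ℕ → ℝ)
    (fun j => Nat.rec (motive := fun _ => ℝ) (ker η k 0 0)
      (fun j v => ker η k 0 (j + 1) + η * v) j)
    (fun i prev j => Nat.rec (motive := fun _ => ℝ) (ker η k (i + 1) 0 + (1 - η) * prev 0)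
      (fun j v => ker η k (i + 1) (j + 1) + (1 - η) * prev (j + 1) + η * v) j) i

theorem dker_zz (k : ℕ) : dker η k 0 0 = ker η k 0 0 := rfl

theorem dker_zs (k j : ℕ) : dker η k 0 (j + 1) = ker η k 0 (j + 1) + η * dker η k 0 j := rfl

theorem dker_sz (k i : ℕ) :
    dker η k (i + 1) 0 = ker η k (i + 1) 0 + (1 - η) * dker η k i 0 := rfl

theorem dker_ss (k i j : ℕ) : dker η k (i + 1) (j + 1) =
    ker η k (i + 1) (j + 1) + (1 - η) * dker η k i (j + 1) + η * dker η k (i + 1) j := rfl

theorem opD_dker (k i j : ℕ) : opD η (dker η k) i j = ker η k i j := by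
  cases i with
  | zero =>
    cases j with
    | zero => simp [opD, dker_zz]
    | succ j =>
      simp only [opD, shA_zero, shB_succ]
      rw [dker_zs]; ring
  | succ i =>
    cases j with
    | zero =>
      simp only [opD, shA_succ, shB_zero]
      rw [dker_sz]; ring
    | succ j =>
      simp only [opD, shA_succ, shB_succ]
      rw [dker_ss]; ring

theorem dker_nonneg (h0 : 0 ≤ η) (h1 : η ≤ 1) (k i j : ℕ) : 0 ≤ dker η k i j := by
  have h1' : 0 ≤ 1 - η := by linarith only [h1]
  induction i, j using two_induction with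
  | h i j ih =>
    have := opD_dker (η := η) k i j
    unfold opD at this
    have e : dker η k i j = ker η k i j + (1 - η) * shA (dker η k) i j +
      η * shB (dker η k) i j := by linarith only [this]
    rw [e]
    have hA : 0 ≤ shA (dker η k) i j := by
      cases i with
      | zero => simp
      | succ i => exact ih i j (by omega) le_rfl (by omega)
    have hB : 0 ≤ shB (dker η k) i j := by
      cases j with
      | zero => simp
      | succ j => simpa only [shB_succ, ge_iff_le] using ih i j le_rfl (by omega) (by omega)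
    have := ker_nonneg η k i j
    (clear * - this h1 hA h0 hB; positivity)

theorem dker_zero_of_lt {k i j : ℕ} (h : i + j < k) : dker η k i j = 0 := by
  induction i, j using two_induction with
  | h i j ih =>
    have := opD_dker (η := η) k i j
    unfold opD at this
    have hA : shA (dker η k) i j = 0 := by
      cases i with
      | zero => simp
      | succ i => exact ih i j (by omega) le_rfl (by omega) (by omega)
    have hB : shB (dker η k) i j = 0 := by
      cases j with
      | zero => simp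
      | succ j => simpa using ih i j le_rfl (by omega) (by omega) (by omega)
    rw [hA, hB, ker_zero_of_lt h] at this
    linarith only [this]

theorem opD_opN (f : ℕ → ℕ → ℝ) (i j : ℕ) :
    opD η (opN η f) i j = opN η (opD η f) i j := by
  rcases i with _ | _ | i <;> rcases j with _ | _ | j <;> simp [opD, opN] <;> ring

theorem opN_congr {f g : ℕ → ℕ → ℝ} (h : ∀ i j, f i j = g i j) (i j : ℕ) :
    opN η f i j = opN η g i j := by
  have : f = g := by funext i j; exact h i j
  rw [this]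

theorem ker_succ_eq (h0 : 0 ≤ η) (h1 : η ≤ 1) (k i j : ℕ) :
    ker η (k + 1) i j = opN η (dker η k) i j := by
  apply opD_inj (η := η)
  intro i j
  rw [opD_opN, opN_congr (opD_dker k)]
  exact ker_rec h0 h1 k i j

theorem ker_sub_eq (h0 : 0 ≤ η) (h1 : η ≤ 1) (k i j : ℕ) :
    ker η k i j - ker η (k + 1) i j = dker η k i j - shA (dker η k) i j - shB (dker η k) i j +
      shA (shB (dker η k)) i j := by
  rw [ker_succ_eq h0 h1, ← opD_dker]
  unfold opD opN
  ring

/-- sum over outputs. -/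
theorem sum_ker_range (h0 : 0 ≤ η) (h1 : η ≤ 1) (n : ℕ) (i j : ℕ) (h : i + j < n) :
    ∑ k ∈ Finset.range n, ker η k i j = 1 := by
  have key : ∀ i j, i + j < n →
      ∑ k ∈ Finset.range n, ker η k i j - shA (fun i j => ∑ k ∈ Finset.range n, ker η k i j) i j
      - shB (fun i j => ∑ k ∈ Finset.range n, ker η k i j) i j
      + shA (shB (fun i j => ∑ k ∈ Finset.range n, ker η k i j)) i j =
      if i = 0 ∧ j = 0 then 1 else 0 := by
    intro i j hij
    have hA : ∀ f : ℕ → ℕ → ℕ → ℝ, ∀ n, shA (fun i j => ∑ k ∈ Finset.range n, f k i j) i j =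
        ∑ k ∈ Finset.range n, shA (f k) i j := by
      intro f n; cases i <;> simp
    have hB : ∀ f : ℕ → ℕ → ℕ → ℝ, ∀ n, ∀ i j,
        shB (fun i j => ∑ k ∈ Finset.range n, f k i j) i j =
        ∑ k ∈ Finset.range n, shB (f k) i j := by
      intro f n i j; cases j <;> simp
    have hAB : shA (shB (fun i j => ∑ k ∈ Finset.range n, ker η k i j)) i j =
        ∑ k ∈ Finset.range n, shA (shB (ker η k)) i j := by
      rw [← hA (fun k => shB (ker η k)) n]
      congr 1
      funext i j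
      exact hB _ _ _ _
    rw [hA, hB, hAB]
    have e0 := ker_zero_rec h0 h1 i j
    have e1 : ∑ k ∈ Finset.range n, (ker η (k + 1) i j - (1 - η) * shA (ker η (k + 1)) i j -
        η * shB (ker η (k + 1)) i j) = ∑ k ∈ Finset.range n, (η * shA (ker η k) i j +
        (1 - η) * shB (ker η k) i j - shA (shB (ker η k)) i j) :=
      Finset.sum_congr rfl (fun k _ => ker_rec h0 h1 k i j)
    have e2 : ∀ f : ℕ → ℝ, ∑ k ∈ Finset.range n, f (k + 1) =
        ∑ k ∈ Finset.range n, f k - f 0 + f n := by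
      intro f
      have := Finset.sum_range_succ f n
      have h2 := Finset.sum_range_succ' f n
      linarith only [this, h2]
    rw [e2 (fun k => ker η k i j - (1 - η) * shA (ker η k) i j - η * shB (ker η k) i j)] at e1
    have z1 : ker η n i j = 0 := ker_zero_of_lt hij
    have z2 : shA (ker η n) i j = 0 := by
      cases i with
      | zero => simp
      | succ i => exact ker_zero_of_lt (by omega)
    have z3 : shB (ker η n) i j = 0 := by
      cases j with
      | zero => simp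
      | succ j => rw [shB_succ]; exact ker_zero_of_lt (by omega)
    rw [z1, z2, z3, e0] at e1
    simp only [Finset.sum_sub_distrib, Finset.sum_add_distrib, ← Finset.mul_sum] at e1
    linarith only [e1]
  induction i, j using two_induction with
  | h i j ih =>
    have := key i j h
    cases i with
    | zero =>
      cases j with
      | zero => simpa only [shA_zero, sub_zero, shB_zero, add_zero, and_self, ↓reduceIte] using this
      | succ j =>
        simp only [shA_zero, shB_succ] at this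
        rw [ih 0 j le_rfl (by omega) (by omega) (by omega), if_neg (by omega)] at this
        linarith only [this]
    | succ i =>
      cases j with
      | zero =>
        simp only [shA_succ, shB_zero] at this
        rw [ih i 0 (by omega) le_rfl (by omega) (by omega), if_neg (by omega)] at this
        linarith only [this]
      | succ j =>
        simp only [shA_succ, shB_succ] at this
        rw [ih i (j + 1) (by omega) (by omega) (by omega) (by omega),
          ih (i + 1) j (by omega) (by omega) (by omega) (by omega),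
          ih i j (by omega) (by omega) (by omega) (by omega), if_neg (by omega)] at this
        linarith only [this]

theorem hasSum_ker (h0 : 0 ≤ η) (h1 : η ≤ 1) (i j : ℕ) : HasSum (fun k => ker η k i j) 1 := by
  rw [← sum_ker_range h0 h1 (i + j + 1) i j (by omega)]
  apply hasSum_sum_of_ne_finset_zero
  intro k hk
  rw [Finset.mem_range, not_lt] at hk
  exact ker_zero_of_lt (by omega)

theorem ker_le_one (h0 : 0 ≤ η) (h1 : η ≤ 1) (k i j : ℕ) : ker η k i j ≤ 1 :=
  le_hasSum (hasSum_ker h0 h1 i j) k (fun k' _ => ker_nonneg η k' i j)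

theorem sum_dker_range (h0 : 0 ≤ η) (h1 : η ≤ 1) (n : ℕ) (i j : ℕ) (h : i + j < n) :
    ∑ k ∈ Finset.range n, ((k : ℝ) + 1) * dker η k i j = (i + 1) * (j + 1) := by
  have key : ∀ i j, i + j < n →
      ∑ k ∈ Finset.range n, ((k : ℝ) + 1) * dker η k i j
      - shA (fun i j => ∑ k ∈ Finset.range n, ((k : ℝ) + 1) * dker η k i j) i j
      - shB (fun i j => ∑ k ∈ Finset.range n, ((k : ℝ) + 1) * dker η k i j) i j
      + shA (shB (fun i j => ∑ k ∈ Finset.range n, ((k : ℝ) + 1) * dker η k i j)) i j = 1 := by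
    intro i j hij
    have hA : ∀ f : ℕ → ℕ → ℕ → ℝ, ∀ n,
        shA (fun i j => ∑ k ∈ Finset.range n, ((k : ℝ) + 1) * f k i j) i j =
        ∑ k ∈ Finset.range n, ((k : ℝ) + 1) * shA (f k) i j := by
      intro f n; cases i <;> simp
    have hB : ∀ f : ℕ → ℕ → ℕ → ℝ, ∀ n, ∀ i j,
        shB (fun i j => ∑ k ∈ Finset.range n, ((k : ℝ) + 1) * f k i j) i j =
        ∑ k ∈ Finset.range n, ((k : ℝ) + 1) * shB (f k) i j := by
      intro f n i j; cases j <;> simp
    have hAB : shA (shB (fun i j => ∑ k ∈ Finset.range n, ((k : ℝ) + 1) * dker η k i j)) i j =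
        ∑ k ∈ Finset.range n, ((k : ℝ) + 1) * shA (shB (dker η k)) i j := by
      rw [← hA (fun k => shB (dker η k)) n]
      congr 1
      funext i j
      exact hB _ _ _ _
    rw [hA, hB, hAB, ← Finset.sum_sub_distrib, ← Finset.sum_sub_distrib,
      ← Finset.sum_add_distrib]
    have e1 : ∀ k ∈ Finset.range n, ((k : ℝ) + 1) * dker η k i j -
        ((k : ℝ) + 1) * shA (dker η k) i j - ((k : ℝ) + 1) * shB (dker η k) i j +
        ((k : ℝ) + 1) * shA (shB (dker η k)) i j =
        ker η k i j + (((k : ℝ) * ker η k i j) - (((k + 1 : ℕ) : ℝ) * ker η (k + 1) i j)) := by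
      intro k _
      have := ker_sub_eq h0 h1 k i j
      push_cast
      linear_combination (-((k : ℝ) + 1)) * this
    rw [Finset.sum_congr rfl e1, Finset.sum_add_distrib, sum_ker_range h0 h1 n i j hij,
      Finset.sum_range_sub' (fun k : ℕ => (k : ℝ) * ker η k i j) n, ker_zero_of_lt hij]
    simp
  induction i, j using two_induction with
  | h i j ih =>
    have := key i j h
    cases i with
    | zero =>
      cases j with
      | zero => simpa only [CharP.cast_eq_zero, zero_add, mul_one, shA_zero, sub_zero, shB_zero, add_zero] using this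
      | succ j =>
        simp only [shA_zero, shB_succ] at this
        rw [ih 0 j le_rfl (by omega) (by omega) (by omega)] at this
        push_cast at this ⊢
        linarith only [this]
    | succ i =>
      cases j with
      | zero =>
        simp only [shA_succ, shB_zero] at this
        rw [ih i 0 (by omega) le_rfl (by omega) (by omega)] at this
        push_cast at this ⊢
        linarith only [this]
      | succ j =>
        simp only [shA_succ, shB_succ] at this
        rw [ih i (j + 1) (by omega) (by omega) (by omega) (by omega),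
          ih (i + 1) j (by omega) (by omega) (by omega) (by omega),
          ih i j (by omega) (by omega) (by omega) (by omega)] at this
        push_cast at this ⊢
        linarith only [this]

theorem hasSum_dker (h0 : 0 ≤ η) (h1 : η ≤ 1) (i j : ℕ) :
    HasSum (fun k : ℕ => ((k : ℝ) + 1) * dker η k i j) ((i + 1) * (j + 1)) := by
  rw [← sum_dker_range h0 h1 (i + j + 1) i j (by omega)]
  apply hasSum_sum_of_ne_finset_zero
  intro k hk
  rw [Finset.mem_range, not_lt] at hk
  rw [dker_zero_of_lt (by omega), mul_zero]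

theorem dker_le (h0 : 0 ≤ η) (h1 : η ≤ 1) (k i j : ℕ) : dker η k i j ≤ (i + 1) * (j + 1) := by
  have h := le_hasSum (hasSum_dker h0 h1 i j) k
    (fun k' _ => by have := dker_nonneg h0 h1 k' i j; (clear * - this; positivity))
  have h2 := dker_nonneg h0 h1 k i j
  have h3 : dker η k i j ≤ ((k : ℝ) + 1) * dker η k i j := by
    have : (0 : ℝ) ≤ k := Nat.cast_nonneg k
    nlinarith only [h2]
  exact h3.trans h

end dual

end Vale.Agent.P369
end
end
end

section

attribute [-instance] ProperSMul.toContinuousSMul IsTopologicalTorsor.toContinuousSMul IdemSemiring.toCanonicallyOrderedAdd IdemSemiring.toMulLeftMono IdemSemiring.toMulRightMono AddQuantale.instAddLeftMono AddQuantale.instAddRightMono Quantale.instMulLeftMono Quantale.instMulRightMono FiniteDimensional.rclike_to_real IsScalarTower.complexToReal FiniteDimensional.complexToReal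

section

section

/-!
The generator identity for the beam splitter kernel.
-/

namespace Vale.Agent.P369

open Real

/-- backward generator. -/
noncomputable def back (r : ℝ) (f : ℕ → ℝ) (i : ℕ) : ℝ :=
  r * (i + 1) * (f (i + 1) - f i) + (r + 1) * i * (f (i - 1) - f i)

section

variable {η : ℝ}

theorem amp_i (s c : ℝ) (h : s ^ 2 + c ^ 2 = 1) (k l i j : ℕ) :
    (i : ℝ) * amp s c k l i j = (s ^ 2 * k + c ^ 2 * l) * amp s c k l i j -
      s * c * (Real.sqrt k * Real.sqrt (l + 1) * amp s c (k - 1) (l + 1) i j +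
        Real.sqrt (k + 1) * Real.sqrt l * amp s c (k + 1) (l - 1) i j) := by
  have hk : Real.sqrt (k : ℝ) * Real.sqrt (k : ℝ) = k := Real.mul_self_sqrt (by positivity)
  have hl : Real.sqrt (l : ℝ) * Real.sqrt (l : ℝ) = l := Real.mul_self_sqrt (by positivity)
  have hi : Real.sqrt (i : ℝ) * Real.sqrt (i : ℝ) = i := Real.mul_self_sqrt (by positivity)
  have L1 : Real.sqrt k * (Real.sqrt i * amp s c (k - 1) l (i - 1) j) =
      s * k * amp s c k l i j - c * (Real.sqrt k * Real.sqrt (l + 1) *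
        amp s c (k - 1) (l + 1) i j) := by
    cases k with
    | zero => simp only [CharP.cast_eq_zero, sqrt_zero, zero_tsub, zero_mul, mul_zero, sub_self]
    | succ k =>
      simp only [Nat.add_sub_cancel]
      rw [amp_A5 h k l i j]
      push_cast at hk ⊢
      linear_combination (s * amp s c (k + 1) l i j) * hk
  have L2 : Real.sqrt l * (Real.sqrt i * amp s c k (l - 1) (i - 1) j) =
      s * (Real.sqrt (k + 1) * Real.sqrt l * amp s c (k + 1) (l - 1) i j) -
        c * l * amp s c k l i j := by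
    cases l with
    | zero => simp only [CharP.cast_eq_zero, sqrt_zero, zero_tsub, zero_mul, mul_zero, sub_self]
    | succ l =>
      simp only [Nat.add_sub_cancel]
      rw [amp_A5 h k l i j]
      push_cast at hl ⊢
      linear_combination (-(c * amp s c k (l + 1) i j)) * hl
  have L3 : Real.sqrt i * (s * Real.sqrt k * amp s c (k - 1) l (i - 1) j -
      c * Real.sqrt l * amp s c k (l - 1) (i - 1) j) = i * amp s c k l i j := by
    cases i with
    | zero => simp only [CharP.cast_eq_zero, sqrt_zero, zero_tsub, zero_mul]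
    | succ i =>
      simp only [Nat.add_sub_cancel]
      rw [← amp_A3]
      push_cast at hi ⊢
      linear_combination (amp s c k l (i + 1) j) * hi
  rw [← L3]
  linear_combination s * L1 - c * L2

theorem amp_j (s c : ℝ) (h : s ^ 2 + c ^ 2 = 1) (k l i j : ℕ) :
    (j : ℝ) * amp s c k l i j = (c ^ 2 * k + s ^ 2 * l) * amp s c k l i j +
      s * c * (Real.sqrt k * Real.sqrt (l + 1) * amp s c (k - 1) (l + 1) i j +
        Real.sqrt (k + 1) * Real.sqrt l * amp s c (k + 1) (l - 1) i j) := by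
  have hk : Real.sqrt (k : ℝ) * Real.sqrt (k : ℝ) = k := Real.mul_self_sqrt (by (clear * -; positivity))
  have hl : Real.sqrt (l : ℝ) * Real.sqrt (l : ℝ) = l := Real.mul_self_sqrt (by (clear * -; positivity))
  have hj : Real.sqrt (j : ℝ) * Real.sqrt (j : ℝ) = j := Real.mul_self_sqrt (by (clear * -; positivity))
  have L1 : Real.sqrt k * (Real.sqrt j * amp s c (k - 1) l i (j - 1)) =
      c * k * amp s c k l i j + s * (Real.sqrt k * Real.sqrt (l + 1) *
        amp s c (k - 1) (l + 1) i j) := by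
    cases k with
    | zero => simp only [CharP.cast_eq_zero, sqrt_zero, zero_tsub, zero_mul, mul_zero, add_zero]
    | succ k =>
      simp only [Nat.add_sub_cancel]
      rw [amp_A6 h k l i j]
      push_cast at hk ⊢
      linear_combination (c * amp s c (k + 1) l i j) * hk
  have L2 : Real.sqrt l * (Real.sqrt j * amp s c k (l - 1) i (j - 1)) =
      c * (Real.sqrt (k + 1) * Real.sqrt l * amp s c (k + 1) (l - 1) i j) +
        s * l * amp s c k l i j := by
    cases l with
    | zero => simp only [CharP.cast_eq_zero, sqrt_zero, zero_tsub, zero_mul, mul_zero, add_zero]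
    | succ l =>
      simp only [Nat.add_sub_cancel]
      rw [amp_A6 h k l i j]
      push_cast at hl ⊢
      linear_combination (s * amp s c k (l + 1) i j) * hl
  have L3 : Real.sqrt j * (c * Real.sqrt k * amp s c (k - 1) l i (j - 1) +
      s * Real.sqrt l * amp s c k (l - 1) i (j - 1)) = j * amp s c k l i j := by
    cases j with
    | zero => simp only [CharP.cast_eq_zero, sqrt_zero, zero_tsub, zero_mul]
    | succ j =>
      simp only [Nat.add_sub_cancel]
      rw [← amp_A4]
      push_cast at hj ⊢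
      linear_combination (amp s c k l i (j + 1)) * hj
  rw [← L3]
  linear_combination c * L1 + s * L2

theorem sq_sqrt_mul (m : ℕ) (x : ℝ) : (m : ℝ) * x ^ 2 = (Real.sqrt m * x) ^ 2 := by
  rw [mul_pow, Real.sq_sqrt (by positivity)]

theorem sq_sqrt_mul1 (m : ℕ) (x : ℝ) : ((m : ℝ) + 1) * x ^ 2 = (Real.sqrt (m + 1) * x) ^ 2 := by
  rw [mul_pow, Real.sq_sqrt (by positivity)]

/-- the constant part. -/
theorem ker_const (h0 : 0 ≤ η) (h1 : η ≤ 1) (k i j : ℕ) :
    ((k : ℝ) + 1) * ker η (k + 1) i j - k * ker η k i j =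
    i * (ker η k (i - 1) j - ker η k i j) + j * (ker η k i (j - 1) - ker η k i j) := by
  have hsc := sc_sq h0 h1
  by_cases hk : k < i + j
  · obtain ⟨l, hl⟩ := Nat.exists_eq_add_of_lt hk
    have A := amp_A1 (Real.sqrt η) (Real.sqrt (1 - η)) k l i j
    have B := amp_A2 (Real.sqrt η) (Real.sqrt (1 - η)) k l i j
    have e1 : (i : ℝ) * ker η k (i - 1) j =
        (Real.sqrt i * amp (Real.sqrt η) (Real.sqrt (1 - η)) k l (i - 1) j) ^ 2 := by
      cases i with
      | zero => simp only [CharP.cast_eq_zero, zero_tsub, zero_mul, sqrt_zero, ne_eq, OfNat.ofNat_ne_zero, not_false_eq_true, zero_pow]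
      | succ i => rw [ker_eq (l := l) (by omega), sq_sqrt_mul]
    have e2 : (j : ℝ) * ker η k i (j - 1) =
        (Real.sqrt j * amp (Real.sqrt η) (Real.sqrt (1 - η)) k l i (j - 1)) ^ 2 := by
      cases j with
      | zero => simp
      | succ j => rw [ker_eq (l := l) (by omega), sq_sqrt_mul]
    have e3 : ((k : ℝ) + 1) * ker η (k + 1) i j =
        (Real.sqrt (k + 1) * amp (Real.sqrt η) (Real.sqrt (1 - η)) (k + 1) l i j) ^ 2 := by
      rw [ker_eq (l := l) (by omega), sq_sqrt_mul1]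
    have e4 : ((l : ℝ) + 1) * ker η k i j =
        (Real.sqrt (l + 1) * amp (Real.sqrt η) (Real.sqrt (1 - η)) k (l + 1) i j) ^ 2 := by
      rw [ker_eq (l := l + 1) (by (clear * - hl; omega)), sq_sqrt_mul1]
    have hN : (i : ℝ) + j = k + l + 1 := by
      exact_mod_cast hl
    have key : ((k : ℝ) + 1) * ker η (k + 1) i j + ((l : ℝ) + 1) * ker η k i j =
        i * ker η k (i - 1) j + j * ker η k i (j - 1) := by
      rw [e1, e2, e3, e4, A, B]
      linear_combination ((Real.sqrt i * amp (Real.sqrt η) (Real.sqrt (1 - η)) k l (i - 1) j) ^ 2 +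
        (Real.sqrt j * amp (Real.sqrt η) (Real.sqrt (1 - η)) k l i (j - 1)) ^ 2) * hsc
    linear_combination key + ker η k i j * hN
  · have z1 : ker η (k + 1) i j = 0 := ker_zero_of_lt (by omega)
    have z2 : (i : ℝ) * ker η k (i - 1) j = 0 := by
      cases i with
      | zero => simp only [CharP.cast_eq_zero, zero_tsub, zero_mul]
      | succ i => rw [ker_zero_of_lt (by omega), mul_zero]
    have z3 : (j : ℝ) * ker η k i (j - 1) = 0 := by
      cases j with
      | zero => simp
      | succ j => rw [ker_zero_of_lt (by omega), mul_zero]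
    have z4 : (k : ℝ) * ker η k i j = (i + j) * ker η k i j := by
      by_cases hk2 : k = i + j
      · subst hk2; push_cast; ring
      · rw [ker_zero_of_lt (by omega)]; ring
    linear_combination ((k : ℝ) + 1) * z1 - z2 - z3 - z4

/-- the environment part, first input. -/
theorem ker_envA (h0 : 0 ≤ η) (h1 : η ≤ 1) (k i j : ℕ) :
    η * (k * ker η (k - 1) i j + (k + 1) * ker η (k + 1) i j - (2 * k + 1) * ker η k i j) =
    (i + 1) * (ker η k (i + 1) j - ker η k i j) + i * (ker η k (i - 1) j - ker η k i j) := by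
  have hsc := sc_sq h0 h1
  have hs : (Real.sqrt η) ^ 2 = η := Real.sq_sqrt h0
  have hc : (Real.sqrt (1 - η)) ^ 2 = 1 - η := Real.sq_sqrt (by linarith)
  by_cases hk : k ≤ i + j
  · obtain ⟨l, hl⟩ := Nat.exists_eq_add_of_le hk
    have A := amp_A3 (Real.sqrt η) (Real.sqrt (1 - η)) k (l + 1) i j
    have R := amp_i (Real.sqrt η) (Real.sqrt (1 - η)) hsc k l i j
    simp only [Nat.add_sub_cancel] at A
    push_cast at A
    have e1 : ((i : ℝ) + 1) * ker η k (i + 1) j = (Real.sqrt η * (Real.sqrt k *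
        amp (Real.sqrt η) (Real.sqrt (1 - η)) (k - 1) (l + 1) i j) - Real.sqrt (1 - η) *
        (Real.sqrt (l + 1) * amp (Real.sqrt η) (Real.sqrt (1 - η)) k l i j)) ^ 2 := by
      rw [ker_eq (l := l + 1) (by omega), sq_sqrt_mul1, A]
      ring
    have e3 : (k : ℝ) * ker η (k - 1) i j =
        (Real.sqrt k * amp (Real.sqrt η) (Real.sqrt (1 - η)) (k - 1) (l + 1) i j) ^ 2 := by
      cases k with
      | zero => simp
      | succ k => rw [ker_eq (l := l + 1) (by omega), sq_sqrt_mul]
    have e5 : ker η k i j = (amp (Real.sqrt η) (Real.sqrt (1 - η)) k l i j) ^ 2 :=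
      ker_eq hl.symm
    have hs1 : Real.sqrt ((l : ℝ) + 1) * Real.sqrt ((l : ℝ) + 1) = (l : ℝ) + 1 :=
      Real.mul_self_sqrt (by (clear * -; positivity))
    cases l with
    | zero =>
      have e2 : (i : ℝ) * ker η k (i - 1) j = 0 := by
        cases i with
        | zero => simp only [CharP.cast_eq_zero, zero_tsub, zero_mul]
        | succ i => rw [ker_zero_of_lt (by omega), mul_zero]
      have e4 : ((k : ℝ) + 1) * ker η (k + 1) i j = 0 := by
        rw [ker_zero_of_lt (by omega), mul_zero]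
      simp only [Nat.cast_zero, Real.sqrt_zero, mul_zero, zero_mul, add_zero, zero_add,
        Real.sqrt_one] at R e1 hs1
      set s := Real.sqrt η
      set c := Real.sqrt (1 - η)
      set a := amp s c k 0 i j
      set am := amp s c (k - 1) (0 + 1) i j
      set sk := Real.sqrt (k : ℝ)
      linear_combination η * e3 + η * e4 - e1 - e2 + ((2 * i + 1) - η * (2 * k + 1)) * e5 +
        2 * a * R - (sk * am) ^ 2 * hs + 2 * k * a ^ 2 * hs - a ^ 2 * hc
    | succ l =>
      have A5 := amp_A5 hsc k l i j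
      have e2 : (i : ℝ) * ker η k (i - 1) j = (Real.sqrt η * (Real.sqrt (k + 1) *
          amp (Real.sqrt η) (Real.sqrt (1 - η)) (k + 1) l i j) - Real.sqrt (1 - η) *
          (Real.sqrt (l + 1) * amp (Real.sqrt η) (Real.sqrt (1 - η)) k (l + 1) i j)) ^ 2 := by
        rw [← A5]
        cases i with
        | zero => simp
        | succ i => rw [ker_eq (l := l) (by omega), sq_sqrt_mul]
      have e4 : ((k : ℝ) + 1) * ker η (k + 1) i j =
          (Real.sqrt (k + 1) * amp (Real.sqrt η) (Real.sqrt (1 - η)) (k + 1) l i j) ^ 2 := by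
        rw [ker_eq (l := l) (by (clear * - hl; omega)), sq_sqrt_mul1]
      simp only [Nat.add_sub_cancel] at R
      push_cast at R e1 hs1 
      have hs0 : Real.sqrt ((l : ℝ) + 1) * Real.sqrt ((l : ℝ) + 1) = (l : ℝ) + 1 :=
        Real.mul_self_sqrt (by (clear * -; positivity))
      set s := Real.sqrt η
      set c := Real.sqrt (1 - η)
      set a := amp s c k (l + 1) i j
      set am := amp s c (k - 1) (l + 1 + 1) i j
      set ap := amp s c (k + 1) l i j
      set sk := Real.sqrt (k : ℝ)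
      set sk1 := Real.sqrt ((k : ℝ) + 1)
      linear_combination η * e3 + η * e4 - e1 - e2 + ((2 * i + 1) - η * (2 * k + 1)) * e5 +
        2 * a * R - ((sk * am) ^ 2 + (sk1 * ap) ^ 2) * hs + 2 * k * a ^ 2 * hs - a ^ 2 * hc -
        c ^ 2 * a ^ 2 * hs1 - c ^ 2 * a ^ 2 * hs0
  · have z1 : ker η (k + 1) i j = 0 := ker_zero_of_lt (by omega)
    have z2 : (i : ℝ) * ker η k (i - 1) j = 0 := by
      cases i with
      | zero => simp only [CharP.cast_eq_zero, zero_tsub, zero_mul]
      | succ i => rw [ker_zero_of_lt (by (clear * - hk; omega)), mul_zero]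
    have z3 : ker η k i j = 0 := ker_zero_of_lt (by omega)
    have z4 : η * (k * ker η (k - 1) i j) = (i + 1) * ker η k (i + 1) j := by
      by_cases hk2 : k = i + j + 1
      · subst hk2
        have A := amp_A3 (Real.sqrt η) (Real.sqrt (1 - η)) (i + j + 1) 0 i j
        simp only [Nat.cast_zero, Real.sqrt_zero, mul_zero, zero_mul, sub_zero,
          Nat.add_sub_cancel] at A
        have e1 : ((i : ℝ) + 1) * ker η (i + j + 1) (i + 1) j =
            (Real.sqrt η * Real.sqrt ((i + j + 1 : ℕ) : ℝ) *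
              amp (Real.sqrt η) (Real.sqrt (1 - η)) (i + j) 0 i j) ^ 2 := by
          rw [ker_eq (l := 0) (by (clear * -; omega)), sq_sqrt_mul1, A]
        rw [e1, ker_eq (l := 0) (by (clear * -; omega)), Nat.add_sub_cancel, mul_pow, mul_pow, hs,
          Real.sq_sqrt (by (clear * -; positivity))]
        ring
      · rw [ker_zero_of_lt (k := k) (i := i + 1) (by omega),
          ker_zero_of_lt (k := k - 1) (by omega)]
        ring
    rw [z1, z3]
    linear_combination z4 - z2

/-- the environment part, second input. -/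
theorem ker_envB (h0 : 0 ≤ η) (h1 : η ≤ 1) (k i j : ℕ) :
    (1 - η) * (k * ker η (k - 1) i j + (k + 1) * ker η (k + 1) i j -
      (2 * k + 1) * ker η k i j) =
    (j + 1) * (ker η k i (j + 1) - ker η k i j) + j * (ker η k i (j - 1) - ker η k i j) := by
  have hsc := sc_sq h0 h1
  have hs : (Real.sqrt η) ^ 2 = η := Real.sq_sqrt h0
  have hc : (Real.sqrt (1 - η)) ^ 2 = 1 - η := Real.sq_sqrt (by linarith only [h1])
  by_cases hk : k ≤ i + j
  · obtain ⟨l, hl⟩ := Nat.exists_eq_add_of_le hk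
    have A := amp_A4 (Real.sqrt η) (Real.sqrt (1 - η)) k (l + 1) i j
    have R := amp_j (Real.sqrt η) (Real.sqrt (1 - η)) hsc k l i j
    simp only [Nat.add_sub_cancel] at A
    push_cast at A
    have e1 : ((j : ℝ) + 1) * ker η k i (j + 1) = (Real.sqrt (1 - η) * (Real.sqrt k *
        amp (Real.sqrt η) (Real.sqrt (1 - η)) (k - 1) (l + 1) i j) + Real.sqrt η *
        (Real.sqrt (l + 1) * amp (Real.sqrt η) (Real.sqrt (1 - η)) k l i j)) ^ 2 := by
      rw [ker_eq (l := l + 1) (by omega), sq_sqrt_mul1, A]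
      ring
    have e3 : (k : ℝ) * ker η (k - 1) i j =
        (Real.sqrt k * amp (Real.sqrt η) (Real.sqrt (1 - η)) (k - 1) (l + 1) i j) ^ 2 := by
      cases k with
      | zero => simp
      | succ k => rw [ker_eq (l := l + 1) (by (clear * - hl; omega)), sq_sqrt_mul]
    have e5 : ker η k i j = (amp (Real.sqrt η) (Real.sqrt (1 - η)) k l i j) ^ 2 :=
      ker_eq hl.symm
    have hs1 : Real.sqrt ((l : ℝ) + 1) * Real.sqrt ((l : ℝ) + 1) = (l : ℝ) + 1 :=
      Real.mul_self_sqrt (by (clear * -; positivity))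
    cases l with
    | zero =>
      have e2 : (j : ℝ) * ker η k i (j - 1) = 0 := by
        cases j with
        | zero => simp
        | succ j => rw [ker_zero_of_lt (by omega), mul_zero]
      have e4 : ((k : ℝ) + 1) * ker η (k + 1) i j = 0 := by
        rw [ker_zero_of_lt (by omega), mul_zero]
      simp only [Nat.cast_zero, Real.sqrt_zero, mul_zero, zero_mul, add_zero, zero_add,
        Real.sqrt_one] at R e1 hs1
      set s := Real.sqrt η
      set c := Real.sqrt (1 - η)
      set a := amp s c k 0 i j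
      set am := amp s c (k - 1) (0 + 1) i j
      set sk := Real.sqrt (k : ℝ)
      linear_combination (1 - η) * e3 + (1 - η) * e4 - e1 - e2 +
        ((2 * j + 1) - (1 - η) * (2 * k + 1)) * e5 +
        2 * a * R - (sk * am) ^ 2 * hc + 2 * k * a ^ 2 * hc - a ^ 2 * hs
    | succ l =>
      have A6 := amp_A6 hsc k l i j
      have e2 : (j : ℝ) * ker η k i (j - 1) = (Real.sqrt (1 - η) * (Real.sqrt (k + 1) *
          amp (Real.sqrt η) (Real.sqrt (1 - η)) (k + 1) l i j) + Real.sqrt η *
          (Real.sqrt (l + 1) * amp (Real.sqrt η) (Real.sqrt (1 - η)) k (l + 1) i j)) ^ 2 := by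
        rw [← A6]
        cases j with
        | zero => simp
        | succ j => rw [ker_eq (l := l) (by (clear * - hl; omega)), sq_sqrt_mul]
      have e4 : ((k : ℝ) + 1) * ker η (k + 1) i j =
          (Real.sqrt (k + 1) * amp (Real.sqrt η) (Real.sqrt (1 - η)) (k + 1) l i j) ^ 2 := by
        rw [ker_eq (l := l) (by omega), sq_sqrt_mul1]
      simp only [Nat.add_sub_cancel] at R
      push_cast at R e1 hs1
      have hs0 : Real.sqrt ((l : ℝ) + 1) * Real.sqrt ((l : ℝ) + 1) = (l : ℝ) + 1 :=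
        Real.mul_self_sqrt (by (clear * -; positivity))
      set s := Real.sqrt η
      set c := Real.sqrt (1 - η)
      set a := amp s c k (l + 1) i j
      set am := amp s c (k - 1) (l + 1 + 1) i j
      set ap := amp s c (k + 1) l i j
      set sk := Real.sqrt (k : ℝ)
      set sk1 := Real.sqrt ((k : ℝ) + 1)
      linear_combination (1 - η) * e3 + (1 - η) * e4 - e1 - e2 +
        ((2 * j + 1) - (1 - η) * (2 * k + 1)) * e5 +
        2 * a * R - ((sk * am) ^ 2 + (sk1 * ap) ^ 2) * hc + 2 * k * a ^ 2 * hc - a ^ 2 * hs -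
        s ^ 2 * a ^ 2 * hs1 - s ^ 2 * a ^ 2 * hs0
  · have z1 : ker η (k + 1) i j = 0 := ker_zero_of_lt (by omega)
    have z2 : (j : ℝ) * ker η k i (j - 1) = 0 := by
      cases j with
      | zero => simp
      | succ j => rw [ker_zero_of_lt (by omega), mul_zero]
    have z3 : ker η k i j = 0 := ker_zero_of_lt (by omega)
    have z4 : (1 - η) * (k * ker η (k - 1) i j) = (j + 1) * ker η k i (j + 1) := by
      by_cases hk2 : k = i + j + 1
      · subst hk2
        have A := amp_A4 (Real.sqrt η) (Real.sqrt (1 - η)) (i + j + 1) 0 i j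
        simp only [Nat.cast_zero, Real.sqrt_zero, mul_zero, zero_mul, add_zero,
          Nat.add_sub_cancel] at A
        have e1 : ((j : ℝ) + 1) * ker η (i + j + 1) i (j + 1) =
            (Real.sqrt (1 - η) * Real.sqrt ((i + j + 1 : ℕ) : ℝ) *
              amp (Real.sqrt η) (Real.sqrt (1 - η)) (i + j) 0 i j) ^ 2 := by
          rw [ker_eq (l := 0) (by omega), sq_sqrt_mul1, A]
        rw [e1, ker_eq (l := 0) (by omega), Nat.add_sub_cancel, mul_pow, mul_pow, hc,
          Real.sq_sqrt (by (clear * -; positivity))]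
        ring
      · rw [ker_zero_of_lt (k := k) (j := j + 1) (by omega),
          ker_zero_of_lt (k := k - 1) (by omega)]
        ring
    rw [z1, z3]
    linear_combination z4 - z2

/-- the generator identity. -/
theorem ker_gen (h0 : 0 ≤ η) (h1 : η ≤ 1) (r s : ℝ) (k i j : ℕ) :
    gen (η * r + (1 - η) * s) (fun k => ker η k i j) k =
    back r (fun i => ker η k i j) i + back s (fun j => ker η k i j) j := by
  have E0 := ker_const h0 h1 k i j
  have EA := ker_envA h0 h1 k i j
  have EB := ker_envB h0 h1 k i j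
  unfold gen back
  linear_combination E0 + r * EA + s * EB

end

end Vale.Agent.P369
end
end
end

section

attribute [-instance] ProperSMul.toContinuousSMul IsTopologicalTorsor.toContinuousSMul IdemSemiring.toCanonicallyOrderedAdd IdemSemiring.toMulLeftMono IdemSemiring.toMulRightMono AddQuantale.instAddLeftMono AddQuantale.instAddRightMono Quantale.instMulLeftMono Quantale.instMulRightMono FiniteDimensional.rclike_to_real IsScalarTower.complexToReal FiniteDimensional.complexToReal

section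

section

/-!
The entropy production inequality for the beam splitter output of two decreasing distributions.
-/

namespace Vale.Agent.P369

open Real

section shifts

theorem hasSum_shA {f : ℕ → ℕ → ℝ} {F : ℕ → ℕ → ℝ} {a : ℝ}
    (h : HasSum (fun x : ℕ × ℕ => f x.1 x.2 * F (x.1 + 1) x.2) a) :
    HasSum (fun x : ℕ × ℕ => shA f x.1 x.2 * F x.1 x.2) a := by
  have hinj : Function.Injective (fun x : ℕ × ℕ => (x.1 + 1, x.2)) := by
    rintro ⟨a, b⟩ ⟨c, d⟩ h; simpa using h
  refine (hinj.hasSum_iff (f := fun x : ℕ × ℕ => shA f x.1 x.2 * F x.1 x.2) ?_).1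
    (by simpa only [Function.comp_def, shA_succ] using h)
  rintro ⟨a, b⟩ h
  cases a with
  | zero => simp
  | succ a => exact absurd ⟨(a, b), rfl⟩ h

theorem hasSum_shB {f : ℕ → ℕ → ℝ} {F : ℕ → ℕ → ℝ} {a : ℝ}
    (h : HasSum (fun x : ℕ × ℕ => f x.1 x.2 * F x.1 (x.2 + 1)) a) :
    HasSum (fun x : ℕ × ℕ => shB f x.1 x.2 * F x.1 x.2) a := by
  have hinj : Function.Injective (fun x : ℕ × ℕ => (x.1, x.2 + 1)) := by
    rintro ⟨a, b⟩ ⟨c, d⟩ h; simpa using h
  refine (hinj.hasSum_iff (f := fun x : ℕ × ℕ => shB f x.1 x.2 * F x.1 x.2) ?_).1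
    (by simpa [Function.comp_def] using h)
  rintro ⟨a, b⟩ h
  cases b with
  | zero => simp
  | succ b => exact absurd ⟨(a, b), rfl⟩ h

end shifts

section weights

variable {η : ℝ}

/-- a product with polynomially bounded kernel is summable. -/
theorem summable_dker_mul (h0 : 0 ≤ η) (h1 : η ≤ 1) (k : ℕ) {F G : ℕ → ℝ}
    (hF : Summable fun i : ℕ => ((i : ℝ) + 1) * |F i|)
    (hG : Summable fun j : ℕ => ((j : ℝ) + 1) * |G j|) :
    Summable fun x : ℕ × ℕ => dker η k x.1 x.2 * (F x.1 * G x.2) := by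
  apply Summable.of_norm_bounded (hF.mul_of_nonneg hG (fun i => by (clear * -; positivity))
    (fun j => by positivity))
  rintro ⟨i, j⟩
  simp only [norm_mul, Real.norm_eq_abs]
  rw [abs_of_nonneg (dker_nonneg h0 h1 k i j)]
  have := dker_le h0 h1 k i j
  have h3 : 0 ≤ |F i| * |G j| := by (clear * -; positivity)
  calc dker η k i j * (|F i| * |G j|) ≤ ((i + 1) * (j + 1)) * (|F i| * |G j|) := by (clear * - this; gcongr)
    _ = _ := by ring

theorem shift_summable {F : ℕ → ℝ} (hF : Summable fun i : ℕ => ((i : ℝ) + 1) * |F i|) :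
    Summable fun i : ℕ => ((i : ℝ) + 1) * |F (i + 1)| := by
  have := (summable_nat_add_iff 1).2 hF
  apply Summable.of_nonneg_of_le (fun i => by (clear * -; positivity)) _ this
  intro i
  push_cast
  have : 0 ≤ |F (i + 1)| := by (clear * -; positivity)
  linarith

theorem diff_summable {F : ℕ → ℝ} (hF : Summable fun i : ℕ => ((i : ℝ) + 1) * |F i|) :
    Summable fun i : ℕ => ((i : ℝ) + 1) * |F i - F (i + 1)| := by
  apply Summable.of_nonneg_of_le (fun i => by positivity) _ (hF.add (shift_summable hF))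
  intro i
  have : |F i - F (i + 1)| ≤ |F i| + |F (i + 1)| := abs_sub _ _
  calc ((i : ℝ) + 1) * |F i - F (i + 1)| ≤ ((i : ℝ) + 1) * (|F i| + |F (i + 1)|) := by gcongr
    _ = _ := by ring

variable {p q : ℕ → ℝ}

theorem out_formulas (h0 : 0 ≤ η) (h1 : η ≤ 1) (k : ℕ)
    (hp : Summable fun i : ℕ => ((i : ℝ) + 1) * |p i|)
    (hq : Summable fun i : ℕ => ((i : ℝ) + 1) * |q i|) :
    out η p q k - out η p q (k + 1) =
      ∑' x : ℕ × ℕ, dker η k x.1 x.2 * ((p x.1 - p (x.1 + 1)) * (q x.2 - q (x.2 + 1))) ∧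
    out η p q (k + 1) =
      ∑' x : ℕ × ℕ, dker η k x.1 x.2 * (η * (p (x.1 + 1) * (q x.2 - q (x.2 + 1))) +
        (1 - η) * ((p x.1 - p (x.1 + 1)) * q (x.2 + 1))) := by
  obtain ⟨s0, H0⟩ := summable_dker_mul h0 h1 k hp hq
  obtain ⟨sA, HA⟩ := summable_dker_mul h0 h1 k (shift_summable hp) hq
  obtain ⟨sB, HB⟩ := summable_dker_mul h0 h1 k hp (shift_summable hq)
  obtain ⟨sAB, HAB⟩ := summable_dker_mul h0 h1 k (shift_summable hp) (shift_summable hq)
  have HA' := hasSum_shA (f := dker η k) (F := fun i j => p i * q j) HA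
  have HB' := hasSum_shB (f := dker η k) (F := fun i j => p i * q j) HB
  have HAB' := hasSum_shA (f := shB (dker η k)) (F := fun i j => p i * q j)
    (hasSum_shB (f := dker η k) (F := fun i j => p (i + 1) * q j) HAB)
  have C0 : out η p q k = s0 - (1 - η) * sA - η * sB := by
    unfold out
    rw [← ((H0.sub (HA'.mul_left (1 - η))).sub (HB'.mul_left η)).tsum_eq]
    congr 1
    funext x
    rw [← opD_dker, opD]
    ring
  have C1 : out η p q (k + 1) = η * sA + (1 - η) * sB - sAB := by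
    unfold out
    rw [← (((HA'.mul_left η).add (HB'.mul_left (1 - η))).sub HAB').tsum_eq]
    congr 1
    funext x
    rw [ker_succ_eq h0 h1, opN]
    ring
  constructor
  · rw [C0, C1]
    have : HasSum (fun x : ℕ × ℕ => dker η k x.1 x.2 *
        ((p x.1 - p (x.1 + 1)) * (q x.2 - q (x.2 + 1)))) (s0 - sA - sB + sAB) := by
      refine (((H0.sub HA).sub HB).add HAB).congr_fun ?_
      intro x
      ring
    rw [this.tsum_eq]
    ring
  · rw [C1]
    have : HasSum (fun x : ℕ × ℕ => dker η k x.1 x.2 *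
        (η * (p (x.1 + 1) * (q x.2 - q (x.2 + 1))) +
        (1 - η) * ((p x.1 - p (x.1 + 1)) * q (x.2 + 1)))) (η * sA + (1 - η) * sB - sAB) := by
      refine (((HA.mul_left η).add (HB.mul_left (1 - η))).sub HAB).congr_fun ?_
      intro x
      ring
    rw [this.tsum_eq]

end weights

section rate

variable {η : ℝ}

/-- terms of the entropy rate. -/
noncomputable def rterm (r : ℝ) (p : ℕ → ℝ) (k : ℕ) : ℝ :=
  ((k : ℝ) + 1) * (r * p k - (r + 1) * p (k + 1)) * (Real.log (p k) - Real.log (p (k + 1)))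

theorem rate_eq (r : ℝ) (p : ℕ → ℝ) : rate r p = ∑' k, rterm r p k := rfl

theorem theta_rterm {r : ℝ} {p : ℕ → ℝ} (hp : ∀ k, 0 < p k) (k : ℕ) :
    theta r * rterm r p k = ((k : ℝ) + 1) * Phi r (p k - p (k + 1)) (p (k + 1)) := by
  unfold rterm Phi
  have : p k - p (k + 1) + p (k + 1) = p k := by ring
  rw [this, Real.log_div (hp k).ne' (hp (k + 1)).ne']
  ring

/-- the mass of the weights. -/
theorem hasSum_weight {p : ℕ → ℝ} (hp : HasSum p 1)
    (sp : Summable fun i : ℕ => ((i : ℝ) + 1) * |p i|) :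
    HasSum (fun i : ℕ => ((i : ℝ) + 1) * (p i - p (i + 1))) 1 := by
  have s1 : Summable fun i : ℕ => (i : ℝ) * p i := by
    apply Summable.of_norm_bounded sp
    intro i
    rw [norm_mul, Real.norm_eq_abs, Real.norm_eq_abs, abs_of_nonneg (by positivity : (0:ℝ) ≤ i)]
    have : 0 ≤ |p i| := abs_nonneg _
    linarith
  obtain ⟨a, ha⟩ := s1
  have hb : HasSum (fun i : ℕ => ((i : ℝ) + 1) * p (i + 1)) a := by
    have := (hasSum_nat_add_iff' 1).2 ha
    simpa using this
  have := (ha.add hp).sub hb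
  rw [add_sub_cancel_left] at this
  refine this.congr_fun ?_
  intro i
  ring

theorem rate_ineq (h0 : 0 < η) (h1 : η < 1) {r s : ℝ} (hr : 0 < r) (hs : 0 < s) {p q : ℕ → ℝ}
    (hp : HasSum p 1) (hq : HasSum q 1) (pp : ∀ k, 0 < p k) (pq : ∀ k, 0 < q k)
    (ap : Antitone p) (aq : Antitone q)
    (sp : Summable fun i : ℕ => ((i : ℝ) + 1) * p i)
    (sq : Summable fun i : ℕ => ((i : ℝ) + 1) * q i)
    (rp : Summable (rterm r p)) (rq : Summable (rterm s q))
    (rc : Summable (rterm (η * r + (1 - η) * s) (out η p q)))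
    (pc : ∀ k, 0 < out η p q k) :
    theta (η * r + (1 - η) * s) * rate (η * r + (1 - η) * s) (out η p q) ≤
      η * (theta r * rate r p) + (1 - η) * (theta s * rate s q) := by
  have h1' : 0 < 1 - η := by linarith
  set c := η * r + (1 - η) * s with hc
  have hcpos : 0 < c := by positivity
  have sp' : Summable fun i : ℕ => ((i : ℝ) + 1) * |p i| := by
    refine sp.congr fun i => ?_
    rw [abs_of_pos (pp i)]
  have sq' : Summable fun i : ℕ => ((i : ℝ) + 1) * |q i| := by
    refine sq.congr fun i => ?_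
    rw [abs_of_pos (pq i)]
  -- abbreviations
  set A : ℕ → ℝ := fun i => p i - p (i + 1) with hA
  set B : ℕ → ℝ := fun j => q j - q (j + 1) with hB
  set F : ℕ → ℝ := fun i => Phi r (A i) (p (i + 1)) with hF
  set G : ℕ → ℝ := fun j => Phi s (B j) (q (j + 1)) with hG
  have A0 : ∀ i, 0 ≤ A i := fun i => sub_nonneg.2 (ap (Nat.le_succ i))
  have B0 : ∀ i, 0 ≤ B i := fun i => sub_nonneg.2 (aq (Nat.le_succ i))
  have sF : Summable fun i : ℕ => ((i : ℝ) + 1) * F i := by
    refine (rp.mul_left (theta r)).congr fun i => ?_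
    rw [theta_rterm pp]
  have sG : Summable fun i : ℕ => ((i : ℝ) + 1) * G i := by
    refine (rq.mul_left (theta s)).congr fun i => ?_
    rw [theta_rterm pq]
  have absS : ∀ {f : ℕ → ℝ}, Summable (fun i : ℕ => ((i : ℝ) + 1) * f i) →
      Summable (fun i : ℕ => ((i : ℝ) + 1) * |f i|) := by
    intro f hf
    refine hf.abs.congr fun i => ?_
    rw [abs_mul, abs_of_nonneg (by (clear * -; positivity) : (0:ℝ) ≤ (i : ℝ) + 1)]
  have sA : Summable fun i : ℕ => ((i : ℝ) + 1) * |A i| := diff_summable sp'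
  have sB : Summable fun i : ℕ => ((i : ℝ) + 1) * |B i| := diff_summable sq'
  -- per level inequality
  have level : ∀ k : ℕ, Phi c (out η p q k - out η p q (k + 1)) (out η p q (k + 1)) ≤
      ∑' x : ℕ × ℕ, dker η k x.1 x.2 * (η * (F x.1 * B x.2) + (1 - η) * (A x.1 * G x.2)) := by
    intro k
    obtain ⟨fW, fU⟩ := out_formulas h0.le h1.le k sp' sq'
    set W := out η p q k - out η p q (k + 1) with hW
    set U := out η p q (k + 1) with hU
    have W0 : 0 ≤ W := by
      rw [fW]
      exact tsum_nonneg fun x => mul_nonneg (dker_nonneg h0.le h1.le _ _ _)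
        (mul_nonneg (A0 _) (B0 _))
    obtain ⟨a, b, hb, ha, hi, hii⟩ := tangent_plane hcpos W0 (pc (k + 1))
    rw [hii]
    have conc : η * a r + (1 - η) * a s ≤ a c := by
      have := ha.2 (Set.mem_Ioi.2 hr) (Set.mem_Ioi.2 hs) h0.le h1'.le (by ring)
      simpa only [ge_iff_le, smul_eq_mul] using this
    -- HasSum of pieces
    have HAB : HasSum (fun x : ℕ × ℕ => dker η k x.1 x.2 * (A x.1 * B x.2)) W := by
      rw [fW]; exact (summable_dker_mul h0.le h1.le k sA sB).hasSum
    have HU1 := summable_dker_mul h0.le h1.le k (shift_summable sp') sB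
    have HU2 := summable_dker_mul h0.le h1.le k sA (shift_summable sq')
    have HU : HasSum (fun x : ℕ × ℕ => dker η k x.1 x.2 * (η * (p (x.1 + 1) * B x.2) +
        (1 - η) * (A x.1 * q (x.2 + 1)))) U := by
      rw [fU]
      refine Summable.hasSum ?_
      refine ((HU1.mul_left η).add (HU2.mul_left (1 - η))).congr fun x => ?_
      ring
    have HF := summable_dker_mul h0.le h1.le k (absS sF) sB
    have HG := summable_dker_mul h0.le h1.le k sA (absS sG)
    have HR : Summable (fun x : ℕ × ℕ => dker η k x.1 x.2 * (η * (F x.1 * B x.2) +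
        (1 - η) * (A x.1 * G x.2))) := by
      refine ((HF.mul_left η).add (HG.mul_left (1 - η))).congr fun x => ?_
      ring
    have step1 : -(a c) * W - b * (U - c * W) ≤
        -(η * a r + (1 - η) * a s) * W - b * (U - c * W) := by nlinarith only [W0, conc]
    refine step1.trans ?_
    have HL : HasSum (fun x : ℕ × ℕ => -(η * a r + (1 - η) * a s) *
        (dker η k x.1 x.2 * (A x.1 * B x.2)) - b * (dker η k x.1 x.2 *
        (η * (p (x.1 + 1) * B x.2) + (1 - η) * (A x.1 * q (x.2 + 1))) - c *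
        (dker η k x.1 x.2 * (A x.1 * B x.2))))
        (-(η * a r + (1 - η) * a s) * W - b * (U - c * W)) :=
      (HAB.mul_left _).sub ((HU.sub (HAB.mul_left c)).mul_left b)
    refine hasSum_le ?_ HL HR.hasSum
    rintro ⟨i, j⟩
    have t1 := hi r (A i) (p (i + 1)) hr (A0 i) (pp _)
    have t2 := hi s (B j) (q (j + 1)) hs (B0 j) (pq _)
    have t3 : 0 ≤ dker η k i j := dker_nonneg h0.le h1.le k i j
    have t4 : η * (-(a r) * A i - b * (p (i + 1) - r * A i)) * B j ≤ η * (F i * B j) := by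
      have : (-(a r) * A i - b * (p (i + 1) - r * A i)) * B j ≤ F i * B j :=
        mul_le_mul_of_nonneg_right t1 (B0 j)
      nlinarith only [h0, this]
    have t5 : (1 - η) * (-(a s) * B j - b * (q (j + 1) - s * B j)) * A i ≤
        (1 - η) * (A i * G j) := by
      have : (-(a s) * B j - b * (q (j + 1) - s * B j)) * A i ≤ G j * A i :=
        mul_le_mul_of_nonneg_right t2 (A0 i)
      nlinarith only [h1, this]
    have t6 := mul_le_mul_of_nonneg_left (add_le_add t4 t5) t3
    refine le_trans (le_of_eq ?_) t6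
    simp only [hc]
    ring
  -- sum over levels
  set K : ℕ × ℕ → ℝ := fun x => η * (F x.1 * B x.2) + (1 - η) * (A x.1 * G x.2) with hK
  have hFs : HasSum (fun i : ℕ => ((i : ℝ) + 1) * F i) (theta r * rate r p) := by
    rw [rate_eq, ← tsum_mul_left]
    convert sF.hasSum using 1
    refine tsum_congr fun i => ?_
    rw [theta_rterm pp]
  have hGs : HasSum (fun i : ℕ => ((i : ℝ) + 1) * G i) (theta s * rate s q) := by
    rw [rate_eq, ← tsum_mul_left]
    convert sG.hasSum using 1
    refine tsum_congr fun i => ?_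
    rw [theta_rterm pq]
  have hAs : HasSum (fun i : ℕ => ((i : ℝ) + 1) * A i) 1 := hasSum_weight hp sp'
  have hBs : HasSum (fun i : ℕ => ((i : ℝ) + 1) * B i) 1 := hasSum_weight hq sq'
  have prodS : ∀ {f g : ℕ → ℝ}, Summable (fun i : ℕ => ((i : ℝ) + 1) * |f i|) →
      Summable (fun i : ℕ => ((i : ℝ) + 1) * |g i|) → Summable (fun x : ℕ × ℕ =>
        (((x.1 : ℝ) + 1) * f x.1) * (((x.2 : ℝ) + 1) * g x.2)) := by
    intro f g hf hg
    apply Summable.of_norm_bounded (hf.mul_of_nonneg hg (fun i => by (clear * -; positivity))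
      (fun j => by (clear * -; positivity)))
    rintro ⟨i, j⟩
    simp only [norm_mul, Real.norm_eq_abs]
    rw [abs_of_nonneg (by (clear * -; positivity) : (0:ℝ) ≤ (i : ℝ) + 1),
      abs_of_nonneg (by (clear * -; positivity) : (0:ℝ) ≤ (j : ℝ) + 1)]
  have P1 := hFs.mul hBs (prodS (absS sF) sB)
  have P2 := hAs.mul hGs (prodS sA (absS sG))
  have hKs : HasSum (fun x : ℕ × ℕ => (((x.1 : ℝ) + 1) * ((x.2 : ℝ) + 1)) * K x)
      (η * (theta r * rate r p) + (1 - η) * (theta s * rate s q)) := by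
    have := (P1.mul_left η).add (P2.mul_left (1 - η))
    rw [mul_one, one_mul] at this
    refine this.congr_fun fun x => ?_
    simp only [hK]
    ring
  have hf : Summable (Function.uncurry fun (x : ℕ × ℕ) (k : ℕ) =>
      ((k : ℝ) + 1) * dker η k x.1 x.2 * K x) := by
    apply Summable.of_abs
    rw [summable_prod_of_nonneg (fun y => abs_nonneg _)]
    have e : ∀ x : ℕ × ℕ, HasSum (fun k : ℕ => |((k : ℝ) + 1) * dker η k x.1 x.2 * K x|)
        ((((x.1 : ℝ) + 1) * ((x.2 : ℝ) + 1)) * |K x|) := by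
      intro x
      refine ((hasSum_dker h0.le h1.le x.1 x.2).mul_right |K x|).congr_fun fun k => ?_
      have := dker_nonneg h0.le h1.le k x.1 x.2
      rw [abs_mul, abs_of_nonneg (by (clear * - this; positivity))]
    refine ⟨fun x => (e x).summable, ?_⟩
    refine hKs.summable.abs.congr fun x => ?_
    simp only [Function.uncurry]
    rw [(e x).tsum_eq, abs_mul, abs_of_nonneg (by (clear * -; positivity))]
  have hcomm := hf.tsum_comm
  have e1 : ∀ x : ℕ × ℕ, ∑' k : ℕ, ((k : ℝ) + 1) * dker η k x.1 x.2 * K x =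
      (((x.1 : ℝ) + 1) * ((x.2 : ℝ) + 1)) * K x := fun x =>
    ((hasSum_dker h0.le h1.le x.1 x.2).mul_right (K x)).tsum_eq
  have hsumk : Summable fun k : ℕ => ∑' x : ℕ × ℕ, ((k : ℝ) + 1) * dker η k x.1 x.2 * K x :=
    hf.prod_symm.prod
  rw [rate_eq, ← tsum_mul_left]
  calc ∑' k, theta c * rterm c (out η p q) k ≤
      ∑' k : ℕ, ∑' x : ℕ × ℕ, ((k : ℝ) + 1) * dker η k x.1 x.2 * K x := by
        refine Summable.tsum_le_tsum (fun k => ?_) (rc.mul_left _) hsumk
        rw [theta_rterm pc]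
        have e2 : ∑' x : ℕ × ℕ, ((k : ℝ) + 1) * dker η k x.1 x.2 * K x =
            ((k : ℝ) + 1) * ∑' x : ℕ × ℕ, dker η k x.1 x.2 * K x := by
          rw [← tsum_mul_left]
          refine tsum_congr fun x => by ring
        rw [e2]
        exact mul_le_mul_of_nonneg_left (level k) (by (clear * -; positivity))
    _ = ∑' x : ℕ × ℕ, ∑' k : ℕ, ((k : ℝ) + 1) * dker η k x.1 x.2 * K x := hcomm
    _ = ∑' x : ℕ × ℕ, (((x.1 : ℝ) + 1) * ((x.2 : ℝ) + 1)) * K x := tsum_congr e1
    _ = _ := hKs.tsum_eq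

end rate

end Vale.Agent.P369
end
end
end

section

attribute [-instance] ProperSMul.toContinuousSMul IsTopologicalTorsor.toContinuousSMul IdemSemiring.toCanonicallyOrderedAdd IdemSemiring.toMulLeftMono IdemSemiring.toMulRightMono AddQuantale.instAddLeftMono AddQuantale.instAddRightMono Quantale.instMulLeftMono Quantale.instMulRightMono FiniteDimensional.rclike_to_real IsScalarTower.complexToReal FiniteDimensional.complexToReal

section

section

/-! Tensorization of a linear entropy inequality (finite supports). -/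

namespace Vale.Agent.P369

open Real Finset

/-- output of a general bilinear kernel. -/
noncomputable def outG {α : Type} (K : α → α → α → ℝ) (p q : α → ℝ) (k : α) : ℝ :=
  ∑' ij : α × α, K k ij.1 ij.2 * (p ij.1 * q ij.2)

/-- finitely supported probability distributions. -/
structure IsFinProb {α : Type} (p : α → ℝ) : Prop where
  nonneg : ∀ x, 0 ≤ p x
  fin : (Function.support p).Finite
  one : ∑' x, p x = 1

theorem IsFinProb.isProb {α : Type} {p : α → ℝ} (h : IsFinProb p) : IsProb p := by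
  refine ⟨h.nonneg, ?_⟩
  rw [← h.one]
  exact (summable_of_hasFiniteSupport h.fin).hasSum

structure IsKer {α : Type} (K : α → α → α → ℝ) : Prop where
  nonneg : ∀ k i j, 0 ≤ K k i j
  fin : ∀ i j, (Function.support (fun k => K k i j)).Finite
  one : ∀ i j, ∑' k, K k i j = 1

/-- entropy chain inequality. -/
theorem chain_ineq {ι κ₀ κ₁ : Type*} (I : Finset ι) (S₀ : Finset κ₀) (S₁ : Finset κ₁)
    (w : ι → ℝ) (K : κ₁ → ι → ℝ) (c : ι → κ₀ → ℝ)
    (hw : ∀ i ∈ I, 0 ≤ w i) (hK : ∀ i ∈ I, ∀ k ∈ S₁, 0 ≤ K k i)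
    (hK1 : ∀ i ∈ I, ∑ k ∈ S₁, K k i = 1)
    (hc : ∀ i ∈ I, ∀ k ∈ S₀, 0 ≤ c i k) (hc1 : ∀ i ∈ I, w i ≠ 0 → ∑ k ∈ S₀, c i k = 1) :
    ∑ k₁ ∈ S₁, negMulLog (∑ i ∈ I, w i * K k₁ i)
      + ∑ i ∈ I, w i * ∑ k₀ ∈ S₀, negMulLog (c i k₀)
      ≤ ∑ k₁ ∈ S₁, ∑ k₀ ∈ S₀, negMulLog (∑ i ∈ I, w i * K k₁ i * c i k₀) := by
  have step : ∀ k₁ ∈ S₁, negMulLog (∑ i ∈ I, w i * K k₁ i)
      + ∑ i ∈ I, (w i * K k₁ i) * ∑ k₀ ∈ S₀, negMulLog (c i k₀)
      ≤ ∑ k₀ ∈ S₀, negMulLog (∑ i ∈ I, w i * K k₁ i * c i k₀) := by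
    intro k₁ hk₁
    set a : ι → ℝ := fun i => w i * K k₁ i with ha
    have ha0 : ∀ i ∈ I, 0 ≤ a i := fun i hi => mul_nonneg (hw i hi) (hK i hi k₁ hk₁)
    set M := ∑ i ∈ I, a i with hM
    have hM0 : 0 ≤ M := Finset.sum_nonneg ha0
    rcases hM0.eq_or_lt with h | h
    · have hz : ∀ i ∈ I, a i = 0 := (Finset.sum_eq_zero_iff_of_nonneg ha0).1 h.symm
      have e1 : ∑ i ∈ I, a i * ∑ k₀ ∈ S₀, negMulLog (c i k₀) = 0 :=
        Finset.sum_eq_zero (fun i hi => by rw [hz i hi, zero_mul])
      have e2 : ∑ k₀ ∈ S₀, negMulLog (∑ i ∈ I, a i * c i k₀) = 0 := by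
        apply Finset.sum_eq_zero
        intro k _
        rw [Finset.sum_eq_zero (fun i hi => by rw [hz i hi, zero_mul]), negMulLog_zero]
      rw [e1, e2, ← h, negMulLog_zero, add_zero]
    · have hl0 : ∀ i ∈ I, 0 ≤ a i / M := fun i hi => div_nonneg (ha0 i hi) h.le
      have hl1 : ∑ i ∈ I, a i / M = 1 := by
        rw [← Finset.sum_div, ← hM, div_self h.ne']
      -- rewrite the inner sums
      have e1 : ∀ k₀, ∑ i ∈ I, a i * c i k₀ = M * ∑ i ∈ I, (a i / M) * c i k₀ := by
        intro k₀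
        rw [Finset.mul_sum]
        apply Finset.sum_congr rfl
        intro i _
        (clear * - h; field_simp)
      have e2 : ∑ k₀ ∈ S₀, negMulLog (∑ i ∈ I, a i * c i k₀) =
          ∑ k₀ ∈ S₀, ((∑ i ∈ I, (a i / M) * c i k₀) * negMulLog M +
            M * negMulLog (∑ i ∈ I, (a i / M) * c i k₀)) := by
        apply Finset.sum_congr rfl
        intro k₀ _
        rw [e1 k₀, negMulLog_mul]
      have e3 : ∑ k₀ ∈ S₀, (∑ i ∈ I, (a i / M) * c i k₀) = 1 := by
        rw [Finset.sum_comm]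
        have : ∑ i ∈ I, ∑ k₀ ∈ S₀, (a i / M) * c i k₀ = ∑ i ∈ I, a i / M := by
          apply Finset.sum_congr rfl
          intro i hi
          rw [← Finset.mul_sum]
          by_cases hwi : w i = 0
          · simp [ha, hwi]
          · rw [hc1 i hi hwi, mul_one]
        rw [this, hl1]
      have e4 : ∀ k₀ ∈ S₀, ∑ i ∈ I, (a i / M) * negMulLog (c i k₀) ≤
          negMulLog (∑ i ∈ I, (a i / M) * c i k₀) := by
        intro k₀ hk₀
        have := concaveOn_negMulLog.le_map_sum (t := I) (w := fun i => a i / M)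
          (p := fun i => c i k₀) hl0 hl1 (fun i hi => hc i hi k₀ hk₀)
        simpa only [ge_iff_le, smul_eq_mul] using this
      have e5 : ∑ i ∈ I, a i * ∑ k₀ ∈ S₀, negMulLog (c i k₀) =
          ∑ k₀ ∈ S₀, M * ∑ i ∈ I, (a i / M) * negMulLog (c i k₀) := by
        rw [← Finset.mul_sum, Finset.sum_comm, Finset.mul_sum]
        apply Finset.sum_congr rfl
        intro i _
        rw [← Finset.mul_sum]
        (clear * - h; field_simp)
      rw [e2, Finset.sum_add_distrib, ← Finset.sum_mul, e3, one_mul, e5]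
      gcongr with k₀ hk₀
      exact e4 k₀ hk₀
  calc ∑ k₁ ∈ S₁, negMulLog (∑ i ∈ I, w i * K k₁ i)
      + ∑ i ∈ I, w i * ∑ k₀ ∈ S₀, negMulLog (c i k₀)
      = ∑ k₁ ∈ S₁, (negMulLog (∑ i ∈ I, w i * K k₁ i)
      + ∑ i ∈ I, (w i * K k₁ i) * ∑ k₀ ∈ S₀, negMulLog (c i k₀)) := by
        rw [Finset.sum_add_distrib, Finset.sum_comm]
        congr 1
        apply Finset.sum_congr rfl
        intro i hi
        rw [← Finset.sum_mul, ← Finset.mul_sum, hK1 i hi, mul_one]
    _ ≤ _ := Finset.sum_le_sum step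

/-- chain rule, finite version with the convention `0/0 = 0`. -/
theorem chain_eq {κ₀ κ₁ : Type*} (S₀ : Finset κ₀) (S₁ : Finset κ₁) (p : κ₀ → κ₁ → ℝ)
    (hp : ∀ x y, 0 ≤ p x y) :
    ∑ y ∈ S₁, ∑ x ∈ S₀, negMulLog (p x y) =
      ∑ y ∈ S₁, negMulLog (∑ x ∈ S₀, p x y) +
      ∑ y ∈ S₁, (∑ x ∈ S₀, p x y) * ∑ x ∈ S₀, negMulLog (p x y / ∑ x ∈ S₀, p x y) := by
  rw [← Finset.sum_add_distrib]
  apply Finset.sum_congr rfl
  intro y _
  set M := ∑ x ∈ S₀, p x y with hM
  have hM0 : 0 ≤ M := Finset.sum_nonneg (fun x _ => hp x y)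
  rcases hM0.eq_or_lt with h | h
  · have hz : ∀ x ∈ S₀, p x y = 0 :=
      (Finset.sum_eq_zero_iff_of_nonneg (fun x _ => hp x y)).1 h.symm
    rw [← h, negMulLog_zero, zero_mul, add_zero]
    exact Finset.sum_eq_zero (fun x hx => by rw [hz x hx, negMulLog_zero])
  · have e : ∀ x, negMulLog (p x y) = (p x y / M) * negMulLog M + M * negMulLog (p x y / M) := by
      intro x
      rw [← negMulLog_mul]
      congr 1
      (clear * - h; field_simp)
    rw [Finset.sum_congr rfl (fun x _ => e x), Finset.sum_add_distrib, ← Finset.sum_mul,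
      ← Finset.sum_div, ← hM, div_self h.ne', one_mul, Finset.mul_sum]


/-- The linear entropy inequality for antitone finite-support distributions. -/
def LinIneq {α : Type} [Preorder α] (K : α → α → α → ℝ) (a b d e : ℝ) : Prop :=
  ∀ p q : α → ℝ, IsFinProb p → IsFinProb q → Antitone p → Antitone q →
    b * Hs p + d * Hs q + e ≤ a * Hs (outG K p q)

/-- product kernel -/
def prodKer {α β : Type} (K₀ : α → α → α → ℝ) (K₁ : β → β → β → ℝ) :
    α × β → α × β → α × β → ℝ :=
  fun k i j => K₀ k.1 i.1 j.1 * K₁ k.2 i.2 j.2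

theorem tsum_fin {α : Type} {f : α → ℝ} (s : Finset α) (h : ∀ x, x ∉ s → f x = 0) :
    ∑' x, f x = ∑ x ∈ s, f x := tsum_eq_sum (fun x hx => h x hx)

theorem out_eq {α : Type} {K : α → α → α → ℝ} {p q : α → ℝ} (A : Finset α)
    (hp : ∀ x, x ∉ A → p x = 0) (hq : ∀ x, x ∉ A → q x = 0) (k : α) :
    outG K p q k = ∑ i ∈ A, ∑ j ∈ A, p i * q j * K k i j := by
  unfold outG
  rw [tsum_fin (A ×ˢ A), Finset.sum_product]
  · apply Finset.sum_congr rfl
    intro i _
    apply Finset.sum_congr rfl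
    intro j _
    ring
  · intro ij hij
    rw [Finset.mem_product, not_and_or] at hij
    rcases hij with h | h
    · rw [hp _ h]; ring
    · rw [hq _ h]; ring

theorem Hs_eq {α : Type} {p : α → ℝ} (A : Finset α) (hp : ∀ x, x ∉ A → p x = 0) :
    Hs p = ∑ x ∈ A, negMulLog (p x) := by
  unfold Hs
  exact tsum_fin A (fun x hx => by rw [hp x hx, negMulLog_zero])

open Classical in
/-- a finite set containing the supports of all kernel rows for inputs in `A` -/
noncomputable def kerSupp {α : Type} {K : α → α → α → ℝ} (hK : IsKer K) (A : Finset α) :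
    Finset α :=
  A.biUnion fun i => A.biUnion fun j => (hK.fin i j).toFinset

theorem kerSupp_spec {α : Type} {K : α → α → α → ℝ} (hK : IsKer K) (A : Finset α)
    {i j k : α} (hi : i ∈ A) (hj : j ∈ A) (hk : k ∉ kerSupp hK A) : K k i j = 0 := by
  by_contra h
  apply hk
  unfold kerSupp
  simp only [mem_biUnion, Set.Finite.mem_toFinset, Function.mem_support]
  exact ⟨i, hi, j, hj, h⟩

theorem kerSupp_sum {α : Type} {K : α → α → α → ℝ} (hK : IsKer K) (A : Finset α)
    {i j : α} (hi : i ∈ A) (hj : j ∈ A) : ∑ k ∈ kerSupp hK A, K k i j = 1 := by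
  rw [← hK.one i j]
  exact (tsum_fin _ (fun k hk => kerSupp_spec hK A hi hj hk)).symm

theorem out_zero {α : Type} {K : α → α → α → ℝ} (hK : IsKer K) {p q : α → ℝ} (A : Finset α)
    (hp : ∀ x, x ∉ A → p x = 0) (hq : ∀ x, x ∉ A → q x = 0) {k : α}
    (hk : k ∉ kerSupp hK A) : outG K p q k = 0 := by
  rw [out_eq A hp hq]
  apply Finset.sum_eq_zero
  intro i hi
  apply Finset.sum_eq_zero
  intro j hj
  rw [kerSupp_spec hK A hi hj hk, mul_zero]

theorem isFinProb_of_sum {α : Type} {p : α → ℝ} (A : Finset α) (h0 : ∀ x, 0 ≤ p x)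
    (hp : ∀ x, x ∉ A → p x = 0) (h1 : ∑ x ∈ A, p x = 1) : IsFinProb p := by
  refine ⟨h0, ?_, ?_⟩
  · apply A.finite_toSet.subset
    intro x hx
    by_contra h
    exact hx (hp x h)
  · rw [tsum_fin A hp, h1]

theorem LinIneq.prod {α β : Type} [Preorder α] [Preorder β]
    {K₀ : α → α → α → ℝ} {K₁ : β → β → β → ℝ} (hK₀ : IsKer K₀) (hK₁ : IsKer K₁)
    {a b d e₀ e₁ : ℝ} (ha : 0 ≤ a)
    (h₀ : LinIneq K₀ a b d e₀) (h₁ : LinIneq K₁ a b d e₁) :
    LinIneq (prodKer K₀ K₁) a b d (e₀ + e₁) := by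
  classical
  intro p q hp hq pa qa
  -- finite sets
  set A : Finset α := (hp.fin.toFinset ∪ hq.fin.toFinset).image Prod.fst with hA
  set B : Finset β := (hp.fin.toFinset ∪ hq.fin.toFinset).image Prod.snd with hB
  have pA : ∀ x y, x ∉ A → p (x, y) = 0 := by
    intro x y hx
    by_contra h
    apply hx
    rw [hA, Finset.mem_image]
    exact ⟨(x, y), by simp only [mem_union, Set.Finite.mem_toFinset, Function.mem_support, ne_eq, h, not_false_eq_true, true_or], rfl⟩
  have pB : ∀ x y, y ∉ B → p (x, y) = 0 := by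
    intro x y hx
    by_contra h
    apply hx
    rw [hB, Finset.mem_image]
    exact ⟨(x, y), by simp only [mem_union, Set.Finite.mem_toFinset, Function.mem_support, ne_eq, h, not_false_eq_true, true_or], rfl⟩
  have qA : ∀ x y, x ∉ A → q (x, y) = 0 := by
    intro x y hx
    by_contra h
    apply hx
    rw [hA, Finset.mem_image]
    exact ⟨(x, y), by simp only [mem_union, Set.Finite.mem_toFinset, Function.mem_support, ne_eq, h, not_false_eq_true, or_true], rfl⟩
  have qB : ∀ x y, y ∉ B → q (x, y) = 0 := by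
    intro x y hx
    by_contra h
    apply hx
    rw [hB, Finset.mem_image]
    exact ⟨(x, y), by simp only [mem_union, Set.Finite.mem_toFinset, Function.mem_support, ne_eq, h, not_false_eq_true, or_true], rfl⟩
  have pAB : ∀ x, x ∉ A ×ˢ B → p x = 0 := by
    intro x hx
    rw [Finset.mem_product, not_and_or] at hx
    rcases hx with h | h
    · exact pA _ _ h
    · exact pB _ _ h
  have qAB : ∀ x, x ∉ A ×ˢ B → q x = 0 := by
    intro x hx
    rw [Finset.mem_product, not_and_or] at hx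
    rcases hx with h | h
    · exact qA _ _ h
    · exact qB _ _ h
  set A' := kerSupp hK₀ A with hA'
  set B' := kerSupp hK₁ B with hB'
  -- marginals
  set m : β → ℝ := fun y => ∑ x ∈ A, p (x, y) with hm
  set l : β → ℝ := fun y => ∑ x ∈ A, q (x, y) with hl
  have hm0 : ∀ y, 0 ≤ m y := fun y => Finset.sum_nonneg (fun x _ => hp.nonneg _)
  have hl0 : ∀ y, 0 ≤ l y := fun y => Finset.sum_nonneg (fun x _ => hq.nonneg _)
  have hmB : ∀ y, y ∉ B → m y = 0 := fun y hy =>
    Finset.sum_eq_zero (fun x _ => pB x y hy)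
  have hlB : ∀ y, y ∉ B → l y = 0 := fun y hy =>
    Finset.sum_eq_zero (fun x _ => qB x y hy)
  have hm1 : ∑ y ∈ B, m y = 1 := by
    rw [← hp.one, tsum_fin (A ×ˢ B) pAB, Finset.sum_product_right]
  have hl1 : ∑ y ∈ B, l y = 1 := by
    rw [← hq.one, tsum_fin (A ×ˢ B) qAB, Finset.sum_product_right]
  have fm : IsFinProb m := isFinProb_of_sum B hm0 hmB hm1
  have fl : IsFinProb l := isFinProb_of_sum B hl0 hlB hl1
  have am : Antitone m := fun y y' hy => Finset.sum_le_sum
    (fun x _ => pa (Prod.mk_le_mk.2 ⟨le_refl x, hy⟩))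
  have al : Antitone l := fun y y' hy => Finset.sum_le_sum
    (fun x _ => qa (Prod.mk_le_mk.2 ⟨le_refl x, hy⟩))
  -- conditionals
  set P : β → α → ℝ := fun y x => p (x, y) / m y with hP
  set Q : β → α → ℝ := fun y x => q (x, y) / l y with hQ
  have PA : ∀ y x, x ∉ A → P y x = 0 := fun y x hx => by simp only [hP]; rw [pA x y hx, zero_div]
  have QA : ∀ y x, x ∉ A → Q y x = 0 := fun y x hx => by simp only [hQ]; rw [qA x y hx, zero_div]
  have P0 : ∀ y x, 0 ≤ P y x := fun y x => div_nonneg (hp.nonneg _) (hm0 y)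
  have Q0 : ∀ y x, 0 ≤ Q y x := fun y x => div_nonneg (hq.nonneg _) (hl0 y)
  have P1 : ∀ y, m y ≠ 0 → ∑ x ∈ A, P y x = 1 := fun y hy => by
    simp only [hP]; rw [← Finset.sum_div]; exact div_self hy
  have Q1 : ∀ y, l y ≠ 0 → ∑ x ∈ A, Q y x = 1 := fun y hy => by
    simp only [hQ]; rw [← Finset.sum_div]; exact div_self hy
  have mP : ∀ y x, m y * P y x = p (x, y) := by
    intro y x
    by_cases hy : m y = 0
    · rw [hy, zero_mul]
      by_cases hx : x ∈ A
      · exact ((Finset.sum_eq_zero_iff_of_nonneg (fun x _ => hp.nonneg _)).1 hy x hx).symm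
      · exact (pA x y hx).symm
    · simp only [hP]; (clear * - hy; field_simp)
  have lQ : ∀ y x, l y * Q y x = q (x, y) := by
    intro y x
    by_cases hy : l y = 0
    · rw [hy, zero_mul]
      by_cases hx : x ∈ A
      · exact ((Finset.sum_eq_zero_iff_of_nonneg (fun x _ => hq.nonneg _)).1 hy x hx).symm
      · exact (qA x y hx).symm
    · simp only [hQ]; (clear * - hy; field_simp)
  -- entropy of the inputs
  have ep : Hs p = Hs m + ∑ y ∈ B, m y * Hs (P y) := by
    rw [Hs_eq (A ×ˢ B) pAB, Finset.sum_product_right, chain_eq A B (fun x y => p (x, y))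
      (fun x y => hp.nonneg _), Hs_eq B hmB]
    congr 1
    apply Finset.sum_congr rfl
    intro y _
    rw [Hs_eq A (PA y)]
  have eq : Hs q = Hs l + ∑ y ∈ B, l y * Hs (Q y) := by
    rw [Hs_eq (A ×ˢ B) qAB, Finset.sum_product_right, chain_eq A B (fun x y => q (x, y))
      (fun x y => hq.nonneg _), Hs_eq B hlB]
    congr 1
    apply Finset.sum_congr rfl
    intro y _
    rw [Hs_eq A (QA y)]
  -- conditional outputs
  set c : β × β → α → ℝ := fun y k => outG K₀ (P y.1) (Q y.2) k with hc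
  have cA : ∀ y k, k ∉ A' → c y k = 0 := fun y k hk => out_zero hK₀ A (PA _) (QA _) hk
  have c0 : ∀ y k, 0 ≤ c y k := by
    intro y k
    simp only [hc]
    rw [out_eq A (PA _) (QA _)]
    exact Finset.sum_nonneg (fun i _ => Finset.sum_nonneg (fun j _ =>
      mul_nonneg (mul_nonneg (P0 _ _) (Q0 _ _)) (hK₀.nonneg _ _ _)))
  have c1 : ∀ y : β × β, m y.1 ≠ 0 → l y.2 ≠ 0 → ∑ k ∈ A', c y k = 1 := by
    intro y h1 h2
    have : ∀ k, c y k = ∑ i ∈ A, ∑ j ∈ A, P y.1 i * Q y.2 j * K₀ k i j := fun k =>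
      out_eq A (PA _) (QA _) k
    rw [Finset.sum_congr rfl (fun k _ => this k), Finset.sum_comm]
    have e : ∀ i ∈ A, ∑ k ∈ A', ∑ j ∈ A, P y.1 i * Q y.2 j * K₀ k i j = P y.1 i := by
      intro i hi
      rw [Finset.sum_comm]
      have : ∀ j ∈ A, ∑ k ∈ A', P y.1 i * Q y.2 j * K₀ k i j = P y.1 i * Q y.2 j := by
        intro j hj
        rw [← Finset.mul_sum, kerSupp_sum hK₀ A hi hj, mul_one]
      rw [Finset.sum_congr rfl this, ← Finset.mul_sum, Q1 _ h2, mul_one]
    rw [Finset.sum_congr rfl e, P1 _ h1]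
  -- output formula
  have oz : ∀ k, k ∉ A' ×ˢ B' → outG (prodKer K₀ K₁) p q k = 0 := by
    intro k hk
    rw [out_eq (A ×ˢ B) pAB qAB]
    apply Finset.sum_eq_zero
    intro i hi
    apply Finset.sum_eq_zero
    intro j hj
    rw [Finset.mem_product] at hi hj
    rw [Finset.mem_product, not_and_or] at hk
    unfold prodKer
    rcases hk with h | h
    · rw [kerSupp_spec hK₀ A hi.1 hj.1 h]; ring
    · rw [kerSupp_spec hK₁ B hi.2 hj.2 h]; ring
  have of : ∀ k₀ k₁, outG (prodKer K₀ K₁) p q (k₀, k₁) =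
      ∑ y ∈ B ×ˢ B, (m y.1 * l y.2) * K₁ k₁ y.1 y.2 * c y k₀ := by
    intro k₀ k₁
    rw [out_eq (A ×ˢ B) pAB qAB]
    have e : ∀ y ∈ B ×ˢ B, (m y.1 * l y.2) * K₁ k₁ y.1 y.2 * c y k₀ =
        ∑ i ∈ A, ∑ j ∈ A, p (i, y.1) * q (j, y.2) * (K₀ k₀ i j * K₁ k₁ y.1 y.2) := by
      intro y _
      have : c y k₀ = ∑ i ∈ A, ∑ j ∈ A, P y.1 i * Q y.2 j * K₀ k₀ i j :=
        out_eq A (PA _) (QA _) k₀
      rw [this, Finset.mul_sum]
      apply Finset.sum_congr rfl
      intro i _
      rw [Finset.mul_sum]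
      apply Finset.sum_congr rfl
      intro j _
      rw [← mP y.1 i, ← lQ y.2 j]
      ring
    rw [Finset.sum_congr rfl e, Finset.sum_product_right, Finset.sum_product]
    apply Finset.sum_congr rfl
    intro y₁ _
    have e2 : ∀ i ∈ A, ∑ j ∈ A ×ˢ B, p (i, y₁) * q j * prodKer K₀ K₁ (k₀, k₁) (i, y₁) j =
        ∑ y₂ ∈ B, ∑ j ∈ A, p (i, y₁) * q (j, y₂) * (K₀ k₀ i j * K₁ k₁ y₁ y₂) := by
      intro i _
      rw [Finset.sum_product_right]
      rfl
    rw [Finset.sum_congr rfl e2, Finset.sum_comm]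
  have o1 : ∀ k₁, outG K₁ m l k₁ = ∑ y ∈ B ×ˢ B, (m y.1 * l y.2) * K₁ k₁ y.1 y.2 := by
    intro k₁
    rw [out_eq B hmB hlB, Finset.sum_product]
  have hout : Hs (outG (prodKer K₀ K₁) p q) = ∑ k₁ ∈ B', ∑ k₀ ∈ A',
      negMulLog (∑ y ∈ B ×ˢ B, (m y.1 * l y.2) * K₁ k₁ y.1 y.2 * c y k₀) := by
    rw [Hs_eq (A' ×ˢ B') oz, Finset.sum_product_right]
    apply Finset.sum_congr rfl
    intro k₁ _
    apply Finset.sum_congr rfl
    intro k₀ _
    rw [of]
  have ho1 : Hs (outG K₁ m l) = ∑ k₁ ∈ B',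
      negMulLog (∑ y ∈ B ×ˢ B, (m y.1 * l y.2) * K₁ k₁ y.1 y.2) := by
    rw [Hs_eq B' (fun k hk => out_zero hK₁ B hmB hlB hk)]
    apply Finset.sum_congr rfl
    intro k₁ _
    rw [o1]
  have hoc : ∀ y, Hs (c y) = ∑ k ∈ A', negMulLog (c y k) := fun y => Hs_eq A' (cA y)
  have main := chain_ineq (B ×ˢ B) A' B' (fun y => m y.1 * l y.2) (fun k y => K₁ k y.1 y.2) c
    (fun y _ => mul_nonneg (hm0 _) (hl0 _)) (fun y _ k _ => hK₁.nonneg _ _ _)
    (fun y hy => by
      rw [Finset.mem_product] at hy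
      exact kerSupp_sum hK₁ B hy.1 hy.2)
    (fun y _ k _ => c0 y k)
    (fun y _ hy => c1 y (left_ne_zero_of_mul hy) (right_ne_zero_of_mul hy))
  rw [← hout, ← ho1] at main
  have main2 : Hs (outG K₁ m l) + ∑ y ∈ B ×ˢ B, (m y.1 * l y.2) * Hs (c y) ≤
      Hs (outG (prodKer K₀ K₁) p q) := by
    refine le_trans (le_of_eq ?_) main
    congr 1
    apply Finset.sum_congr rfl
    intro y _
    rw [hoc]
  -- the one-step inequality for the conditionals
  have hcond : ∀ y ∈ B ×ˢ B, (m y.1 * l y.2) * (b * Hs (P y.1) + d * Hs (Q y.2) + e₀) ≤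
      (m y.1 * l y.2) * (a * Hs (c y)) := by
    intro y _
    by_cases h : m y.1 * l y.2 = 0
    · rw [h]; simp
    · have h1 := left_ne_zero_of_mul h
      have h2 := right_ne_zero_of_mul h
      apply mul_le_mul_of_nonneg_left _ (mul_nonneg (hm0 _) (hl0 _))
      refine h₀ (P y.1) (Q y.2) (isFinProb_of_sum A (P0 _) (PA _) (P1 _ h1))
        (isFinProb_of_sum A (Q0 _) (QA _) (Q1 _ h2)) ?_ ?_
      · intro x x' hx
        exact div_le_div_of_nonneg_right (pa (Prod.mk_le_mk.2 ⟨hx, le_refl _⟩)) (hm0 _)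
      · intro x x' hx
        exact div_le_div_of_nonneg_right (qa (Prod.mk_le_mk.2 ⟨hx, le_refl _⟩)) (hl0 _)
  have hsum := Finset.sum_le_sum hcond
  have s1 : ∑ y ∈ B ×ˢ B, (m y.1 * l y.2) * (b * Hs (P y.1) + d * Hs (Q y.2) + e₀) =
      b * ∑ y ∈ B, m y * Hs (P y) + d * ∑ y ∈ B, l y * Hs (Q y) + e₀ := by
    have : ∀ y ∈ B ×ˢ B, (m y.1 * l y.2) * (b * Hs (P y.1) + d * Hs (Q y.2) + e₀) =
        (b * (m y.1 * Hs (P y.1))) * l y.2 + m y.1 * (d * (l y.2 * Hs (Q y.2))) +
        (e₀ * m y.1) * l y.2 := fun y _ => by ring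
    rw [Finset.sum_congr rfl this, Finset.sum_add_distrib, Finset.sum_add_distrib]
    have t1 : ∑ y ∈ B ×ˢ B, (b * (m y.1 * Hs (P y.1))) * l y.2 =
        b * ∑ y ∈ B, m y * Hs (P y) := by
      rw [Finset.sum_product, Finset.mul_sum]
      apply Finset.sum_congr rfl
      intro y _
      dsimp only
      rw [← Finset.mul_sum, hl1, mul_one]
    have t2 : ∑ y ∈ B ×ˢ B, m y.1 * (d * (l y.2 * Hs (Q y.2))) =
        d * ∑ y ∈ B, l y * Hs (Q y) := by
      rw [Finset.sum_product_right, Finset.mul_sum]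
      apply Finset.sum_congr rfl
      intro y _
      dsimp only
      rw [← Finset.sum_mul, hm1, one_mul]
    have t3 : ∑ y ∈ B ×ˢ B, (e₀ * m y.1) * l y.2 = e₀ := by
      rw [Finset.sum_product]
      have : ∀ y ∈ B, ∑ y' ∈ B, (e₀ * m y) * l y' = e₀ * m y := by
        intro y _
        rw [← Finset.mul_sum, hl1, mul_one]
      rw [Finset.sum_congr rfl this, ← Finset.mul_sum, hm1, mul_one]
    rw [t1, t2, t3]
  have s2 : ∑ y ∈ B ×ˢ B, (m y.1 * l y.2) * (a * Hs (c y)) =
      a * ∑ y ∈ B ×ˢ B, (m y.1 * l y.2) * Hs (c y) := by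
    rw [Finset.mul_sum]
    exact Finset.sum_congr rfl (fun y _ => by ring)
  rw [s1, s2] at hsum
  have hbeta := h₁ m l fm fl am al
  have := mul_le_mul_of_nonneg_left main2 ha
  rw [ep, eq]
  linarith only [hsum, hbeta, this]


theorem Hs_comp_equiv {α β : Type} (e : α ≃ β) (p : β → ℝ) : Hs (p ∘ e) = Hs p := by
  unfold Hs
  exact e.tsum_eq (fun x => Real.negMulLog (p x))

theorem outG_comp_equiv {α β : Type} (e : α ≃ β) (K : β → β → β → ℝ) (p q : β → ℝ) (k : α) :
    outG (fun k i j => K (e k) (e i) (e j)) (p ∘ e) (q ∘ e) k = outG K p q (e k) := by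
  unfold outG
  exact (e.prodCongr e).tsum_eq (fun ij : β × β => K (e k) ij.1 ij.2 * (p ij.1 * q ij.2))

theorem IsFinProb.comp_equiv {α β : Type} (e : α ≃ β) {p : β → ℝ} (h : IsFinProb p) :
    IsFinProb (p ∘ e) := by
  refine ⟨fun x => h.nonneg _, ?_, ?_⟩
  · rw [Function.support_comp_eq_preimage]
    exact h.fin.preimage e.injective.injOn
  · rw [← h.one]
    exact e.tsum_eq p

theorem IsKer.prod {α β : Type} {K₀ : α → α → α → ℝ} {K₁ : β → β → β → ℝ}
    (h₀ : IsKer K₀) (h₁ : IsKer K₁) : IsKer (prodKer K₀ K₁) := by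
  refine ⟨fun k i j => mul_nonneg (h₀.nonneg _ _ _) (h₁.nonneg _ _ _), ?_, ?_⟩
  · intro i j
    apply ((h₀.fin i.1 j.1).prod (h₁.fin i.2 j.2)).subset
    intro k hk
    rw [Function.mem_support] at hk
    exact ⟨left_ne_zero_of_mul hk, right_ne_zero_of_mul hk⟩
  · intro i j
    unfold prodKer
    have s0 : Summable fun k : α => K₀ k i.1 j.1 := summable_of_hasFiniteSupport (h₀.fin i.1 j.1)
    have s1 : Summable fun k : β => K₁ k i.2 j.2 := summable_of_hasFiniteSupport (h₁.fin i.2 j.2)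
    have s2 : Summable fun k : α × β => K₀ k.1 i.1 j.1 * K₁ k.2 i.2 j.2 := by
      apply summable_of_hasFiniteSupport
      apply ((h₀.fin i.1 j.1).prod (h₁.fin i.2 j.2)).subset
      intro k hk
      rw [Function.mem_support] at hk
      exact ⟨left_ne_zero_of_mul hk, right_ne_zero_of_mul hk⟩
    rw [← s0.tsum_mul_tsum s1 s2, h₀.one, h₁.one, one_mul]

theorem IsKer.of_equiv {α β : Type} (e : α ≃ β) {K : β → β → β → ℝ}
    (h : IsKer (fun k i j => K (e k) (e i) (e j))) : IsKer K := by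
  refine ⟨fun k i j => ?_, fun i j => ?_, fun i j => ?_⟩
  · have := h.nonneg (e.symm k) (e.symm i) (e.symm j)
    simpa only [ge_iff_le, Equiv.apply_symm_apply] using this
  · have := h.fin (e.symm i) (e.symm j)
    simp only [Equiv.apply_symm_apply] at this
    have h2 : (Function.support fun k => K k i j) =
        e '' (Function.support fun k => K (e k) i j) := by
      ext k
      simp only [Function.mem_support, Set.mem_image]
      constructor
      · intro hk
        exact ⟨e.symm k, by simpa only [Equiv.apply_symm_apply, ne_eq] using hk, by simp⟩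
      · rintro ⟨x, hx, rfl⟩
        exact hx
    rw [h2]
    exact this.image _
  · have := h.one (e.symm i) (e.symm j)
    simp only [Equiv.apply_symm_apply] at this
    rw [← this]
    exact (e.tsum_eq (fun k => K k i j)).symm

theorem ker_isKer {η : ℝ} (h1 : ∀ i j, ∑' k, ker η k i j = 1) : IsKer (ker η) := by
  refine ⟨fun k i j => ?_, fun i j => ?_, h1⟩
  · unfold ker
    split
    · positivity
    · exact le_refl _
  · apply (Finset.range (i + j + 1)).finite_toSet.subset
    intro k hk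
    rw [Function.mem_support] at hk
    rw [Finset.mem_coe, Finset.mem_range]
    by_contra h
    apply hk
    unfold ker
    rw [if_neg (by omega)]

theorem kern_succ {n : ℕ} (η : ℝ) (k i j : ℕ × (Fin n → ℕ)) :
    kern η (Fin.consOrderIso (fun _ => ℕ) k) (Fin.consOrderIso (fun _ => ℕ) i)
      (Fin.consOrderIso (fun _ => ℕ) j) = prodKer (ker η) (kern η) k i j := by
  unfold kern prodKer
  rw [Fin.prod_univ_succ]
  rfl

theorem kern_isKer {η : ℝ} (h1 : ∀ i j, ∑' k, ker η k i j = 1) (n : ℕ) :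
    IsKer (kern (n := n) η) := by
  induction n with
  | zero =>
    refine ⟨fun k i j => ?_, fun i j => Set.toFinite _, fun i j => ?_⟩
    · simp only [kern, univ_eq_empty, prod_empty, zero_le_one]
    · rw [tsum_fintype]
      simp only [univ_unique, kern, univ_eq_empty, prod_empty, sum_const, card_singleton, one_smul]
  | succ n ih =>
    apply IsKer.of_equiv (Fin.consOrderIso (fun _ : Fin (n + 1) => ℕ)).toEquiv
    have := (ker_isKer h1).prod ih
    convert this using 4 with k i j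
    exact kern_succ η k i j

end Vale.Agent.P369
end
end
end

section

attribute [-instance] ProperSMul.toContinuousSMul IsTopologicalTorsor.toContinuousSMul IdemSemiring.toCanonicallyOrderedAdd IdemSemiring.toMulLeftMono IdemSemiring.toMulRightMono AddQuantale.instAddLeftMono AddQuantale.instAddRightMono Quantale.instMulLeftMono Quantale.instMulRightMono FiniteDimensional.rclike_to_real IsScalarTower.complexToReal FiniteDimensional.complexToReal

section

section

/-!
The output of the beam splitter along the two thermal flows.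
-/

namespace Vale.Agent.P369

open Real

section tau

theorem tau_eq {r : ℝ} (hr : 0 < r) (k : ℕ) : tau r k = (1 / (r + 1)) * (r / (r + 1)) ^ k := by
  unfold tau
  rw [div_pow, pow_succ]
  field_simp

theorem tau_pos {r : ℝ} (hr : 0 < r) (k : ℕ) : 0 < tau r k := by
  unfold tau; positivity

theorem tau_succ {r : ℝ} (hr : 0 < r) (k : ℕ) : tau r (k + 1) = r / (r + 1) * tau r k := by
  rw [tau_eq hr, tau_eq hr, pow_succ]; ring

theorem ratio_lt {r : ℝ} (hr : 0 < r) : r / (r + 1) < 1 := by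
  rw [div_lt_one (by linarith)]; linarith only []

theorem ratio_norm {r : ℝ} (hr : 0 < r) : ‖r / (r + 1)‖ < 1 := by
  rw [Real.norm_of_nonneg (by positivity)]; exact ratio_lt hr

theorem hasSum_tau {r : ℝ} (hr : 0 < r) : HasSum (tau r) 1 := by
  have := (hasSum_geometric_of_norm_lt_one (ratio_norm hr)).mul_left (1 / (r + 1))
  have e : 1 / (r + 1) * (1 - r / (r + 1))⁻¹ = 1 := by
    have h : (r + 1) ≠ 0 := by positivity
    have : 1 - r / (r + 1) = 1 / (r + 1) := by field_simp; ring
    rw [this]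
    field_simp
  rw [e] at this
  exact this.congr_fun fun k => tau_eq hr k

theorem hasSum_mul_tau {r : ℝ} (hr : 0 < r) : HasSum (fun k : ℕ => (k : ℝ) * tau r k) r := by
  have := (hasSum_coe_mul_geometric_of_norm_lt_one (ratio_norm hr)).mul_left (1 / (r + 1))
  have e : 1 / (r + 1) * (r / (r + 1) / (1 - r / (r + 1)) ^ 2) = r := by
    have h : (r + 1) ≠ 0 := by positivity
    have : 1 - r / (r + 1) = 1 / (r + 1) := by field_simp; ring
    rw [this]
    field_simp
  rw [e] at this
  refine this.congr_fun fun k => ?_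
  rw [tau_eq hr]; ring

theorem summable_weight_tau {r : ℝ} (hr : 0 < r) :
    Summable fun k : ℕ => ((k : ℝ) + 1) * tau r k := by
  refine ((hasSum_mul_tau hr).add (hasSum_tau hr)).summable.congr fun k => ?_
  ring

theorem log_tau {r : ℝ} (hr : 0 < r) (k : ℕ) :
    Real.log (tau r k) = -(Real.log (1 + r) + k * beta r) := by
  have h1 : 1 + 1 / r = (r + 1) / r := by field_simp
  unfold tau beta
  rw [h1, Real.log_div (by positivity) (by positivity), Real.log_div (by positivity) hr.ne',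
    Real.log_pow, Real.log_pow, add_comm 1 r]
  push_cast
  ring

theorem Hs_tau {r : ℝ} (hr : 0 < r) : Hs (tau r) = Real.log (1 + r) + r * beta r := by
  have : HasSum (fun k => Real.negMulLog (tau r k)) (Real.log (1 + r) + r * beta r) := by
    have h := ((hasSum_tau hr).mul_left (Real.log (1 + r))).add
      ((hasSum_mul_tau hr).mul_left (beta r))
    rw [mul_one, mul_comm (beta r) r] at h
    refine h.congr_fun fun k => ?_
    unfold Real.negMulLog
    rw [log_tau hr]
    ring
  exact this.tsum_eq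

theorem theta_mul_beta {r : ℝ} (hr : 0 < r) : theta r * beta r = 1 := by
  unfold theta
  have := (beta_pos hr).ne'
  field_simp

theorem theta_Hs_tau {r : ℝ} (hr : 0 < r) : theta r * (Hs (tau r) - Real.log (1 + r)) = r := by
  rw [Hs_tau hr]
  linear_combination r * theta_mul_beta hr

end tau

section out

variable {η : ℝ}

theorem summable_ker_mul (h0 : 0 ≤ η) (h1 : η ≤ 1) (k : ℕ) {F G : ℕ → ℝ}
    (hF : Summable fun i : ℕ => |F i|) (hG : Summable fun j : ℕ => |G j|) :
    Summable fun x : ℕ × ℕ => ker η k x.1 x.2 * (F x.1 * G x.2) := by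
  apply Summable.of_norm_bounded (hF.mul_of_nonneg hG (fun i => by (clear * -; positivity))
    (fun j => by positivity))
  rintro ⟨i, j⟩
  simp only [norm_mul, Real.norm_eq_abs]
  rw [abs_of_nonneg (ker_nonneg η k i j)]
  have := ker_le_one h0 h1 k i j
  have h3 : 0 ≤ |F i| * |G j| := by (clear * -; positivity)
  calc ker η k i j * (|F i| * |G j|) ≤ 1 * (|F i| * |G j|) := by (clear * - this; gcongr)
    _ = _ := by ring

theorem hasSum_geo_shA {f : ℕ → ℕ → ℝ} {p q : ℕ → ℝ} {ρ C : ℝ} (hp : ∀ i, p (i + 1) = ρ * p i)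
    (h : HasSum (fun x : ℕ × ℕ => f x.1 x.2 * (p x.1 * q x.2)) C) :
    HasSum (fun x : ℕ × ℕ => shA f x.1 x.2 * (p x.1 * q x.2)) (ρ * C) := by
  apply hasSum_shA (F := fun i j => p i * q j)
  refine (h.mul_left ρ).congr_fun fun x => ?_
  rw [hp]; ring

theorem hasSum_geo_shB {f : ℕ → ℕ → ℝ} {p q : ℕ → ℝ} {ρ C : ℝ} (hq : ∀ i, q (i + 1) = ρ * q i)
    (h : HasSum (fun x : ℕ × ℕ => f x.1 x.2 * (p x.1 * q x.2)) C) :
    HasSum (fun x : ℕ × ℕ => shB f x.1 x.2 * (p x.1 * q x.2)) (ρ * C) := by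
  apply hasSum_shB (F := fun i j => p i * q j)
  refine (h.mul_left ρ).congr_fun fun x => ?_
  rw [hq]; ring

/-- thermal inputs give a thermal output. -/
theorem out_tau (h0 : 0 ≤ η) (h1 : η ≤ 1) {r s : ℝ} (hr : 0 < r) (hs : 0 < s) (k : ℕ) :
    out η (tau r) (tau s) k = tau (η * r + (1 - η) * s) k := by
  have h1' : 0 ≤ 1 - η := by linarith
  have hc : 0 < η * r + (1 - η) * s := by
    rcases h0.eq_or_lt with h | h
    · rw [← h]; simpa only [zero_mul, sub_zero, one_mul, zero_add] using hs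
    · positivity
  have A0 : Summable fun i => |tau r i| := (hasSum_tau hr).summable.abs
  have B0 : Summable fun i => |tau s i| := (hasSum_tau hs).summable.abs
  have H : ∀ k, HasSum (fun x : ℕ × ℕ => ker η k x.1 x.2 * (tau r x.1 * tau s x.2))
      (out η (tau r) (tau s) k) := fun k => (summable_ker_mul h0 h1 k A0 B0).hasSum
  have HA := fun k => hasSum_geo_shA (tau_succ hr) (H k)
  have HB := fun k => hasSum_geo_shB (tau_succ hs) (H k)
  have HAB := fun k => hasSum_geo_shA (tau_succ hr) (HB k)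
  have hr1 : r + 1 ≠ 0 := by positivity
  have hs1 : s + 1 ≠ 0 := by positivity
  have hc1 : η * r + (1 - η) * s + 1 ≠ 0 := by (clear * - hc; positivity)
  induction k with
  | zero =>
    have e1 := ((H 0).sub ((HA 0).mul_left (1 - η))).sub ((HB 0).mul_left η)
    have e2 : HasSum (fun x : ℕ × ℕ => ker η 0 x.1 x.2 * (tau r x.1 * tau s x.2) -
        (1 - η) * (shA (ker η 0) x.1 x.2 * (tau r x.1 * tau s x.2)) -
        η * (shB (ker η 0) x.1 x.2 * (tau r x.1 * tau s x.2))) (tau r 0 * tau s 0) := by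
      have : ∀ x : ℕ × ℕ, ker η 0 x.1 x.2 * (tau r x.1 * tau s x.2) -
        (1 - η) * (shA (ker η 0) x.1 x.2 * (tau r x.1 * tau s x.2)) -
        η * (shB (ker η 0) x.1 x.2 * (tau r x.1 * tau s x.2)) =
        if x = (0, 0) then tau r 0 * tau s 0 else 0 := by
        rintro ⟨i, j⟩
        have := ker_zero_rec h0 h1 i j
        by_cases hx : i = 0 ∧ j = 0
        · obtain ⟨rfl, rfl⟩ := hx
          simp only [and_self, if_true] at this
          simp only [if_true]
          linear_combination (tau r 0 * tau s 0) * this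
        · rw [if_neg hx] at this
          rw [if_neg (by simpa only [Prod.ext_iff, not_and] using hx)]
          simp only
          linear_combination (tau r i * tau s j) * this
      simp only [this]
      exact hasSum_ite_eq _ _
    have e3 := e1.unique e2
    have t0 : ∀ x : ℝ, tau x 0 = 1 / (x + 1) := fun x => by simp [tau]
    rw [t0 r, t0 s] at e3
    rw [t0]
    have key : out η (tau r) (tau s) 0 * (η * r + (1 - η) * s + 1) = 1 := by
      have h2 : (out η (tau r) (tau s) 0 - (1 - η) * (r / (r + 1) * out η (tau r) (tau s) 0) -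
        η * (s / (s + 1) * out η (tau r) (tau s) 0)) * ((r + 1) * (s + 1)) = 1 := by
        rw [e3]; field_simp
      have h3 : (out η (tau r) (tau s) 0 - (1 - η) * (r / (r + 1) * out η (tau r) (tau s) 0) -
        η * (s / (s + 1) * out η (tau r) (tau s) 0)) * ((r + 1) * (s + 1)) =
        out η (tau r) (tau s) 0 * (η * r + (1 - η) * s + 1) := by
        field_simp
        ring
      rw [← h3, h2]
    rw [eq_div_iff hc1]
    exact key
  | succ k ih =>
    have e1 := ((H (k+1)).sub ((HA (k+1)).mul_left (1 - η))).sub ((HB (k+1)).mul_left η)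
    have e2 := (((HA k).mul_left η).add ((HB k).mul_left (1 - η))).sub (HAB k)
    have e3 := e1.unique (e2.congr_fun fun x => by
      have := ker_rec h0 h1 k x.1 x.2
      linear_combination (tau r x.1 * tau s x.2) * this)
    rw [tau_succ hc, ← ih]
    have h3 : (out η (tau r) (tau s) (k + 1) - (1 - η) * (r / (r + 1) *
        out η (tau r) (tau s) (k + 1)) - η * (s / (s + 1) * out η (tau r) (tau s) (k + 1))) *
        ((r + 1) * (s + 1)) = out η (tau r) (tau s) (k + 1) * (η * r + (1 - η) * s + 1) := by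
      field_simp
      ring
    rw [e3] at h3
    have h4 : (η * (r / (r + 1) * out η (tau r) (tau s) k) + (1 - η) * (s / (s + 1) *
        out η (tau r) (tau s) k) - r / (r + 1) * (s / (s + 1) * out η (tau r) (tau s) k)) *
        ((r + 1) * (s + 1)) = out η (tau r) (tau s) k * (η * r + (1 - η) * s) := by
      field_simp
      ring
    rw [h4] at h3
    rw [eq_comm, div_mul_eq_mul_div, div_eq_iff hc1]
    linear_combination h3

end out

end Vale.Agent.P369
end
end
end

section

attribute [-instance] ProperSMul.toContinuousSMul IsTopologicalTorsor.toContinuousSMul IdemSemiring.toCanonicallyOrderedAdd IdemSemiring.toMulLeftMono IdemSemiring.toMulRightMono AddQuantale.instAddLeftMono AddQuantale.instAddRightMono Quantale.instMulLeftMono Quantale.instMulRightMono FiniteDimensional.rclike_to_real IsScalarTower.complexToReal FiniteDimensional.complexToReal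

section

section

/-! Orthogonality relations of the beam splitter amplitudes. -/

namespace Vale.Agent.P369

open Finset

section oneMode

variable {s c : ℝ}

/-- overlap of two columns of the amplitude matrix at level `T` -/
noncomputable def ovl (s c : ℝ) (T i j i' j' : ℕ) : ℝ :=
  ∑ x ∈ Finset.HasAntidiagonal.antidiagonal T, amp s c x.1 x.2 i j * amp s c x.1 x.2 i' j'

theorem ovl_rec_i (h : s ^ 2 + c ^ 2 = 1) (T i j i' j' : ℕ) :
    Real.sqrt (i + 1) * ovl s c (T + 1) (i + 1) j i' j' =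
      Real.sqrt i' * ovl s c T i j (i' - 1) j' := by
  unfold ovl
  have e1 : Real.sqrt (i + 1) * ∑ x ∈ Finset.HasAntidiagonal.antidiagonal (T + 1),
      amp s c x.1 x.2 (i + 1) j * amp s c x.1 x.2 i' j' =
      ∑ x ∈ Finset.HasAntidiagonal.antidiagonal (T + 1),
        s * Real.sqrt x.1 * amp s c (x.1 - 1) x.2 i j * amp s c x.1 x.2 i' j' -
      ∑ x ∈ Finset.HasAntidiagonal.antidiagonal (T + 1),
        c * Real.sqrt x.2 * amp s c x.1 (x.2 - 1) i j * amp s c x.1 x.2 i' j' := by
    rw [Finset.mul_sum, ← Finset.sum_sub_distrib]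
    apply Finset.sum_congr rfl
    intro x _
    rw [← mul_assoc, amp_A3]
    ring
  rw [e1, Finset.Nat.sum_antidiagonal_succ, Finset.Nat.sum_antidiagonal_succ', Finset.mul_sum]
  simp only [Nat.cast_zero, Real.sqrt_zero, mul_zero, zero_mul, Nat.add_sub_cancel, zero_add]
  rw [← Finset.sum_sub_distrib]
  apply Finset.sum_congr rfl
  intro x _
  have h5 := amp_A5 (s := s) (c := c) h x.1 x.2 i' j'
  push_cast
  linear_combination (-(amp s c x.1 x.2 i j)) * h5

theorem ovl_rec_j (h : s ^ 2 + c ^ 2 = 1) (T i j i' j' : ℕ) :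
    Real.sqrt (j + 1) * ovl s c (T + 1) i (j + 1) i' j' =
      Real.sqrt j' * ovl s c T i j i' (j' - 1) := by
  unfold ovl
  have e1 : Real.sqrt (j + 1) * ∑ x ∈ Finset.HasAntidiagonal.antidiagonal (T + 1),
      amp s c x.1 x.2 i (j + 1) * amp s c x.1 x.2 i' j' =
      ∑ x ∈ Finset.HasAntidiagonal.antidiagonal (T + 1),
        c * Real.sqrt x.1 * amp s c (x.1 - 1) x.2 i j * amp s c x.1 x.2 i' j' +
      ∑ x ∈ Finset.HasAntidiagonal.antidiagonal (T + 1),
        s * Real.sqrt x.2 * amp s c x.1 (x.2 - 1) i j * amp s c x.1 x.2 i' j' := by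
    rw [Finset.mul_sum, ← Finset.sum_add_distrib]
    apply Finset.sum_congr rfl
    intro x _
    rw [← mul_assoc, amp_A4]
    ring
  rw [e1, Finset.Nat.sum_antidiagonal_succ, Finset.Nat.sum_antidiagonal_succ', Finset.mul_sum]
  simp only [Nat.cast_zero, Real.sqrt_zero, mul_zero, zero_mul, zero_add,
    Nat.add_sub_cancel]
  rw [← Finset.sum_add_distrib]
  apply Finset.sum_congr rfl
  intro x _
  have h6 := amp_A6 (s := s) (c := c) h x.1 x.2 i' j'
  push_cast
  linear_combination (-(amp s c x.1 x.2 i j)) * h6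

theorem ovl_eq (h : s ^ 2 + c ^ 2 = 1) (T : ℕ) : ∀ i j i' j' : ℕ, i + j = T → i' + j' = T →
    ovl s c T i j i' j' = if i = i' then 1 else 0 := by
  induction T with
  | zero =>
    intro i j i' j' h1 h2
    have a1 : i = 0 := by omega
    have a2 : j = 0 := by omega
    have a3 : i' = 0 := by omega
    have a4 : j' = 0 := by omega
    subst a1 a2 a3 a4
    simp only [ovl, HasAntidiagonal.antidiagonal_zero, sum_singleton, amp_zero_zero, and_self, ↓reduceIte, mul_one]
  | succ T ih =>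
    intro i j i' j' h1 h2
    rcases i with _ | i
    · rcases j with _ | j
      · omega
      have hj := ovl_rec_j h T 0 j i' j'
      have hp : (0 : ℝ) < Real.sqrt ((j : ℝ) + 1) := Real.sqrt_pos.mpr (by (clear * -; positivity))
      rcases j' with _ | j'
      · rw [Nat.cast_zero, Real.sqrt_zero, zero_mul] at hj
        rw [if_neg (by omega)]
        exact (mul_eq_zero.mp hj).resolve_left hp.ne'
      · rw [Nat.add_sub_cancel, ih 0 j i' j' (by omega) (by (clear * - h2; omega))] at hj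
        by_cases hi : 0 = i'
        · rw [if_pos hi, mul_one] at hj
          rw [if_pos hi]
          have : j = j' := by (clear * - h1 h2 hi; omega)
          subst this
          push_cast at hj
          exact mul_left_cancel₀ hp.ne' (by rw [hj, mul_one])
        · rw [if_neg hi, mul_zero] at hj
          rw [if_neg hi]
          exact (mul_eq_zero.mp hj).resolve_left hp.ne'
    · have hi := ovl_rec_i h T i j i' j'
      have hp : (0 : ℝ) < Real.sqrt ((i : ℝ) + 1) := Real.sqrt_pos.mpr (by (clear * -; positivity))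
      rcases i' with _ | i'
      · rw [Nat.cast_zero, Real.sqrt_zero, zero_mul] at hi
        rw [if_neg (by omega)]
        exact (mul_eq_zero.mp hi).resolve_left hp.ne'
      · rw [Nat.add_sub_cancel, ih i j i' j' (by omega) (by omega)] at hi
        by_cases h' : i = i'
        · rw [if_pos h', mul_one] at hi
          rw [if_pos (by omega)]
          subst h'
          push_cast at hi
          exact mul_left_cancel₀ hp.ne' (by rw [hi, mul_one])
        · rw [if_neg h', mul_zero] at hi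
          rw [if_neg (by omega)]
          exact (mul_eq_zero.mp hi).resolve_left hp.ne'

theorem col_orth (h : s ^ 2 + c ^ 2 = 1) (T i i' : ℕ) (hi : i ≤ T) (hi' : i' ≤ T) :
    ∑ m ∈ range (T + 1), amp s c m (T - m) i (T - i) * amp s c m (T - m) i' (T - i') =
      if i = i' then 1 else 0 := by
  rw [← ovl_eq h T i (T - i) i' (T - i') (by omega) (by omega)]
  unfold ovl
  rw [Finset.Nat.sum_antidiagonal_eq_sum_range_succ
    (fun a b => amp s c a b i (T - i) * amp s c a b i' (T - i'))]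

/-- the amplitude matrix at level `T` -/
noncomputable def ampM (s c : ℝ) (T : ℕ) : Matrix (Fin (T + 1)) (Fin (T + 1)) ℝ :=
  fun m i => amp s c m (T - m) i (T - i)

theorem ampM_orth (h : s ^ 2 + c ^ 2 = 1) (T : ℕ) : (ampM s c T).transpose * ampM s c T = 1 := by
  ext i i'
  rw [Matrix.mul_apply, Matrix.one_apply]
  have h1 := col_orth h T i i' (by omega) (by omega)
  rw [Finset.sum_range (fun m => amp s c m (T - m) i (T - i) * amp s c m (T - m) i' (T - i'))] at h1
  simp only [Matrix.transpose_apply]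
  unfold ampM
  rw [h1]
  simp only [Fin.ext_iff]

theorem row_orth (h : s ^ 2 + c ^ 2 = 1) (T m m' : ℕ) (hm : m ≤ T) (hm' : m' ≤ T) :
    ∑ i ∈ range (T + 1), amp s c m (T - m) i (T - i) * amp s c m' (T - m') i (T - i) =
      if m = m' then 1 else 0 := by
  have h1 := mul_eq_one_comm.mp (ampM_orth h T)
  have h2 := congrFun (congrFun h1 ⟨m, by omega⟩) ⟨m', by omega⟩
  rw [Matrix.mul_apply, Matrix.one_apply] at h2
  simp only [Matrix.transpose_apply, Fin.mk.injEq] at h2
  unfold ampM at h2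
  rw [Finset.sum_range (fun i => amp s c m (T - m) i (T - i) * amp s c m' (T - m') i (T - i))]
  exact h2

end oneMode

section nMode

variable {n : ℕ} {s c : ℝ}

/-- `n`-mode amplitude -/
noncomputable def ampn (s c : ℝ) (m l' k l : Fin n → ℕ) : ℝ :=
  ∏ j, amp s c (m j) (l' j) (k j) (l j)

/-- configurations below `T` -/
def below (T : Fin n → ℕ) : Finset (Fin n → ℕ) := Fintype.piFinset fun j => range (T j + 1)

theorem mem_below {T k : Fin n → ℕ} : k ∈ below T ↔ ∀ j, k j ≤ T j := by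
  unfold below
  rw [Fintype.mem_piFinset]
  simp only [Finset.mem_range, Nat.lt_succ_iff]

theorem ampn_hom {m l' k l : Fin n → ℕ} (h : m + l' ≠ k + l) : ampn s c m l' k l = 0 := by
  have : ∃ j, m j + l' j ≠ k j + l j := by
    by_contra h'
    push Not at h'
    exact h (funext h')
  obtain ⟨j, hj⟩ := this
  unfold ampn
  exact Finset.prod_eq_zero (Finset.mem_univ j) (amp_hom s c _ _ _ _ hj)

theorem prod_ite_eq {k k' : Fin n → ℕ} :
    (∏ j, if k j = k' j then (1 : ℝ) else 0) = if k = k' then 1 else 0 := by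
  by_cases h : k = k'
  · subst h; simp only [↓reduceIte, prod_const_one]
  · rw [if_neg h]
    have : ∃ j, k j ≠ k' j := by
      by_contra h'
      push Not at h'
      exact h (funext h')
    obtain ⟨j, hj⟩ := this
    exact Finset.prod_eq_zero (Finset.mem_univ j) (if_neg hj)

theorem coln_orth (h : s ^ 2 + c ^ 2 = 1) {T k k' : Fin n → ℕ} (hk : k ∈ below T)
    (hk' : k' ∈ below T) :
    ∑ m ∈ below T, ampn s c m (T - m) k (T - k) * ampn s c m (T - m) k' (T - k') =
      if k = k' then 1 else 0 := by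
  rw [mem_below] at hk hk'
  rw [← prod_ite_eq]
  have e : ∀ j, (if k j = k' j then (1 : ℝ) else 0) =
      ∑ m ∈ range (T j + 1), amp s c m (T j - m) (k j) (T j - k j) *
        amp s c m (T j - m) (k' j) (T j - k' j) := fun j =>
    (col_orth h (T j) (k j) (k' j) (hk j) (hk' j)).symm
  rw [Finset.prod_congr rfl (fun j _ => e j), Finset.prod_univ_sum]
  unfold below ampn
  apply Finset.sum_congr rfl
  intro m _
  rw [← Finset.prod_mul_distrib]
  rfl

theorem rown_orth (h : s ^ 2 + c ^ 2 = 1) {T m m' : Fin n → ℕ} (hm : m ∈ below T)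
    (hm' : m' ∈ below T) :
    ∑ k ∈ below T, ampn s c m (T - m) k (T - k) * ampn s c m' (T - m') k (T - k) =
      if m = m' then 1 else 0 := by
  rw [mem_below] at hm hm'
  rw [← prod_ite_eq]
  have e : ∀ j, (if m j = m' j then (1 : ℝ) else 0) =
      ∑ k ∈ range (T j + 1), amp s c (m j) (T j - m j) k (T j - k) *
        amp s c (m' j) (T j - m' j) k (T j - k) := fun j =>
    (row_orth h (T j) (m j) (m' j) (hm j) (hm' j)).symm
  rw [Finset.prod_congr rfl (fun j _ => e j), Finset.prod_univ_sum]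
  unfold below ampn
  apply Finset.sum_congr rfl
  intro k _
  rw [← Finset.prod_mul_distrib]
  rfl

end nMode

end Vale.Agent.P369
end
end
end

section

attribute [-instance] ProperSMul.toContinuousSMul IsTopologicalTorsor.toContinuousSMul IdemSemiring.toCanonicallyOrderedAdd IdemSemiring.toMulLeftMono IdemSemiring.toMulRightMono AddQuantale.instAddLeftMono AddQuantale.instAddRightMono Quantale.instMulLeftMono Quantale.instMulRightMono FiniteDimensional.rclike_to_real IsScalarTower.complexToReal FiniteDimensional.complexToReal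

section

section

/-!
Quantum definitions for the entropy photon-number inequality.
-/

namespace Vale.Agent.P369

open scoped InnerProductSpace

noncomputable section

/-- The `n`-mode Fock space, square-summable families indexed by configurations. -/
abbrev Fock (n : ℕ) : Type := lp (fun _ : Conf n => ℂ) 2

/-- The joint Fock space of the modes `a_j` (first index) and `b_j` (second index). -/
abbrev Fock2 (n : ℕ) : Type := lp (fun _ : Conf n × Conf n => ℂ) 2

/-- The number state `|k⟩` of `n` modes. -/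
def ket {n : ℕ} (k : Conf n) : Fock n := lp.single 2 k (1 : ℂ)

/-- The number state `|k⟩ ⊗ |l⟩` of the modes `a_j` and `b_j`. -/
def ket2 {n : ℕ} (k l : Conf n) : Fock2 n := lp.single 2 (k, l) (1 : ℂ)

/-- `a_j |k, l⟩`. -/
def annA {n : ℕ} (j : Fin n) (k l : Conf n) : Fock2 n := (Real.sqrt (k j) : ℂ) • ket2 (down k j) l

/-- `b_j |k, l⟩`. -/
def annB {n : ℕ} (j : Fin n) (k l : Conf n) : Fock2 n := (Real.sqrt (l j) : ℂ) • ket2 k (down l j)

/-- `a_j† |k, l⟩`. -/
def creA {n : ℕ} (j : Fin n) (k l : Conf n) : Fock2 n :=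
  (Real.sqrt (k j + 1) : ℂ) • ket2 (up k j) l

/-- `b_j† |k, l⟩`. -/
def creB {n : ℕ} (j : Fin n) (k l : Conf n) : Fock2 n :=
  (Real.sqrt (l j + 1) : ℂ) • ket2 k (up l j)

/-- `U` is the beam splitter of transmissivity `η`: a unitary fixing the vacuum with
`a_j U = U (√η a_j + √(1-η) b_j)` and `b_j U = U (-√(1-η) a_j + √η b_j)`
between all number states. -/
def IsBeamSplitter {n : ℕ} (η : ℝ) (U : Fock2 n ≃ₗᵢ[ℂ] Fock2 n) : Prop :=
  U (ket2 0 0) = ket2 0 0 ∧
  (∀ (j : Fin n) (k l k' l' : Conf n),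
    ⟪creA j k' l', U (ket2 k l)⟫_ℂ =
      ⟪ket2 k' l', U ((Real.sqrt η : ℂ) • annA j k l + (Real.sqrt (1 - η) : ℂ) • annB j k l)⟫_ℂ) ∧
  (∀ (j : Fin n) (k l k' l' : Conf n),
    ⟪creB j k' l', U (ket2 k l)⟫_ℂ =
      ⟪ket2 k' l', U (-(Real.sqrt (1 - η) : ℂ) • annA j k l + (Real.sqrt η : ℂ) • annB j k l)⟫_ℂ)

/-- Density operators: positive operators of trace one. -/
def IsState {n : ℕ} (ρ : Fock n →L[ℂ] Fock n) : Prop :=
  ρ.IsPositive ∧ HasSum (fun k : Conf n => ⟪ket k, ρ (ket k)⟫_ℂ) 1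

/-- Finite mean photon number, `Tr ρ Σ_j a_j† a_j < ∞`. -/
def FiniteEnergy {n : ℕ} (ρ : Fock n →L[ℂ] Fock n) : Prop :=
  Summable (fun k : Conf n => (∑ j, (k j : ℝ)) * (⟪ket k, ρ (ket k)⟫_ℂ).re)

/-- `ρAB = ρA ⊗ ρB`. -/
def IsProduct {n : ℕ} (ρA ρB : Fock n →L[ℂ] Fock n) (ρAB : Fock2 n →L[ℂ] Fock2 n) : Prop :=
  ∀ k l k' l' : Conf n, ⟪ket2 k l, ρAB (ket2 k' l')⟫_ℂ =
    ⟪ket k, ρA (ket k')⟫_ℂ * ⟪ket l, ρB (ket l')⟫_ℂ

/-- `ρC` is the partial trace of `ρCD` over the second group of modes. -/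
def IsMarginal {n : ℕ} (ρCD : Fock2 n →L[ℂ] Fock2 n) (ρC : Fock n →L[ℂ] Fock n) : Prop :=
  ∀ m m' : Conf n, HasSum (fun l : Conf n => ⟪ket2 m l, ρCD (ket2 m' l)⟫_ℂ) ⟪ket m, ρC (ket m')⟫_ℂ

/-- `ρC` is the output of the beam splitter of transmissivity `η` with inputs `ρA`, `ρB`. -/
def IsOutput {n : ℕ} (η : ℝ) (ρA ρB ρC : Fock n →L[ℂ] Fock n) : Prop :=
  ∃ (U : Fock2 n ≃ₗᵢ[ℂ] Fock2 n) (ρAB : Fock2 n →L[ℂ] Fock2 n),
    IsBeamSplitter η U ∧ IsProduct ρA ρB ρAB ∧
    IsMarginal ((U : Fock2 n →L[ℂ] Fock2 n) ∘L ρAB ∘L (U.symm : Fock2 n →L[ℂ] Fock2 n)) ρC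

end

end Vale.Agent.P369
end
end
end
namespace AFast8dfed0x3221a
@[reducible] noncomputable def a0 {x1 : ℕ} : SeminormedAddCommGroup (Vale.Agent.P369.Fock2 x1) := inferInstance
@[reducible] noncomputable def a1 {x1 : ℕ} : Module ℂ (Vale.Agent.P369.Fock2 x1) := inferInstance
@[reducible] noncomputable def a2 {x1 : ℕ} : PseudoMetricSpace (Vale.Agent.P369.Fock x1) := inferInstance
@[reducible] noncomputable def a3 {x1 : ℕ} : SeminormedAddCommGroup (Vale.Agent.P369.Fock x1) := inferInstance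
@[reducible] noncomputable def a4 {x1 : ℕ} : PseudoMetricSpace (Vale.Agent.P369.Fock2 x1) := inferInstance
@[reducible] noncomputable def a5 {x1 : ℕ} : Module ℂ (Vale.Agent.P369.Fock x1) := inferInstance
@[reducible] noncomputable def a6 {x1 : ℕ} : Inner ℂ (Vale.Agent.P369.Fock2 x1) := inferInstance
end AFast8dfed0x3221a
attribute [local instance] AFast8dfed0x3221a.a0 AFast8dfed0x3221a.a1 AFast8dfed0x3221a.a2
  AFast8dfed0x3221a.a3 AFast8dfed0x3221a.a4 AFast8dfed0x3221a.a5 AFast8dfed0x3221a.a6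
namespace AFast8dfed0x3221b
@[reducible] noncomputable def a0 {x1 : ℕ} : SMulZeroClass ℂ (Vale.Agent.P369.Fock2 x1) := inferInstance
@[reducible] noncomputable def a1 {x1 : ℕ} : DistribSMul ℂ (Vale.Agent.P369.Fock2 x1) := inferInstance
@[reducible] noncomputable def a2 {x1 : ℕ} : DistribMulAction ℂ (Vale.Agent.P369.Fock2 x1) := inferInstance
@[reducible] noncomputable def a3 {x1 : ℕ} : SMul ℂ (Vale.Agent.P369.Fock2 x1) := inferInstance
@[reducible] noncomputable def a4 {x1 : ℕ} : SMulZeroClass ℂ (Vale.Agent.P369.Fock x1) := inferInstance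
@[reducible] noncomputable def a5 {x1 : ℕ} : DistribSMul ℂ (Vale.Agent.P369.Fock x1) := inferInstance
@[reducible] noncomputable def a6 {x1 : ℕ} : DistribMulAction ℂ (Vale.Agent.P369.Fock x1) := inferInstance
@[reducible] noncomputable def a7 {x1 : ℕ} : AddZero (Vale.Agent.P369.Fock2 x1) := inferInstance
@[reducible] noncomputable def a8 {x1 : ℕ} : AddZeroClass (Vale.Agent.P369.Fock2 x1) := inferInstance
@[reducible] noncomputable def a9 {x1 : ℕ} : AddMonoid (Vale.Agent.P369.Fock2 x1) := inferInstance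
@[reducible] noncomputable def a10 {x1 : ℕ} : AddCommMonoid (Vale.Agent.P369.Fock2 x1) := inferInstance
@[reducible] noncomputable def a11 {x1 : ℕ} : SMul ℂ (Vale.Agent.P369.Fock x1) := inferInstance
@[reducible] noncomputable def a12 {x1 : ℕ} : AddCommMonoid (Vale.Agent.P369.Fock x1) := inferInstance
@[reducible] noncomputable def a13 {x1 : ℕ} : AddZero (Vale.Agent.P369.Fock x1) := inferInstance
@[reducible] noncomputable def a14 {x1 : ℕ} : AddZeroClass (Vale.Agent.P369.Fock x1) := inferInstance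
@[reducible] noncomputable def a15 {x1 : ℕ} : AddMonoid (Vale.Agent.P369.Fock x1) := inferInstance
@[reducible] noncomputable def a16 {x1 : ℕ} : TopologicalSpace (Vale.Agent.P369.Fock x1) := inferInstance
@[reducible] noncomputable def a17 {x1 : ℕ} : UniformSpace (Vale.Agent.P369.Fock x1) := inferInstance
@[reducible] noncomputable def a18 {x1 : ℕ} : TopologicalSpace (Vale.Agent.P369.Fock2 x1) := inferInstance
@[reducible] noncomputable def a19 {x1 : ℕ} : UniformSpace (Vale.Agent.P369.Fock2 x1) := inferInstance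
theorem a20 {x1 : ℕ} : MulActionSemiHomClass (Vale.Agent.P369.Fock2 x1 ≃ₗᵢ[ℂ] Vale.Agent.P369.Fock2 x1) (⇑(RingHom.id ℂ)) (Vale.Agent.P369.Fock2 x1) (Vale.Agent.P369.Fock2 x1) := inferInstance
theorem a21 {x1 : ℕ} : SemilinearMapClass (Vale.Agent.P369.Fock2 x1 ≃ₗᵢ[ℂ] Vale.Agent.P369.Fock2 x1) (RingHom.id ℂ) (Vale.Agent.P369.Fock2 x1) (Vale.Agent.P369.Fock2 x1) := inferInstance
end AFast8dfed0x3221b
attribute [local instance] AFast8dfed0x3221b.a0 AFast8dfed0x3221b.a1 AFast8dfed0x3221b.a2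
  AFast8dfed0x3221b.a3 AFast8dfed0x3221b.a4 AFast8dfed0x3221b.a5 AFast8dfed0x3221b.a6
  AFast8dfed0x3221b.a7 AFast8dfed0x3221b.a8 AFast8dfed0x3221b.a9 AFast8dfed0x3221b.a10
  AFast8dfed0x3221b.a11 AFast8dfed0x3221b.a12 AFast8dfed0x3221b.a13 AFast8dfed0x3221b.a14
  AFast8dfed0x3221b.a15 AFast8dfed0x3221b.a16 AFast8dfed0x3221b.a17 AFast8dfed0x3221b.a18
  AFast8dfed0x3221b.a19 AFast8dfed0x3221b.a20 AFast8dfed0x3221b.a21

section

attribute [-instance] ProperSMul.toContinuousSMul IsTopologicalTorsor.toContinuousSMul IdemSemiring.toCanonicallyOrderedAdd IdemSemiring.toMulLeftMono IdemSemiring.toMulRightMono AddQuantale.instAddLeftMono AddQuantale.instAddRightMono Quantale.instMulLeftMono Quantale.instMulRightMono FiniteDimensional.rclike_to_real IsScalarTower.complexToReal FiniteDimensional.complexToReal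

section

section

/-! Passing from finitely supported inputs to inputs of finite energy. -/

namespace Vale.Agent.P369

open Filter Topology

noncomputable section

theorem negMulLog_le {x E : ℝ} (hx : 0 ≤ x) : Real.negMulLog x ≤ E * x + Real.exp (-E) := by
  rcases hx.eq_or_lt with h | h
  · subst h
    rw [Real.negMulLog_zero, mul_zero, zero_add]
    exact (Real.exp_pos _).le
  · have h1 := Real.log_le_sub_one_of_pos (div_pos (Real.exp_pos (-E)) h)
    rw [Real.log_div (Real.exp_pos _).ne' h.ne', Real.log_exp] at h1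
    have h2 := mul_le_mul_of_nonneg_left h1 h.le
    have h3 : x * (Real.exp (-E) / x - 1) = Real.exp (-E) - x := by field_simp
    rw [h3] at h2
    unfold Real.negMulLog
    linarith

theorem negMulLog_div {x Z : ℝ} (hZ : 0 < Z) :
    Real.negMulLog (x / Z) = Real.negMulLog x / Z + x * (Real.log Z / Z) := by
  unfold Real.negMulLog
  by_cases h : x = 0
  · subst h; simp
  · rw [Real.log_div h hZ.ne']
    field_simp
    ring

variable {α : Type}

theorem Hs_div {f : α → ℝ} {Z : ℝ} (hs : HasSum f Z) (hZ : 0 < Z)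
    (hn : Summable fun x => Real.negMulLog (f x)) :
    Hs (fun x => f x / Z) = Hs f / Z + Real.log Z := by
  unfold Hs
  have e : ∀ x, Real.negMulLog (f x / Z) = Real.negMulLog (f x) * (1 / Z) +
      f x * (Real.log Z / Z) := by
    intro x
    rw [negMulLog_div hZ]
    ring
  rw [tsum_congr e, (hn.mul_right _).tsum_add (hs.summable.mul_right _), tsum_mul_right,
    tsum_mul_right, hs.tsum_eq]
  (clear * - hZ; field_simp)

/-- a distribution of finite energy has summable entropy terms -/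
theorem summable_negMulLog_of_energy {f E : α → ℝ} (h0 : ∀ x, 0 ≤ f x) (h1 : ∀ x, f x ≤ 1)
    (hE : Summable fun x => E x * f x) (hexp : Summable fun x => Real.exp (-E x)) :
    Summable fun x => Real.negMulLog (f x) :=
  Summable.of_nonneg_of_le (fun x => Real.negMulLog_nonneg (h0 x) (h1 x))
    (fun x => negMulLog_le (h0 x)) (hE.add hexp)

theorem IsProb.le_one {p : α → ℝ} (h : IsProb p) (x : α) : p x ≤ 1 :=
  le_hasSum h.2 x (fun y _ => h.1 y)

section kernel

variable {K : α → α → α → ℝ} (hK0 : ∀ m k l, 0 ≤ K m k l) (hK1 : ∀ k l, HasSum (fun m => K m k l) 1)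

include hK0 hK1 in
theorem summable_joint {f g : α → ℝ} (hf0 : ∀ x, 0 ≤ f x) (hg0 : ∀ x, 0 ≤ g x) {F G : ℝ}
    (hf : HasSum f F) (hg : HasSum g G) :
    HasSum (fun x : (α × α) × α => K x.2 x.1.1 x.1.2 * (f x.1.1 * g x.1.2)) (F * G) := by
  have hfg := hf.summable.mul_of_nonneg hg.summable hf0 hg0
  have h1 : ∀ kl : α × α, HasSum (fun m => K m kl.1 kl.2 * (f kl.1 * g kl.2)) (f kl.1 * g kl.2) := by
    intro kl
    simpa using (hK1 kl.1 kl.2).mul_right (f kl.1 * g kl.2)
  have hs : Summable (fun x : (α × α) × α => K x.2 x.1.1 x.1.2 * (f x.1.1 * g x.1.2)) := by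
    rw [summable_prod_of_nonneg]
    · refine ⟨fun kl => (h1 kl).summable, ?_⟩
      refine hfg.congr ?_
      intro kl
      exact ((h1 kl).tsum_eq).symm
    · intro x
      exact mul_nonneg (hK0 _ _ _) (mul_nonneg (hf0 _) (hg0 _))
  have h2 := hs.hasSum.prod_fiberwise h1
  have h3 : HasSum (fun kl : α × α => f kl.1 * g kl.2) (F * G) := hf.mul hg hfg
  rw [← h2.unique h3]
  exact hs.hasSum

include hK0 hK1 in
theorem summable_outG {f g : α → ℝ} (hf0 : ∀ x, 0 ≤ f x) (hg0 : ∀ x, 0 ≤ g x)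
    (hf : Summable f) (hg : Summable g) (m : α) :
    Summable (fun kl : α × α => K m kl.1 kl.2 * (f kl.1 * g kl.2)) := by
  have h := (summable_joint hK0 hK1 hf0 hg0 hf.hasSum hg.hasSum).summable
  have h2 := (Equiv.prodComm α (α × α)).summable_iff.mpr h
  exact h2.prod_factor m

include hK0 hK1 in
theorem hasSum_outG {f g : α → ℝ} (hf0 : ∀ x, 0 ≤ f x) (hg0 : ∀ x, 0 ≤ g x) {F G : ℝ}
    (hf : HasSum f F) (hg : HasSum g G) : HasSum (outG K f g) (F * G) := by
  have h := summable_joint hK0 hK1 hf0 hg0 hf hg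
  have h2 := (Equiv.prodComm α (α × α)).hasSum_iff.mpr h
  exact h2.prod_fiberwise (fun m => (summable_outG hK0 hK1 hf0 hg0 hf.summable hg.summable m).hasSum)

include hK0 in
theorem outG_nonneg {f g : α → ℝ} (hf0 : ∀ x, 0 ≤ f x) (hg0 : ∀ x, 0 ≤ g x) (m : α) :
    0 ≤ outG K f g m :=
  tsum_nonneg fun _ => mul_nonneg (hK0 _ _ _) (mul_nonneg (hf0 _) (hg0 _))

include hK0 hK1 in
theorem outG_isProb {p q : α → ℝ} (hp : IsProb p) (hq : IsProb q) : IsProb (outG K p q) := by
  refine ⟨outG_nonneg hK0 hp.1 hq.1, ?_⟩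
  have := hasSum_outG hK0 hK1 hp.1 hq.1 hp.2 hq.2
  rwa [mul_one] at this

include hK0 hK1 in
theorem energy_outG {E : α → ℝ} (hE0 : ∀ m, 0 ≤ E m) (hKE : ∀ m k l, K m k l ≠ 0 → E m ≤ E k + E l)
    {f g : α → ℝ} (hf0 : ∀ x, 0 ≤ f x) (hg0 : ∀ x, 0 ≤ g x)
    (hf : Summable f) (hg : Summable g) (Ef : Summable fun x => E x * f x)
    (Eg : Summable fun x => E x * g x) : Summable (fun m => E m * outG K f g m) := by
  have h1 := (summable_joint hK0 hK1 (fun x => mul_nonneg (hE0 x) (hf0 x)) hg0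
    Ef.hasSum hg.hasSum).summable
  have h2 := (summable_joint hK0 hK1 hf0 (fun x => mul_nonneg (hE0 x) (hg0 x))
    hf.hasSum Eg.hasSum).summable
  have h3 : Summable (fun x : (α × α) × α => E x.2 * (K x.2 x.1.1 x.1.2 * (f x.1.1 * g x.1.2))) := by
    apply Summable.of_nonneg_of_le _ _ (h1.add h2)
    · intro x
      exact mul_nonneg (hE0 _) (mul_nonneg (hK0 _ _ _) (mul_nonneg (hf0 _) (hg0 _)))
    · intro x
      by_cases hx : K x.2 x.1.1 x.1.2 = 0
      · rw [hx]; simp
      · have h4 := hKE _ _ _ hx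
        have h5 : 0 ≤ K x.2 x.1.1 x.1.2 * (f x.1.1 * g x.1.2) :=
          mul_nonneg (hK0 _ _ _) (mul_nonneg (hf0 _) (hg0 _))
        have h6 := mul_le_mul_of_nonneg_right h4 h5
        refine h6.trans (le_of_eq ?_)
        ring
  have h4 := (Equiv.prodComm α (α × α)).summable_iff.mpr h3
  refine h4.prod.congr ?_
  intro m
  unfold outG
  rw [← tsum_mul_left]
  rfl

end kernel

/-- restriction to a finite set -/
def cut (A : Finset α) (p : α → ℝ) (x : α) : ℝ := Set.indicator (A : Set α) p x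

theorem cut_of_mem {A : Finset α} {p : α → ℝ} {x : α} (h : x ∈ A) : cut A p x = p x :=
  Set.indicator_of_mem (Finset.mem_coe.mpr h) p

theorem cut_of_not_mem {A : Finset α} {p : α → ℝ} {x : α} (h : x ∉ A) : cut A p x = 0 :=
  Set.indicator_of_notMem (fun h' => h (Finset.mem_coe.mp h')) p

theorem cut_nonneg {A : Finset α} {p : α → ℝ} (h : ∀ x, 0 ≤ p x) (x : α) : 0 ≤ cut A p x :=
  Set.indicator_nonneg (fun y _ => h y) x

theorem cut_le {A : Finset α} {p : α → ℝ} (h : ∀ x, 0 ≤ p x) (x : α) : cut A p x ≤ p x := by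
  by_cases hx : x ∈ A
  · rw [cut_of_mem hx]
  · rw [cut_of_not_mem hx]; exact h x

theorem cut_support {A : Finset α} {p : α → ℝ} : (Function.support (cut A p)).Finite := by
  apply A.finite_toSet.subset
  intro x hx
  by_contra h
  exact hx (cut_of_not_mem (fun h' => h (Finset.mem_coe.mpr h')))

theorem tendsto_cut {A : ℕ → Finset α} (hA : Tendsto A atTop atTop) (p : α → ℝ) (x : α) :
    Tendsto (fun N => cut (A N) p x) atTop (𝓝 (p x)) := by
  apply tendsto_const_nhds.congr'
  filter_upwards [hA.eventually (eventually_ge_atTop {x})] with N hN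
  exact (cut_of_mem (Finset.singleton_subset_iff.mp hN)).symm

theorem tendsto_cut_sum {A : ℕ → Finset α} (hA : Tendsto A atTop atTop) {p : α → ℝ}
    (hp : IsProb p) : Tendsto (fun N => ∑' x, cut (A N) p x) atTop (𝓝 1) := by
  rw [← hp.2.tsum_eq]
  apply tendsto_tsum_of_dominated_convergence hp.2.summable (tendsto_cut hA p)
  filter_upwards with N x
  rw [Real.norm_of_nonneg (cut_nonneg hp.1 x)]
  exact cut_le hp.1 x

theorem tendsto_cut_Hs {A : ℕ → Finset α} (hA : Tendsto A atTop atTop) {p : α → ℝ}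
    (hp : IsProb p) (hs : Summable fun x => Real.negMulLog (p x)) :
    Tendsto (fun N => Hs (cut (A N) p)) atTop (𝓝 (Hs p)) := by
  unfold Hs
  apply tendsto_tsum_of_dominated_convergence hs
  · intro x
    exact (Real.continuous_negMulLog.tendsto _).comp (tendsto_cut hA p x)
  · filter_upwards with N x
    by_cases hx : x ∈ A N
    · rw [cut_of_mem hx, Real.norm_of_nonneg (Real.negMulLog_nonneg (hp.1 x) (hp.le_one x))]
    · rw [cut_of_not_mem hx, Real.negMulLog_zero, norm_zero]
      exact Real.negMulLog_nonneg (hp.1 x) (hp.le_one x)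

theorem lin_limit [Preorder α] {K : α → α → α → ℝ} (hK0 : ∀ m k l, 0 ≤ K m k l)
    (hK1 : ∀ k l, HasSum (fun m => K m k l) 1) {E : α → ℝ} (hE0 : ∀ m, 0 ≤ E m)
    (hexp : Summable fun m => Real.exp (-E m)) (hKE : ∀ m k l, K m k l ≠ 0 → E m ≤ E k + E l)
    (A : ℕ → Finset α) (hA : Tendsto A atTop atTop)
    (hAl : ∀ N k l, k ≤ l → l ∈ A N → k ∈ A N) {a b d e : ℝ} (h : LinIneq K a b d e)
    {p q : α → ℝ} (hp : IsProb p) (hq : IsProb q) (ap : Antitone p) (aq : Antitone q)
    (Ep : Summable fun x => E x * p x) (Eq : Summable fun x => E x * q x) :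
    b * Hs p + d * Hs q + e ≤ a * Hs (outG K p q) := by
  have np : Summable fun x => Real.negMulLog (p x) :=
    summable_negMulLog_of_energy hp.1 hp.le_one Ep hexp
  have nq : Summable fun x => Real.negMulLog (q x) :=
    summable_negMulLog_of_energy hq.1 hq.le_one Eq hexp
  have Zp := tendsto_cut_sum hA hp
  have Zq := tendsto_cut_sum hA hq
  have Hp := tendsto_cut_Hs hA hp np
  have Hq := tendsto_cut_Hs hA hq nq
  have hc : IsProb (outG K p q) := outG_isProb hK0 hK1 hp hq
  have Ec : Summable (fun m => E m * outG K p q m) :=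
    energy_outG hK0 hK1 hE0 hKE hp.1 hq.1 hp.2.summable hq.2.summable Ep Eq
  have sp : ∀ N, Summable (cut (A N) p) := fun N =>
    summable_of_hasFiniteSupport cut_support
  have sq : ∀ N, Summable (cut (A N) q) := fun N =>
    summable_of_hasFiniteSupport cut_support
  have hle : ∀ N m, outG K (cut (A N) p) (cut (A N) q) m ≤ outG K p q m := by
    intro N m
    unfold outG
    apply Summable.tsum_le_tsum _
      (summable_outG hK0 hK1 (cut_nonneg hp.1) (cut_nonneg hq.1) (sp N) (sq N) m)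
      (summable_outG hK0 hK1 hp.1 hq.1 hp.2.summable hq.2.summable m)
    intro kl
    apply mul_le_mul_of_nonneg_left _ (hK0 _ _ _)
    exact mul_le_mul (cut_le hp.1 _) (cut_le hq.1 _) (cut_nonneg hq.1 _) (hp.1 _)
  have h0N : ∀ N m, 0 ≤ outG K (cut (A N) p) (cut (A N) q) m := fun N m =>
    outG_nonneg hK0 (cut_nonneg hp.1) (cut_nonneg hq.1) m
  have htm : ∀ m, Tendsto (fun N => outG K (cut (A N) p) (cut (A N) q) m) atTop
      (𝓝 (outG K p q m)) := by
    intro m
    unfold outG
    apply tendsto_tsum_of_dominated_convergence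
      (summable_outG hK0 hK1 hp.1 hq.1 hp.2.summable hq.2.summable m)
    · intro kl
      exact ((tendsto_cut hA p kl.1).mul (tendsto_cut hA q kl.2)).const_mul _
    · filter_upwards with N kl
      rw [Real.norm_of_nonneg (mul_nonneg (hK0 _ _ _)
        (mul_nonneg (cut_nonneg hp.1 _) (cut_nonneg hq.1 _)))]
      apply mul_le_mul_of_nonneg_left _ (hK0 _ _ _)
      exact mul_le_mul (cut_le hp.1 _) (cut_le hq.1 _) (cut_nonneg hq.1 _) (hp.1 _)
  have hbd : ∀ N m, ‖Real.negMulLog (outG K (cut (A N) p) (cut (A N) q) m)‖ ≤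
      E m * outG K p q m + Real.exp (-E m) := by
    intro N m
    rw [Real.norm_of_nonneg (Real.negMulLog_nonneg (h0N N m) ((hle N m).trans (hc.le_one m)))]
    refine (negMulLog_le (E := E m) (h0N N m)).trans ?_
    have := mul_le_mul_of_nonneg_left (hle N m) (hE0 m)
    linarith only [this]
  have hsum : Summable fun m => E m * outG K p q m + Real.exp (-E m) := Ec.add hexp
  have Hc : Tendsto (fun N => Hs (outG K (cut (A N) p) (cut (A N) q))) atTop
      (𝓝 (Hs (outG K p q))) := by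
    unfold Hs
    apply tendsto_tsum_of_dominated_convergence hsum
    · intro m
      exact (Real.continuous_negMulLog.tendsto _).comp (htm m)
    · filter_upwards with N m
      exact hbd N m
  have hlog : Tendsto Real.log (𝓝 1) (𝓝 0) := by
    have := (Real.continuousAt_log one_ne_zero).tendsto
    rwa [Real.log_one] at this
  have L1 : Tendsto (fun N => b * (Hs (cut (A N) p) / (∑' x, cut (A N) p x) +
      Real.log (∑' x, cut (A N) p x)) + d * (Hs (cut (A N) q) / (∑' x, cut (A N) q x) +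
      Real.log (∑' x, cut (A N) q x)) + e) atTop
      (𝓝 (b * (Hs p / 1 + 0) + d * (Hs q / 1 + 0) + e)) :=
    ((((Hp.div Zp one_ne_zero).add (hlog.comp Zp)).const_mul b).add
      (((Hq.div Zq one_ne_zero).add (hlog.comp Zq)).const_mul d)).add_const e
  have ZZ : Tendsto (fun N => (∑' x, cut (A N) p x) * (∑' x, cut (A N) q x)) atTop (𝓝 1) := by
    simpa only [mul_one] using Zp.mul Zq
  have L2 : Tendsto (fun N => a * (Hs (outG K (cut (A N) p) (cut (A N) q)) /
      ((∑' x, cut (A N) p x) * (∑' x, cut (A N) q x)) +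
      Real.log ((∑' x, cut (A N) p x) * (∑' x, cut (A N) q x)))) atTop
      (𝓝 (a * (Hs (outG K p q) / 1 + 0))) :=
    ((Hc.div ZZ one_ne_zero).add (hlog.comp ZZ)).const_mul a
  simp only [div_one, add_zero] at L1 L2
  refine le_of_tendsto_of_tendsto L1 L2 ?_
  filter_upwards [Zp.eventually_const_lt zero_lt_one,
    Zq.eventually_const_lt zero_lt_one] with N hN hN'
  set Z := ∑' x, cut (A N) p x with hZ
  set Z' := ∑' x, cut (A N) q x with hZ'
  have f1 : IsFinProb (fun x => cut (A N) p x / Z) := by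
    refine ⟨fun x => div_nonneg (cut_nonneg hp.1 x) hN.le, ?_, ?_⟩
    · apply (cut_support (A := A N) (p := p)).subset
      intro x hx hx0
      exact hx (by simp only [hx0, zero_div])
    · rw [tsum_div_const, ← hZ, div_self hN.ne']
  have f2 : IsFinProb (fun x => cut (A N) q x / Z') := by
    refine ⟨fun x => div_nonneg (cut_nonneg hq.1 x) hN'.le, ?_, ?_⟩
    · apply (cut_support (A := A N) (p := q)).subset
      intro x hx hx0
      exact hx (by simp only [hx0, zero_div])
    · rw [tsum_div_const, ← hZ', div_self hN'.ne']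
  have anti : ∀ (f : α → ℝ), (∀ x, 0 ≤ f x) → Antitone f → ∀ z : ℝ, 0 < z →
      Antitone (fun x => cut (A N) f x / z) := by
    intro f hf haf z hz x y hxy
    apply div_le_div_of_nonneg_right _ hz.le
    by_cases hy : y ∈ A N
    · rw [cut_of_mem hy, cut_of_mem (hAl N x y hxy hy)]
      exact haf hxy
    · rw [cut_of_not_mem hy]
      exact cut_nonneg hf x
  have key := h _ _ f1 f2 (anti p hp.1 ap Z hN) (anti q hq.1 aq Z' hN')
  have e1 : Hs (fun x => cut (A N) p x / Z) = Hs (cut (A N) p) / Z + Real.log Z := by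
    apply Hs_div (sp N).hasSum hN
    apply summable_of_hasFiniteSupport
    apply (cut_support (A := A N) (p := p)).subset
    intro x hx hx0
    exact hx (by simp only [hx0, Real.negMulLog_zero])
  have e2 : Hs (fun x => cut (A N) q x / Z') = Hs (cut (A N) q) / Z' + Real.log Z' := by
    apply Hs_div (sq N).hasSum hN'
    apply summable_of_hasFiniteSupport
    apply (cut_support (A := A N) (p := q)).subset
    intro x hx hx0
    exact hx (by simp only [hx0, Real.negMulLog_zero])
  have e3 : outG K (fun x => cut (A N) p x / Z) (fun x => cut (A N) q x / Z') =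
      fun m => outG K (cut (A N) p) (cut (A N) q) m / (Z * Z') := by
    funext m
    unfold outG
    rw [← tsum_div_const]
    apply tsum_congr
    intro kl
    rw [div_mul_div_comm]
    ring
  have e4 : Hs (fun m => outG K (cut (A N) p) (cut (A N) q) m / (Z * Z')) =
      Hs (outG K (cut (A N) p) (cut (A N) q)) / (Z * Z') + Real.log (Z * Z') := by
    apply Hs_div (hasSum_outG hK0 hK1 (cut_nonneg hp.1) (cut_nonneg hq.1) (sp N).hasSum
      (sq N).hasSum) (mul_pos hN hN')
    apply Summable.of_norm_bounded hsum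
    intro m
    exact hbd N m
  rw [e1, e2, e3, e4] at key
  exact key

/-- total photon number of a configuration -/
def tot {n : ℕ} (k : Fin n → ℕ) : ℝ := ∑ j, (k j : ℝ)

theorem tot_nonneg {n : ℕ} (k : Fin n → ℕ) : 0 ≤ tot k :=
  Finset.sum_nonneg fun _ _ => Nat.cast_nonneg _

theorem summable_exp_tot (n : ℕ) : Summable fun k : Fin n → ℕ => Real.exp (-tot k) := by
  induction n with
  | zero => exact (hasSum_fintype _).summable
  | succ n ih =>
    have h1 : Summable fun k : ℕ => Real.exp (-(k : ℝ)) := Real.summable_exp_neg_nat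
    have h2 := h1.mul_of_nonneg ih (fun _ => (Real.exp_pos _).le) (fun _ => (Real.exp_pos _).le)
    have h3 := (Fin.consEquiv (fun _ : Fin (n + 1) => ℕ)).summable_iff
      (f := fun k : Fin (n + 1) → ℕ => Real.exp (-tot k))
    apply h3.mp
    refine h2.congr ?_
    intro x
    unfold tot
    simp only [Function.comp, Fin.consEquiv, Equiv.coe_fn_mk, Fin.sum_univ_succ, Fin.cons_zero,
      Fin.cons_succ]
    rw [← Real.exp_add]
    congr 1
    ring

theorem kern_tot {n : ℕ} {η : ℝ} (m k l : Fin n → ℕ) (h : kern η m k l ≠ 0) :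
    tot m ≤ tot k + tot l := by
  unfold tot
  rw [← Finset.sum_add_distrib]
  apply Finset.sum_le_sum
  intro j _
  have h1 : ker η (m j) (k j) (l j) ≠ 0 := by
    unfold kern at h
    exact (Finset.prod_ne_zero_iff.mp h) j (Finset.mem_univ j)
  have h2 : m j ≤ k j + l j := by
    by_contra h3
    apply h1
    unfold ker
    rw [if_neg h3]
  exact_mod_cast h2

/-- the boxes `{0,…,N}^n` -/
def box (n N : ℕ) : Finset (Fin n → ℕ) := Fintype.piFinset fun _ => Finset.range (N + 1)

theorem mem_box {n N : ℕ} {k : Fin n → ℕ} : k ∈ box n N ↔ ∀ j, k j ≤ N := by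
  unfold box
  rw [Fintype.mem_piFinset]
  simp only [Finset.mem_range, Nat.lt_succ_iff]

theorem tendsto_box (n : ℕ) : Tendsto (box n) atTop atTop := by
  apply tendsto_atTop_finset_of_monotone
  · intro N M hNM k hk
    rw [mem_box] at hk ⊢
    exact fun j => (hk j).trans hNM
  · intro k
    refine ⟨∑ j, k j, ?_⟩
    rw [mem_box]
    exact fun j => Finset.single_le_sum (f := k) (fun _ _ => Nat.zero_le _) (Finset.mem_univ j)

/-! ### the function `g` -/

theorem g_zero : g 0 = 0 := by simp [g]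

theorem continuous_g : Continuous g := by
  unfold g
  have h : Continuous fun x : ℝ => x * Real.log x := Real.continuous_mul_log
  exact (h.comp (continuous_id.add continuous_const)).sub h

theorem g_eq {t : ℝ} (ht : 0 < t) : g t = t * beta t + Real.log (1 + t) := by
  unfold g beta
  have e : 1 + 1 / t = (t + 1) / t := by (clear * - ht; field_simp)
  rw [e, Real.log_div (by positivity) ht.ne', add_comm 1 t]
  ring

theorem g_strictMono : StrictMonoOn g (Set.Ici 0) := by
  apply strictMonoOn_of_deriv_pos (convex_Ici 0) continuous_g.continuousOn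
  intro x hx
  rw [interior_Ici] at hx
  have hx : 0 < x := hx
  have h1 : HasDerivAt (fun y : ℝ => (y + 1) * Real.log (y + 1)) (Real.log (x + 1) + 1) x := by
    have h := (Real.hasDerivAt_mul_log (x := x + 1) (by positivity)).comp x
      ((hasDerivAt_id x).add_const 1)
    simpa only [id_eq, Function.comp_def, mul_one] using h
  have h2 : HasDerivAt (fun y : ℝ => y * Real.log y) (Real.log x + 1) x :=
    Real.hasDerivAt_mul_log hx.ne'
  have h3 : HasDerivAt g (Real.log (x + 1) + 1 - (Real.log x + 1)) x := h1.sub h2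
  rw [h3.deriv]
  have := Real.log_lt_log hx (by linarith only [] : x < x + 1)
  linarith only [this]

theorem g_le_iff {a b : ℝ} (ha : 0 ≤ a) (hb : 0 ≤ b) : g a ≤ g b ↔ a ≤ b :=
  g_strictMono.le_iff_le ha hb

theorem exists_g {y : ℝ} (hy : 0 ≤ y) : ∃ x, x ∈ Set.Ici (0 : ℝ) ∧ g x = y := by
  have h1 : Real.log (1 + Real.exp y) ≤ g (Real.exp y) := by
    rw [g_eq (Real.exp_pos y)]
    have := mul_pos (Real.exp_pos y) (beta_pos (Real.exp_pos y))
    linarith
  have h2 : y ≤ Real.log (1 + Real.exp y) := by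
    rw [Real.le_log_iff_exp_le (by positivity)]
    linarith only []
  have h3 := intermediate_value_Icc (Real.exp_pos y).le
    (continuous_g.continuousOn (s := Set.Icc 0 (Real.exp y)))
  obtain ⟨x, hx, hxy⟩ := h3 ⟨by rw [g_zero]; exact hy, h2.trans h1⟩
  exact ⟨x, hx.1, hxy⟩

theorem invFunOn_g {y : ℝ} (hy : 0 ≤ y) :
    0 ≤ Function.invFunOn g (Set.Ici 0) y ∧ g (Function.invFunOn g (Set.Ici 0) y) = y :=
  ⟨Function.invFunOn_mem (exists_g hy), Function.invFunOn_eq (exists_g hy)⟩

theorem Hs_nonneg {p : α → ℝ} (hp : IsProb p) : 0 ≤ Hs p :=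
  tsum_nonneg fun x => Real.negMulLog_nonneg (hp.1 x) (hp.le_one x)

theorem continuousAt_beta {x : ℝ} (hx : 0 < x) : ContinuousAt beta x := by
  unfold beta
  apply ContinuousAt.log
  · exact continuousAt_const.add (continuousAt_const.div continuousAt_id hx.ne')
  · positivity

theorem continuousAt_theta {x : ℝ} (hx : 0 < x) : ContinuousAt theta x := by
  unfold theta
  exact continuousAt_const.div (continuousAt_beta hx) (beta_pos hx).ne'

theorem theta_tendsto_zero : Tendsto theta (𝓝[>] 0) (𝓝 0) := by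
  have h1 : Tendsto (fun x : ℝ => 1 + 1 / x) (𝓝[>] 0) atTop := by
    have h0 : Tendsto (fun x : ℝ => 1 / x) (𝓝[>] 0) atTop := by
      refine (tendsto_inv_nhdsGT_zero (𝕜 := ℝ)).congr ?_
      intro x
      rw [one_div]
    exact tendsto_atTop_add_const_left _ _ h0
  have h2 : Tendsto beta (𝓝[>] 0) atTop := Real.tendsto_log_atTop.comp h1
  have h3 := tendsto_inv_atTop_zero.comp h2
  refine h3.congr ?_
  intro x
  simp [theta]

theorem tendsto_term {N : ℝ} (hN : 0 ≤ N) :
    Tendsto (fun ε => theta (N + ε) * (g N - Real.log (1 + (N + ε)))) (𝓝[>] 0) (𝓝 N) := by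
  have hlog : Tendsto (fun ε : ℝ => Real.log (1 + (N + ε))) (𝓝[>] 0) (𝓝 (Real.log (1 + N))) := by
    have : ContinuousAt (fun ε : ℝ => Real.log (1 + (N + ε))) 0 := by
      apply ContinuousAt.log
      · exact continuousAt_const.add (continuousAt_const.add continuousAt_id)
      · positivity
    have h := this.tendsto
    rw [add_zero] at h
    exact h.mono_left nhdsWithin_le_nhds
  rcases hN.eq_or_lt with h | h
  · subst h
    rw [g_zero]
    have h1 := theta_tendsto_zero.mul (tendsto_const_nhds.sub hlog : Tendsto (fun ε : ℝ =>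
      0 - Real.log (1 + (0 + ε))) (𝓝[>] 0) (𝓝 (0 - Real.log (1 + 0))))
    rw [zero_mul] at h1
    simpa only [zero_add, zero_sub, mul_neg] using h1
  · have h1 : Tendsto (fun ε : ℝ => theta (N + ε)) (𝓝[>] 0) (𝓝 (theta N)) := by
      have h2 : Tendsto (fun ε : ℝ => N + ε) (𝓝[>] 0) (𝓝 N) := by
        have : ContinuousAt (fun ε : ℝ => N + ε) 0 := continuousAt_const.add continuousAt_id
        have h3 := this.tendsto
        rw [add_zero] at h3
        exact h3.mono_left nhdsWithin_le_nhds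
      exact (continuousAt_theta h).tendsto.comp h2
    have h2 := h1.mul ((tendsto_const_nhds (x := g N)).sub hlog)
    have e : theta N * (g N - Real.log (1 + N)) = N := by
      rw [g_eq h]
      unfold theta
      have := (beta_pos h).ne'
      field_simp
      ring
    rw [e] at h2
    exact h2

end

end Vale.Agent.P369
end
end
end

section

attribute [-instance] ProperSMul.toContinuousSMul IsTopologicalTorsor.toContinuousSMul IdemSemiring.toCanonicallyOrderedAdd IdemSemiring.toMulLeftMono IdemSemiring.toMulRightMono AddQuantale.instAddLeftMono AddQuantale.instAddRightMono Quantale.instMulLeftMono Quantale.instMulRightMono FiniteDimensional.rclike_to_real IsScalarTower.complexToReal FiniteDimensional.complexToReal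

section

section

/-! The matrix of the beam splitter, its existence, and its action on diagonal inputs. -/

namespace Vale.Agent.P369

open scoped InnerProductSpace

noncomputable section

variable {n : ℕ} {η : ℝ}

/-! ### number states -/

theorem inner_ket (k : Conf n) (f : Fock n) : ⟪ket k, f⟫_ℂ = f k := by
  unfold ket
  rw [lp.inner_single_left]
  simp only [RCLike.inner_apply, map_one, mul_one]

theorem inner_ket2 (k l : Conf n) (f : Fock2 n) : ⟪ket2 k l, f⟫_ℂ = f (k, l) := by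
  unfold ket2
  rw [lp.inner_single_left]
  simp only [RCLike.inner_apply, map_one, mul_one]

theorem ket_apply (k a : Conf n) : (ket k : Fock n) a = if a = k then 1 else 0 := by
  unfold ket
  rw [lp.single_apply]
  by_cases h : a = k
  · subst h; simp
  · rw [if_neg h, Pi.single_eq_of_ne h]

theorem ket2_apply (k l a b : Conf n) :
    (ket2 k l : Fock2 n) (a, b) = if a = k ∧ b = l then 1 else 0 := by
  unfold ket2
  rw [lp.single_apply]
  by_cases h : a = k ∧ b = l
  · obtain ⟨rfl, rfl⟩ := h; simp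
  · rw [if_neg h, Pi.single_eq_of_ne (fun h' => h (Prod.ext_iff.mp h'))]

theorem fock_ext {f g : Fock n} (h : ∀ k, f k = g k) : f = g := lp.ext (funext h)

theorem fock2_ext {f g : Fock2 n} (h : ∀ k l, f (k, l) = g (k, l)) : f = g :=
  lp.ext (funext fun x => h x.1 x.2)

/-! ### recursions of the `n`-mode amplitudes -/

theorem ampn_split {s c : ℝ} (j : Fin n) {m l' k l m₁ l₁' k₁ l₁ : Conf n}
    (hm : ∀ i, i ≠ j → m₁ i = m i) (hl' : ∀ i, i ≠ j → l₁' i = l' i)
    (hk : ∀ i, i ≠ j → k₁ i = k i) (hl : ∀ i, i ≠ j → l₁ i = l i) :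
    ampn s c m₁ l₁' k₁ l₁ = amp s c (m₁ j) (l₁' j) (k₁ j) (l₁ j) *
      ∏ i ∈ Finset.univ.erase j, amp s c (m i) (l' i) (k i) (l i) := by
  unfold ampn
  rw [← Finset.mul_prod_erase Finset.univ _ (Finset.mem_univ j)]
  congr 1
  apply Finset.prod_congr rfl
  intro i hi
  have := Finset.ne_of_mem_erase hi
  rw [hm i this, hl' i this, hk i this, hl i this]

theorem up_same (k : Conf n) (j : Fin n) : up k j j = k j + 1 := Function.update_self _ _ _

theorem down_same (k : Conf n) (j : Fin n) : down k j j = k j - 1 := Function.update_self _ _ _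

theorem up_ne (k : Conf n) {i j : Fin n} (h : i ≠ j) : up k j i = k i :=
  Function.update_of_ne h _ _

theorem down_ne (k : Conf n) {i j : Fin n} (h : i ≠ j) : down k j i = k i :=
  Function.update_of_ne h _ _

theorem ampn_upA (s c : ℝ) (j : Fin n) (m l' k l : Conf n) :
    Real.sqrt (m j + 1) * ampn s c (up m j) l' k l =
      s * Real.sqrt (k j) * ampn s c m l' (down k j) l +
      c * Real.sqrt (l j) * ampn s c m l' k (down l j) := by
  rw [ampn_split (m := m) (l' := l') (k := k) (l := l) j (fun i hi => up_ne m hi) (fun _ _ => rfl)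
      (fun _ _ => rfl) (fun _ _ => rfl),
    ampn_split (m := m) (l' := l') (k := k) (l := l) (k₁ := down k j) j (fun _ _ => rfl)
      (fun _ _ => rfl) (fun i hi => down_ne k hi) (fun _ _ => rfl),
    ampn_split (m := m) (l' := l') (k := k) (l := l) (l₁ := down l j) j (fun _ _ => rfl)
      (fun _ _ => rfl) (fun _ _ => rfl) (fun i hi => down_ne l hi), up_same, down_same, down_same]
  have h := amp_A1 s c (m j) (l' j) (k j) (l j)
  rw [← mul_assoc, h]
  ring

theorem ampn_upB (s c : ℝ) (j : Fin n) (m l' k l : Conf n) :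
    Real.sqrt (l' j + 1) * ampn s c m (up l' j) k l =
      -(c * Real.sqrt (k j) * ampn s c m l' (down k j) l) +
      s * Real.sqrt (l j) * ampn s c m l' k (down l j) := by
  rw [ampn_split (m := m) (l' := l') (k := k) (l := l) (l₁' := up l' j) j (fun _ _ => rfl)
      (fun i hi => up_ne l' hi) (fun _ _ => rfl) (fun _ _ => rfl),
    ampn_split (m := m) (l' := l') (k := k) (l := l) (k₁ := down k j) j (fun _ _ => rfl)
      (fun _ _ => rfl) (fun i hi => down_ne k hi) (fun _ _ => rfl),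
    ampn_split (m := m) (l' := l') (k := k) (l := l) (l₁ := down l j) j (fun _ _ => rfl)
      (fun _ _ => rfl) (fun _ _ => rfl) (fun i hi => down_ne l hi), up_same, down_same, down_same]
  have h := amp_A2 s c (m j) (l' j) (k j) (l j)
  rw [← mul_assoc, h]
  ring

theorem ampn_zero_zero (s c : ℝ) (k l : Conf n) :
    ampn s c 0 0 k l = if k = 0 ∧ l = 0 then 1 else 0 := by
  by_cases h : k = 0 ∧ l = 0
  · obtain ⟨rfl, rfl⟩ := h
    rw [if_pos ⟨rfl, rfl⟩]
    unfold ampn
    apply Finset.prod_eq_one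
    intro j _
    simp [amp_zero_zero]
  · rw [if_neg h]
    apply ampn_hom
    intro h'
    apply h
    have h1 : ∀ j, k j + l j = 0 := fun j => (congrFun h' j).symm
    constructor
    · funext j
      have := h1 j
      simp only [Pi.zero_apply]
      omega
    · funext j
      have := h1 j
      simp only [Pi.zero_apply]
      omega

/-! ### the matrix of a beam splitter -/

theorem bs_zero {U : Fock2 n ≃ₗᵢ[ℂ] Fock2 n} (hU : IsBeamSplitter η U) (k l : Conf n) :
    ⟪ket2 0 0, U (ket2 k l)⟫_ℂ =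
      ((ampn (Real.sqrt η) (Real.sqrt (1 - η)) 0 0 k l : ℝ) : ℂ) := by
  rw [ampn_zero_zero]
  have h1 : ⟪ket2 0 0, U (ket2 k l)⟫_ℂ = ⟪U (ket2 0 0), U (ket2 k l)⟫_ℂ := by rw [hU.1]
  rw [h1, LinearIsometryEquiv.inner_map_map, inner_ket2, ket2_apply]
  by_cases h : k = 0 ∧ l = 0
  · obtain ⟨rfl, rfl⟩ := h
    simp
  · rw [if_neg h, if_neg]
    · simp
    · intro h'
      exact h ⟨h'.1.symm, h'.2.symm⟩

theorem bs_matrix {U : Fock2 n ≃ₗᵢ[ℂ] Fock2 n} (hU : IsBeamSplitter η U) (m l' k l : Conf n) :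
    ⟪ket2 m l', U (ket2 k l)⟫_ℂ =
      ((ampn (Real.sqrt η) (Real.sqrt (1 - η)) m l' k l : ℝ) : ℂ) := by
  have key : ∀ N : ℕ, ∀ m l' k l : Conf n, ∑ j, (m j + l' j) = N → ⟪ket2 m l', U (ket2 k l)⟫_ℂ =
      ((ampn (Real.sqrt η) (Real.sqrt (1 - η)) m l' k l : ℝ) : ℂ) := by
    intro N
    induction N with
    | zero =>
      intro m l' k l h
      have h1 : ∀ j, m j + l' j = 0 := by
        intro j
        exact (Finset.sum_eq_zero_iff.mp h) j (Finset.mem_univ j)
      have hm : m = 0 := by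
        funext j
        have := h1 j
        simp only [Pi.zero_apply]
        omega
      have hl : l' = 0 := by
        funext j
        have := h1 j
        simp only [Pi.zero_apply]
        omega
      rw [hm, hl]
      exact bs_zero hU k l
    | succ N ih =>
      intro m l' k l h
      have h1 : ∃ j, 0 < m j + l' j := by
        by_contra h'
        push Not at h'
        have h2 : ∑ j, (m j + l' j) = 0 := Finset.sum_eq_zero fun j _ => by
          have := h' j
          omega
        omega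
      obtain ⟨j, hj⟩ := h1
      by_cases hm : 0 < m j
      · have e1 : up (down m j) j = m := by
          funext i
          by_cases hi : i = j
          · subst hi
            rw [up_same, down_same]
            omega
          · rw [up_ne _ hi, down_ne _ hi]
        have hN : ∑ i, (down m j i + l' i) = N := by
          have h3 : ∑ i, (m i + l' i) = ∑ i, (down m j i + l' i) + 1 := by
            rw [← Finset.add_sum_erase Finset.univ _ (Finset.mem_univ j),
              ← Finset.add_sum_erase Finset.univ (fun i => down m j i + l' i) (Finset.mem_univ j)]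
            have h4 : ∑ x ∈ Finset.univ.erase j, (down m j x + l' x) =
                ∑ x ∈ Finset.univ.erase j, (m x + l' x) := by
              apply Finset.sum_congr rfl
              intro i hi
              rw [down_ne _ (Finset.ne_of_mem_erase hi)]
            rw [h4, down_same]
            omega
          omega
        have h2 := hU.2.1 j k l (down m j) l'
        unfold creA annA annB at h2
        rw [e1, inner_smul_left, map_add, inner_add_right, map_smul, map_smul, map_smul, map_smul,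
          inner_smul_right, inner_smul_right, inner_smul_right, inner_smul_right,
          ih _ _ _ _ hN, ih _ _ _ _ hN, Complex.conj_ofReal] at h2
        have h3 := ampn_upA (Real.sqrt η) (Real.sqrt (1 - η)) j (down m j) l' k l
        rw [e1] at h3
        have hpos : (0 : ℝ) < Real.sqrt ((down m j j : ℝ) + 1) := Real.sqrt_pos.mpr (by (clear * -; positivity))
        have hne : ((Real.sqrt ((down m j j : ℝ) + 1) : ℝ) : ℂ) ≠ 0 := by
          exact_mod_cast hpos.ne'
        apply mul_left_cancel₀ hne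
        have h4 := congrArg Complex.ofReal h3
        push_cast at h4
        rw [h2, h4]
        ring
      · have hl : 0 < l' j := by omega
        have e1 : up (down l' j) j = l' := by
          funext i
          by_cases hi : i = j
          · subst hi
            rw [up_same, down_same]
            (clear * - hj hm; omega)
          · rw [up_ne _ hi, down_ne _ hi]
        have hN : ∑ i, (m i + down l' j i) = N := by
          have h3 : ∑ i, (m i + l' i) = ∑ i, (m i + down l' j i) + 1 := by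
            rw [← Finset.add_sum_erase Finset.univ _ (Finset.mem_univ j),
              ← Finset.add_sum_erase Finset.univ (fun i => m i + down l' j i) (Finset.mem_univ j)]
            have h4 : ∑ x ∈ Finset.univ.erase j, (m x + down l' j x) =
                ∑ x ∈ Finset.univ.erase j, (m x + l' x) := by
              apply Finset.sum_congr rfl
              intro i hi
              rw [down_ne _ (Finset.ne_of_mem_erase hi)]
            rw [h4, down_same]
            omega
          omega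
        have h2 := hU.2.2 j k l m (down l' j)
        unfold creB annA annB at h2
        rw [e1, inner_smul_left, map_add, inner_add_right, map_smul, map_smul, map_smul, map_smul,
          inner_smul_right, inner_smul_right, inner_smul_right, inner_smul_right,
          ih _ _ _ _ hN, ih _ _ _ _ hN, Complex.conj_ofReal] at h2
        have h3 := ampn_upB (Real.sqrt η) (Real.sqrt (1 - η)) j m (down l' j) k l
        rw [e1] at h3
        have hpos : (0 : ℝ) < Real.sqrt ((down l' j j : ℝ) + 1) := Real.sqrt_pos.mpr (by (clear * -; positivity))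
        have hne : ((Real.sqrt ((down l' j j : ℝ) + 1) : ℝ) : ℂ) ≠ 0 := by
          exact_mod_cast hpos.ne'
        apply mul_left_cancel₀ hne
        have h4 := congrArg Complex.ofReal h3
        push_cast at h4
        rw [h2, h4]
        ring
  exact key _ m l' k l rfl

/-! ### vectors at a fixed level -/

/-- the vector with coefficients `F` at level `T` -/
def levelVec (F : Conf n → Conf n → ℝ) (T : Conf n) : Fock2 n :=
  ∑ m ∈ below T, ((F m (T - m) : ℝ) : ℂ) • ket2 m (T - m)

theorem sub_add_of_mem {T m : Conf n} (h : m ∈ below T) : m + (T - m) = T := by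
  rw [mem_below] at h
  funext j
  have := h j
  simp only [Pi.add_apply, Pi.sub_apply]
  omega

theorem mem_below_of_add {T a b : Conf n} (h : a + b = T) : a ∈ below T ∧ T - a = b := by
  subst h
  constructor
  · rw [mem_below]
    intro j
    simp only [Pi.add_apply]
    omega
  · funext j
    simp only [Pi.add_apply, Pi.sub_apply]
    (clear * -; omega)

theorem sum_apply2 {ι : Type} (S : Finset ι) (f : ι → Fock2 n) (x : Conf n × Conf n) :
    (∑ i ∈ S, f i) x = ∑ i ∈ S, f i x := by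
  rw [lp.coeFn_sum, Finset.sum_apply]

theorem levelVec_apply {F : Conf n → Conf n → ℝ} {T : Conf n}
    (hF : ∀ a b, a + b ≠ T → F a b = 0) (a b : Conf n) : levelVec F T (a, b) = F a b := by
  unfold levelVec
  rw [sum_apply2]
  have e : ∀ m ∈ below T, (((F m (T - m) : ℝ) : ℂ) • ket2 m (T - m)) (a, b) =
      if a = m then (if a + b = T then ((F a b : ℝ) : ℂ) else 0) else 0 := by
    intro m hm
    rw [lp.coeFn_smul, Pi.smul_apply, ket2_apply]
    by_cases h : a = m
    · subst h
      rw [if_pos rfl]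
      by_cases hb : a + b = T
      · rw [if_pos hb, (mem_below_of_add hb).2]
        simp
      · rw [if_neg hb, if_neg]
        · simp
        · intro h'
          apply hb
          rw [h'.2, sub_add_of_mem hm]
    · rw [if_neg h, if_neg (fun h' => h h'.1)]
      simp
  rw [Finset.sum_congr rfl e, Finset.sum_ite_eq]
  by_cases hb : a + b = T
  · rw [if_pos (mem_below_of_add hb).1, if_pos hb]
  · rw [if_neg hb, hF a b hb]
    simp

theorem inner_levelVec {F : Conf n → Conf n → ℝ} {T : Conf n} (x : Fock2 n) :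
    ⟪levelVec F T, x⟫_ℂ = ∑ m ∈ below T, ((F m (T - m) : ℝ) : ℂ) * x (m, T - m) := by
  unfold levelVec
  rw [sum_inner]
  apply Finset.sum_congr rfl
  intro m _
  rw [inner_smul_left, inner_ket2, Complex.conj_ofReal]

/-! ### existence of the beam splitter -/

/-- image of a number state under the beam splitter -/
def bsVec (s c : ℝ) (x : Conf n × Conf n) : Fock2 n :=
  levelVec (fun m l' => ampn s c m l' x.1 x.2) (x.1 + x.2)

theorem bsVec_apply (s c : ℝ) (k l a b : Conf n) :
    bsVec s c (k, l) (a, b) = ((ampn s c a b k l : ℝ) : ℂ) := by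
  unfold bsVec
  exact levelVec_apply (fun a b h => ampn_hom h) a b

theorem bsVec_orthonormal {s c : ℝ} (h : s ^ 2 + c ^ 2 = 1) :
    Orthonormal ℂ (bsVec (n := n) s c) := by
  rw [orthonormal_iff_ite]
  rintro ⟨k, l⟩ ⟨k', l'⟩
  have e : ⟪bsVec s c (k, l), bsVec s c (k', l')⟫_ℂ =
      ∑ m ∈ below (k + l), ((ampn s c m (k + l - m) k l : ℝ) : ℂ) *
        ((ampn s c m (k + l - m) k' l' : ℝ) : ℂ) := by
    conv_lhs => rw [bsVec]
    rw [inner_levelVec]
    apply Finset.sum_congr rfl
    intro m _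
    rw [bsVec_apply]
  rw [e]
  by_cases hT : k' + l' = k + l
  · obtain ⟨h1, h2⟩ := mem_below_of_add (T := k + l) rfl
    obtain ⟨h3, h4⟩ := mem_below_of_add hT
    have h5 := coln_orth h h1 h3
    rw [h2, h4] at h5
    have h6 : ∑ m ∈ below (k + l), ((ampn s c m (k + l - m) k l : ℝ) : ℂ) *
        ((ampn s c m (k + l - m) k' l' : ℝ) : ℂ) = ((if k = k' then (1 : ℝ) else 0 : ℝ) : ℂ) := by
      rw [← h5]
      push_cast
      rfl
    rw [h6]
    by_cases hk : k = k'
    · subst hk
      have hl : l = l' := by rw [← h2, ← h4]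
      subst hl
      simp
    · rw [if_neg hk, if_neg (fun h' => hk (Prod.ext_iff.mp h').1)]
      simp
  · rw [if_neg, Finset.sum_eq_zero]
    · intro m hm
      rw [ampn_hom (k := k') (l := l'), Complex.ofReal_zero, mul_zero]
      rw [sub_add_of_mem hm]
      exact fun h' => hT h'.symm
    · intro h'
      rw [Prod.ext_iff] at h'
      simp only at h'
      apply hT
      rw [h'.1, h'.2]

theorem ket2_eq_sum {s c : ℝ} (h : s ^ 2 + c ^ 2 = 1) (a b : Conf n) :
    ket2 a b = ∑ k ∈ below (a + b), ((ampn s c a b k (a + b - k) : ℝ) : ℂ) •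
      bsVec s c (k, a + b - k) := by
  apply fock2_ext
  intro a' b'
  rw [sum_apply2, ket2_apply]
  have e : ∀ k ∈ below (a + b), (((ampn s c a b k (a + b - k) : ℝ) : ℂ) •
      bsVec s c (k, a + b - k)) (a', b') =
      ((ampn s c a b k (a + b - k) * ampn s c a' b' k (a + b - k) : ℝ) : ℂ) := by
    intro k _
    rw [lp.coeFn_smul, Pi.smul_apply, bsVec_apply]
    push_cast
    rfl
  rw [Finset.sum_congr rfl e]
  by_cases hT : a' + b' = a + b
  · obtain ⟨h1, h2⟩ := mem_below_of_add (T := a + b) rfl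
    obtain ⟨h3, h4⟩ := mem_below_of_add hT
    have h5 := rown_orth h h1 h3
    rw [h2, h4] at h5
    rw [← Complex.ofReal_sum, h5]
    by_cases hk : a = a'
    · subst hk
      have hl : b = b' := by rw [← h2, ← h4]
      subst hl
      simp
    · rw [if_neg hk, if_neg (fun h' => hk h'.1.symm)]
      simp
  · rw [if_neg, Finset.sum_eq_zero]
    · intro k hk
      rw [ampn_hom (m := a') (l' := b'), mul_zero, Complex.ofReal_zero]
      rw [sub_add_of_mem hk]
      exact hT
    · intro h'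
      apply hT
      rw [h'.1, h'.2]

theorem bsVec_complete {s c : ℝ} (h : s ^ 2 + c ^ 2 = 1) :
    (Submodule.span ℂ (Set.range (bsVec (n := n) s c)))ᗮ = ⊥ := by
  rw [Submodule.eq_bot_iff]
  intro x hx
  rw [Submodule.mem_orthogonal] at hx
  have h1 : ∀ y, ⟪bsVec s c y, x⟫_ℂ = 0 := fun y => hx _ (Submodule.subset_span ⟨y, rfl⟩)
  apply fock2_ext
  intro a b
  rw [← inner_ket2, ket2_eq_sum h a b, sum_inner]
  rw [Finset.sum_eq_zero]
  · rfl
  · intro k _
    rw [inner_smul_left, h1, mul_zero]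

theorem exists_bs (h0 : 0 ≤ η) (h1 : η ≤ 1) :
    ∃ U : Fock2 n ≃ₗᵢ[ℂ] Fock2 n, IsBeamSplitter η U := by
  have hsc := sc_sq h0 h1
  set B := HilbertBasis.mkOfOrthogonalEqBot (bsVec_orthonormal (n := n) hsc) (bsVec_complete hsc)
    with hB
  have hU : ∀ k l : Conf n, B.repr.symm (ket2 k l) =
      bsVec (Real.sqrt η) (Real.sqrt (1 - η)) (k, l) := by
    intro k l
    unfold ket2
    rw [B.repr_symm_single, hB, HilbertBasis.coe_mkOfOrthogonalEqBot]
  refine ⟨B.repr.symm, ?_, ?_, ?_⟩
  · rw [hU]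
    apply fock2_ext
    intro a b
    rw [bsVec_apply, ket2_apply]
    by_cases h : a = 0 ∧ b = 0
    · obtain ⟨rfl, rfl⟩ := h
      rw [ampn_zero_zero]
      simp
    · rw [if_neg h, ampn_hom, Complex.ofReal_zero]
      intro h'
      apply h
      have h2 : ∀ j, a j + b j = 0 := fun j => congrFun h' j
      constructor
      · funext j
        have := h2 j
        simp only [Pi.zero_apply]
        omega
      · funext j
        have := h2 j
        simp only [Pi.zero_apply]
        omega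
  · intro j k l k' l'
    unfold creA annA annB
    rw [inner_smul_left, map_add, inner_add_right, map_smul, map_smul, map_smul, map_smul,
      inner_smul_right, inner_smul_right, inner_smul_right, inner_smul_right, hU, hU, hU,
      inner_ket2, inner_ket2, inner_ket2, bsVec_apply, bsVec_apply, bsVec_apply,
      Complex.conj_ofReal]
    have h3 := congrArg Complex.ofReal
      (ampn_upA (Real.sqrt η) (Real.sqrt (1 - η)) j k' l' k l)
    push_cast at h3
    rw [h3]
    ring
  · intro j k l k' l'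
    unfold creB annA annB
    rw [inner_smul_left, map_add, inner_add_right, map_smul, map_smul, map_smul, map_smul,
      inner_smul_right, inner_smul_right, inner_smul_right, inner_smul_right, hU, hU, hU,
      inner_ket2, inner_ket2, inner_ket2, bsVec_apply, bsVec_apply, bsVec_apply,
      Complex.conj_ofReal]
    have h3 := congrArg Complex.ofReal
      (ampn_upB (Real.sqrt η) (Real.sqrt (1 - η)) j k' l' k l)
    push_cast at h3
    rw [h3]
    ring

/-! ### the output state -/

theorem symm_apply {U : Fock2 n ≃ₗᵢ[ℂ] Fock2 n} (hU : IsBeamSplitter η U) (m l : Conf n) :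
    U.symm (ket2 m l) = levelVec (ampn (Real.sqrt η) (Real.sqrt (1 - η)) m l) (m + l) := by
  apply fock2_ext
  intro a b
  rw [levelVec_apply (fun a b h => ampn_hom (fun h' => h h'.symm))]
  rw [← inner_ket2]
  have h1 : ⟪ket2 a b, U.symm (ket2 m l)⟫_ℂ = ⟪U (ket2 a b), ket2 m l⟫_ℂ := by
    rw [← LinearIsometryEquiv.inner_map_map U, LinearIsometryEquiv.apply_symm_apply]
  rw [h1, ← inner_conj_symm, bs_matrix hU, Complex.conj_ofReal]

theorem product_apply {ρA ρB : Fock n →L[ℂ] Fock n} {ρAB : Fock2 n →L[ℂ] Fock2 n}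
    {p q : Conf n → ℝ} (hA : ∀ k, ρA (ket k) = (p k : ℂ) • ket k)
    (hB : ∀ k, ρB (ket k) = (q k : ℂ) • ket k) (h : IsProduct ρA ρB ρAB) (k l : Conf n) :
    ρAB (ket2 k l) = ((p k * q l : ℝ) : ℂ) • ket2 k l := by
  apply fock2_ext
  intro a b
  rw [← inner_ket2, h, hA, hB, inner_smul_right, inner_smul_right, inner_ket, inner_ket,
    lp.coeFn_smul, Pi.smul_apply, ket2_apply, ket_apply, ket_apply]
  by_cases h1 : a = k
  · by_cases h2 : b = l
    · simp [h1, h2]
    · simp [h1, h2]
  · simp only [h1, ↓reduceIte, mul_zero, mul_ite, mul_one, zero_mul, ite_self, Complex.ofReal_mul, false_and, smul_eq_mul]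

theorem element_eq {U : Fock2 n ≃ₗᵢ[ℂ] Fock2 n} (hU : IsBeamSplitter η U)
    {ρAB : Fock2 n →L[ℂ] Fock2 n} {p q : Conf n → ℝ}
    (h : ∀ k l, ρAB (ket2 k l) = ((p k * q l : ℝ) : ℂ) • ket2 k l) (m m' l : Conf n) :
    ⟪ket2 m l, U (ρAB (U.symm (ket2 m' l)))⟫_ℂ =
      ((∑ k ∈ below (m' + l), ampn (Real.sqrt η) (Real.sqrt (1 - η)) m' l k (m' + l - k) *
        (p k * q (m' + l - k)) *
        ampn (Real.sqrt η) (Real.sqrt (1 - η)) m l k (m' + l - k) : ℝ) : ℂ) := by
  rw [symm_apply hU]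
  unfold levelVec
  rw [map_sum, map_sum, inner_sum, Complex.ofReal_sum]
  apply Finset.sum_congr rfl
  intro k _
  rw [map_smul, map_smul, h, map_smul, inner_smul_right, inner_smul_right, bs_matrix hU]
  push_cast
  ring

theorem kern_eq_sq {m l k l' : Conf n} (h : m + l = k + l') :
    kern η m k l' = ampn (Real.sqrt η) (Real.sqrt (1 - η)) m l k l' ^ 2 := by
  unfold kern ampn
  rw [← Finset.prod_pow]
  apply Finset.prod_congr rfl
  intro j _
  exact ker_eq (congrFun h j)

theorem hasSum_fiber (h0 : 0 ≤ η) (h1 : η ≤ 1) {p q : Conf n → ℝ} (hp : IsProb p)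
    (hq : IsProb q) (m : Conf n) :
    HasSum (fun l => ∑ k ∈ below (m + l), kern η m k (m + l - k) * (p k * q (m + l - k)))
      (outn η p q m) := by
  have hker : ∀ i j, ∑' k, ker η k i j = 1 := fun i j => (hasSum_ker h0 h1 i j).tsum_eq
  have hk := kern_isKer hker n
  have hf : HasSum (fun x : Conf n × Conf n => kern η m x.1 x.2 * (p x.1 * q x.2))
      (outn η p q m) :=
    (summable_outG (K := kern η) hk.nonneg
      (fun k l => by
        rw [← hk.one k l]
        exact (summable_of_hasFiniteSupport (hk.fin k l)).hasSum)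
      hp.1 hq.1 hp.2.summable hq.2.summable m).hasSum
  set F : Conf n × Conf n → ℝ := fun x => if x.2 ∈ below (m + x.1) then
    kern η m x.2 (m + x.1 - x.2) * (p x.2 * q (m + x.1 - x.2)) else 0 with hF
  have hmem : ∀ x : Function.support F, x.1.2 ∈ below (m + x.1.1) := by
    intro x
    by_contra h
    exact x.2 (if_neg h)
  have hFs : HasSum F (outn η p q m) := by
    have hb := hasSum_iff_hasSum_of_ne_zero_bij (g := F) (a := outn η p q m)
      (f := fun x : Conf n × Conf n => kern η m x.1 x.2 * (p x.1 * q x.2))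
      (fun x : Function.support F => (x.1.2, m + x.1.1 - x.1.2)) ?_ ?_ ?_
    · exact hb.mp hf
    · intro x y hxy
      have hx := hmem x
      have hy := hmem y
      simp only [Prod.ext_iff] at hxy
      obtain ⟨e1, e2⟩ := hxy
      rw [mem_below] at hx hy
      apply Subtype.ext
      apply Prod.ext
      · funext j
        have a1 := congrFun e2 j
        have a2 := hx j
        have a3 := hy j
        have a4 := congrFun e1 j
        simp only [Pi.add_apply, Pi.sub_apply] at a1 a2 a3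
        omega
      · exact e1
    · rintro ⟨k, l'⟩ hx
      rw [Function.mem_support] at hx
      simp only at hx
      have hkern := left_ne_zero_of_mul hx
      have hle : ∀ j, m j ≤ k j + l' j := by
        intro j
        by_contra h
        apply hkern
        unfold kern
        apply Finset.prod_eq_zero (Finset.mem_univ j)
        unfold ker
        rw [if_neg h]
      have e1 : m + (k + l' - m) = k + l' := by
        funext j
        have := hle j
        simp only [Pi.add_apply, Pi.sub_apply]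
        omega
      obtain ⟨b1, b2⟩ := mem_below_of_add (T := k + l') (a := k) (b := l') rfl
      refine ⟨⟨(k + l' - m, k), ?_⟩, ?_⟩
      · rw [Function.mem_support]
        simp only [hF]
        rw [e1, if_pos b1, b2]
        exact hx
      · simp only
        rw [e1, b2]
    · intro x
      simp only [hF]
      rw [if_pos (hmem x)]
  refine hFs.prod_fiberwise ?_
  intro l
  have h2 : HasSum (fun k => F (l, k)) (∑ k ∈ below (m + l), F (l, k)) := by
    apply hasSum_sum_of_ne_finset_zero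
    intro k hk
    exact if_neg hk
  have h3 : ∑ k ∈ below (m + l), F (l, k) =
      ∑ k ∈ below (m + l), kern η m k (m + l - k) * (p k * q (m + l - k)) := by
    apply Finset.sum_congr rfl
    intro k hk
    exact if_pos hk
  rw [← h3]
  exact h2

theorem hasSum_marginal (h0 : 0 ≤ η) (h1 : η ≤ 1) {U : Fock2 n ≃ₗᵢ[ℂ] Fock2 n}
    (hU : IsBeamSplitter η U) {ρAB : Fock2 n →L[ℂ] Fock2 n} {p q : Conf n → ℝ}
    (h : ∀ k l, ρAB (ket2 k l) = ((p k * q l : ℝ) : ℂ) • ket2 k l) (hp : IsProb p)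
    (hq : IsProb q) (m m' : Conf n) :
    HasSum (fun l => ⟪ket2 m l, U (ρAB (U.symm (ket2 m' l)))⟫_ℂ)
      (if m = m' then ((outn η p q m : ℝ) : ℂ) else 0) := by
  by_cases hm : m = m'
  · subst hm
    rw [if_pos rfl]
    have h2 := Complex.hasSum_ofReal.mpr (hasSum_fiber h0 h1 hp hq m)
    have e : (fun l => ⟪ket2 m l, U (ρAB (U.symm (ket2 m l)))⟫_ℂ) = fun l =>
        ((∑ k ∈ below (m + l), kern η m k (m + l - k) * (p k * q (m + l - k)) : ℝ) : ℂ) := by
      funext l
      rw [element_eq hU h]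
      congr 1
      apply Finset.sum_congr rfl
      intro k hk
      rw [kern_eq_sq (sub_add_of_mem hk).symm]
      ring
    rw [e]
    exact h2
  · rw [if_neg hm]
    have h2 : (fun l => ⟪ket2 m l, U (ρAB (U.symm (ket2 m' l)))⟫_ℂ) = fun _ => 0 := by
      funext l
      rw [element_eq hU h, Finset.sum_eq_zero, Complex.ofReal_zero]
      intro k hk
      rw [ampn_hom (m := m) (l' := l), mul_zero]
      rw [sub_add_of_mem hk]
      intro h'
      exact hm (add_right_cancel h')
    rw [h2]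
    exact hasSum_zero

/-- The output of a beam splitter with diagonal inputs is diagonal, with spectrum `outn`. -/
theorem output_diag (h0 : 0 ≤ η) (h1 : η ≤ 1) {ρA ρB ρC : Fock n →L[ℂ] Fock n}
    {p q : Conf n → ℝ} (hA : ∀ k, ρA (ket k) = (p k : ℂ) • ket k)
    (hB : ∀ k, ρB (ket k) = (q k : ℂ) • ket k) (hp : IsProb p) (hq : IsProb q)
    (hO : IsOutput η ρA ρB ρC) (m : Conf n) :
    ρC (ket m) = ((outn η p q m : ℝ) : ℂ) • ket m := by
  obtain ⟨U, ρAB, hU, hAB, hM⟩ := hO
  apply fock_ext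
  intro a
  have h2 := hasSum_marginal h0 h1 hU (product_apply hA hB hAB) hp hq a m
  have h3 := hM a m
  have h4 := h3.unique h2
  rw [← inner_ket, h4, lp.coeFn_smul, Pi.smul_apply, ket_apply]
  by_cases h : a = m
  · subst h; simp
  · simp [h]

/-- a diagonal operator -/
def diagOp {ι : Type} (d : ι → ℂ) (hd : ∀ i, ‖d i‖ ≤ 1) :
    lp (fun _ : ι => ℂ) 2 →L[ℂ] lp (fun _ : ι => ℂ) 2 :=
  LinearMap.mkContinuous
    { toFun := fun f => ⟨fun i => d i * f i, (lp.memℓp f).mono' (fun i => by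
        rw [norm_mul]
        exact mul_le_of_le_one_left (norm_nonneg _) (hd i))⟩
      map_add' := fun f g => by
        apply lp.ext
        funext i
        change d i * (f + g) i = d i * f i + d i * g i
        rw [lp.coeFn_add, Pi.add_apply, mul_add]
      map_smul' := fun a f => by
        apply lp.ext
        funext i
        change d i * (a • f) i = a * (d i * f i)
        rw [lp.coeFn_smul, Pi.smul_apply, smul_eq_mul]
        ring } 1
    (fun f => by
      rw [one_mul]
      apply lp.norm_mono (by norm_num)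
      intro i
      change ‖d i * f i‖ ≤ ‖f i‖
      rw [norm_mul]
      exact mul_le_of_le_one_left (norm_nonneg _) (hd i))

theorem diagOp_apply {ι : Type} (d : ι → ℂ) (hd : ∀ i, ‖d i‖ ≤ 1)
    (f : lp (fun _ : ι => ℂ) 2) (i : ι) : diagOp d hd f i = d i * f i := rfl

/-- Every pair of diagonal states has an output. -/
theorem exists_output (h0 : 0 ≤ η) (h1 : η ≤ 1) {ρA ρB : Fock n →L[ℂ] Fock n}
    {p q : Conf n → ℝ} (hA : ∀ k, ρA (ket k) = (p k : ℂ) • ket k)
    (hB : ∀ k, ρB (ket k) = (q k : ℂ) • ket k) (hp : IsProb p) (hq : IsProb q) :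
    ∃ ρC : Fock n →L[ℂ] Fock n, IsOutput η ρA ρB ρC := by
  obtain ⟨U, hU⟩ := exists_bs (n := n) h0 h1
  have hker : ∀ i j, ∑' k, ker η k i j = 1 := fun i j => (hasSum_ker h0 h1 i j).tsum_eq
  have hk := kern_isKer hker n
  have hout : IsProb (outn η p q) := outG_isProb (K := kern η) hk.nonneg
    (fun k l => by
      rw [← hk.one k l]
      exact (summable_of_hasFiniteSupport (hk.fin k l)).hasSum) hp hq
  have hnorm : ∀ x : ℝ, 0 ≤ x → x ≤ 1 → ‖(x : ℂ)‖ ≤ 1 := by
    intro x hx hx1
    rw [Complex.norm_real, Real.norm_of_nonneg hx]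
    exact hx1
  have hd : ∀ x : Conf n × Conf n, ‖((p x.1 * q x.2 : ℝ) : ℂ)‖ ≤ 1 := fun x =>
    hnorm _ (mul_nonneg (hp.1 _) (hq.1 _))
      (mul_le_one₀ (hp.le_one _) (hq.1 _) (hq.le_one _))
  have hAB : ∀ k l : Conf n, diagOp (fun x : Conf n × Conf n => ((p x.1 * q x.2 : ℝ) : ℂ)) hd
      (ket2 k l) = ((p k * q l : ℝ) : ℂ) • ket2 k l := by
    intro k l
    apply fock2_ext
    intro a b
    rw [diagOp_apply, lp.coeFn_smul, Pi.smul_apply, ket2_apply]
    by_cases h : a = k ∧ b = l
    · obtain ⟨rfl, rfl⟩ := h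
      simp
    · rw [if_neg h]
      simp
  refine ⟨diagOp (fun m : Conf n => ((outn η p q m : ℝ) : ℂ))
    (fun m => hnorm _ (hout.1 m) (hout.le_one m)), U,
    diagOp (fun x : Conf n × Conf n => ((p x.1 * q x.2 : ℝ) : ℂ)) hd, hU, ?_, ?_⟩
  · intro k l k' l'
    rw [hAB, hA, hB, inner_smul_right, inner_smul_right, inner_smul_right, inner_ket2, inner_ket,
      inner_ket, ket2_apply, ket_apply, ket_apply]
    by_cases h3 : k = k'
    · by_cases h4 : l = l'
      · simp [h3, h4]
      · simp [h3, h4]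
    · simp [h3]
  · intro m m'
    have h2 := hasSum_marginal h0 h1 hU hAB hp hq m m'
    have h3 : ⟪ket m, diagOp (fun m : Conf n => ((outn η p q m : ℝ) : ℂ))
        (fun m => hnorm _ (hout.1 m) (hout.le_one m)) (ket m')⟫_ℂ =
        if m = m' then ((outn η p q m : ℝ) : ℂ) else 0 := by
      rw [inner_ket, diagOp_apply, ket_apply]
      by_cases h : m = m'
      · simp [h]
      · simp [h]
    rw [h3]
    exact h2

end

end Vale.Agent.P369
end
end
end

section

attribute [-instance] ProperSMul.toContinuousSMul IsTopologicalTorsor.toContinuousSMul IdemSemiring.toCanonicallyOrderedAdd IdemSemiring.toMulLeftMono IdemSemiring.toMulRightMono AddQuantale.instAddLeftMono AddQuantale.instAddRightMono Quantale.instMulLeftMono Quantale.instMulRightMono FiniteDimensional.rclike_to_real IsScalarTower.complexToReal FiniteDimensional.complexToReal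

section

section

/-!
A discrete Riesz rearrangement inequality for the beam splitter kernel.
-/

namespace Vale.Agent.P369

open Finset

noncomputable section

variable {η : ℝ}

/-- mixed difference -/
def mix (f : ℕ → ℕ → ℝ) (i j : ℕ) : ℝ := f i j - shA f i j - shB f i j + shA (shB f) i j

theorem mix_inj {f g : ℕ → ℕ → ℝ} (h : ∀ i j, mix f i j = mix g i j) (i j : ℕ) :
    f i j = g i j := by
  induction i, j using two_induction with
  | h i j ih =>
    have := h i j
    unfold mix at this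
    have hA : shA f i j = shA g i j := by
      cases i with
      | zero => rfl
      | succ i => exact ih i j (by omega) le_rfl (by omega)
    have hB : shB f i j = shB g i j := by
      cases j with
      | zero => simp
      | succ j => simpa using ih i j le_rfl (by omega) (by omega)
    have hAB : shA (shB f) i j = shA (shB g) i j := by
      cases i with
      | zero => rfl
      | succ i =>
        cases j with
        | zero => simp
        | succ j => simpa using ih i j (by omega) (by omega) (by omega)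
    rw [hA, hB, hAB] at this
    linarith only [this]

/-- the kernel summed over outputs below `k` -/
def cumK (η : ℝ) (k i j : ℕ) : ℝ := ∑ m ∈ range k, ker η m i j

theorem mix_cumK (η : ℝ) (k i j : ℕ) : mix (cumK η k) i j = ∑ m ∈ range k, mix (ker η m) i j := by
  have hA : shA (cumK η k) i j = ∑ m ∈ range k, shA (ker η m) i j := by
    cases i <;> simp [cumK]
  have hB : ∀ i j, shB (cumK η k) i j = ∑ m ∈ range k, shB (ker η m) i j := by
    intro i j; cases j <;> simp [cumK]
  have hAB : shA (shB (cumK η k)) i j = ∑ m ∈ range k, shA (shB (ker η m)) i j := by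
    cases i with
    | zero => simp
    | succ i => simp only [shA_succ]; exact hB i j
  unfold mix
  rw [hA, hB, hAB, Finset.sum_add_distrib, Finset.sum_sub_distrib, Finset.sum_sub_distrib]
  rfl

/-- `L w_k = δ - Σ_{m<k} (mixed difference of w_m)` -/
theorem opD_ker (h0 : 0 ≤ η) (h1 : η ≤ 1) (k i j : ℕ) :
    opD η (ker η k) i j = (if i = 0 ∧ j = 0 then 1 else 0) - mix (cumK η k) i j := by
  rw [mix_cumK]
  induction k with
  | zero =>
    simp only [range_zero, sum_empty, sub_zero]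
    exact ker_zero_rec h0 h1 i j
  | succ k ih =>
    rw [Finset.sum_range_succ]
    have := ker_rec h0 h1 k i j
    unfold opD at ih ⊢
    rw [this]
    unfold mix at ih ⊢
    linarith only [ih]

/-- partial sums in the first index -/
def sumA (f : ℕ → ℕ → ℝ) (i j : ℕ) : ℝ := ∑ m ∈ range (i + 1), f m j

/-- partial sums in the second index -/
def sumB (f : ℕ → ℕ → ℝ) (i j : ℕ) : ℝ := ∑ m ∈ range (j + 1), f i m

theorem mix_sumA (f : ℕ → ℕ → ℝ) (i j : ℕ) : mix (sumA f) i j = f i j - shB f i j := by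
  unfold mix
  cases i with
  | zero =>
    cases j with
    | zero => simp [sumA]
    | succ j => simp only [sumA, zero_add, range_one, sum_singleton, shA_zero, sub_zero, shB_succ, add_zero]
  | succ i =>
    cases j with
    | zero =>
      simp only [sumA, shA_succ, shB_zero, Finset.sum_range_succ _ (i + 1)]
      ring
    | succ j =>
      simp only [sumA, shA_succ, shB_succ, Finset.sum_range_succ _ (i + 1)]
      ring

theorem mix_sumB (f : ℕ → ℕ → ℝ) (i j : ℕ) : mix (sumB f) i j = f i j - shA f i j := by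
  unfold mix
  cases i with
  | zero =>
    cases j with
    | zero => simp only [sumB, zero_add, range_one, sum_singleton, shA_zero, sub_zero, shB_zero, add_zero]
    | succ j =>
      simp only [sumB, shA_zero, shB_succ, Finset.sum_range_succ _ (j + 1)]
      ring
  | succ i =>
    cases j with
    | zero =>
      simp only [sumB, shA_succ, shB_zero]
      simp
    | succ j =>
      simp only [sumB, shA_succ, shB_succ, Finset.sum_range_succ _ (j + 1)]
      ring

/-- The corner identity. -/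
theorem corner (h0 : 0 ≤ η) (h1 : η ≤ 1) (k i j : ℕ) :
    η * sumA (ker η k) i j + (1 - η) * sumB (ker η k) i j + cumK η k i j = 1 := by
  have key := mix_inj (f := fun i j => η * sumA (ker η k) i j + (1 - η) * sumB (ker η k) i j +
    cumK η k i j) (g := fun _ _ => 1) ?_ i j
  · exact key
  intro i j
  have lin : mix (fun i j => η * sumA (ker η k) i j + (1 - η) * sumB (ker η k) i j +
      cumK η k i j) i j = η * mix (sumA (ker η k)) i j + (1 - η) * mix (sumB (ker η k)) i j +
      mix (cumK η k) i j := by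
    unfold mix
    cases i <;> cases j <;> simp <;> ring
  rw [lin, mix_sumA, mix_sumB]
  have h := opD_ker h0 h1 k i j
  unfold opD at h
  have e : mix (fun _ _ => (1 : ℝ)) i j = if i = 0 ∧ j = 0 then 1 else 0 := by
    unfold mix
    cases i <;> cases j <;> simp
  rw [e]
  linarith

/-- rank from the top -/
def rk (S : Finset ℕ) (s : ℕ) : ℕ := (S.filter (s < ·)).card

theorem sum_rk (S : Finset ℕ) (F : ℕ → ℝ) : ∑ s ∈ S, F (rk S s) = ∑ i ∈ range S.card, F i := by
  induction S using Finset.induction_on_min with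
  | empty => simp
  | insert a S ha ih =>
    have hna : a ∉ S := fun h => lt_irrefl _ (ha a h)
    rw [Finset.sum_insert hna, Finset.card_insert_of_notMem hna, Finset.sum_range_succ, ← ih,
      add_comm]
    congr 1
    · apply Finset.sum_congr rfl
      intro s hs
      have : rk (insert a S) s = rk S s := by
        unfold rk
        congr 1
        rw [Finset.filter_insert, if_neg (by have := ha s hs; omega)]
      rw [this]
    · have : rk (insert a S) a = S.card := by
        unfold rk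
        congr 1
        rw [Finset.filter_insert, if_neg (lt_irrefl _)]
        exact Finset.filter_true_of_mem (fun s hs => ha s hs)
      rw [this]

theorem sum_rk_ge (S : Finset ℕ) {s : ℕ} (hs : s ∈ S) (F : ℕ → ℝ) :
    ∑ t ∈ S.filter (s ≤ ·), F (rk S t) = ∑ i ∈ range (rk S s + 1), F i := by
  have h1 : (S.filter (s ≤ ·)).card = rk S s + 1 := by
    have : S.filter (s ≤ ·) = insert s (S.filter (s < ·)) := by
      ext t
      simp only [Finset.mem_filter, Finset.mem_insert]
      constructor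
      · rintro ⟨h1, h2⟩
        rcases h2.eq_or_lt with h | h
        · left; exact h.symm
        · right; exact ⟨h1, h⟩
      · rintro (h | ⟨h1, h2⟩)
        · subst h; exact ⟨hs, le_rfl⟩
        · exact ⟨h1, h2.le⟩
    rw [this, Finset.card_insert_of_notMem (by simp)]
    rfl
  rw [← h1, ← sum_rk]
  apply Finset.sum_congr rfl
  intro t ht
  rw [Finset.mem_filter] at ht
  congr 1
  unfold rk
  congr 1
  ext x
  simp only [Finset.mem_filter]
  constructor
  · rintro ⟨h1, h2⟩
    exact ⟨⟨h1, by omega⟩, h2⟩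
  · rintro ⟨⟨h1, _⟩, h2⟩
    exact ⟨h1, h2⟩

theorem sum_swap_order (S : Finset ℕ) (u v : ℕ → ℝ) :
    ∑ s ∈ S, u s * ∑ t ∈ S.filter (s ≤ ·), v t = ∑ t ∈ S, v t * ∑ s ∈ S.filter (· ≤ t), u s := by
  simp only [sum_filter, mul_sum]
  rw [Finset.sum_comm]
  apply Finset.sum_congr rfl
  intro t _
  apply Finset.sum_congr rfl
  intro s _
  split_ifs
  · ring
  · simp

/-- **Discrete Riesz rearrangement inequality** for the beam splitter kernel. -/
theorem riesz (h0 : 0 ≤ η) (h1 : η ≤ 1) (S T Z : Finset ℕ) :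
    ∑ i ∈ S, ∑ j ∈ T, ∑ k ∈ Z, ker η k i j ≤
      ∑ i ∈ range S.card, ∑ j ∈ range T.card, ∑ k ∈ range Z.card, ker η k i j := by
  have h1' : 0 ≤ 1 - η := by linarith only [h1]
  set w : ℕ → ℕ → ℕ → ℝ := fun i j k => ker η (rk Z k) (rk S i) (rk T j) with hw
  have hw0 : ∀ i j k, 0 ≤ w i j k := fun i j k => ker_nonneg _ _ _ _
  -- the weights sum to the right-hand side
  have hR : ∑ i ∈ S, ∑ j ∈ T, ∑ k ∈ Z, w i j k =
      ∑ i ∈ range S.card, ∑ j ∈ range T.card, ∑ k ∈ range Z.card, ker η k i j := by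
    rw [← sum_rk S (fun i => ∑ j ∈ range T.card, ∑ k ∈ range Z.card, ker η k i j)]
    apply Finset.sum_congr rfl
    intro i _
    rw [← sum_rk T (fun j => ∑ k ∈ range Z.card, ker η k (rk S i) j)]
    apply Finset.sum_congr rfl
    intro j _
    rw [← sum_rk Z (fun k => ker η k (rk S i) (rk T j))]
  -- the corner identity for the weights
  have hI : ∀ i ∈ S, ∀ j ∈ T, ∀ k ∈ Z,
      η * ∑ i' ∈ S.filter (i ≤ ·), w i' j k + (1 - η) * ∑ j' ∈ T.filter (j ≤ ·), w i j' k +
      ∑ k' ∈ Z.filter (k ≤ ·), w i j k' - w i j k = 1 := by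
    intro i hi j hj k hk
    have c := corner h0 h1 (rk Z k) (rk S i) (rk T j)
    have e1 := sum_rk_ge S hi (fun i' => ker η (rk Z k) i' (rk T j))
    have e2 := sum_rk_ge T hj (fun j' => ker η (rk Z k) (rk S i) j')
    have e3 := sum_rk_ge Z hk (fun k' => ker η k' (rk S i) (rk T j))
    rw [Finset.sum_range_succ] at e3
    simp only [hw]
    rw [e1, e2, e3]
    unfold sumA sumB cumK at c
    linarith only [c]
  -- expand
  have hL : ∑ i ∈ S, ∑ j ∈ T, ∑ k ∈ Z, ker η k i j =
      ∑ i ∈ S, ∑ j ∈ T, ∑ k ∈ Z, w i j k * (η * ∑ i' ∈ S.filter (· ≤ i), ker η k i' j +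
        (1 - η) * ∑ j' ∈ T.filter (· ≤ j), ker η k i j' +
        ∑ k' ∈ Z.filter (· ≤ k), ker η k' i j - ker η k i j) := by
    have s1 : ∑ i ∈ S, ∑ j ∈ T, ∑ k ∈ Z, ker η k i j * ∑ i' ∈ S.filter (i ≤ ·), w i' j k =
        ∑ i ∈ S, ∑ j ∈ T, ∑ k ∈ Z, w i j k * ∑ i' ∈ S.filter (· ≤ i), ker η k i' j := by
      rw [Finset.sum_comm, Finset.sum_comm (s := S) (t := T)]
      apply Finset.sum_congr rfl
      intro j _
      rw [Finset.sum_comm, Finset.sum_comm (s := S) (t := Z)]
      apply Finset.sum_congr rfl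
      intro k _
      exact sum_swap_order S (fun i => ker η k i j) (fun i => w i j k)
    have s2 : ∑ i ∈ S, ∑ j ∈ T, ∑ k ∈ Z, ker η k i j * ∑ j' ∈ T.filter (j ≤ ·), w i j' k =
        ∑ i ∈ S, ∑ j ∈ T, ∑ k ∈ Z, w i j k * ∑ j' ∈ T.filter (· ≤ j), ker η k i j' := by
      apply Finset.sum_congr rfl
      intro i _
      rw [Finset.sum_comm, Finset.sum_comm (s := T) (t := Z)]
      apply Finset.sum_congr rfl
      intro k _
      exact sum_swap_order T (fun j => ker η k i j) (fun j => w i j k)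
    have s3 : ∑ i ∈ S, ∑ j ∈ T, ∑ k ∈ Z, ker η k i j * ∑ k' ∈ Z.filter (k ≤ ·), w i j k' =
        ∑ i ∈ S, ∑ j ∈ T, ∑ k ∈ Z, w i j k * ∑ k' ∈ Z.filter (· ≤ k), ker η k' i j := by
      apply Finset.sum_congr rfl
      intro i _
      apply Finset.sum_congr rfl
      intro j _
      exact sum_swap_order Z (fun k => ker η k i j) (fun k => w i j k)
    have a1 : ∑ i ∈ S, ∑ j ∈ T, ∑ k ∈ Z, ker η k i j =
        ∑ i ∈ S, ∑ j ∈ T, ∑ k ∈ Z, (η * (ker η k i j * ∑ i' ∈ S.filter (i ≤ ·), w i' j k) +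
        (1 - η) * (ker η k i j * ∑ j' ∈ T.filter (j ≤ ·), w i j' k) +
        ker η k i j * ∑ k' ∈ Z.filter (k ≤ ·), w i j k' - w i j k * ker η k i j) := by
      apply Finset.sum_congr rfl
      intro i hi
      apply Finset.sum_congr rfl
      intro j hj
      apply Finset.sum_congr rfl
      intro k hk
      have := hI i hi j hj k hk
      linear_combination (-ker η k i j) * this
    rw [a1]
    have e : ∀ i j k, w i j k * (η * ∑ i' ∈ S.filter (· ≤ i), ker η k i' j +
        (1 - η) * ∑ j' ∈ T.filter (· ≤ j), ker η k i j' +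
        ∑ k' ∈ Z.filter (· ≤ k), ker η k' i j - ker η k i j) =
        η * (w i j k * ∑ i' ∈ S.filter (· ≤ i), ker η k i' j) +
        (1 - η) * (w i j k * ∑ j' ∈ T.filter (· ≤ j), ker η k i j') +
        w i j k * ∑ k' ∈ Z.filter (· ≤ k), ker η k' i j - w i j k * ker η k i j := by
      intro i j k; ring
    simp only [e]
    simp only [Finset.sum_sub_distrib, Finset.sum_add_distrib, ← Finset.mul_sum (a := η),
      ← Finset.mul_sum (a := 1 - η)]
    rw [s1, s2, s3]
  rw [hL, ← hR]
  apply Finset.sum_le_sum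
  intro i _
  apply Finset.sum_le_sum
  intro j _
  apply Finset.sum_le_sum
  intro k _
  have sub : ∀ (X : Finset ℕ) (m : ℕ) (F : ℕ → ℝ), (∀ x, 0 ≤ F x) →
      ∑ x ∈ X.filter (· ≤ m), F x ≤ ∑ x ∈ range (m + 1), F x := by
    intro X m F hF
    apply Finset.sum_le_sum_of_subset_of_nonneg
    · intro x hx
      rw [Finset.mem_filter] at hx
      rw [Finset.mem_range]
      omega
    · intro x _ _
      exact hF x
  have b1 := sub S i (fun i' => ker η k i' j) (fun _ => ker_nonneg _ _ _ _)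
  have b2 := sub T j (fun j' => ker η k i j') (fun _ => ker_nonneg _ _ _ _)
  have b3 := sub Z k (fun k' => ker η k' i j) (fun _ => ker_nonneg _ _ _ _)
  have c := corner h0 h1 k i j
  unfold sumA sumB cumK at c
  rw [Finset.sum_range_succ] at b3
  have : η * ∑ i' ∈ S.filter (· ≤ i), ker η k i' j +
        (1 - η) * ∑ j' ∈ T.filter (· ≤ j), ker η k i j' +
        ∑ k' ∈ Z.filter (· ≤ k), ker η k' i j - ker η k i j ≤ 1 := by
    have c1 := mul_le_mul_of_nonneg_left b1 h0
    have c2 := mul_le_mul_of_nonneg_left b2 h1'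
    linarith only [b3, c, c1, c2]
  calc _ ≤ w i j k * 1 := mul_le_mul_of_nonneg_left this (hw0 i j k)
    _ = w i j k := mul_one _

end

end Vale.Agent.P369

end
end
end

section

attribute [-instance] ProperSMul.toContinuousSMul IsTopologicalTorsor.toContinuousSMul IdemSemiring.toCanonicallyOrderedAdd IdemSemiring.toMulLeftMono IdemSemiring.toMulRightMono AddQuantale.instAddLeftMono AddQuantale.instAddRightMono Quantale.instMulLeftMono Quantale.instMulRightMono FiniteDimensional.rclike_to_real IsScalarTower.complexToReal FiniteDimensional.complexToReal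

section

/-!
P369V: entropy photon-number inequality with vacuum second input.
Definitions for the finite-dimensional part (at most `M` photons in each of the `n` modes).
-/

namespace Vale.Agent.P369V

open Matrix
open scoped Kronecker

noncomputable section

/-- configurations of `n` modes with at most `M` photons in each mode -/
abbrev Cf (n M : ℕ) : Type := Fin n → Fin (M + 1)

/-- annihilation operator of mode `j`: `⟨k|a_j|l⟩ = √l_j` if `l = k + e_j`, else `0` -/
def ann (n M : ℕ) (j : Fin n) : Matrix (Cf n M) (Cf n M) ℂ := fun k l =>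
  if ∀ i, (l i : ℕ) = (k i : ℕ) + (if i = j then 1 else 0) then ((Real.sqrt (l j : ℕ) : ℝ) : ℂ) else 0

/-- the inclusion of the space with cutoff `M` in the one with cutoff `M+1` -/
def inc (n M : ℕ) : Matrix (Cf n (M + 1)) (Cf n M) ℂ := fun k l =>
  if ∀ i, (k i : ℕ) = (l i : ℕ) then 1 else 0

/-- the isometry of the beam splitter of transmissivity `x` with vacuum second input:
`⟨k,l|J|m⟩ = ∏_j [m_j = k_j + l_j] √C(m_j,k_j) √x^{k_j} √(1-x)^{l_j}` -/
def bsJ (n M : ℕ) (x : ℝ) : Matrix (Cf n M × Cf n M) (Cf n M) ℂ := fun kl m =>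
  ∏ j, if (m j : ℕ) = (kl.1 j : ℕ) + (kl.2 j : ℕ) then
    ((Real.sqrt (((m j : ℕ).choose (kl.1 j : ℕ) : ℕ) : ℝ) * Real.sqrt x ^ (kl.1 j : ℕ) *
      Real.sqrt (1 - x) ^ (kl.2 j : ℕ) : ℝ) : ℂ) else 0

/-- first marginal -/
def ptr₁ {ι : Type} [Fintype ι] (T : Matrix (ι × ι) (ι × ι) ℂ) : Matrix ι ι ℂ :=
  fun k k' => ∑ l, T (k, l) (k', l)

/-- second marginal -/
def ptr₂ {ι : Type} [Fintype ι] (T : Matrix (ι × ι) (ι × ι) ℂ) : Matrix ι ι ℂ :=
  fun l l' => ∑ k, T (k, l) (k, l')

/-- the pure loss channel of transmissivity `x` -/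
def loss (n M : ℕ) (x : ℝ) (ρ : Matrix (Cf n M) (Cf n M) ℂ) : Matrix (Cf n M) (Cf n M) ℂ :=
  ptr₁ (bsJ n M x * ρ * (bsJ n M x)ᴴ)

/-- generator of the loss semigroup: `∑_j (a_j ρ a_j† - ½ {a_j† a_j, ρ})` -/
def gen (n M : ℕ) (ρ : Matrix (Cf n M) (Cf n M) ℂ) : Matrix (Cf n M) (Cf n M) ℂ :=
  ∑ j, (ann n M j * ρ * (ann n M j)ᴴ -
    (1 / 2 : ℂ) • ((ann n M j)ᴴ * ann n M j * ρ + ρ * ((ann n M j)ᴴ * ann n M j)))

/-- von Neumann entropy of a matrix -/
def ent {ι : Type} [Fintype ι] [DecidableEq ι] (ρ : Matrix ι ι ℂ) : ℝ :=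
  (cfc Real.negMulLog ρ).trace.re

/-- `-dS/ds` along the loss semigroup -/
def Jm (n M : ℕ) (ρ : Matrix (Cf n M) (Cf n M) ℂ) : ℝ :=
  (gen n M ρ * cfc Real.log ρ).trace.re

section metric

variable {ι : Type} [Fintype ι] [DecidableEq ι]

/-- `V ↦ (1-ν) V ρ + ν ρ V` -/
def Kop (ν : ℝ) (ρ V : Matrix ι ι ℂ) : Matrix ι ι ℂ := ((1 - ν : ℝ) : ℂ) • (V * ρ) + (ν : ℂ) • (ρ * V)

/-- the matrix of `Kop ν ρ` -/
def Kmat (ν : ℝ) (ρ : Matrix ι ι ℂ) : Matrix (ι × ι) (ι × ι) ℂ :=
  ((1 - ν : ℝ) : ℂ) • ((1 : Matrix ι ι ℂ) ⊗ₖ ρᵀ) + (ν : ℂ) • (ρ ⊗ₖ (1 : Matrix ι ι ℂ))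

/-- a matrix as a vector -/
def mvec (V : Matrix ι ι ℂ) : ι × ι → ℂ := fun p => V p.1 p.2

/-- the inverse of `Kop ν ρ` -/
def Kinv (ν : ℝ) (ρ Z : Matrix ι ι ℂ) : Matrix ι ι ℂ := fun i j => ((Kmat ν ρ)⁻¹ *ᵥ mvec Z) (i, j)

/-- `⟨Z, K_ν⁻¹ Z⟩` -/
def Qf (ν : ℝ) (ρ Z : Matrix ι ι ℂ) : ℝ := (Zᴴ * Kinv ν ρ Z).trace.re

/-- `pen_ν(V) = (1-ν) Tr ρ V†V + ν Tr ρ V V†` -/
def pen (ν : ℝ) (ρ V : Matrix ι ι ℂ) : ℝ :=
  (1 - ν) * (ρ * (Vᴴ * V)).trace.re + ν * (ρ * (V * Vᴴ)).trace.re

end metric

/-- mean photon number -/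
def en (n M : ℕ) (ρ : Matrix (Cf n M) (Cf n M) ℂ) : ℝ :=
  ∑ j, (ρ * ((ann n M j)ᴴ * ann n M j)).trace.re

/-- `H_ν(ρ) = ∑_j ⟨a_j ρ, K_ν⁻¹ (a_j ρ)⟩` -/
def HH (n M : ℕ) (ν : ℝ) (ρ : Matrix (Cf n M) (Cf n M) ℂ) : ℝ := ∑ j, Qf ν ρ (ann n M j * ρ)

/-- truncated Fisher information `∑_j ⟨[a_j,ρ], K_ν⁻¹ [a_j,ρ]⟩` -/
def FF (n M : ℕ) (ν : ℝ) (ρ : Matrix (Cf n M) (Cf n M) ℂ) : ℝ :=
  ∑ j, Qf ν ρ (ann n M j * ρ - ρ * ann n M j)

/-- boundary term `∑_j (M+1) Pr(k_j = M)` -/
def ctop (n M : ℕ) (ρ : Matrix (Cf n M) (Cf n M) ℂ) : ℝ :=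
  ∑ j, ∑ k : Cf n M, if (k j : ℕ) = M then ((M : ℝ) + 1) * (ρ k k).re else 0

/-- `g(ν) = ν F_ν / n` -/
def gf (n M : ℕ) (ν : ℝ) (ρ : Matrix (Cf n M) (Cf n M) ℂ) : ℝ :=
  (ctop n M ρ + ν * FF n M ν ρ) / n

end

end Vale.Agent.P369V
end
end

section

attribute [-instance] ProperSMul.toContinuousSMul IsTopologicalTorsor.toContinuousSMul IdemSemiring.toCanonicallyOrderedAdd IdemSemiring.toMulLeftMono IdemSemiring.toMulRightMono AddQuantale.instAddLeftMono AddQuantale.instAddRightMono Quantale.instMulLeftMono Quantale.instMulRightMono FiniteDimensional.rclike_to_real IsScalarTower.complexToReal FiniteDimensional.complexToReal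

section

/-! E2: the entropy production as an integral of the truncated Fisher information. -/

namespace Vale.Agent.P369V

open Matrix MeasureTheory Set
open scoped Kronecker InnerProductSpace ComplexOrder

noncomputable section

variable {n M : ℕ}

section traces

variable {ι : Type} [Fintype ι] [DecidableEq ι]

/-- a real diagonal matrix -/
def e2_dg (d : ι → ℝ) : Matrix ι ι ℂ := diagonal fun i => (d i : ℂ)

theorem e2_tr1 (B : Matrix ι ι ℂ) (d e : ι → ℝ) :
    ((B * e2_dg d * Bᴴ * e2_dg e).trace).re =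
      ∑ k, ∑ l, Complex.normSq (B k l) * (d l * e k) := by
  unfold e2_dg
  rw [trace, Complex.re_sum]
  refine Finset.sum_congr rfl fun k _ => ?_
  rw [diag_apply, mul_diagonal, mul_apply, Finset.sum_mul, Complex.re_sum]
  refine Finset.sum_congr rfl fun l _ => ?_
  rw [mul_diagonal, conjTranspose_apply]
  have h : B k l * (d l : ℂ) * star (B k l) * (e k : ℂ) =
      ((Complex.normSq (B k l) * (d l * e k) : ℝ) : ℂ) := by
    rw [Complex.ofReal_mul, Complex.normSq_eq_conj_mul_self]
    push_cast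
    show B k l * (d l : ℂ) * (starRingEnd ℂ) (B k l) * (e k : ℂ) = _
    ring
  rw [h, Complex.ofReal_re]

theorem e2_tr2 (B : Matrix ι ι ℂ) (d e : ι → ℝ) :
    ((Bᴴ * B * e2_dg d * e2_dg e).trace).re =
      ∑ k, ∑ l, Complex.normSq (B k l) * (d l * e l) := by
  unfold e2_dg
  rw [Finset.sum_comm, trace, Complex.re_sum]
  refine Finset.sum_congr rfl fun l _ => ?_
  rw [diag_apply, mul_diagonal, mul_diagonal, mul_apply, Finset.sum_mul, Finset.sum_mul,
    Complex.re_sum]
  refine Finset.sum_congr rfl fun k _ => ?_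
  rw [conjTranspose_apply]
  have h : star (B k l) * B k l * (d l : ℂ) * (e l : ℂ) =
      ((Complex.normSq (B k l) * (d l * e l) : ℝ) : ℂ) := by
    rw [Complex.ofReal_mul, Complex.normSq_eq_conj_mul_self]
    push_cast
    show (starRingEnd ℂ) (B k l) * B k l * (d l : ℂ) * (e l : ℂ) = _
    ring
  rw [h, Complex.ofReal_re]

theorem e2_tr3 (B : Matrix ι ι ℂ) (d e : ι → ℝ) :
    ((e2_dg d * (Bᴴ * B) * e2_dg e).trace).re =
      ∑ k, ∑ l, Complex.normSq (B k l) * (d l * e l) := by
  unfold e2_dg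
  rw [Finset.sum_comm, trace, Complex.re_sum]
  refine Finset.sum_congr rfl fun l _ => ?_
  rw [diag_apply, mul_diagonal, diagonal_mul, mul_apply, Finset.mul_sum, Finset.sum_mul,
    Complex.re_sum]
  refine Finset.sum_congr rfl fun k _ => ?_
  rw [conjTranspose_apply]
  have h : (d l : ℂ) * (star (B k l) * B k l) * (e l : ℂ) =
      ((Complex.normSq (B k l) * (d l * e l) : ℝ) : ℂ) := by
    rw [Complex.ofReal_mul, Complex.normSq_eq_conj_mul_self]
    push_cast
    show (d l : ℂ) * ((starRingEnd ℂ) (B k l) * B k l) * (e l : ℂ) = _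
    ring
  rw [h, Complex.ofReal_re]

/-- conjugation by a unitary -/
def e2_cj (U : Matrix ι ι ℂ) (X : Matrix ι ι ℂ) : Matrix ι ι ℂ := U * X * star U

theorem e2_cj_mul {U : Matrix ι ι ℂ} (hU : star U * U = 1) (X Y : Matrix ι ι ℂ) :
    e2_cj U X * e2_cj U Y = e2_cj U (X * Y) := by
  unfold e2_cj
  calc U * X * star U * (U * Y * star U) = U * X * (star U * U) * Y * star U := by
        simp only [Matrix.mul_assoc]
    _ = U * (X * Y) * star U := by rw [hU, Matrix.mul_one, Matrix.mul_assoc U X Y]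

theorem e2_cj_tr {U : Matrix ι ι ℂ} (hU : star U * U = 1) (X : Matrix ι ι ℂ) :
    (e2_cj U X).trace = X.trace := by
  unfold e2_cj
  rw [trace_mul_comm, ← Matrix.mul_assoc, hU, Matrix.one_mul]

omit [DecidableEq ι] in
theorem e2_cj_H (U X : Matrix ι ι ℂ) : (e2_cj U X)ᴴ = e2_cj U Xᴴ := by
  unfold e2_cj
  rw [star_eq_conjTranspose, conjTranspose_mul, conjTranspose_mul, conjTranspose_conjTranspose,
    Matrix.mul_assoc]

omit [DecidableEq ι] in
theorem e2_cj_add (U X Y : Matrix ι ι ℂ) : e2_cj U (X + Y) = e2_cj U X + e2_cj U Y := by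
  unfold e2_cj
  rw [Matrix.mul_add, Matrix.add_mul]

omit [DecidableEq ι] in
theorem e2_cj_sub (U X Y : Matrix ι ι ℂ) : e2_cj U (X - Y) = e2_cj U X - e2_cj U Y := by
  unfold e2_cj
  rw [Matrix.mul_sub, Matrix.sub_mul]

omit [DecidableEq ι] in
theorem e2_cj_smul (U X : Matrix ι ι ℂ) (c : ℂ) : e2_cj U (c • X) = c • e2_cj U X := by
  unfold e2_cj
  rw [Matrix.mul_smul, Matrix.smul_mul]

theorem e2_int {a b : ℝ} (ha : 0 < a) (hb : 0 < b) :
    IntervalIntegrable (fun ν => (b - a) / (a + ν * (b - a))) volume 0 1 ∧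
    ∫ ν in (0 : ℝ)..1, (b - a) / (a + ν * (b - a)) = Real.log b - Real.log a := by
  have hpos : ∀ ν ∈ Icc (0 : ℝ) 1, 0 < a + ν * (b - a) := by
    intro ν hν
    have h1 : a + ν * (b - a) = (1 - ν) * a + ν * b := by ring
    rw [h1]
    rcases hν.1.eq_or_lt with h | h
    · rw [← h]
      linarith only [ha]
    · have h2 := mul_pos h hb
      have h3 := mul_nonneg (sub_nonneg.2 hν.2) ha.le
      linarith only [h2, h3]
  have hc : ContinuousOn (fun ν => (b - a) / (a + ν * (b - a))) (uIcc 0 1) := by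
    rw [uIcc_of_le zero_le_one]
    refine ContinuousOn.div continuousOn_const (by fun_prop) fun ν hν => (hpos ν hν).ne'
  refine ⟨hc.intervalIntegrable, ?_⟩
  have h := intervalIntegral.integral_eq_sub_of_hasDerivAt
    (f := fun ν => Real.log (a + ν * (b - a))) (f' := fun ν => (b - a) / (a + ν * (b - a)))
    (a := 0) (b := 1) (fun ν hν => ?_) hc.intervalIntegrable
  · rw [h]
    simp
  · rw [uIcc_of_le zero_le_one] at hν
    have h1 : HasDerivAt (fun ν => a + ν * (b - a)) (b - a) ν := by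
      simpa using ((hasDerivAt_id ν).mul_const (b - a)).const_add a
    exact h1.log (hpos ν hν).ne'

end traces

/-- E2: entropy production, from the statements C4 and E1 -/
theorem e2_Jm_eq (hn : 1 ≤ n) {ρ : Matrix (Cf n M) (Cf n M) ℂ} (hρ : ρ.PosDef)
    (hQf : ∀ ν ∈ Icc (0 : ℝ) 1, ∀ Z : Matrix (Cf n M) (Cf n M) ℂ,
      Qf ν ρ Z = ∑ k, ∑ l, Complex.normSq
        ((star (hρ.isHermitian.eigenvectorUnitary : Matrix (Cf n M) (Cf n M) ℂ) * Z *
          (hρ.isHermitian.eigenvectorUnitary : Matrix (Cf n M) (Cf n M) ℂ)) k l) /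
        ((1 - ν) * hρ.isHermitian.eigenvalues l + ν * hρ.isHermitian.eigenvalues k))
    (hE1 : ∀ ν ∈ Icc (0 : ℝ) 1,
      HH n M ν ρ = en n M ρ - n * ν + ν * (ctop n M ρ + ν * FF n M ν ρ)) :
    Jm n M ρ = n * (1 - ∫ ν in (0 : ℝ)..1, gf n M ν ρ) := by
  classical
  have hn0 : (0 : ℝ) < n := by exact_mod_cast hn
  set U : Matrix (Cf n M) (Cf n M) ℂ :=
    (hρ.isHermitian.eigenvectorUnitary : Matrix (Cf n M) (Cf n M) ℂ) with hUdef
  set p : Cf n M → ℝ := hρ.isHermitian.eigenvalues with hp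
  have hp0 : ∀ i, 0 < p i := fun i => hρ.eigenvalues_pos i
  have hU : star U * U = 1 := by
    rw [hUdef]
    exact Unitary.coe_star_mul_self _
  have hU' : U * star U = 1 := by
    rw [hUdef]
    exact Unitary.coe_mul_star_self _
  -- everything in the eigenbasis
  set B : Fin n → Matrix (Cf n M) (Cf n M) ℂ := fun j => star U * ann n M j * U with hB
  have hann : ∀ j, ann n M j = e2_cj U (B j) := by
    intro j
    rw [hB]
    unfold e2_cj
    dsimp only
    calc ann n M j = (U * star U) * ann n M j * (U * star U) := by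
          rw [hU', Matrix.one_mul, Matrix.mul_one]
      _ = U * (star U * ann n M j * U) * star U := by simp only [Matrix.mul_assoc]
  have hρc : ρ = e2_cj U (e2_dg p) := by
    have h := hρ.isHermitian.spectral_theorem
    rw [Unitary.conjStarAlgAut_apply] at h
    exact h
  have hlog : cfc Real.log ρ = e2_cj U (e2_dg fun i => Real.log (p i)) := by
    rw [hρ.isHermitian.cfc_eq]
    unfold Matrix.IsHermitian.cfc
    rw [Unitary.conjStarAlgAut_apply]
    rfl
  -- en and HH
  have hen : en n M ρ = ∑ j, ∑ k, ∑ l, Complex.normSq (B j k l) * p l := by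
    unfold en
    refine Finset.sum_congr rfl fun j _ => ?_
    rw [hann j, e2_cj_H, e2_cj_mul hU]
    conv_lhs => rw [hρc]
    rw [e2_cj_mul hU, e2_cj_tr hU]
    have h := e2_tr3 (B j) p (fun _ => 1)
    have h1 : (e2_dg (fun _ => (1 : ℝ)) : Matrix (Cf n M) (Cf n M) ℂ) = 1 := by
      unfold e2_dg
      simp
    rw [h1, Matrix.mul_one] at h
    rw [h]
    simp only [mul_one]
  have hHH : ∀ ν ∈ Icc (0 : ℝ) 1, HH n M ν ρ = ∑ j, ∑ k, ∑ l, Complex.normSq (B j k l) *
      (p l ^ 2 / ((1 - ν) * p l + ν * p k)) := by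
    intro ν hν
    unfold HH
    refine Finset.sum_congr rfl fun j _ => ?_
    rw [hQf ν hν]
    refine Finset.sum_congr rfl fun k _ => Finset.sum_congr rfl fun l _ => ?_
    have h1 : star U * (ann n M j * ρ) * U = B j * e2_dg p := by
      conv_lhs => rw [hρc, hann j, e2_cj_mul hU]
      unfold e2_cj
      calc star U * (U * (B j * e2_dg p) * star U) * U
          = (star U * U) * (B j * e2_dg p) * (star U * U) := by simp only [Matrix.mul_assoc]
        _ = B j * e2_dg p := by rw [hU, Matrix.one_mul, Matrix.mul_one]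
    rw [h1]
    unfold e2_dg
    rw [mul_diagonal, Complex.normSq_mul, Complex.normSq_ofReal]
    ring
  have hJ : Jm n M ρ = ∑ j, ∑ k, ∑ l, Complex.normSq (B j k l) *
      (p l * (Real.log (p k) - Real.log (p l))) := by
    unfold Jm gen
    rw [hlog, Finset.sum_mul, trace_sum, Complex.re_sum]
    refine Finset.sum_congr rfl fun j _ => ?_
    have h1 : (ann n M j * ρ * (ann n M j)ᴴ -
        (1 / 2 : ℂ) • ((ann n M j)ᴴ * ann n M j * ρ + ρ * ((ann n M j)ᴴ * ann n M j))) *
        e2_cj U (e2_dg fun i => Real.log (p i)) =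
        e2_cj U (B j * e2_dg p * (B j)ᴴ * (e2_dg fun i => Real.log (p i)) -
          (1 / 2 : ℂ) • ((B j)ᴴ * B j * e2_dg p * (e2_dg fun i => Real.log (p i)) +
            e2_dg p * ((B j)ᴴ * B j) * (e2_dg fun i => Real.log (p i)))) := by
      conv_lhs => rw [hρc, hann j]
      rw [e2_cj_H, e2_cj_mul hU, e2_cj_mul hU, e2_cj_mul hU, e2_cj_mul hU, e2_cj_mul hU,
        ← e2_cj_add, ← e2_cj_smul, ← e2_cj_sub, e2_cj_mul hU, Matrix.sub_mul, Matrix.smul_mul,
        Matrix.add_mul]
    rw [h1, e2_cj_tr hU, trace_sub, trace_smul, trace_add, Complex.sub_re, e2_tr1]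
    have h2 : ((1 / 2 : ℂ) • (((B j)ᴴ * B j * e2_dg p * (e2_dg fun i => Real.log (p i))).trace +
            (e2_dg p * ((B j)ᴴ * B j) * (e2_dg fun i => Real.log (p i))).trace)).re =
        ∑ k, ∑ l, Complex.normSq (B j k l) * (p l * Real.log (p l)) := by
      have h3 : (1 / 2 : ℂ) = (((1 / 2 : ℝ)) : ℂ) := by push_cast; rfl
      rw [smul_eq_mul, h3, Complex.re_ofReal_mul, Complex.add_re, e2_tr2, e2_tr3]
      ring
    rw [h2, ← Finset.sum_sub_distrib]
    refine Finset.sum_congr rfl fun k _ => ?_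
    rw [← Finset.sum_sub_distrib]
    refine Finset.sum_congr rfl fun l _ => ?_
    ring
  -- the integrand
  have hgf : ∀ ν ∈ Ioc (0 : ℝ) 1, gf n M ν ρ = 1 - (1 / n) * ∑ j, ∑ k, ∑ l,
      Complex.normSq (B j k l) * p l * ((p k - p l) / (p l + ν * (p k - p l))) := by
    intro ν hν
    have hν' : ν ∈ Icc (0 : ℝ) 1 := ⟨hν.1.le, hν.2⟩
    have h1 := hE1 ν hν'
    have h2 : en n M ρ - HH n M ν ρ = ν * ∑ j, ∑ k, ∑ l,
        Complex.normSq (B j k l) * p l * ((p k - p l) / (p l + ν * (p k - p l))) := by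
      rw [hen, hHH ν hν', ← Finset.sum_sub_distrib, Finset.mul_sum]
      refine Finset.sum_congr rfl fun j _ => ?_
      rw [← Finset.sum_sub_distrib, Finset.mul_sum]
      refine Finset.sum_congr rfl fun k _ => ?_
      rw [← Finset.sum_sub_distrib, Finset.mul_sum]
      refine Finset.sum_congr rfl fun l _ => ?_
      have h3 : 0 < p l + ν * (p k - p l) := by
        have h4 : p l + ν * (p k - p l) = (1 - ν) * p l + ν * p k := by ring
        rw [h4]
        have h5 := mul_pos hν.1 (hp0 k)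
        have h6 := mul_nonneg (sub_nonneg.2 hν.2) (hp0 l).le
        linarith only [h5, h6]
      have h4 : (1 - ν) * p l + ν * p k = p l + ν * (p k - p l) := by ring
      rw [h4]
      field_simp
      ring
    have h3 : ν * (n - (ctop n M ρ + ν * FF n M ν ρ)) = ν * ∑ j, ∑ k, ∑ l,
        Complex.normSq (B j k l) * p l * ((p k - p l) / (p l + ν * (p k - p l))) := by
      rw [← h2, h1]
      ring
    have h4 := mul_left_cancel₀ hν.1.ne' h3
    unfold gf
    rw [← h4]
    field_simp
    ring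
  have hint : ∫ ν in (0 : ℝ)..1, gf n M ν ρ = ∫ ν in (0 : ℝ)..1, (1 - (1 / n) * ∑ j, ∑ k, ∑ l,
      Complex.normSq (B j k l) * p l * ((p k - p l) / (p l + ν * (p k - p l)))) := by
    refine intervalIntegral.integral_congr_ae (Filter.Eventually.of_forall fun ν hν => ?_)
    rw [uIoc_of_le zero_le_one] at hν
    exact hgf ν hν
  have hI : ∀ j k l, IntervalIntegrable (fun ν => Complex.normSq (B j k l) * p l *
      ((p k - p l) / (p l + ν * (p k - p l)))) volume 0 1 := fun j k l =>
    (e2_int (hp0 l) (hp0 k)).1.const_mul _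
  have hI1 : ∀ j k, IntervalIntegrable (fun ν => ∑ l, Complex.normSq (B j k l) * p l *
      ((p k - p l) / (p l + ν * (p k - p l)))) volume 0 1 := by
    intro j k
    have := IntervalIntegrable.sum Finset.univ (f := fun l ν => Complex.normSq (B j k l) * p l *
      ((p k - p l) / (p l + ν * (p k - p l)))) (fun l _ => hI j k l)
    simpa only [Finset.sum_fn] using this
  have hI2 : ∀ j, IntervalIntegrable (fun ν => ∑ k, ∑ l, Complex.normSq (B j k l) * p l *
      ((p k - p l) / (p l + ν * (p k - p l)))) volume 0 1 := by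
    intro j
    have := IntervalIntegrable.sum Finset.univ (f := fun k ν => ∑ l, Complex.normSq (B j k l) * p l *
      ((p k - p l) / (p l + ν * (p k - p l)))) (fun k _ => hI1 j k)
    simpa only [Finset.sum_fn] using this
  have hI3 : IntervalIntegrable (fun ν => ∑ j, ∑ k, ∑ l, Complex.normSq (B j k l) * p l *
      ((p k - p l) / (p l + ν * (p k - p l)))) volume 0 1 := by
    have := IntervalIntegrable.sum Finset.univ (f := fun j ν => ∑ k, ∑ l, Complex.normSq (B j k l) * p l *
      ((p k - p l) / (p l + ν * (p k - p l)))) (fun j _ => hI2 j)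
    simpa only [Finset.sum_fn] using this
  have hval : ∫ ν in (0 : ℝ)..1, (∑ j, ∑ k, ∑ l,
      Complex.normSq (B j k l) * p l * ((p k - p l) / (p l + ν * (p k - p l)))) = Jm n M ρ := by
    rw [hJ, intervalIntegral.integral_finsetSum fun j _ => hI2 j]
    refine Finset.sum_congr rfl fun j _ => ?_
    rw [intervalIntegral.integral_finsetSum fun k _ => hI1 j k]
    refine Finset.sum_congr rfl fun k _ => ?_
    rw [intervalIntegral.integral_finsetSum fun l _ => hI j k l]
    refine Finset.sum_congr rfl fun l _ => ?_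
    rw [intervalIntegral.integral_const_mul, (e2_int (hp0 l) (hp0 k)).2]
    ring
  rw [hint, intervalIntegral.integral_sub intervalIntegrable_const (hI3.const_mul _),
    intervalIntegral.integral_const_mul, hval]
  simp only [intervalIntegral.integral_const, sub_zero, smul_eq_mul, mul_one, one_div, sub_sub_cancel]
  (clear * - hn; field_simp)

end

end Vale.Agent.P369V
end
end

section

attribute [-instance] ProperSMul.toContinuousSMul IsTopologicalTorsor.toContinuousSMul IdemSemiring.toCanonicallyOrderedAdd IdemSemiring.toMulLeftMono IdemSemiring.toMulRightMono AddQuantale.instAddLeftMono AddQuantale.instAddRightMono Quantale.instMulLeftMono Quantale.instMulRightMono FiniteDimensional.rclike_to_real IsScalarTower.complexToReal FiniteDimensional.complexToReal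

section

/-!
# Entropy of a self-adjoint operator on a finite-dimensional space

Comparison of spectral sums in two eigenbases, two-sided bound for the entropy, continuity and
derivative along a path. All statements are for linear maps on a complex inner product space with
an orthonormal eigenbasis (`EigB`), and then for Hermitian matrices.
-/

namespace Vale.Agent.P369V

open scoped InnerProductSpace Topology ComplexOrder
open Filter

noncomputable section

variable {E : Type*} [NormedAddCommGroup E] [InnerProductSpace ℂ E]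
variable {κ κ' : Type*} [Fintype κ] [Fintype κ']

/-- `a` is an orthonormal eigenbasis of `A` with real eigenvalues `p`. -/
def EigB (A : E →ₗ[ℂ] E) (a : OrthonormalBasis κ ℂ E) (p : κ → ℝ) : Prop :=
  ∀ k, A (a k) = (p k : ℂ) • a k

/-- The transition weights between two orthonormal bases. -/
def wt (a : OrthonormalBasis κ ℂ E) (b : OrthonormalBasis κ' ℂ E) (k : κ) (l : κ') : ℝ :=
  ‖⟪a k, b l⟫_ℂ‖ ^ 2

lemma wt_nonneg (a : OrthonormalBasis κ ℂ E) (b : OrthonormalBasis κ' ℂ E) (k : κ) (l : κ') :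
    0 ≤ wt a b k l := by
  unfold wt; positivity

lemma sum_wt_left (a : OrthonormalBasis κ ℂ E) (b : OrthonormalBasis κ' ℂ E) (l : κ') :
    ∑ k, wt a b k l = 1 := by
  unfold wt
  rw [a.sum_sq_norm_inner_right (b l)]
  simp only [OrthonormalBasis.norm_eq_one, one_pow]

lemma sum_wt_right (a : OrthonormalBasis κ ℂ E) (b : OrthonormalBasis κ' ℂ E) (k : κ) :
    ∑ l, wt a b k l = 1 := by
  unfold wt
  rw [b.sum_sq_norm_inner_left (a k)]
  simp only [OrthonormalBasis.norm_eq_one, one_pow]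

lemma EigB.inner_apply {A : E →ₗ[ℂ] E} {a : OrthonormalBasis κ ℂ E} {p : κ → ℝ}
    (h : EigB A a p) (k : κ) (x : E) : ⟪a k, A x⟫_ℂ = (p k : ℂ) * ⟪a k, x⟫_ℂ := by
  classical
  conv_lhs => rw [← a.sum_repr' x]
  rw [map_sum, inner_sum]
  simp only [map_smul, h _, inner_smul_right, a.inner_eq_ite]
  simp only [mul_ite, mul_one, mul_zero, mul_comm, ite_mul, zero_mul, Finset.sum_ite_eq, Finset.mem_univ, ↓reduceIte]

lemma EigB.inner_diff {A B : E →ₗ[ℂ] E} {a : OrthonormalBasis κ ℂ E} {p : κ → ℝ}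
    {b : OrthonormalBasis κ' ℂ E} {q : κ' → ℝ} (hA : EigB A a p) (hB : EigB B b q)
    (k : κ) (l : κ') : ⟪a k, A (b l) - B (b l)⟫_ℂ = ((p k - q l : ℝ) : ℂ) * ⟪a k, b l⟫_ℂ := by
  rw [inner_sub_right, hA.inner_apply, hB l, inner_smul_right]
  push_cast
  ring

/-- Squared Hilbert-Schmidt distance in two eigenbases. -/
lemma EigB.hs {A B : E →ₗ[ℂ] E} {a : OrthonormalBasis κ ℂ E} {p : κ → ℝ}
    {b : OrthonormalBasis κ' ℂ E} {q : κ' → ℝ} (hA : EigB A a p) (hB : EigB B b q) :
    ∑ l, ‖A (b l) - B (b l)‖ ^ 2 = ∑ l, ∑ k, wt a b k l * (p k - q l) ^ 2 := by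
  refine Finset.sum_congr rfl fun l _ => ?_
  rw [← a.sum_sq_norm_inner_right (A (b l) - B (b l))]
  refine Finset.sum_congr rfl fun k _ => ?_
  rw [hA.inner_diff hB, norm_mul, mul_pow, Complex.norm_real, Real.norm_eq_abs, sq_abs]
  unfold wt
  ring

/-- The first-order term in two eigenbases. -/
lemma EigB.lin {A B : E →ₗ[ℂ] E} {a : OrthonormalBasis κ ℂ E} {p : κ → ℝ}
    {b : OrthonormalBasis κ' ℂ E} {q : κ' → ℝ} (hA : EigB A a p) (hB : EigB B b q) (l : κ') :
    RCLike.re ⟪b l, A (b l) - B (b l)⟫_ℂ = ∑ k, wt a b k l * (p k - q l) := by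
  have h1 : ⟪b l, A (b l) - B (b l)⟫_ℂ = ∑ k, ⟪b l, a k⟫_ℂ * ⟪a k, A (b l) - B (b l)⟫_ℂ :=
    (a.sum_inner_mul_inner _ _).symm
  rw [h1, map_sum]
  refine Finset.sum_congr rfl fun k _ => ?_
  rw [hA.inner_diff hB, ← inner_conj_symm (b l) (a k)]
  have : (starRingEnd ℂ) ⟪a k, b l⟫_ℂ * (((p k - q l : ℝ) : ℂ) * ⟪a k, b l⟫_ℂ) =
      ((wt a b k l * (p k - q l) : ℝ) : ℂ) := by
    unfold wt
    rw [mul_left_comm, Complex.conj_mul']
    push_cast
    ring
  rw [this]
  simp only [Complex.ofReal_mul, Complex.ofReal_sub, RCLike.mul_re, RCLike.re_to_complex, Complex.ofReal_re, Complex.sub_re, RCLike.im_to_complex, Complex.ofReal_im, Complex.sub_im, sub_self, mul_zero, sub_zero]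

/-- Comparison of spectral sums. -/
lemma sum_diff (a : OrthonormalBasis κ ℂ E) (b : OrthonormalBasis κ' ℂ E) (f : κ → ℝ)
    (g : κ' → ℝ) : (∑ k, f k) - ∑ l, g l = ∑ l, ∑ k, wt a b k l * (f k - g l) := by
  have h1 : ∑ l, ∑ k, wt a b k l * (f k - g l) =
      (∑ l, ∑ k, wt a b k l * f k) - ∑ l, ∑ k, wt a b k l * g l := by
    rw [← Finset.sum_sub_distrib]
    refine Finset.sum_congr rfl fun l _ => ?_
    rw [← Finset.sum_sub_distrib]
    refine Finset.sum_congr rfl fun k _ => ?_
    ring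
  rw [h1]
  congr 1
  · rw [Finset.sum_comm]
    refine Finset.sum_congr rfl fun k _ => ?_
    rw [← Finset.sum_mul, sum_wt_right, one_mul]
  · refine Finset.sum_congr rfl fun l _ => ?_
    rw [← Finset.sum_mul, sum_wt_left, one_mul]

/-- Spectral sums do not depend on the eigenbasis. -/
theorem EigB.sum_eq {A : E →ₗ[ℂ] E} {a : OrthonormalBasis κ ℂ E} {p : κ → ℝ}
    {b : OrthonormalBasis κ' ℂ E} {q : κ' → ℝ} (hA : EigB A a p) (hB : EigB A b q) (f : ℝ → ℝ) :
    ∑ k, f (p k) = ∑ l, f (q l) := by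
  have h0 : ∑ l, ∑ k, wt a b k l * (p k - q l) ^ 2 = 0 := by
    rw [← hA.hs hB]; simp only [sub_self, norm_zero, ne_eq, OfNat.ofNat_ne_zero, not_false_eq_true, zero_pow, Finset.sum_const_zero]
  have h1 : ∀ l, ∀ k, wt a b k l * (p k - q l) ^ 2 = 0 := by
    intro l k
    have h2 := (Finset.sum_eq_zero_iff_of_nonneg (fun l _ => Finset.sum_nonneg fun k _ =>
      mul_nonneg (wt_nonneg a b k l) (sq_nonneg _))).1 h0 l (Finset.mem_univ _)
    exact (Finset.sum_eq_zero_iff_of_nonneg (fun k _ =>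
      mul_nonneg (wt_nonneg a b k l) (sq_nonneg _))).1 h2 k (Finset.mem_univ _)
  have h3 := sum_diff a b (fun k => f (p k)) (fun l => f (q l))
  have h4 : ∑ l, ∑ k, wt a b k l * (f (p k) - f (q l)) = 0 := by
    refine Finset.sum_eq_zero fun l _ => Finset.sum_eq_zero fun k _ => ?_
    rcases mul_eq_zero.1 (h1 l k) with h | h
    · rw [h, zero_mul]
    · have : p k = q l := by
        have := pow_eq_zero_iff (two_ne_zero) |>.1 h
        linarith only [this]
      rw [this, sub_self, mul_zero]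
  linarith

/-! ### Scalar inequalities -/

lemma negMulLog_upper {p q : ℝ} (hp : 0 ≤ p) (hq : 0 < q) :
    Real.negMulLog p - Real.negMulLog q - (-(Real.log q + 1)) * (p - q) ≤ 0 := by
  unfold Real.negMulLog
  rcases hp.eq_or_lt with rfl | hp
  · simp only [neg_zero, Real.log_zero, mul_zero, neg_mul, sub_neg_eq_add, zero_add, neg_add_rev, zero_sub, mul_neg]; linarith only [hq]
  · have h1 : 1 - q / p ≤ Real.log (p / q) := by
      have h2 := Real.log_le_sub_one_of_pos (div_pos hq hp)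
      have h3 : Real.log (p / q) = - Real.log (q / p) := by
        rw [← Real.log_inv, inv_div]
      rw [h3]; linarith
    rw [Real.log_div hp.ne' hq.ne'] at h1
    have h4 : p * (1 - q / p) ≤ p * (Real.log p - Real.log q) :=
      mul_le_mul_of_nonneg_left h1 hp.le
    have h5 : p * (1 - q / p) = p - q := by (clear * - hp; field_simp)
    rw [h5] at h4
    nlinarith only [h4]

lemma negMulLog_lower {p q m : ℝ} (hp : 0 ≤ p) (hm : 0 < m) (hq : m ≤ q) :
    -((p - q) ^ 2 / m) ≤
      Real.negMulLog p - Real.negMulLog q - (-(Real.log q + 1)) * (p - q) := by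
  have hq0 : 0 < q := lt_of_lt_of_le hm hq
  have h0 : (p - q) ^ 2 / q ≤ (p - q) ^ 2 / m :=
    div_le_div_of_nonneg_left (sq_nonneg _) hm hq
  have h1 : -((p - q) ^ 2 / q) ≤
      Real.negMulLog p - Real.negMulLog q - (-(Real.log q + 1)) * (p - q) := by
    unfold Real.negMulLog
    rcases hp.eq_or_lt with rfl | hp
    · have : (0 - q) ^ 2 / q = q := by field_simp; try ring
      rw [this]
      simp only [neg_zero, Real.log_zero, mul_zero, neg_mul, sub_neg_eq_add, zero_add, neg_add_rev, zero_sub, mul_neg, ge_iff_le]; linarith only []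
    · have h2 : Real.log (p / q) ≤ p / q - 1 := Real.log_le_sub_one_of_pos (div_pos hp hq0)
      rw [Real.log_div hp.ne' hq0.ne'] at h2
      have h4 : p * (Real.log p - Real.log q) ≤ p * (p / q - 1) :=
        mul_le_mul_of_nonneg_left h2 hp.le
      have h5 : p * (p / q - 1) - (p - q) = (p - q) ^ 2 / q := by (clear * - hq0; field_simp); try ring
      linarith
  linarith

/-! ### Two-sided bound for the entropy -/

/-- Spectral sum of `-x log x` in an eigenbasis. -/
def eta (p : κ → ℝ) : ℝ := ∑ k, Real.negMulLog (p k)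

theorem EigB.ent_le {A B : E →ₗ[ℂ] E} {a : OrthonormalBasis κ ℂ E} {p : κ → ℝ}
    {b : OrthonormalBasis κ' ℂ E} {q : κ' → ℝ} (hA : EigB A a p) (hB : EigB B b q)
    (hp : ∀ k, 0 ≤ p k) (hq : ∀ l, 0 < q l) :
    eta p - eta q ≤ -∑ l, (Real.log (q l) + 1) * RCLike.re ⟪b l, A (b l) - B (b l)⟫_ℂ := by
  unfold eta
  rw [sum_diff a b (fun k => Real.negMulLog (p k)) (fun l => Real.negMulLog (q l)),
    ← Finset.sum_neg_distrib]
  refine Finset.sum_le_sum fun l _ => ?_
  rw [hA.lin hB, Finset.mul_sum, ← Finset.sum_neg_distrib]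
  refine Finset.sum_le_sum fun k _ => ?_
  have h1 := mul_nonneg (wt_nonneg a b k l) (neg_nonneg.2 (negMulLog_upper (hp k) (hq l)))
  linarith

theorem EigB.ent_ge {A B : E →ₗ[ℂ] E} {a : OrthonormalBasis κ ℂ E} {p : κ → ℝ}
    {b : OrthonormalBasis κ' ℂ E} {q : κ' → ℝ} (hA : EigB A a p) (hB : EigB B b q)
    (hp : ∀ k, 0 ≤ p k) {m : ℝ} (hm : 0 < m) (hq : ∀ l, m ≤ q l) :
    -(∑ l, (Real.log (q l) + 1) * RCLike.re ⟪b l, A (b l) - B (b l)⟫_ℂ) -
      (∑ l, ‖A (b l) - B (b l)‖ ^ 2) / m ≤ eta p - eta q := by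
  unfold eta
  rw [sum_diff a b (fun k => Real.negMulLog (p k)) (fun l => Real.negMulLog (q l)),
    ← Finset.sum_neg_distrib, hA.hs hB, Finset.sum_div, ← Finset.sum_sub_distrib]
  refine Finset.sum_le_sum fun l _ => ?_
  rw [hA.lin hB, Finset.mul_sum, ← Finset.sum_neg_distrib, Finset.sum_div,
    ← Finset.sum_sub_distrib]
  refine Finset.sum_le_sum fun k _ => ?_
  have h1 := mul_le_mul_of_nonneg_left (negMulLog_lower (hp k) hm (hq l)) (wt_nonneg a b k l)
  have h2 : wt a b k l * (p k - q l) ^ 2 / m = wt a b k l * ((p k - q l) ^ 2 / m) := by ring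
  rw [h2]
  linarith

/-! ### Derivative -/

/-- Derivative of the entropy along a path of positive semidefinite operators at a positive
definite one. -/
theorem hasDerivWithinAt_eta {A : ℝ → E →ₗ[ℂ] E} {A' : E →ₗ[ℂ] E} {s₀ : ℝ} {t : Set ℝ}
    {a : ℝ → OrthonormalBasis κ ℂ E} {p : ℝ → κ → ℝ} {b : OrthonormalBasis κ' ℂ E} {q : κ' → ℝ}
    (hA : ∀ᶠ s in 𝓝[t] s₀, EigB (A s) (a s) (p s) ∧ ∀ k, 0 ≤ p s k)
    (hB : EigB (A s₀) b q) (hq : ∀ l, 0 < q l)
    (hd : ∀ x, HasDerivWithinAt (fun s => A s x) (A' x) t s₀)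
    (h0 : eta (p s₀) = eta q) :
    HasDerivWithinAt (fun s => eta (p s))
      (-∑ l, (Real.log (q l) + 1) * RCLike.re ⟪b l, A' (b l)⟫_ℂ) t s₀ := by
  classical
  -- a uniform lower bound of the eigenvalues
  obtain ⟨m, hm, hqm⟩ : ∃ m : ℝ, 0 < m ∧ ∀ l, m ≤ q l := by
    rcases isEmpty_or_nonempty κ' with h | h
    · exact ⟨1, one_pos, fun l => (h.false l).elim⟩
    · obtain ⟨l0, hl0⟩ := Finite.exists_min q
      exact ⟨q l0, hq l0, hl0⟩
  -- the linear part
  have hlin : HasDerivWithinAt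
      (fun s => -∑ l, (Real.log (q l) + 1) * RCLike.re ⟪b l, A s (b l) - A s₀ (b l)⟫_ℂ)
      (-∑ l, (Real.log (q l) + 1) * RCLike.re ⟪b l, A' (b l)⟫_ℂ) t s₀ := by
    refine HasDerivWithinAt.neg ?_
    refine HasDerivWithinAt.fun_sum fun l _ => ?_
    refine HasDerivWithinAt.const_mul _ ?_
    have h1 : HasDerivWithinAt (fun s => A s (b l) - A s₀ (b l)) (A' (b l)) t s₀ :=
      (hd (b l)).sub_const _
    have h2 : HasDerivWithinAt (fun s => ⟪b l, A s (b l) - A s₀ (b l)⟫_ℂ) (⟪b l, A' (b l)⟫_ℂ) t s₀ := by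
      have := (hasDerivWithinAt_const s₀ t (b l)).inner ℂ h1
      simpa only [inner_zero_left, add_zero] using this
    exact (Complex.reCLM.hasFDerivAt.comp_hasDerivWithinAt s₀ h2)
  -- the quadratic error
  have hquad : (fun s => (∑ l, ‖A s (b l) - A s₀ (b l)‖ ^ 2) / m) =o[𝓝[t] s₀]
      fun s => s - s₀ := by
    have h1 : ∀ l, (fun s => ‖A s (b l) - A s₀ (b l)‖ ^ 2) =o[𝓝[t] s₀] fun s => s - s₀ := by
      intro l
      have h2 : (fun s => A s (b l) - A s₀ (b l)) =O[𝓝[t] s₀] fun s => s - s₀ :=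
        (hd (b l)).hasFDerivWithinAt.isBigO_sub
      have h3 : (fun s => ‖A s (b l) - A s₀ (b l)‖ ^ 2) =O[𝓝[t] s₀] fun s => ‖s - s₀‖ ^ 2 :=
        h2.norm_norm.pow 2
      refine h3.trans_isLittleO ?_
      have h4 : Tendsto (fun s : ℝ => s - s₀) (𝓝[t] s₀) (𝓝 0) := by
        have : Tendsto (fun s : ℝ => s - s₀) (𝓝 s₀) (𝓝 (s₀ - s₀)) :=
          (continuous_id.sub continuous_const).tendsto s₀
        rw [sub_self] at this
        exact this.mono_left nhdsWithin_le_nhds
      rw [Asymptotics.isLittleO_iff]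
      intro c hc
      have h5 : ∀ᶠ s in 𝓝[t] s₀, |s - s₀| < c := by
        have := h4.eventually (Metric.ball_mem_nhds (0 : ℝ) hc)
        filter_upwards [this] with s hs
        simpa [Real.dist_eq] using hs
      filter_upwards [h5] with s hs
      rw [Real.norm_eq_abs, abs_of_nonneg (by (clear * -; positivity)), Real.norm_eq_abs]
      rw [sq]
      exact mul_le_mul_of_nonneg_right hs.le (abs_nonneg _)
    have h2 : (fun s => ∑ l, ‖A s (b l) - A s₀ (b l)‖ ^ 2) =o[𝓝[t] s₀] fun s => s - s₀ :=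
      Asymptotics.IsLittleO.fun_sum fun l _ => h1 l
    have h3 := h2.const_mul_left (m⁻¹)
    refine h3.congr_left fun s => ?_
    rw [div_eq_inv_mul]
  rw [hasDerivWithinAt_iff_isLittleO] at hlin ⊢
  have hL0 : (-∑ l, (Real.log (q l) + 1) * RCLike.re ⟪b l, A s₀ (b l) - A s₀ (b l)⟫_ℂ) = 0 := by
    simp only [sub_self, inner_zero_right, RCLike.re_to_complex, Complex.zero_re, mul_zero, Finset.sum_const_zero, neg_zero]
  rw [Asymptotics.isLittleO_iff] at hlin hquad ⊢
  intro c hc
  filter_upwards [hA, hlin (half_pos hc), hquad (half_pos hc)] with s h1 h2 h3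
  have h4 := h1.1.ent_le hB h1.2 hq
  have h5 := h1.1.ent_ge hB h1.2 hm hqm
  rw [hL0, sub_zero] at h2
  rw [h0]
  rw [Real.norm_eq_abs] at h2 h3 ⊢
  rw [Real.norm_eq_abs] at h2 h3 ⊢
  have h6 : 0 ≤ (∑ l, ‖A s (b l) - A s₀ (b l)‖ ^ 2) / m := by (clear * - hm; positivity)
  rw [abs_of_nonneg h6] at h3
  have h7 := abs_le.1 h2
  rw [abs_le]
  constructor
  · have := h7.1
    linarith only [h3, h5, h7]
  · have := h7.2
    linarith only [h4, h7]

/-! ### Continuity -/

lemma exists_quad_bound {f : ℝ → ℝ} (hf : Continuous f) (R : ℝ) {ε : ℝ} (hε : 0 < ε) :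
    ∃ K : ℝ, 0 ≤ K ∧ ∀ x y : ℝ, |x| ≤ R → |y| ≤ R → |f x - f y| ≤ ε + K * (x - y) ^ 2 := by
  have hc : IsCompact (Set.Icc (-R) R) := isCompact_Icc
  have hu : UniformContinuousOn f (Set.Icc (-R) R) :=
    hc.uniformContinuousOn_of_continuous hf.continuousOn
  rw [Metric.uniformContinuousOn_iff] at hu
  obtain ⟨δ, hδ, hδ'⟩ := hu ε hε
  obtain ⟨M, hM⟩ := hc.exists_bound_of_continuousOn hf.continuousOn
  have hM0 : 0 ≤ |M| := abs_nonneg _
  refine ⟨2 * |M| / δ ^ 2, by (clear * - hδ; positivity), ?_⟩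
  intro x y hx hy
  have hx' : x ∈ Set.Icc (-R) R := abs_le.1 hx
  have hy' : y ∈ Set.Icc (-R) R := abs_le.1 hy
  have hK : 0 ≤ 2 * |M| / δ ^ 2 * (x - y) ^ 2 := by (clear * - hδ; positivity)
  by_cases h : |x - y| < δ
  · have h1 := hδ' x hx' y hy' (by rw [Real.dist_eq]; exact h)
    rw [Real.dist_eq] at h1
    linarith only [hK, h1]
  · push Not at h
    have h1 : |f x - f y| ≤ 2 * |M| := by
      have h2 := hM x hx'
      have h3 := hM y hy'
      rw [Real.norm_eq_abs] at h2 h3
      have h4 := abs_sub (f x) (f y)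
      have h5 := le_abs_self M
      linarith only [h2, h3, h4, h5]
    have h2 : δ ^ 2 ≤ (x - y) ^ 2 := by
      rw [← sq_abs (x - y)]
      exact pow_le_pow_left₀ hδ.le h 2
    have h3 : 2 * |M| ≤ 2 * |M| / δ ^ 2 * (x - y) ^ 2 := by
      rw [div_mul_eq_mul_div, le_div_iff₀ (by positivity)]
      exact mul_le_mul_of_nonneg_left h2 (by (clear * -; positivity))
    linarith

/-- Spectral sums of continuous functions are continuous. -/
theorem tendsto_spec {X : Type*} {F : Filter X} {A : X → E →ₗ[ℂ] E} {B : E →ₗ[ℂ] E}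
    {a : X → OrthonormalBasis κ ℂ E} {p : X → κ → ℝ} {b : OrthonormalBasis κ' ℂ E} {q : κ' → ℝ}
    {f : ℝ → ℝ} (hf : Continuous f) {R : ℝ}
    (hA : ∀ᶠ s in F, EigB (A s) (a s) (p s) ∧ ∀ k, |p s k| ≤ R)
    (hB : EigB B b q) (hd : ∀ x, Tendsto (fun s => A s x) F (𝓝 (B x))) :
    Tendsto (fun s => ∑ k, f (p s k)) F (𝓝 (∑ l, f (q l))) := by
  classical
  obtain ⟨R', hR'⟩ : ∃ R' : ℝ, ∀ l, |q l| ≤ R' := by
    rcases isEmpty_or_nonempty κ' with h | h
    · exact ⟨0, fun l => (h.false l).elim⟩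
    · obtain ⟨l0, hl0⟩ := Finite.exists_max fun l => |q l|
      exact ⟨_, hl0⟩
  rw [Metric.tendsto_nhds]
  intro ε hε
  set d : ℝ := Fintype.card κ' + 1 with hd_def
  have hd0 : 0 < d := by positivity
  obtain ⟨K, hK, hK'⟩ := exists_quad_bound hf (max R R') (ε := ε / (2 * d)) (by positivity)
  have hhs : Tendsto (fun s => K * ∑ l, ‖A s (b l) - B (b l)‖ ^ 2) F (𝓝 0) := by
    have h1 : ∀ l, Tendsto (fun s => ‖A s (b l) - B (b l)‖ ^ 2) F (𝓝 0) := by
      intro l
      have h2 : Tendsto (fun s => A s (b l) - B (b l)) F (𝓝 (B (b l) - B (b l))) :=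
        (hd (b l)).sub_const _
      rw [sub_self] at h2
      have h3 := (h2.norm).pow 2
      simpa only [norm_zero, ne_eq, OfNat.ofNat_ne_zero, not_false_eq_true, zero_pow] using h3
    have h2 : Tendsto (fun s => ∑ l, ‖A s (b l) - B (b l)‖ ^ 2) F (𝓝 (∑ _l : κ', (0 : ℝ))) :=
      tendsto_finsetSum _ fun l _ => h1 l
    have h3 := h2.const_mul K
    simpa only [Finset.sum_const_zero, mul_zero] using h3
  have hev : ∀ᶠ s in F, K * ∑ l, ‖A s (b l) - B (b l)‖ ^ 2 < ε / 2 :=
    hhs.eventually (gt_mem_nhds (by positivity))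
  filter_upwards [hA, hev] with s h1 h2
  rw [Real.dist_eq, sum_diff (a s) b (fun k => f (p s k)) (fun l => f (q l))]
  have h3 : |∑ l, ∑ k, wt (a s) b k l * (f (p s k) - f (q l))| ≤
      ∑ l, ∑ k, wt (a s) b k l * (ε / (2 * d) + K * (p s k - q l) ^ 2) := by
    refine (Finset.abs_sum_le_sum_abs _ _).trans (Finset.sum_le_sum fun l _ => ?_)
    refine (Finset.abs_sum_le_sum_abs _ _).trans (Finset.sum_le_sum fun k _ => ?_)
    rw [abs_mul, abs_of_nonneg (wt_nonneg _ _ _ _)]
    exact mul_le_mul_of_nonneg_left (hK' _ _ ((h1.2 k).trans (le_max_left _ _))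
      ((hR' l).trans (le_max_right _ _))) (wt_nonneg _ _ _ _)
  have h4 : ∑ l, ∑ k, wt (a s) b k l * (ε / (2 * d) + K * (p s k - q l) ^ 2) =
      (Fintype.card κ' : ℝ) * (ε / (2 * d)) + K * ∑ l, ‖A s (b l) - B (b l)‖ ^ 2 := by
    rw [h1.1.hs hB, Finset.mul_sum]
    have h5 : (Fintype.card κ' : ℝ) * (ε / (2 * d)) = ∑ _l : κ', ε / (2 * d) := by
      rw [Finset.sum_const, Finset.card_univ, nsmul_eq_mul]
    rw [h5, ← Finset.sum_add_distrib]
    refine Finset.sum_congr rfl fun l _ => ?_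
    have h6 : ε / (2 * d) = ∑ k, wt (a s) b k l * (ε / (2 * d)) := by
      rw [← Finset.sum_mul, sum_wt_left, one_mul]
    conv_rhs => rw [h6]
    rw [Finset.mul_sum, ← Finset.sum_add_distrib]
    refine Finset.sum_congr rfl fun k _ => ?_
    ring
  have h7 : (Fintype.card κ' : ℝ) * (ε / (2 * d)) ≤ ε / 2 := by
    have h8 : d * (ε / (2 * d)) = ε / 2 := by (clear * - hd0 hε; field_simp)
    have h9 : (Fintype.card κ' : ℝ) ≤ d := by rw [hd_def]; linarith only []
    calc (Fintype.card κ' : ℝ) * (ε / (2 * d)) ≤ d * (ε / (2 * d)) :=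
          mul_le_mul_of_nonneg_right h9 (by positivity)
      _ = ε / 2 := h8
  calc |∑ l, ∑ k, wt (a s) b k l * (f (p s k) - f (q l))| ≤ _ := h3
    _ = _ := h4
    _ < ε := by linarith only [h2, h7]

/-! ### Self-adjoint maps and Hermitian matrices -/

variable {ι : Type*} [Fintype ι] [DecidableEq ι]

theorem eigB_matrix {M : Matrix ι ι ℂ} (hM : M.IsHermitian) :
    EigB (Matrix.toEuclideanLin M) hM.eigenvectorBasis hM.eigenvalues := by
  intro k
  have h := hM.mulVec_eigenvectorBasis k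
  rw [Matrix.toLpLin_apply]
  apply (WithLp.ofLp_injective 2)
  simp only [WithLp.ofLp_smul]
  rw [h]
  ext i
  simp

/-- Entropy of a Hermitian matrix (`0` by convention for other matrices). -/
def ment (M : Matrix ι ι ℂ) : ℝ :=
  if h : M.IsHermitian then ∑ i, Real.negMulLog (h.eigenvalues i) else 0

theorem ment_eq {M : Matrix ι ι ℂ} (hM : M.IsHermitian) {b : OrthonormalBasis κ ℂ (EuclideanSpace ℂ ι)}
    {q : κ → ℝ} (hb : EigB (Matrix.toEuclideanLin M) b q) : ment M = eta q := by
  unfold ment eta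
  rw [dif_pos hM]
  exact (eigB_matrix hM).sum_eq hb Real.negMulLog

lemma hasDerivWithinAt_toEuclideanLin {M : ℝ → Matrix ι ι ℂ} {M' : Matrix ι ι ℂ} {s₀ : ℝ}
    {t : Set ℝ} (hd : ∀ i j, HasDerivWithinAt (fun s => M s i j) (M' i j) t s₀)
    (x : EuclideanSpace ℂ ι) :
    HasDerivWithinAt (fun s => Matrix.toEuclideanLin (M s) x) (Matrix.toEuclideanLin M' x) t s₀ := by
  have h1 : HasDerivWithinAt (fun s => fun i => ∑ j, M s i j * x j) (fun i => ∑ j, M' i j * x j)
      t s₀ := by
    rw [hasDerivWithinAt_pi]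
    intro i
    exact HasDerivWithinAt.fun_sum fun j _ => (hd i j).mul_const _
  have h2 := ((PiLp.continuousLinearEquiv 2 ℂ (fun _ : ι => ℂ)).symm.toContinuousLinearMap
    |>.restrictScalars ℝ).hasFDerivAt.comp_hasDerivWithinAt s₀ h1
  have e : ∀ N : Matrix ι ι ℂ, Matrix.toEuclideanLin N x =
      (PiLp.continuousLinearEquiv 2 ℂ (fun _ : ι => ℂ)).symm (fun i => ∑ j, N i j * x j) := by
    intro N
    rw [Matrix.toLpLin_apply]
    rfl
  simp only [e]
  exact h2

/-- Derivative of the entropy of a path of Hermitian positive semidefinite matrices at a positive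
definite one. -/
theorem hasDerivWithinAt_ment {M : ℝ → Matrix ι ι ℂ} {M' : Matrix ι ι ℂ} {s₀ : ℝ} {t : Set ℝ}
    (hM : ∀ᶠ s in 𝓝[t] s₀, (M s).PosSemidef) (h0 : (M s₀).PosDef)
    (hd : ∀ i j, HasDerivWithinAt (fun s => M s i j) (M' i j) t s₀)
    {b : OrthonormalBasis κ ℂ (EuclideanSpace ℂ ι)} {q : κ → ℝ}
    (hb : EigB (Matrix.toEuclideanLin (M s₀)) b q) :
    HasDerivWithinAt (fun s => ment (M s))
      (-∑ l, (Real.log (q l) + 1) * RCLike.re ⟪b l, Matrix.toEuclideanLin M' (b l)⟫_ℂ) t s₀ := by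
  classical
  have hH : (M s₀).IsHermitian := h0.isHermitian
  have hq : ∀ l, 0 < q l := by
    intro l
    have h1 : (0:ℝ) < RCLike.re (star (b l).ofLp ⬝ᵥ (M s₀).mulVec (b l).ofLp) := by
      apply h0.re_dotProduct_pos
      intro h2
      have h3 := b.orthonormal.ne_zero l
      apply h3
      apply WithLp.ofLp_injective 2
      simpa only [WithLp.ofLp_zero, WithLp.ofLp_eq_zero] using h2
    have h4 : (M s₀).mulVec (b l).ofLp = (q l : ℂ) • (b l).ofLp := by
      have h5 := hb l
      rw [Matrix.toLpLin_apply] at h5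
      have h6 := congrArg WithLp.ofLp h5
      simpa only [Complex.coe_smul, WithLp.ofLp_smul] using h6
    rw [h4, dotProduct_smul] at h1
    have h7 : star (b l).ofLp ⬝ᵥ (b l).ofLp = 1 := by
      have h8 := b.orthonormal.1 l
      have h9 : ⟪b l, b l⟫_ℂ = 1 := by
        rw [inner_self_eq_norm_sq_to_K, h8]; simp
      rw [EuclideanSpace.inner_eq_star_dotProduct, dotProduct_comm] at h9
      exact h9
    rw [h7] at h1
    simpa only [gt_iff_lt, smul_eq_mul, mul_one, RCLike.re_to_complex, Complex.ofReal_re] using h1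
  let a : ℝ → OrthonormalBasis ι ℂ (EuclideanSpace ℂ ι) := fun s =>
    if h : (M s).IsHermitian then h.eigenvectorBasis else hH.eigenvectorBasis
  let p : ℝ → ι → ℝ := fun s =>
    if h : (M s).IsHermitian then h.eigenvalues else 0
  have hp : ∀ s, ment (M s) = eta (p s) := by
    intro s
    unfold ment eta
    by_cases h : (M s).IsHermitian
    · simp only [p, dif_pos h]
    · simp only [dif_neg h, Pi.zero_apply, Real.negMulLog_zero, Finset.sum_const_zero, p]
  have hA : ∀ᶠ s in 𝓝[t] s₀, EigB (Matrix.toEuclideanLin (M s)) (a s) (p s) ∧ ∀ k, 0 ≤ p s k := by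
    filter_upwards [hM] with s hs
    have h : (M s).IsHermitian := hs.isHermitian
    simp only [a, p, dif_pos h]
    exact ⟨eigB_matrix h, fun k => hs.eigenvalues_nonneg k⟩
  have h1 := hasDerivWithinAt_eta hA hb hq (fun x => hasDerivWithinAt_toEuclideanLin hd x)
    (by rw [← hp]; exact ment_eq hH hb)
  simpa only [hp] using h1

/-- Continuity of the entropy on Hermitian matrices. -/
theorem tendsto_ment {X : Type*} {F : Filter X} {M : X → Matrix ι ι ℂ} {N : Matrix ι ι ℂ}
    (hM : ∀ᶠ s in F, (M s).IsHermitian) (hN : N.IsHermitian)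
    (hd : Tendsto M F (𝓝 N)) : Tendsto (fun s => ment (M s)) F (𝓝 (ment N)) := by
  classical
  let a : X → OrthonormalBasis ι ℂ (EuclideanSpace ℂ ι) := fun s =>
    if h : (M s).IsHermitian then h.eigenvectorBasis else hN.eigenvectorBasis
  let p : X → ι → ℝ := fun s =>
    if h : (M s).IsHermitian then h.eigenvalues else 0
  have hp : ∀ s, ment (M s) = eta (p s) := by
    intro s
    unfold ment eta
    by_cases h : (M s).IsHermitian
    · simp only [dif_pos h, p]
    · simp only [dif_neg h, Pi.zero_apply, Real.negMulLog_zero, Finset.sum_const_zero, p]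
  have hdx : ∀ x : EuclideanSpace ℂ ι,
      Tendsto (fun s => Matrix.toEuclideanLin (M s) x) F (𝓝 (Matrix.toEuclideanLin N x)) := by
    intro x
    have e : ∀ N : Matrix ι ι ℂ, Matrix.toEuclideanLin N x =
        (PiLp.continuousLinearEquiv 2 ℂ (fun _ : ι => ℂ)).symm (fun i => ∑ j, N i j * x j) := by
      intro N
      rw [Matrix.toLpLin_apply]
      rfl
    simp only [e]
    refine ((PiLp.continuousLinearEquiv 2 ℂ (fun _ : ι => ℂ)).symm.continuous.tendsto _).comp ?_
    rw [tendsto_pi_nhds]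
    intro i
    refine tendsto_finsetSum _ fun j _ => Tendsto.mul_const _ ?_
    exact ((continuous_apply_apply i j).tendsto N).comp hd
  -- eigenvalues are bounded
  have hb : ∀ᶠ s in F, EigB (Matrix.toEuclideanLin (M s)) (a s) (p s) ∧
      ∀ k, |p s k| ≤ ∑ i, ∑ j, (‖N i j‖ + 1) := by
    have h1 : ∀ᶠ s in F, ∀ i j, ‖M s i j‖ ≤ ‖N i j‖ + 1 := by
      rw [eventually_all]
      intro i
      rw [eventually_all]
      intro j
      have h2 : Tendsto (fun s => ‖M s i j‖) F (𝓝 ‖N i j‖) :=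
        (((continuous_apply_apply i j).tendsto N).comp hd).norm
      filter_upwards [h2.eventually (gt_mem_nhds (lt_add_one _))] with s hs using hs.le
    filter_upwards [hM, h1] with s h hs
    simp only [a, p, dif_pos h]
    refine ⟨eigB_matrix h, fun k => ?_⟩
    set u := h.eigenvectorBasis k with hu
    have h3 : ‖Matrix.toEuclideanLin (M s) u‖ = |h.eigenvalues k| := by
      rw [eigB_matrix h k, norm_smul, Complex.norm_real, Real.norm_eq_abs,
        h.eigenvectorBasis.orthonormal.1 k, mul_one]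
    rw [← h3]
    have hun : ∀ j, ‖u j‖ ≤ 1 := by
      intro j
      have := PiLp.norm_apply_le u j
      rwa [h.eigenvectorBasis.orthonormal.1 k] at this
    have h4 : ‖Matrix.toEuclideanLin (M s) u‖ ≤ ∑ i, ‖(Matrix.toEuclideanLin (M s) u) i‖ := by
      have h5 : Matrix.toEuclideanLin (M s) u =
          ∑ i, EuclideanSpace.single i ((Matrix.toEuclideanLin (M s) u) i) := by
        ext i
        simp only [Matrix.ofLp_toLpLin, Matrix.toLin'_apply, WithLp.ofLp_sum, PiLp.ofLp_single, Finset.sum_apply, Finset.sum_pi_single, Finset.mem_univ, ↓reduceIte]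
      conv_lhs => rw [h5]
      refine (norm_sum_le _ _).trans (Finset.sum_le_sum fun i _ => ?_)
      simp only [Matrix.ofLp_toLpLin, Matrix.toLin'_apply, PiLp.norm_single, Std.le_refl]
    refine h4.trans (Finset.sum_le_sum fun i _ => ?_)
    have h6 : (Matrix.toEuclideanLin (M s) u) i = ∑ j, M s i j * u j := by
      rw [Matrix.toLpLin_apply]
      rfl
    rw [h6]
    refine (norm_sum_le _ _).trans (Finset.sum_le_sum fun j _ => ?_)
    rw [norm_mul]
    calc ‖M s i j‖ * ‖u j‖ ≤ (‖N i j‖ + 1) * 1 :=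
          mul_le_mul (hs i j) (hun j) (norm_nonneg _) (by (clear * -; positivity))
      _ = _ := mul_one _
  have h2 := tendsto_spec Real.continuous_negMulLog hb (eigB_matrix hN) hdx
  have h3 : ment N = ∑ l, Real.negMulLog (hN.eigenvalues l) := by
    unfold ment; rw [dif_pos hN]
  rw [h3]
  simpa only [hp, eta] using h2

end

end Vale.Agent.P369V
end
end

section

attribute [-instance] ProperSMul.toContinuousSMul IsTopologicalTorsor.toContinuousSMul IdemSemiring.toCanonicallyOrderedAdd IdemSemiring.toMulLeftMono IdemSemiring.toMulRightMono AddQuantale.instAddLeftMono AddQuantale.instAddRightMono Quantale.instMulLeftMono Quantale.instMulRightMono FiniteDimensional.rclike_to_real IsScalarTower.complexToReal FiniteDimensional.complexToReal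

section

/-!
P369V, B1 and B2: continuity and derivative of the entropy of a matrix.
-/

namespace Vale.Agent.P369V

open Matrix MeasureTheory Set
open scoped Kronecker InnerProductSpace ComplexOrder Topology

noncomputable section

section mat

variable {ι : Type} [Fintype ι] [DecidableEq ι]

/-- trace against a function of a Hermitian matrix -/
lemma b_trace_mul_cfc {A : Matrix ι ι ℂ} (hA : A.IsHermitian) (f : ℝ → ℝ) (X : Matrix ι ι ℂ) :
    (X * cfc f A).trace.re = ∑ l, f (hA.eigenvalues l) *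
      RCLike.re ⟪hA.eigenvectorBasis l, Matrix.toEuclideanLin X (hA.eigenvectorBasis l)⟫_ℂ := by
  rw [hA.cfc_eq]
  unfold Matrix.IsHermitian.cfc
  simp only [Unitary.conjStarAlgAut_apply]
  have h1 : (X * ((hA.eigenvectorUnitary : Matrix ι ι ℂ) *
      Matrix.diagonal (RCLike.ofReal ∘ f ∘ hA.eigenvalues) *
      (star hA.eigenvectorUnitary : Matrix ι ι ℂ))).trace =
      ((star hA.eigenvectorUnitary : Matrix ι ι ℂ) * X * (hA.eigenvectorUnitary : Matrix ι ι ℂ) *
        Matrix.diagonal (RCLike.ofReal ∘ f ∘ hA.eigenvalues)).trace := by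
    rw [← Matrix.mul_assoc, ← Matrix.mul_assoc, Matrix.trace_mul_comm]
    simp only [Matrix.mul_assoc]
  rw [h1, Matrix.trace, Complex.re_sum]
  refine Finset.sum_congr rfl fun l _ => ?_
  rw [Matrix.diag_apply, Matrix.mul_diagonal]
  have h2 : ((star hA.eigenvectorUnitary : Matrix ι ι ℂ) * X *
      (hA.eigenvectorUnitary : Matrix ι ι ℂ)) l l =
      ⟪hA.eigenvectorBasis l, Matrix.toEuclideanLin X (hA.eigenvectorBasis l)⟫_ℂ := by
    rw [Matrix.toLpLin_apply, EuclideanSpace.inner_eq_star_dotProduct, Matrix.mul_assoc,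
      Matrix.mul_apply]
    simp only [dotProduct, Matrix.mul_apply, Matrix.mulVec, star_apply, Pi.star_apply,
      Matrix.IsHermitian.eigenvectorUnitary_apply]
    refine Finset.sum_congr rfl fun i _ => ?_
    rw [mul_comm]
  rw [h2]
  simp only [Complex.coe_algebraMap, Function.comp_apply, mul_comm, Complex.mul_re, Complex.ofReal_re, Complex.ofReal_im, zero_mul, sub_zero, RCLike.re_to_complex]

/-- trace of a function of a Hermitian matrix -/
lemma b_trace_cfc {A : Matrix ι ι ℂ} (hA : A.IsHermitian) (f : ℝ → ℝ) :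
    (cfc f A).trace.re = ∑ i, f (hA.eigenvalues i) := by
  have h := b_trace_mul_cfc hA f 1
  rw [Matrix.one_mul] at h
  rw [h]
  refine Finset.sum_congr rfl fun i _ => ?_
  have h1 : Matrix.toEuclideanLin (1 : Matrix ι ι ℂ) (hA.eigenvectorBasis i) =
      hA.eigenvectorBasis i := by
    rw [Matrix.toLpLin_apply, Matrix.one_mulVec]
  rw [h1, inner_self_eq_norm_sq, hA.eigenvectorBasis.orthonormal.1 i]
  simp

lemma b_ent_eq {A : Matrix ι ι ℂ} (hA : A.IsHermitian) : ent A = ment A := by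
  unfold ent ment
  rw [dif_pos hA, b_trace_cfc hA]

/-- B1 -/
theorem continuousOn_ent {X : Type} [TopologicalSpace X] {s : Set X} {A : X → Matrix ι ι ℂ}
    (hA : ContinuousOn A s) (hp : ∀ x ∈ s, (A x).PosSemidef) : ContinuousOn (fun x => ent (A x)) s := by
  intro x hx
  have h1 : Filter.Tendsto (fun y => ment (A y)) (𝓝[s] x) (𝓝 (ment (A x))) := by
    refine tendsto_ment ?_ (hp x hx).isHermitian (hA x hx)
    filter_upwards [self_mem_nhdsWithin] with y hy using (hp y hy).isHermitian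
  unfold ContinuousWithinAt
  show Filter.Tendsto (fun x => ent (A x)) (𝓝[s] x) (𝓝 (ent (A x)))
  rw [b_ent_eq (hp x hx).isHermitian]
  refine h1.congr' ?_
  filter_upwards [self_mem_nhdsWithin] with y hy
  rw [b_ent_eq (hp y hy).isHermitian]

theorem ent_nonneg {A : Matrix ι ι ℂ} (hA : A.PosSemidef) (ht : A.trace = 1) : 0 ≤ ent A := by
  rw [b_ent_eq hA.isHermitian]
  unfold ment
  rw [dif_pos hA.isHermitian]
  have hsum : ∑ i, hA.isHermitian.eigenvalues i = 1 := by
    have h := hA.isHermitian.trace_eq_sum_eigenvalues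
    rw [ht] at h
    have h2 := congrArg Complex.re h
    simpa only [Complex.coe_algebraMap, Complex.re_sum, Complex.ofReal_re, Complex.one_re] using h2.symm
  refine Finset.sum_nonneg fun i _ => ?_
  refine Real.negMulLog_nonneg (hA.eigenvalues_nonneg i) ?_
  rw [← hsum]
  exact Finset.single_le_sum (f := fun i => hA.isHermitian.eigenvalues i)
    (fun j _ => hA.eigenvalues_nonneg j) (Finset.mem_univ i)

/-- B2 -/
theorem hasDerivAt_ent {A : ℝ → Matrix ι ι ℂ} {A' : Matrix ι ι ℂ} {t : ℝ}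
    (hA : ∀ i j, HasDerivAt (fun s => A s i j) (A' i j) t) (hp : (A t).PosDef)
    (hh : ∀ᶠ s in nhds t, (A s).IsHermitian) (htr : ∀ᶠ s in nhds t, (A s).trace = (A t).trace) :
    HasDerivAt (fun s => ent (A s)) (-(A' * cfc Real.log (A t)).trace.re) t := by
  have hH : (A t).IsHermitian := hp.isHermitian
  -- positive semidefinite near `t`
  have hps : ∀ᶠ s in 𝓝 t, (A s).PosSemidef := by
    rcases isEmpty_or_nonempty ι with hι | hι
    · filter_upwards [hh] with s hs
      rw [hs.posSemidef_iff_eigenvalues_nonneg]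
      intro i
      exact (hι.false i).elim
    obtain ⟨l0, hl0⟩ := Finite.exists_min hH.eigenvalues
    have hm : 0 < hH.eigenvalues l0 := hp.eigenvalues_pos l0
    have hc : Filter.Tendsto (fun s => ∑ l, ‖Matrix.toEuclideanLin (A s) (hH.eigenvectorBasis l) -
        Matrix.toEuclideanLin (A t) (hH.eigenvectorBasis l)‖ ^ 2) (𝓝 t) (𝓝 0) := by
      have h1 : ∀ l, Filter.Tendsto (fun s => ‖Matrix.toEuclideanLin (A s) (hH.eigenvectorBasis l) -
          Matrix.toEuclideanLin (A t) (hH.eigenvectorBasis l)‖ ^ 2) (𝓝 t) (𝓝 0) := by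
        intro l
        have h2 := (hasDerivWithinAt_toEuclideanLin (t := univ)
          (fun i j => (hA i j).hasDerivWithinAt) (hH.eigenvectorBasis l)).continuousWithinAt
        rw [continuousWithinAt_univ] at h2
        have h3 : Filter.Tendsto (fun s => Matrix.toEuclideanLin (A s) (hH.eigenvectorBasis l) -
            Matrix.toEuclideanLin (A t) (hH.eigenvectorBasis l)) (𝓝 t) (𝓝 0) := by
          have h4 := h2.tendsto.sub_const (Matrix.toEuclideanLin (A t) (hH.eigenvectorBasis l))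
          rwa [sub_self] at h4
        have h5 := (h3.norm).pow 2
        simpa only [norm_zero, ne_eq, OfNat.ofNat_ne_zero, not_false_eq_true, zero_pow] using h5
      have h2 := tendsto_finsetSum (Finset.univ : Finset ι) fun l _ => h1 l
      simpa only [Finset.sum_const_zero] using h2
    filter_upwards [hh, hc.eventually (gt_mem_nhds (pow_pos hm 2))] with s hs h1
    rw [hs.posSemidef_iff_eigenvalues_nonneg]
    intro k
    by_contra hk
    simp only [Pi.zero_apply, not_le] at hk
    have h2 := (eigB_matrix hs).hs (eigB_matrix hH)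
    rw [h2] at h1
    have h3 : hH.eigenvalues l0 ^ 2 ≤ ∑ l, ∑ k', wt hs.eigenvectorBasis hH.eigenvectorBasis k' l *
        (hs.eigenvalues k' - hH.eigenvalues l) ^ 2 := by
      calc hH.eigenvalues l0 ^ 2
          = ∑ l, wt hs.eigenvectorBasis hH.eigenvectorBasis k l * hH.eigenvalues l0 ^ 2 := by
            rw [← Finset.sum_mul, sum_wt_right, one_mul]
        _ ≤ _ := by
            refine Finset.sum_le_sum fun l _ => ?_
            refine le_trans ?_ (Finset.single_le_sum (f := fun k' =>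
              wt hs.eigenvectorBasis hH.eigenvectorBasis k' l *
              (hs.eigenvalues k' - hH.eigenvalues l) ^ 2)
              (fun k' _ => mul_nonneg (wt_nonneg _ _ _ _) (sq_nonneg _)) (Finset.mem_univ k))
            refine mul_le_mul_of_nonneg_left ?_ (wt_nonneg _ _ _ _)
            have h4 := hl0 l
            nlinarith only [hm, hk, h4]
    linarith only [h1, h3]
  -- the derivative has trace zero
  have htr' : A'.trace = 0 := by
    have h1 : HasDerivAt (fun s => (A s).trace) A'.trace t := by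
      have : HasDerivAt (fun s => ∑ i, A s i i) (∑ i, A' i i) t :=
        HasDerivAt.fun_sum fun i _ => hA i i
      exact this
    have h2 : HasDerivAt (fun s => (A s).trace) 0 t := by
      have := (hasDerivAt_const t (A t).trace)
      exact this.congr_of_eventuallyEq htr
    exact h1.unique h2
  have h1 := hasDerivWithinAt_ment (t := univ) (s₀ := t) (M := A) (M' := A')
    (by rw [nhdsWithin_univ]; exact hps) hp (fun i j => (hA i j).hasDerivWithinAt)
    (eigB_matrix hH)
  rw [hasDerivWithinAt_univ] at h1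
  have h2 : (-∑ l, (Real.log (hH.eigenvalues l) + 1) *
      RCLike.re ⟪hH.eigenvectorBasis l, Matrix.toEuclideanLin A' (hH.eigenvectorBasis l)⟫_ℂ) =
      -(A' * cfc Real.log (A t)).trace.re := by
    rw [b_trace_mul_cfc hH]
    congr 1
    simp only [add_mul, one_mul, Finset.sum_add_distrib]
    have h3 : ∑ l, RCLike.re ⟪hH.eigenvectorBasis l,
        Matrix.toEuclideanLin A' (hH.eigenvectorBasis l)⟫_ℂ = 0 := by
      have h4 := b_trace_mul_cfc hH (fun _ => (1 : ℝ)) A'
      have h5 : cfc (fun _ => (1 : ℝ)) (A t) = 1 := by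
        have := cfc_const_one ℝ (A t)
        exact this
      rw [h5, Matrix.mul_one, htr'] at h4
      simpa only [RCLike.re_to_complex, one_mul, Complex.zero_re] using h4.symm
    rw [h3, add_zero]
  rw [h2] at h1
  refine h1.congr_of_eventuallyEq ?_
  filter_upwards [hh] with s hs using b_ent_eq hs

end mat

end

end Vale.Agent.P369V
end
end

section

attribute [-instance] ProperSMul.toContinuousSMul IsTopologicalTorsor.toContinuousSMul IdemSemiring.toCanonicallyOrderedAdd IdemSemiring.toMulLeftMono IdemSemiring.toMulRightMono AddQuantale.instAddLeftMono AddQuantale.instAddRightMono Quantale.instMulLeftMono Quantale.instMulRightMono FiniteDimensional.rclike_to_real IsScalarTower.complexToReal FiniteDimensional.complexToReal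

section

/-! C1: the operator `Kop`, its matrix, its inverse, and the variational principle. -/

namespace Vale.Agent.P369V

open Matrix MeasureTheory Set
open scoped Kronecker InnerProductSpace ComplexOrder

noncomputable section

variable {ι : Type} [Fintype ι] [DecidableEq ι]

/-- C1: positive definiteness of the matrix of `Kop` -/
theorem Kmat_posDef {ν : ℝ} (hν : ν ∈ Icc (0 : ℝ) 1) {ρ : Matrix ι ι ℂ} (hρ : ρ.PosDef) :
    (Kmat ν ρ).PosDef := by
  have hone : (1 : Matrix ι ι ℂ).PosDef := Matrix.PosDef.one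
  have h1 : ((1 : Matrix ι ι ℂ) ⊗ₖ ρᵀ).PosDef := hone.kronecker hρ.transpose
  have h2 : (ρ ⊗ₖ (1 : Matrix ι ι ℂ)).PosDef := hρ.kronecker hone
  unfold Kmat
  rcases hν.1.eq_or_lt with h | h
  · subst h
    have h3 : (((1 - 0 : ℝ) : ℂ) • ((1 : Matrix ι ι ℂ) ⊗ₖ ρᵀ) +
        ((0 : ℝ) : ℂ) • (ρ ⊗ₖ (1 : Matrix ι ι ℂ))) = (1 : Matrix ι ι ℂ) ⊗ₖ ρᵀ := by
      simp
    rw [h3]
    exact h1
  · have h3 : (0 : ℂ) ≤ ((1 - ν : ℝ) : ℂ) := by
      exact_mod_cast sub_nonneg.2 hν.2
    have h4 : (0 : ℂ) < (ν : ℂ) := by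
      exact_mod_cast h
    exact Matrix.PosDef.posSemidef_add (h1.posSemidef.smul h3) (h2.smul h4)

theorem c1_isUnit_det {ν : ℝ} (hν : ν ∈ Icc (0 : ℝ) 1) {ρ : Matrix ι ι ℂ} (hρ : ρ.PosDef) :
    IsUnit (Kmat ν ρ).det :=
  (Matrix.isUnit_iff_isUnit_det _).1 (Kmat_posDef hν hρ).isUnit

theorem c1_Kmat_mulVec (ν : ℝ) (ρ V : Matrix ι ι ℂ) :
    Kmat ν ρ *ᵥ mvec V = mvec (Kop ν ρ V) := by
  ext ⟨i, j⟩
  unfold Kmat mvec Kop Matrix.mulVec dotProduct
  rw [Fintype.sum_prod_type]
  simp only [Matrix.add_apply, Matrix.smul_apply, smul_eq_mul, kroneckerMap_apply,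
    Matrix.transpose_apply, Matrix.mul_apply, add_mul, Finset.sum_add_distrib, Finset.mul_sum]
  congr 1
  · rw [Finset.sum_eq_single i]
    · refine Finset.sum_congr rfl fun k _ => ?_
      rw [Matrix.one_apply_eq]
      ring
    · intro k _ hk
      refine Finset.sum_eq_zero fun l _ => ?_
      rw [Matrix.one_apply_ne hk.symm]
      ring
    · intro h
      exact absurd (Finset.mem_univ i) h
  · refine Finset.sum_congr rfl fun k _ => ?_
    rw [Finset.sum_eq_single j]
    · rw [Matrix.one_apply_eq]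
      ring
    · intro l _ hl
      rw [Matrix.one_apply_ne hl.symm]
      ring
    · intro h
      exact absurd (Finset.mem_univ j) h

theorem c1_mvec_Kinv (ν : ℝ) (ρ Z : Matrix ι ι ℂ) :
    mvec (Kinv ν ρ Z) = (Kmat ν ρ)⁻¹ *ᵥ mvec Z := rfl

omit [Fintype ι] [DecidableEq ι] in
theorem c1_mvec_inj {V W : Matrix ι ι ℂ} (h : mvec V = mvec W) : V = W := by
  ext i j
  exact congrFun h (i, j)

theorem Kop_Kinv {ν : ℝ} (hν : ν ∈ Icc (0 : ℝ) 1) {ρ : Matrix ι ι ℂ} (hρ : ρ.PosDef)
    (Z : Matrix ι ι ℂ) : Kop ν ρ (Kinv ν ρ Z) = Z := by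
  apply c1_mvec_inj
  rw [← c1_Kmat_mulVec, c1_mvec_Kinv, Matrix.mulVec_mulVec,
    Matrix.mul_nonsing_inv _ (c1_isUnit_det hν hρ), Matrix.one_mulVec]

theorem Kinv_Kop {ν : ℝ} (hν : ν ∈ Icc (0 : ℝ) 1) {ρ : Matrix ι ι ℂ} (hρ : ρ.PosDef)
    (V : Matrix ι ι ℂ) : Kinv ν ρ (Kop ν ρ V) = V := by
  apply c1_mvec_inj
  rw [c1_mvec_Kinv, ← c1_Kmat_mulVec, Matrix.mulVec_mulVec,
    Matrix.nonsing_inv_mul _ (c1_isUnit_det hν hρ), Matrix.one_mulVec]

theorem Kinv_add {ν : ℝ} {ρ : Matrix ι ι ℂ} (Z W : Matrix ι ι ℂ) :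
    Kinv ν ρ (Z + W) = Kinv ν ρ Z + Kinv ν ρ W := by
  apply c1_mvec_inj
  have h : mvec (Z + W) = mvec Z + mvec W := rfl
  have h' : mvec (Kinv ν ρ Z + Kinv ν ρ W) = mvec (Kinv ν ρ Z) + mvec (Kinv ν ρ W) := rfl
  rw [c1_mvec_Kinv, h, h', c1_mvec_Kinv, c1_mvec_Kinv, Matrix.mulVec_add]

theorem Kinv_smul {ν : ℝ} {ρ : Matrix ι ι ℂ} (c : ℂ) (Z : Matrix ι ι ℂ) :
    Kinv ν ρ (c • Z) = c • Kinv ν ρ Z := by
  apply c1_mvec_inj
  have h : mvec (c • Z) = c • mvec Z := rfl
  have h' : mvec (c • Kinv ν ρ Z) = c • mvec (Kinv ν ρ Z) := rfl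
  rw [c1_mvec_Kinv, h, h', c1_mvec_Kinv, Matrix.mulVec_smul]

/-! ### the form `⟨A, Kop B⟩` -/

omit [DecidableEq ι] in
theorem c1_Kop_sub (ν : ℝ) (ρ V W : Matrix ι ι ℂ) :
    Kop ν ρ (V - W) = Kop ν ρ V - Kop ν ρ W := by
  unfold Kop
  rw [Matrix.sub_mul, Matrix.mul_sub, smul_sub, smul_sub]
  abel

omit [DecidableEq ι] in
theorem c1_re_conj (A : Matrix ι ι ℂ) : (Aᴴ.trace).re = A.trace.re := by
  rw [Matrix.trace_conjTranspose]
  rfl

omit [DecidableEq ι] in
/-- `pen ν ρ V = Re ⟨V, Kop V⟩` -/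
theorem c1_pen_eq (ν : ℝ) (ρ V : Matrix ι ι ℂ) :
    pen ν ρ V = (Vᴴ * Kop ν ρ V).trace.re := by
  unfold pen Kop
  rw [Matrix.mul_add, Matrix.mul_smul, Matrix.mul_smul, Matrix.trace_add, Matrix.trace_smul,
    Matrix.trace_smul, Complex.add_re, smul_eq_mul, smul_eq_mul, Complex.re_ofReal_mul,
    Complex.re_ofReal_mul]
  congr 2
  · rw [Matrix.trace_mul_comm ρ, Matrix.mul_assoc]
  · rw [Matrix.trace_mul_comm Vᴴ, Matrix.mul_assoc]

omit [DecidableEq ι] in
/-- `Re ⟨V, Kop W⟩` is symmetric -/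
theorem c1_symm {ν : ℝ} {ρ : Matrix ι ι ℂ} (hρ : ρ.IsHermitian) (V W : Matrix ι ι ℂ) :
    (Vᴴ * Kop ν ρ W).trace.re = ((Kop ν ρ V)ᴴ * W).trace.re := by
  have h : (Vᴴ * Kop ν ρ W).trace = ((Kop ν ρ V)ᴴ * W).trace := by
    unfold Kop
    rw [Matrix.mul_add, Matrix.mul_smul, Matrix.mul_smul, Matrix.trace_add, Matrix.trace_smul,
      Matrix.trace_smul, Matrix.conjTranspose_add, Matrix.conjTranspose_smul,
      Matrix.conjTranspose_smul, Matrix.conjTranspose_mul, Matrix.conjTranspose_mul, hρ.eq,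
      Matrix.add_mul, Matrix.trace_add, Matrix.smul_mul, Matrix.smul_mul, Matrix.trace_smul,
      Matrix.trace_smul]
    have h1 : star (((1 - ν : ℝ)) : ℂ) = ((1 - ν : ℝ) : ℂ) := Complex.conj_ofReal _
    have h2 : star ((ν : ℝ) : ℂ) = ((ν : ℝ) : ℂ) := Complex.conj_ofReal _
    rw [h1, h2]
    congr 2
    · rw [← Matrix.mul_assoc, Matrix.trace_mul_comm (Vᴴ * W) ρ, Matrix.mul_assoc]
    · rw [Matrix.mul_assoc]
  rw [h]

omit [DecidableEq ι] in
theorem c1_pen_nonneg {ν : ℝ} (hν : ν ∈ Icc (0 : ℝ) 1) {ρ : Matrix ι ι ℂ} (hρ : ρ.PosSemidef)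
    (V : Matrix ι ι ℂ) : 0 ≤ pen ν ρ V := by
  unfold pen
  have h1 : 0 ≤ (ρ * (Vᴴ * V)).trace.re := by
    have h : (ρ * (Vᴴ * V)).trace = (V * ρ * Vᴴ).trace := by
      rw [← Matrix.mul_assoc, Matrix.trace_mul_comm, ← Matrix.mul_assoc]
    rw [h]
    have h3 : (0 : ℂ) ≤ (V * ρ * Vᴴ).trace := (hρ.mul_mul_conjTranspose_same V).trace_nonneg
    exact (Complex.le_def.1 h3).1
  have h2 : 0 ≤ (ρ * (V * Vᴴ)).trace.re := by
    have h : (ρ * (V * Vᴴ)).trace = (Vᴴ * ρ * V).trace := by
      rw [← Matrix.mul_assoc, Matrix.trace_mul_comm, ← Matrix.mul_assoc]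
    rw [h]
    have h3 : (0 : ℂ) ≤ (Vᴴ * ρ * V).trace := (hρ.conjTranspose_mul_mul_same V).trace_nonneg
    exact (Complex.le_def.1 h3).1
  exact add_nonneg (mul_nonneg (sub_nonneg.2 hν.2) h1) (mul_nonneg hν.1 h2)

theorem pen_Kinv {ν : ℝ} (hν : ν ∈ Icc (0 : ℝ) 1) {ρ : Matrix ι ι ℂ} (hρ : ρ.PosDef)
    (Z : Matrix ι ι ℂ) : pen ν ρ (Kinv ν ρ Z) = Qf ν ρ Z := by
  rw [c1_pen_eq, c1_symm hρ.isHermitian, Kop_Kinv hν hρ]
  rfl

/-- variational principle -/
theorem two_re_sub_pen_le {ν : ℝ} (hν : ν ∈ Icc (0 : ℝ) 1) {ρ : Matrix ι ι ℂ} (hρ : ρ.PosDef)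
    (Z V : Matrix ι ι ℂ) : 2 * (Zᴴ * V).trace.re - pen ν ρ V ≤ Qf ν ρ Z := by
  have h0 := c1_pen_nonneg hν hρ.posSemidef (V - Kinv ν ρ Z)
  rw [c1_pen_eq, c1_Kop_sub, Kop_Kinv hν hρ, Matrix.conjTranspose_sub, Matrix.sub_mul,
    Matrix.mul_sub, Matrix.mul_sub, Matrix.trace_sub, Matrix.trace_sub, Matrix.trace_sub,
    Complex.sub_re, Complex.sub_re, Complex.sub_re, ← c1_pen_eq,
    c1_symm hρ.isHermitian (Kinv ν ρ Z) V, Kop_Kinv hν hρ] at h0
  have h1 : (Vᴴ * Z).trace.re = (Zᴴ * V).trace.re := by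
    rw [← c1_re_conj (Zᴴ * V), Matrix.conjTranspose_mul, Matrix.conjTranspose_conjTranspose]
  have h2 : ((Kinv ν ρ Z)ᴴ * Z).trace.re = Qf ν ρ Z := by
    unfold Qf
    rw [← c1_re_conj (Zᴴ * Kinv ν ρ Z), Matrix.conjTranspose_mul,
      Matrix.conjTranspose_conjTranspose]
  rw [h1, h2] at h0
  linarith only [h0]

end

end Vale.Agent.P369V
end
end

section

attribute [-instance] ProperSMul.toContinuousSMul IsTopologicalTorsor.toContinuousSMul IdemSemiring.toCanonicallyOrderedAdd IdemSemiring.toMulLeftMono IdemSemiring.toMulRightMono AddQuantale.instAddLeftMono AddQuantale.instAddRightMono Quantale.instMulLeftMono Quantale.instMulRightMono FiniteDimensional.rclike_to_real IsScalarTower.complexToReal FiniteDimensional.complexToReal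

section

/-! C4: the quadratic form in the eigenbasis of `ρ`. -/

namespace Vale.Agent.P369V

open Matrix MeasureTheory Set
open scoped Kronecker InnerProductSpace ComplexOrder

noncomputable section

variable {ι : Type} [Fintype ι] [DecidableEq ι]

theorem c4_Kmat_mulVec (ν : ℝ) (ρ V : Matrix ι ι ℂ) :
    Kmat ν ρ *ᵥ mvec V = mvec (Kop ν ρ V) := by
  ext ⟨i, j⟩
  unfold Kmat mvec Kop Matrix.mulVec dotProduct
  rw [Fintype.sum_prod_type]
  simp only [Matrix.add_apply, Matrix.smul_apply, smul_eq_mul, kroneckerMap_apply,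
    Matrix.transpose_apply, Matrix.mul_apply, add_mul, Finset.sum_add_distrib, Finset.mul_sum]
  congr 1
  · rw [Finset.sum_eq_single i]
    · refine Finset.sum_congr rfl fun k _ => ?_
      rw [Matrix.one_apply_eq]
      ring
    · intro k _ hk
      refine Finset.sum_eq_zero fun l _ => ?_
      rw [Matrix.one_apply_ne hk.symm]
      ring
    · intro h
      exact absurd (Finset.mem_univ i) h
  · refine Finset.sum_congr rfl fun k _ => ?_
    rw [Finset.sum_eq_single j]
    · rw [Matrix.one_apply_eq]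
      ring
    · intro l _ hl
      rw [Matrix.one_apply_ne hl.symm]
      ring
    · intro h
      exact absurd (Finset.mem_univ j) h

/-- the denominators are positive -/
theorem c4_den_pos {ν a b : ℝ} (hν : ν ∈ Icc (0 : ℝ) 1) (ha : 0 < a) (hb : 0 < b) :
    0 < (1 - ν) * a + ν * b := by
  rcases hν.1.eq_or_lt with h | h
  · rw [← h]
    linarith
  · have h1 := mul_pos h hb
    have h2 := mul_nonneg (sub_nonneg.2 hν.2) ha.le
    linarith only [h1, h2]

/-- the solution of `Kop ν ρ V = Z` -/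
theorem c4_sol {ν : ℝ} (hν : ν ∈ Icc (0 : ℝ) 1) {ρ : Matrix ι ι ℂ} (hρ : ρ.PosDef)
    (Z : Matrix ι ι ℂ) :
    ∃ Y : Matrix ι ι ℂ,
      Kop ν ρ (e2_cj (hρ.isHermitian.eigenvectorUnitary : Matrix ι ι ℂ) Y) = Z ∧
      ∀ k l, Y k l = (star (hρ.isHermitian.eigenvectorUnitary : Matrix ι ι ℂ) * Z *
          (hρ.isHermitian.eigenvectorUnitary : Matrix ι ι ℂ)) k l /
        (((1 - ν) * hρ.isHermitian.eigenvalues l + ν * hρ.isHermitian.eigenvalues k : ℝ) : ℂ) := by
  set U : Matrix ι ι ℂ := (hρ.isHermitian.eigenvectorUnitary : Matrix ι ι ℂ) with hUdef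
  set p : ι → ℝ := hρ.isHermitian.eigenvalues with hp
  have hp0 : ∀ i, 0 < p i := fun i => hρ.eigenvalues_pos i
  have hU : star U * U = 1 := by
    rw [hUdef]
    exact Unitary.coe_star_mul_self _
  have hU' : U * star U = 1 := by
    rw [hUdef]
    exact Unitary.coe_mul_star_self _
  have hρc : ρ = e2_cj U (e2_dg p) := by
    have h := hρ.isHermitian.spectral_theorem
    rw [Unitary.conjStarAlgAut_apply] at h
    exact h
  refine ⟨fun k l => (star U * Z * U) k l / (((1 - ν) * p l + ν * p k : ℝ) : ℂ), ?_,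
    fun k l => rfl⟩
  set Y : Matrix ι ι ℂ :=
    fun k l => (star U * Z * U) k l / (((1 - ν) * p l + ν * p k : ℝ) : ℂ) with hY
  have h1 : Kop ν ρ (e2_cj U Y) = e2_cj U (Kop ν (e2_dg p) Y) := by
    unfold Kop
    rw [e2_cj_add, e2_cj_smul, e2_cj_smul, ← e2_cj_mul hU, ← e2_cj_mul hU, ← hρc]
  have h2 : Kop ν (e2_dg p) Y = star U * Z * U := by
    ext k l
    unfold Kop e2_dg
    rw [Matrix.add_apply, Matrix.smul_apply, Matrix.smul_apply, mul_diagonal, diagonal_mul, hY]
    have h3 : ((((1 - ν) * p l + ν * p k : ℝ)) : ℂ) ≠ 0 := by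
      exact_mod_cast (c4_den_pos hν (hp0 l) (hp0 k)).ne'
    simp only [smul_eq_mul]
    rw [eq_comm, ← sub_eq_zero]
    field_simp
    push_cast
    ring
  rw [h1, h2]
  unfold e2_cj
  calc U * (star U * Z * U) * star U = (U * star U) * Z * (U * star U) := by
        simp only [Matrix.mul_assoc]
    _ = Z := by rw [hU', Matrix.one_mul, Matrix.mul_one]

theorem c4_isUnit {ν : ℝ} (hν : ν ∈ Icc (0 : ℝ) 1) {ρ : Matrix ι ι ℂ} (hρ : ρ.PosDef) :
    IsUnit (Kmat ν ρ) := by
  rw [← Matrix.mulVec_surjective_iff_isUnit]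
  intro z
  obtain ⟨Y, hY, -⟩ := c4_sol hν hρ (fun i j => z (i, j))
  refine ⟨mvec (e2_cj (hρ.isHermitian.eigenvectorUnitary : Matrix ι ι ℂ) Y), ?_⟩
  rw [c4_Kmat_mulVec, hY]
  rfl

theorem c4_Kinv_eq {ν : ℝ} (hν : ν ∈ Icc (0 : ℝ) 1) {ρ : Matrix ι ι ℂ} (hρ : ρ.PosDef)
    {Z V : Matrix ι ι ℂ} (h : Kop ν ρ V = Z) : Kinv ν ρ Z = V := by
  ext i j
  unfold Kinv
  have hdet : IsUnit (Kmat ν ρ).det := (Matrix.isUnit_iff_isUnit_det _).1 (c4_isUnit hν hρ)
  rw [← h, ← c4_Kmat_mulVec, Matrix.mulVec_mulVec, Matrix.nonsing_inv_mul _ hdet,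
    Matrix.one_mulVec]
  rfl

/-- C4: the quadratic form in the eigenbasis of `ρ` -/
theorem Qf_eigen {ν : ℝ} (hν : ν ∈ Icc (0 : ℝ) 1) {ρ : Matrix ι ι ℂ} (hρ : ρ.PosDef) (Z : Matrix ι ι ℂ) :
    Qf ν ρ Z = ∑ k, ∑ l, Complex.normSq
        ((star (hρ.isHermitian.eigenvectorUnitary : Matrix ι ι ℂ) * Z *
          (hρ.isHermitian.eigenvectorUnitary : Matrix ι ι ℂ)) k l) /
        ((1 - ν) * hρ.isHermitian.eigenvalues l + ν * hρ.isHermitian.eigenvalues k) := by
  obtain ⟨Y, hY, hYe⟩ := c4_sol hν hρ Z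
  set U : Matrix ι ι ℂ := (hρ.isHermitian.eigenvectorUnitary : Matrix ι ι ℂ) with hUdef
  set p : ι → ℝ := hρ.isHermitian.eigenvalues with hp
  have hU : star U * U = 1 := by
    rw [hUdef]
    exact Unitary.coe_star_mul_self _
  have hU' : U * star U = 1 := by
    rw [hUdef]
    exact Unitary.coe_mul_star_self _
  unfold Qf
  rw [c4_Kinv_eq hν hρ hY]
  set B : Matrix ι ι ℂ := star U * Z * U with hB
  have hZ : Z = e2_cj U B := by
    unfold e2_cj
    calc Z = (U * star U) * Z * (U * star U) := by rw [hU', Matrix.one_mul, Matrix.mul_one]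
      _ = U * B * star U := by rw [hB]; simp only [Matrix.mul_assoc]
  conv_lhs => rw [hZ]
  rw [e2_cj_H, e2_cj_mul hU, e2_cj_tr hU, trace, Complex.re_sum, Finset.sum_comm]
  refine Finset.sum_congr rfl fun l _ => ?_
  rw [diag_apply, mul_apply, Complex.re_sum]
  refine Finset.sum_congr rfl fun k _ => ?_
  rw [conjTranspose_apply, hYe k l]
  have h : star (B k l) * (B k l / (((1 - ν) * p l + ν * p k : ℝ) : ℂ)) =
      ((Complex.normSq (B k l) / ((1 - ν) * p l + ν * p k) : ℝ) : ℂ) := by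
    rw [Complex.ofReal_div, Complex.normSq_eq_conj_mul_self, mul_div_assoc]
    rfl
  rw [h, Complex.ofReal_re]

end

end Vale.Agent.P369V
end
end

section

attribute [-instance] ProperSMul.toContinuousSMul IsTopologicalTorsor.toContinuousSMul IdemSemiring.toCanonicallyOrderedAdd IdemSemiring.toMulLeftMono IdemSemiring.toMulRightMono AddQuantale.instAddLeftMono AddQuantale.instAddRightMono Quantale.instMulLeftMono Quantale.instMulRightMono FiniteDimensional.rclike_to_real IsScalarTower.complexToReal FiniteDimensional.complexToReal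

section

/-! Task E1: the truncated canonical commutation relations. -/

namespace Vale.Agent.P369V

open Matrix MeasureTheory Set
open scoped Kronecker InnerProductSpace ComplexOrder

noncomputable section

section mat

variable {ι : Type} [Fintype ι] [DecidableEq ι]

theorem e1_one_kron (ρ V : Matrix ι ι ℂ) :
    ((1 : Matrix ι ι ℂ) ⊗ₖ ρᵀ) *ᵥ mvec V = mvec (V * ρ) := by
  funext p
  obtain ⟨i, j⟩ := p
  simp only [mvec, Matrix.mul_apply, Matrix.mulVec, dotProduct, Matrix.kroneckerMap_apply,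
    Fintype.sum_prod_type, Matrix.one_apply, Matrix.transpose_apply, ite_mul, one_mul, zero_mul]
  rw [Finset.sum_eq_single i]
  · simp only [if_true]
    exact Finset.sum_congr rfl fun l _ => mul_comm _ _
  · intro k _ hk
    simp only [Ne.symm hk, ↓reduceIte, Finset.sum_const_zero]
  · simp only [Finset.mem_univ, not_true_eq_false, ↓reduceIte, IsEmpty.forall_iff]

theorem e1_kron_one (ρ V : Matrix ι ι ℂ) :
    (ρ ⊗ₖ (1 : Matrix ι ι ℂ)) *ᵥ mvec V = mvec (ρ * V) := by
  funext p
  obtain ⟨i, j⟩ := p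
  simp only [mvec, Matrix.mul_apply, Matrix.mulVec, dotProduct, Matrix.kroneckerMap_apply,
    Fintype.sum_prod_type, Matrix.one_apply]
  apply Finset.sum_congr rfl
  intro k _
  rw [Finset.sum_eq_single j]
  · simp
  · intro l _ hl
    simp [Ne.symm hl]
  · simp only [Finset.mem_univ, not_true_eq_false, ↓reduceIte, mul_one, mul_eq_zero, IsEmpty.forall_iff]

theorem e1_Kmat_mulVec (ν : ℝ) (ρ V : Matrix ι ι ℂ) :
    Kmat ν ρ *ᵥ mvec V = mvec (Kop ν ρ V) := by
  rw [Kmat, Matrix.add_mulVec, Matrix.smul_mulVec, Matrix.smul_mulVec, e1_one_kron, e1_kron_one]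
  rfl

theorem e1_Kmat_posDef {ν : ℝ} (hν : ν ∈ Icc (0 : ℝ) 1) {ρ : Matrix ι ι ℂ} (hρ : ρ.PosDef) :
    (Kmat ν ρ).PosDef := by
  have h1 : ((1 : Matrix ι ι ℂ) ⊗ₖ ρᵀ).PosDef := Matrix.PosDef.one.kronecker hρ.transpose
  have h2 : (ρ ⊗ₖ (1 : Matrix ι ι ℂ)).PosDef := hρ.kronecker Matrix.PosDef.one
  rcases eq_or_lt_of_le hν.1 with h0 | h0
  · subst h0
    simpa [Kmat] using h1
  · unfold Kmat
    have h3 : ((ν : ℂ) • (ρ ⊗ₖ (1 : Matrix ι ι ℂ))).PosDef :=
      h2.smul (by exact_mod_cast h0)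
    have h4 : (((1 - ν : ℝ) : ℂ) • ((1 : Matrix ι ι ℂ) ⊗ₖ ρᵀ)).PosSemidef :=
      h1.posSemidef.smul (by exact_mod_cast (sub_nonneg.2 hν.2))
    exact Matrix.PosDef.posSemidef_add h4 h3

theorem e1_Kop_Kinv {ν : ℝ} (hν : ν ∈ Icc (0 : ℝ) 1) {ρ : Matrix ι ι ℂ} (hρ : ρ.PosDef)
    (Z : Matrix ι ι ℂ) : Kop ν ρ (Kinv ν ρ Z) = Z := by
  have hdet : IsUnit (Kmat ν ρ).det := (Matrix.isUnit_iff_isUnit_det _).1 (e1_Kmat_posDef hν hρ).isUnit
  have h : mvec (Kop ν ρ (Kinv ν ρ Z)) = mvec Z := by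
    rw [← e1_Kmat_mulVec]
    have : mvec (Kinv ν ρ Z) = (Kmat ν ρ)⁻¹ *ᵥ mvec Z := rfl
    rw [this, Matrix.mulVec_mulVec, Matrix.mul_nonsing_inv _ hdet, Matrix.one_mulVec]
  ext i j
  exact congrFun h (i, j)

theorem e1_Kinv_Kop {ν : ℝ} (hν : ν ∈ Icc (0 : ℝ) 1) {ρ : Matrix ι ι ℂ} (hρ : ρ.PosDef)
    (V : Matrix ι ι ℂ) : Kinv ν ρ (Kop ν ρ V) = V := by
  have hdet : IsUnit (Kmat ν ρ).det := (Matrix.isUnit_iff_isUnit_det _).1 (e1_Kmat_posDef hν hρ).isUnit
  ext i j
  show ((Kmat ν ρ)⁻¹ *ᵥ mvec (Kop ν ρ V)) (i, j) = V i j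
  rw [← e1_Kmat_mulVec, Matrix.mulVec_mulVec, Matrix.nonsing_inv_mul _ hdet, Matrix.one_mulVec]
  rfl

theorem e1_Kinv_add {ν : ℝ} {ρ : Matrix ι ι ℂ} (Z W : Matrix ι ι ℂ) :
    Kinv ν ρ (Z + W) = Kinv ν ρ Z + Kinv ν ρ W := by
  ext i j
  show ((Kmat ν ρ)⁻¹ *ᵥ mvec (Z + W)) (i, j) = _
  have : mvec (Z + W) = mvec Z + mvec W := rfl
  rw [this, Matrix.mulVec_add]
  rfl

theorem e1_Kinv_smul {ν : ℝ} {ρ : Matrix ι ι ℂ} (c : ℂ) (Z : Matrix ι ι ℂ) :
    Kinv ν ρ (c • Z) = c • Kinv ν ρ Z := by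
  ext i j
  show ((Kmat ν ρ)⁻¹ *ᵥ mvec (c • Z)) (i, j) = _
  have : mvec (c • Z) = c • mvec Z := rfl
  rw [this, Matrix.mulVec_smul]
  rfl

/-- the penalty as a trace -/
theorem e1_pen_eq (ν : ℝ) (ρ V : Matrix ι ι ℂ) : pen ν ρ V = (Vᴴ * Kop ν ρ V).trace.re := by
  have e1 : (Vᴴ * (V * ρ)).trace = (ρ * (Vᴴ * V)).trace := by
    rw [← Matrix.mul_assoc, Matrix.trace_mul_comm]
  have e2 : (Vᴴ * (ρ * V)).trace = (ρ * (V * Vᴴ)).trace := by
    rw [Matrix.trace_mul_comm, Matrix.mul_assoc]
  rw [pen, Kop, Matrix.mul_add, Matrix.mul_smul, Matrix.mul_smul, Matrix.trace_add,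
    Matrix.trace_smul, Matrix.trace_smul, e1, e2, smul_eq_mul, smul_eq_mul, Complex.add_re,
    Complex.re_ofReal_mul, Complex.re_ofReal_mul]

/-- nonnegativity of the penalty -/
theorem e1_pen_nonneg {ν : ℝ} (hν : ν ∈ Icc (0 : ℝ) 1) {ρ : Matrix ι ι ℂ} (hρ : ρ.PosDef)
    (V : Matrix ι ι ℂ) : 0 ≤ pen ν ρ V := by
  have h1 : 0 ≤ (ρ * (Vᴴ * V)).trace.re := by
    have h := (hρ.posSemidef.mul_mul_conjTranspose_same V).trace_nonneg
    have e : (V * ρ * Vᴴ).trace = (ρ * (Vᴴ * V)).trace := by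
      rw [Matrix.mul_assoc, Matrix.trace_mul_comm, Matrix.mul_assoc]
    rw [e] at h
    exact (Complex.le_def.1 h).1
  have h2 : 0 ≤ (ρ * (V * Vᴴ)).trace.re := by
    have h := (hρ.posSemidef.conjTranspose_mul_mul_same V).trace_nonneg
    have e : (Vᴴ * ρ * V).trace = (ρ * (V * Vᴴ)).trace := by
      rw [Matrix.mul_assoc, Matrix.trace_mul_comm, Matrix.mul_assoc]
    rw [e] at h
    exact (Complex.le_def.1 h).1
  have h3 : 0 ≤ 1 - ν := by linarith only [hν.2]
  have h4 := hν.1
  unfold pen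
  positivity

theorem e1_Qf_nonneg {ν : ℝ} (hν : ν ∈ Icc (0 : ℝ) 1) {ρ : Matrix ι ι ℂ} (hρ : ρ.PosDef)
    (Z : Matrix ι ι ℂ) : 0 ≤ Qf ν ρ Z := by
  have h := e1_pen_nonneg hν hρ (Kinv ν ρ Z)
  rw [e1_pen_eq, e1_Kop_Kinv hν hρ] at h
  have e3 : ((Kinv ν ρ Z)ᴴ * Z).trace = star ((Zᴴ * Kinv ν ρ Z).trace) := by
    rw [← Matrix.trace_conjTranspose, conjTranspose_mul, conjTranspose_conjTranspose]
  rw [e3] at h
  simpa only [Qf, ge_iff_le, RCLike.star_def, Complex.conj_re] using h

/-- self-adjointness of `Kop` -/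
theorem e1_Kop_symm {ν : ℝ} {ρ : Matrix ι ι ℂ} (hρ : ρ.IsHermitian) (X Z : Matrix ι ι ℂ) :
    ((Kop ν ρ X)ᴴ * Z).trace = (Xᴴ * Kop ν ρ Z).trace := by
  have hh : ρᴴ = ρ := hρ
  have e1 : (ρ * (Xᴴ * Z)).trace = (Xᴴ * (Z * ρ)).trace := by
    rw [Matrix.trace_mul_comm, Matrix.mul_assoc]
  simp only [Kop, conjTranspose_add, conjTranspose_smul, conjTranspose_mul, hh, Matrix.add_mul,
    Matrix.mul_add, Matrix.smul_mul, Matrix.mul_smul, Matrix.trace_add, Matrix.trace_smul,
    Complex.star_def, Complex.conj_ofReal, Matrix.mul_assoc]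
  rw [e1]

theorem e1_Kinv_symm {ν : ℝ} (hν : ν ∈ Icc (0 : ℝ) 1) {ρ : Matrix ι ι ℂ} (hρ : ρ.PosDef)
    (X Z : Matrix ι ι ℂ) : (Xᴴ * Kinv ν ρ Z).trace = ((Kinv ν ρ X)ᴴ * Z).trace := by
  have h := e1_Kop_symm (ν := ν) hρ.isHermitian (Kinv ν ρ X) (Kinv ν ρ Z)
  rw [e1_Kop_Kinv hν hρ, e1_Kop_Kinv hν hρ] at h
  exact h

/-- expansion of the quadratic form at `a ρ` -/
theorem e1_Qf_expand {ν : ℝ} (hν : ν ∈ Icc (0 : ℝ) 1) {ρ : Matrix ι ι ℂ} (hρ : ρ.PosDef)
    (a : Matrix ι ι ℂ) :
    Qf ν ρ (a * ρ) = (ρ * (aᴴ * a)).trace.re +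
      ν * ((ρ * (aᴴ * a)).trace.re - (ρ * (a * aᴴ)).trace.re) + ν * (ν * Qf ν ρ (a * ρ - ρ * a)) := by
  have hh : ρᴴ = ρ := hρ.isHermitian
  set Z := a * ρ - ρ * a with hZ
  have hK : a * ρ = Kop ν ρ a + (ν : ℂ) • Z := by
    rw [hZ, Kop, smul_sub]
    push_cast
    rw [sub_smul, one_smul]
    abel
  have hKi : Kinv ν ρ (a * ρ) = a + (ν : ℂ) • Kinv ν ρ Z := by
    conv_lhs => rw [hK]
    rw [e1_Kinv_add, e1_Kinv_smul, e1_Kinv_Kop hν hρ]
  have e0 : ((a * ρ)ᴴ * a).trace = (ρ * (aᴴ * a)).trace := by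
    rw [conjTranspose_mul, hh, Matrix.mul_assoc]
  have e1 : (aᴴ * Z).trace = (ρ * (aᴴ * a)).trace - (ρ * (a * aᴴ)).trace := by
    rw [hZ, Matrix.mul_sub, Matrix.trace_sub]
    congr 1
    · rw [← Matrix.mul_assoc, Matrix.trace_mul_comm]
    · rw [Matrix.trace_mul_comm, Matrix.mul_assoc]
  have e2 : (((a * ρ)ᴴ * Kinv ν ρ Z).trace).re =
      (ρ * (aᴴ * a)).trace.re - (ρ * (a * aᴴ)).trace.re + ν * Qf ν ρ Z := by
    rw [e1_Kinv_symm hν hρ, hKi, conjTranspose_add, conjTranspose_smul, Matrix.add_mul,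
      Matrix.smul_mul, Matrix.trace_add, Matrix.trace_smul, e1]
    have e3 : ((Kinv ν ρ Z)ᴴ * Z).trace = star ((Zᴴ * Kinv ν ρ Z).trace) := by
      rw [← Matrix.trace_conjTranspose, conjTranspose_mul, conjTranspose_conjTranspose]
    rw [e3]
    simp only [RCLike.star_def, Complex.conj_ofReal, smul_eq_mul, Complex.add_re, Complex.sub_re, Complex.mul_re, Complex.ofReal_re, Complex.conj_re, Complex.ofReal_im, Complex.conj_im, mul_neg, zero_mul, neg_zero, sub_zero, Qf]
  have e4 : Qf ν ρ (a * ρ) = (((a * ρ)ᴴ * a).trace + (ν : ℂ) * ((a * ρ)ᴴ * Kinv ν ρ Z).trace).re := by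
    rw [Qf, hKi, Matrix.mul_add, Matrix.mul_smul, Matrix.trace_add, Matrix.trace_smul, smul_eq_mul]
  rw [e4, e0, Complex.add_re, Complex.re_ofReal_mul, e2]
  ring

end mat

section chan

variable {n M : ℕ}

theorem e1_ann_apply (j : Fin n) (k l : Cf n M) : ann n M j k l =
    if ∀ i, (l i : ℕ) = (k i : ℕ) + (if i = j then 1 else 0) then ((Real.sqrt (l j : ℕ) : ℝ) : ℂ) else 0 :=
  rfl

theorem e1_cond_iff {j : Fin n} {k l : Cf n M} (h : 1 ≤ (l j : ℕ)) :
    (∀ i, (l i : ℕ) = (k i : ℕ) + (if i = j then 1 else 0)) ↔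
      k = Function.update l j ⟨(l j : ℕ) - 1, by have := (l j).2; omega⟩ := by
  constructor
  · intro H
    funext i
    by_cases hi : i = j
    · subst hi
      have := H i
      simp only [if_true] at this
      rw [Function.update_self]
      apply Fin.ext
      simp only
      omega
    · have := H i
      simp only [hi, if_false, add_zero] at this
      rw [Function.update_of_ne hi]
      exact (Fin.ext this).symm
  · rintro rfl i
    by_cases hi : i = j
    · subst hi
      simp only [Function.update_self, if_true]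
      omega
    · simp only [ne_eq, hi, not_false_eq_true, Function.update_of_ne, ↓reduceIte, add_zero]

theorem e1_cond_iff' {j : Fin n} {k l : Cf n M} (h : (k j : ℕ) < M) :
    (∀ i, (l i : ℕ) = (k i : ℕ) + (if i = j then 1 else 0)) ↔
      l = Function.update k j ⟨(k j : ℕ) + 1, by omega⟩ := by
  constructor
  · intro H
    funext i
    by_cases hi : i = j
    · subst hi
      have := H i
      simp only [if_true] at this
      rw [Function.update_self]
      exact Fin.ext this
    · have := H i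
      simp only [hi, if_false, add_zero] at this
      rw [Function.update_of_ne hi]
      exact Fin.ext this
  · rintro rfl i
    by_cases hi : i = j
    · subst hi
      simp only [Function.update_self, if_true]
    · simp [hi]

/-- the photon number of mode `j` -/
theorem e1_adag_a (j : Fin n) :
    (ann n M j)ᴴ * ann n M j = Matrix.diagonal (fun l : Cf n M => (((l j : ℕ) : ℝ) : ℂ)) := by
  ext l l'
  rw [Matrix.mul_apply, Matrix.diagonal_apply]
  by_cases hll : l = l'
  · subst hll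
    rw [if_pos rfl]
    by_cases h : 1 ≤ (l j : ℕ)
    · have : ∀ k, (ann n M j)ᴴ l k * ann n M j k l =
          if k = Function.update l j ⟨(l j : ℕ) - 1, by have := (l j).2; omega⟩ then
            (((l j : ℕ) : ℝ) : ℂ) else 0 := by
        intro k
        rw [conjTranspose_apply, e1_ann_apply]
        simp only [e1_cond_iff h]
        split_ifs with hk
        · rw [Complex.star_def, Complex.conj_ofReal, ← Complex.ofReal_mul,
            Real.mul_self_sqrt (Nat.cast_nonneg _)]
        · simp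
      rw [Finset.sum_congr rfl (fun k _ => this k), Finset.sum_ite_eq' Finset.univ]
      simp only [Finset.mem_univ, ↓reduceIte, Complex.ofReal_natCast]
    · have h0 : (l j : ℕ) = 0 := by omega
      rw [h0]
      simp only [Nat.cast_zero, Complex.ofReal_zero]
      apply Finset.sum_eq_zero
      intro k _
      rw [e1_ann_apply, if_neg, mul_zero]
      intro H
      have := H j
      simp only [if_true] at this
      omega
  · rw [if_neg hll]
    apply Finset.sum_eq_zero
    intro k _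
    rw [conjTranspose_apply, e1_ann_apply, e1_ann_apply]
    by_cases h1 : ∀ i, (l i : ℕ) = (k i : ℕ) + (if i = j then 1 else 0)
    · by_cases h2 : ∀ i, (l' i : ℕ) = (k i : ℕ) + (if i = j then 1 else 0)
      · exact absurd (funext fun i => Fin.ext ((h1 i).trans (h2 i).symm)) hll
      · rw [if_neg h2, mul_zero]
    · rw [if_neg h1, star_zero, zero_mul]

/-- `a_j a_j†` with cutoff -/
theorem e1_a_adag (j : Fin n) :
    ann n M j * (ann n M j)ᴴ =
      Matrix.diagonal (fun k : Cf n M => if (k j : ℕ) = M then 0 else ((((k j : ℕ) : ℝ) + 1 : ℝ) : ℂ)) := by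
  ext k k'
  rw [Matrix.mul_apply, Matrix.diagonal_apply]
  by_cases hkk : k = k'
  · subst hkk
    rw [if_pos rfl]
    by_cases h : (k j : ℕ) < M
    · have : ∀ l, ann n M j k l * (ann n M j)ᴴ l k =
          if l = Function.update k j ⟨(k j : ℕ) + 1, by omega⟩ then
            ((((k j : ℕ) : ℝ) + 1 : ℝ) : ℂ) else 0 := by
        intro l
        rw [conjTranspose_apply, e1_ann_apply]
        simp only [e1_cond_iff' h]
        split_ifs with hl
        · subst hl
          rw [Complex.star_def, Complex.conj_ofReal, ← Complex.ofReal_mul,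
            Real.mul_self_sqrt (Nat.cast_nonneg _), Function.update_self]
          push_cast
          ring
        · simp
      rw [Finset.sum_congr rfl (fun k _ => this k), Finset.sum_ite_eq' Finset.univ,
        if_neg (by omega : ¬ (k j : ℕ) = M)]
      simp only [Finset.mem_univ, ↓reduceIte, Complex.ofReal_add, Complex.ofReal_natCast, Complex.ofReal_one]
    · have h0 : (k j : ℕ) = M := by have := (k j).2; (clear * - h; omega)
      rw [if_pos h0]
      apply Finset.sum_eq_zero
      intro l _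
      rw [e1_ann_apply, if_neg, zero_mul]
      intro H
      have := H j
      simp only [if_true] at this
      have := (l j).2
      omega
  · rw [if_neg hkk]
    apply Finset.sum_eq_zero
    intro l _
    rw [conjTranspose_apply, e1_ann_apply, e1_ann_apply]
    by_cases h1 : ∀ i, (l i : ℕ) = (k i : ℕ) + (if i = j then 1 else 0)
    · by_cases h2 : ∀ i, (l i : ℕ) = (k' i : ℕ) + (if i = j then 1 else 0)
      · exact absurd (funext fun i => Fin.ext (by have := h1 i; have := h2 i; omega)) hkk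
      · rw [if_neg h2, star_zero, mul_zero]
    · rw [if_neg h1, zero_mul]

/-- truncated CCR under the trace -/
theorem e1_ccr (j : Fin n) (ρ : Matrix (Cf n M) (Cf n M) ℂ) :
    (ρ * ((ann n M j)ᴴ * ann n M j)).trace.re - (ρ * (ann n M j * (ann n M j)ᴴ)).trace.re =
      -(ρ.trace.re) + ∑ k : Cf n M, if (k j : ℕ) = M then ((M : ℝ) + 1) * (ρ k k).re else 0 := by
  rw [e1_adag_a, e1_a_adag]
  simp only [trace, diag_apply, mul_diagonal, Complex.re_sum]
  rw [← Finset.sum_sub_distrib, ← Finset.sum_neg_distrib, ← Finset.sum_add_distrib]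
  apply Finset.sum_congr rfl
  intro k _
  by_cases h : (k j : ℕ) = M
  · simp only [h, if_true, mul_zero, Complex.zero_re, sub_zero, Complex.re_mul_ofReal]
    ring
  · simp only [h, if_false, Complex.re_mul_ofReal]
    ring

/-- E1: the truncated CCR -/
theorem HH_eq {ν : ℝ} (hν : ν ∈ Icc (0 : ℝ) 1) {ρ : Matrix (Cf n M) (Cf n M) ℂ} (hρ : ρ.PosDef)
    (ht : ρ.trace = 1) :
    HH n M ν ρ = en n M ρ - n * ν + ν * (ctop n M ρ + ν * FF n M ν ρ) := by
  have h : ∀ j : Fin n, Qf ν ρ (ann n M j * ρ) = (ρ * ((ann n M j)ᴴ * ann n M j)).trace.re +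
      ν * (-1 + ∑ k : Cf n M, if (k j : ℕ) = M then ((M : ℝ) + 1) * (ρ k k).re else 0) +
      ν * (ν * Qf ν ρ (ann n M j * ρ - ρ * ann n M j)) := by
    intro j
    rw [e1_Qf_expand hν hρ, e1_ccr, ht, Complex.one_re]
  rw [HH, Finset.sum_congr rfl (fun j _ => h j), Finset.sum_add_distrib, Finset.sum_add_distrib,
    ← Finset.mul_sum, Finset.sum_add_distrib, ← Finset.mul_sum, ← Finset.mul_sum, en, ctop, FF]
  simp only [Finset.sum_const, Finset.card_univ, Fintype.card_fin, nsmul_eq_mul]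
  ring

theorem ctop_pos (hn : 1 ≤ n) {ρ : Matrix (Cf n M) (Cf n M) ℂ} (hρ : ρ.PosDef) : 0 < ctop n M ρ := by
  have hd : ∀ k, 0 < (ρ k k).re := fun k => by
    have := hρ.diag_pos (i := k)
    exact (Complex.lt_def.1 this).1
  have hnn : ∀ j : Fin n, 0 ≤ ∑ k : Cf n M, (if (k j : ℕ) = M then ((M : ℝ) + 1) * (ρ k k).re else 0) := by
    intro j
    apply Finset.sum_nonneg
    intro k _
    split_ifs
    · have := hd k
      (clear * - this; positivity)
    · exact le_rfl
  have hpos : ∀ j : Fin n, 0 < ∑ k : Cf n M, (if (k j : ℕ) = M then ((M : ℝ) + 1) * (ρ k k).re else 0) := by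
    intro j
    apply Finset.sum_pos'
    · intro k _
      split_ifs
      · have := hd k
        (clear * - this; positivity)
      · exact le_rfl
    · refine ⟨fun _ => Fin.last M, Finset.mem_univ _, ?_⟩
      rw [if_pos (by simp)]
      have := hd (fun _ => Fin.last M)
      positivity
  rw [ctop]
  exact Finset.sum_pos (fun j _ => hpos j) ⟨⟨0, hn⟩, Finset.mem_univ _⟩

theorem FF_nonneg {ν : ℝ} (hν : ν ∈ Icc (0 : ℝ) 1) {ρ : Matrix (Cf n M) (Cf n M) ℂ} (hρ : ρ.PosDef) :
    0 ≤ FF n M ν ρ := by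
  rw [FF]
  exact Finset.sum_nonneg fun j _ => e1_Qf_nonneg hν hρ _

end chan

end

end Vale.Agent.P369V
end
end

section

attribute [-instance] ProperSMul.toContinuousSMul IsTopologicalTorsor.toContinuousSMul IdemSemiring.toCanonicallyOrderedAdd IdemSemiring.toMulLeftMono IdemSemiring.toMulRightMono AddQuantale.instAddLeftMono AddQuantale.instAddRightMono Quantale.instMulLeftMono Quantale.instMulRightMono FiniteDimensional.rclike_to_real IsScalarTower.complexToReal FiniteDimensional.complexToReal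

section

/-! P369A, modules L1 and L2: the two flow inequalities as real analysis. -/

namespace Vale.Agent.P369A

open MeasureTheory Set Filter
open scoped Topology

noncomputable section

/-- averages over `[X, 2X)` of a convergent sequence -/
theorem avg_le {z : ℕ → ℝ} {L : ℝ} (hz : Tendsto z atTop (𝓝 L)) {ε : ℝ} (hε : 0 < ε) :
    ∀ᶠ X : ℕ in atTop, |(∑ i ∈ Finset.Ico X (2 * X), z i) - X * L| ≤ ε * X := by
  obtain ⟨N, hN⟩ := Metric.tendsto_atTop.1 hz ε hε
  filter_upwards [eventually_ge_atTop N] with X hX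
  have h1 : (∑ i ∈ Finset.Ico X (2 * X), z i) - X * L = ∑ i ∈ Finset.Ico X (2 * X), (z i - L) := by
    rw [Finset.sum_sub_distrib, Finset.sum_const, Nat.card_Ico, nsmul_eq_mul]
    congr 2
    have : 2 * X - X = X := by omega
    rw [this]
  rw [h1]
  refine (Finset.abs_sum_le_sum_abs _ _).trans ?_
  have h2 : ∀ i ∈ Finset.Ico X (2 * X), |z i - L| ≤ ε := by
    intro i hi
    have := hN i (hX.trans (Finset.mem_Ico.1 hi).1)
    rw [Real.dist_eq] at this
    exact this.le
  refine (Finset.sum_le_card_nsmul _ _ _ h2).trans ?_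
  rw [Nat.card_Ico, nsmul_eq_mul]
  have : 2 * X - X = X := by omega
  rw [this, mul_comm]

/-- telescoping of the fundamental theorem of calculus -/
theorem flow_tel {y P u : ℕ → ℝ → ℝ} {w : ℝ → ℝ} {a b : ℝ} (hab : a ≤ b)
    (hw : ContinuousOn w (Icc a b))
    (hd : ∀ X, ∀ k ∈ Icc a b,
      HasDerivAt (y X) (w k * (P X k + u X k - u (X + 1) k)) k)
    (hP : ∀ X, ContinuousOn (P X) (Icc a b)) (hu : ∀ X, ContinuousOn (u X) (Icc a b)) (X : ℕ) :
    ∑ i ∈ Finset.Ico X (2 * X), (y i b - y i a) =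
      (∑ i ∈ Finset.Ico X (2 * X), ∫ k in a..b, w k * P i k) +
        (∫ k in a..b, w k * u X k) - ∫ k in a..b, w k * u (2 * X) k := by
  have hI : uIcc a b = Icc a b := uIcc_of_le hab
  have hwP : ∀ i, IntervalIntegrable (fun k => w k * P i k) volume a b := fun i =>
    ContinuousOn.intervalIntegrable (by rw [hI]; exact hw.mul (hP i))
  have hwu : ∀ i, IntervalIntegrable (fun k => w k * u i k) volume a b := fun i =>
    ContinuousOn.intervalIntegrable (by rw [hI]; exact hw.mul (hu i))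
  have h1 : ∀ i, y i b - y i a = (∫ k in a..b, w k * P i k) + (∫ k in a..b, w k * u i k) -
      ∫ k in a..b, w k * u (i + 1) k := by
    intro i
    have hint : IntervalIntegrable (fun k => w k * (P i k + u i k - u (i + 1) k)) volume a b :=
      ContinuousOn.intervalIntegrable (by
        rw [hI]; exact hw.mul (((hP i).add (hu i)).sub (hu (i + 1))))
    rw [← intervalIntegral.integral_eq_sub_of_hasDerivAt (f := y i)
      (fun k hk => hd i k (by rwa [hI] at hk)) hint,
      ← intervalIntegral.integral_add (hwP i) (hwu i),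
      ← intervalIntegral.integral_sub ((hwP i).add (hwu i)) (hwu (i + 1))]
    refine intervalIntegral.integral_congr fun k _ => ?_
    ring
  rw [Finset.sum_congr rfl fun i _ => h1 i]
  have h2 : ∑ i ∈ Finset.Ico X (2 * X), ((∫ k in a..b, w k * u i k) -
      ∫ k in a..b, w k * u (i + 1) k) =
      (∫ k in a..b, w k * u X k) - ∫ k in a..b, w k * u (2 * X) k := by
    have := Finset.sum_Ico_sub (fun i => ∫ k in a..b, w k * u i k) (show X ≤ 2 * X by omega)
    have h3 : ∀ i ∈ Finset.Ico X (2 * X), ((∫ k in a..b, w k * u i k) -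
      ∫ k in a..b, w k * u (i + 1) k) = -((∫ k in a..b, w k * u (i + 1) k) -
        ∫ k in a..b, w k * u i k) := fun i _ => by ring
    rw [Finset.sum_congr rfl h3, Finset.sum_neg_distrib, this]
    ring
  rw [add_sub_assoc, ← h2, ← Finset.sum_add_distrib]
  refine Finset.sum_congr rfl fun i _ => by ring

/-- `∫ w u ≤ ε X ∫ w` -/
theorem flow_bd {u : ℕ → ℝ → ℝ} {w : ℝ → ℝ} {a b : ℝ} (hab : a ≤ b)
    (hw : ContinuousOn w (Icc a b)) (hw0 : ∀ k ∈ Icc a b, 0 ≤ w k)
    (hu : ∀ X, ContinuousOn (u X) (Icc a b))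
    (huX : ∀ ε > 0, ∀ᶠ X : ℕ in atTop, ∀ k ∈ Icc a b, u X k ≤ ε * X) {ε : ℝ} (hε : 0 < ε) :
    ∀ᶠ X : ℕ in atTop, ∫ k in a..b, w k * u X k ≤ ε * X := by
  have hI : uIcc a b = Icc a b := uIcc_of_le hab
  have hwi : IntervalIntegrable w volume a b :=
    ContinuousOn.intervalIntegrable (by rw [hI]; exact hw)
  set W : ℝ := ∫ k in a..b, w k with hW
  have hW0 : 0 ≤ W := intervalIntegral.integral_nonneg hab hw0
  have hδ : 0 < ε / (W + 1) := by (clear * - hε hW0; positivity)
  filter_upwards [huX _ hδ] with X hX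
  have h1 : ∫ k in a..b, w k * u X k ≤ ∫ k in a..b, w k * (ε / (W + 1) * X) := by
    refine intervalIntegral.integral_mono_on hab
      (ContinuousOn.intervalIntegrable (by rw [hI]; exact hw.mul (hu X)))
      (hwi.mul_const _) fun k hk => mul_le_mul_of_nonneg_left (hX k hk) (hw0 k hk)
  refine h1.trans ?_
  rw [intervalIntegral.integral_mul_const]
  have : W * (ε / (W + 1) * X) = (W / (W + 1)) * (ε * X) := by
    (clear * - hW0 hε; field_simp)
  rw [this]
  have h2 : W / (W + 1) ≤ 1 := by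
    rw [div_le_one (by (clear * - hW0; positivity))]; linarith only []
  have h3 : 0 ≤ ε * (X : ℝ) := by (clear * - hε; positivity)
  nlinarith only [h2, h3]

/-- L1: `P X k` nondecreasing in `X`; boundary terms `u X k ≤ ε X` uniformly, eventually -/
theorem flow_avg {y P u : ℕ → ℝ → ℝ} {w : ℝ → ℝ} {a b : ℝ} (hab : a ≤ b)
    (hw : ContinuousOn w (Icc a b)) (hw0 : ∀ k ∈ Icc a b, 0 ≤ w k)
    (hd : ∀ X, ∀ k ∈ Icc a b,
      HasDerivAt (y (X + 1)) (w k * (P X k + u X k - u (X + 1) k)) k)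
    (hP : ∀ X, ContinuousOn (P X) (Icc a b)) (hu : ∀ X, ContinuousOn (u X) (Icc a b))
    (hmono : ∀ k ∈ Icc a b, Monotone fun X => P X k) (hu0 : ∀ X, ∀ k ∈ Icc a b, 0 ≤ u X k)
    (huX : ∀ ε > 0, ∀ᶠ X : ℕ in atTop, ∀ k ∈ Icc a b, u X k ≤ ε * X) {ya yb : ℝ}
    (hya : Tendsto (fun X => y X a) atTop (𝓝 ya)) (hyb : Tendsto (fun X => y X b) atTop (𝓝 yb)) :
    (∀ X, ∫ k in a..b, w k * P X k ≤ yb - ya) ∧
      ∀ ε > 0, ∀ᶠ X in atTop, yb - ya - ε ≤ ∫ k in a..b, w k * P X k := by
  have hI : uIcc a b = Icc a b := uIcc_of_le hab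
  have hwP : ∀ i, IntervalIntegrable (fun k => w k * P i k) volume a b := fun i =>
    ContinuousOn.intervalIntegrable (by rw [hI]; exact hw.mul (hP i))
  have hM : Monotone fun X => ∫ k in a..b, w k * P X k := by
    intro X Y hXY
    exact intervalIntegral.integral_mono_on hab (hwP X) (hwP Y) fun k hk =>
      mul_le_mul_of_nonneg_left (hmono k hk hXY) (hw0 k hk)
  have hz : Tendsto (fun X => y (X + 1) b - y (X + 1) a) atTop (𝓝 (yb - ya)) :=
    ((tendsto_add_atTop_iff_nat 1).2 hyb).sub ((tendsto_add_atTop_iff_nat 1).2 hya)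
  have htel := flow_tel (y := fun X => y (X + 1)) hab hw hd hP hu
  have hcard : ∀ (X : ℕ) (c : ℝ), ∑ _i ∈ Finset.Ico X (2 * X), c = X * c := by
    intro X c
    rw [Finset.sum_const, Nat.card_Ico, nsmul_eq_mul]
    have : 2 * X - X = X := by omega
    rw [this]
  have hun : ∀ X, 0 ≤ ∫ k in a..b, w k * u X k := fun X =>
    intervalIntegral.integral_nonneg hab fun k hk => mul_nonneg (hw0 k hk) (hu0 X k hk)
  have h2t : Tendsto (fun X : ℕ => 2 * X) atTop atTop :=
    tendsto_id.const_mul_atTop' (by norm_num)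
  constructor
  · intro X
    refine le_of_forall_pos_le_add fun ε hε => ?_
    have e1 := avg_le hz (half_pos hε)
    have e2 := h2t.eventually (flow_bd hab hw hw0 hu huX (show 0 < ε / 4 by (clear * - hε; positivity)))
    obtain ⟨L, ⟨h1, h2⟩, hL⟩ := ((e1.and e2).and (eventually_ge_atTop (max X 1))).exists
    have hLX : X ≤ L := (le_max_left _ _).trans hL
    have hL1 : 1 ≤ L := (le_max_right _ _).trans hL
    have hL0 : (0 : ℝ) < L := by exact_mod_cast hL1
    have ht := htel L
    have h3 : (L : ℝ) * (∫ k in a..b, w k * P X k) ≤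
        ∑ i ∈ Finset.Ico L (2 * L), ∫ k in a..b, w k * P i k := by
      rw [← hcard]
      exact Finset.sum_le_sum fun i hi => hM (hLX.trans (Finset.mem_Ico.1 hi).1)
    have h4 := hun L
    have h5 := (abs_le.1 h1).2
    push_cast at h2
    have h6 : (L : ℝ) * (∫ k in a..b, w k * P X k) ≤ L * (yb - ya + ε) := by
      linarith
    exact le_of_mul_le_mul_left h6 hL0
  · intro ε hε
    have e1 := avg_le hz (half_pos hε)
    have e2 := flow_bd hab hw hw0 hu huX (half_pos hε)
    obtain ⟨L, ⟨h1, h2⟩, hL1⟩ := ((e1.and e2).and (eventually_ge_atTop 1)).exists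
    filter_upwards [eventually_ge_atTop (2 * L)] with X hX
    have hL0 : (0 : ℝ) < L := by exact_mod_cast hL1
    have ht := htel L
    have h3 : ∑ i ∈ Finset.Ico L (2 * L), (∫ k in a..b, w k * P i k) ≤
        (L : ℝ) * (∫ k in a..b, w k * P X k) := by
      rw [← hcard]
      exact Finset.sum_le_sum fun i hi => hM ((Finset.mem_Ico.1 hi).2.le.trans hX)
    have h4 := hun (2 * L)
    have h5 := (abs_le.1 h1).1
    have h6 : (L : ℝ) * (yb - ya - ε) ≤ L * ∫ k in a..b, w k * P X k := by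
      linarith
    exact le_of_mul_le_mul_left h6 hL0

/-- L2: for the environment: `G X k` nondecreasing in `X` enters with a minus sign -/
theorem flow_avg_D {y T G u : ℕ → ℝ → ℝ} {w : ℝ → ℝ} {a b : ℝ} (hab : a ≤ b)
    (hw : ContinuousOn w (Icc a b)) (hw0 : ∀ k ∈ Icc a b, 0 ≤ w k)
    (hd : ∀ X, ∀ k ∈ Icc a b,
      HasDerivAt (y X) (w k * (T X k - G X k + u X k - u (X + 1) k)) k)
    (hT : ∀ X, ContinuousOn (T X) (Icc a b)) (hG : ∀ X, ContinuousOn (G X) (Icc a b))
    (hu : ∀ X, ContinuousOn (u X) (Icc a b))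
    (hTmono : ∀ k ∈ Icc a b, Monotone fun X => T X k)
    (hmono : ∀ k ∈ Icc a b, Monotone fun X => G X k) (hu0 : ∀ X, ∀ k ∈ Icc a b, 0 ≤ u X k)
    (huX : ∀ ε > 0, ∀ᶠ X : ℕ in atTop, ∀ k ∈ Icc a b, u X k ≤ ε * X) {ya yb : ℝ}
    (hya : Tendsto (fun X => y X a) atTop (𝓝 ya)) (hyb : Tendsto (fun X => y X b) atTop (𝓝 yb)) :
    ∀ ε > 0, ∀ᶠ X in atTop, ∫ k in a..b, w k * (T X k - G (2 * X) k) ≤ yb - ya + ε := by
  intro ε hε
  have hI : uIcc a b = Icc a b := uIcc_of_le hab
  have hwP : ∀ i j, IntervalIntegrable (fun k => w k * (T i k - G j k)) volume a b := fun i j =>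
    ContinuousOn.intervalIntegrable (by rw [hI]; exact hw.mul ((hT i).sub (hG j)))
  have hz : Tendsto (fun X => y X b - y X a) atTop (𝓝 (yb - ya)) := hyb.sub hya
  have htel := flow_tel (P := fun X k => T X k - G X k) hab hw hd
    (fun X => (hT X).sub (hG X)) hu
  have hcard : ∀ (X : ℕ) (c : ℝ), ∑ _i ∈ Finset.Ico X (2 * X), c = X * c := by
    intro X c
    rw [Finset.sum_const, Nat.card_Ico, nsmul_eq_mul]
    have : 2 * X - X = X := by omega
    rw [this]
  have hun : ∀ X, 0 ≤ ∫ k in a..b, w k * u X k := fun X =>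
    intervalIntegral.integral_nonneg hab fun k hk => mul_nonneg (hw0 k hk) (hu0 X k hk)
  have h2t : Tendsto (fun X : ℕ => 2 * X) atTop atTop :=
    tendsto_id.const_mul_atTop' (by norm_num)
  have e1 := avg_le hz (half_pos hε)
  have e2 := h2t.eventually (flow_bd hab hw hw0 hu huX (show 0 < ε / 4 by (clear * - hε; positivity)))
  filter_upwards [e1, e2, eventually_ge_atTop 1] with L h1 h2 hL1
  have hL0 : (0 : ℝ) < L := by exact_mod_cast hL1
  have ht := htel L
  have h3 : (L : ℝ) * (∫ k in a..b, w k * (T L k - G (2 * L) k)) ≤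
      ∑ i ∈ Finset.Ico L (2 * L), ∫ k in a..b, w k * (T i k - G i k) := by
    rw [← hcard]
    refine Finset.sum_le_sum fun i hi => ?_
    have hi' := Finset.mem_Ico.1 hi
    refine intervalIntegral.integral_mono_on hab (hwP L (2 * L)) (hwP i i) fun k hk =>
      mul_le_mul_of_nonneg_left (sub_le_sub (hTmono k hk hi'.1) (hmono k hk hi'.2.le)) (hw0 k hk)
  have h4 := hun L
  have h5 := (abs_le.1 h1).2
  push_cast at h2
  have h6 : (L : ℝ) * (∫ k in a..b, w k * (T L k - G (2 * L) k)) ≤ L * (yb - ya + ε) := by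
    linarith
  exact le_of_mul_le_mul_left h6 hL0

end

end Vale.Agent.P369A
end
end

section

section

section

/-! The thermal attenuator flow from a finitely supported distribution. -/

namespace Vale.Agent.P369

open PowerSeries Finset

noncomputable section

/-- nonnegative coefficients -/
def NN (F : PowerSeries ℝ) : Prop := ∀ i, 0 ≤ coeff i F

theorem NN.mul {F G : PowerSeries ℝ} (hF : NN F) (hG : NN G) : NN (F * G) := by
  intro i
  rw [coeff_mul]
  exact Finset.sum_nonneg (fun p _ => mul_nonneg (hF _) (hG _))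

theorem NN.one : NN (1 : PowerSeries ℝ) := by
  intro i
  rw [coeff_one]
  split <;> norm_num

theorem NN.pow {F : PowerSeries ℝ} (hF : NN F) (k : ℕ) : NN (F ^ k) := by
  induction k with
  | zero => rw [pow_zero]; exact NN.one
  | succ k ih => rw [pow_succ]; exact ih.mul hF

/-- weighted truncated sums -/
def ps (q : ℝ) (n : ℕ) (F : PowerSeries ℝ) : ℝ := ∑ i ∈ range n, coeff i F * q ^ i

theorem ps_nonneg {q : ℝ} (hq : 0 ≤ q) (n : ℕ) {F : PowerSeries ℝ} (hF : NN F) : 0 ≤ ps q n F :=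
  Finset.sum_nonneg (fun i _ => mul_nonneg (hF i) (pow_nonneg hq i))

theorem ps_mul_le {q : ℝ} (hq : 0 ≤ q) (n : ℕ) {F G : PowerSeries ℝ} (hF : NN F) (hG : NN G) :
    ps q n (F * G) ≤ ps q n F * ps q n G := by
  unfold ps
  rw [Finset.sum_mul_sum, ← Finset.sum_product']
  have e1 : ∑ i ∈ range n, coeff i (F * G) * q ^ i =
      ∑ i ∈ range n, ∑ p ∈ antidiagonal i, (coeff p.1 F * q ^ p.1) * (coeff p.2 G * q ^ p.2) := by
    apply Finset.sum_congr rfl
    intro i _
    rw [coeff_mul, Finset.sum_mul]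
    apply Finset.sum_congr rfl
    intro p hp
    rw [HasAntidiagonal.mem_antidiagonal] at hp
    rw [← hp, pow_add]
    ring
  rw [e1, Finset.sum_sigma']
  have e2 : ∑ x ∈ (range n).sigma fun i => antidiagonal i,
      (coeff x.2.1 F * q ^ x.2.1) * (coeff x.2.2 G * q ^ x.2.2) =
      ∑ p ∈ (range n ×ˢ range n).filter (fun p => p.1 + p.2 < n),
        (coeff p.1 F * q ^ p.1) * (coeff p.2 G * q ^ p.2) := by
    refine Finset.sum_bij' (fun x _ => x.2) (fun p _ => ⟨p.1 + p.2, p⟩) ?_ ?_ ?_ ?_ ?_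
    · intro x hx
      simp only [mem_sigma, mem_range, HasAntidiagonal.mem_antidiagonal] at hx
      simp only [mem_filter, mem_product, mem_range]
      omega
    · intro p hp
      simp only [mem_filter, mem_product, mem_range] at hp
      simp only [mem_sigma, mem_range, HasAntidiagonal.mem_antidiagonal, and_true]
      omega
    · intro x hx
      simp only [mem_sigma, mem_range, HasAntidiagonal.mem_antidiagonal] at hx
      obtain ⟨i, p⟩ := x
      simp only at hx
      obtain ⟨h1, h2⟩ := hx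
      subst h2
      rfl
    · intro p _
      rfl
    · intro x _
      rfl
  rw [e2]
  apply Finset.sum_le_sum_of_subset_of_nonneg (Finset.filter_subset _ _)
  intro p _ _
  exact mul_nonneg (mul_nonneg (hF _) (pow_nonneg hq _)) (mul_nonneg (hG _) (pow_nonneg hq _))

theorem ps_one_le (q : ℝ) (n : ℕ) : ps q n 1 ≤ 1 := by
  unfold ps
  have : ∀ i ∈ range n, coeff i (1 : PowerSeries ℝ) * q ^ i = if i = 0 then 1 else 0 := by
    intro i _
    rw [coeff_one]
    split
    · rename_i h; subst h; simp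
    · simp
  rw [Finset.sum_congr rfl this, Finset.sum_ite_eq']
  split <;> norm_num

theorem ps_pow_le {q a : ℝ} (hq : 0 ≤ q) (n : ℕ) {F : PowerSeries ℝ} (hF : NN F)
    (h : ps q n F ≤ a) (k : ℕ) : ps q n (F ^ k) ≤ a ^ k := by
  induction k with
  | zero => rw [pow_zero, pow_zero]; exact ps_one_le q n
  | succ k ih =>
    rw [pow_succ, pow_succ]
    refine (ps_mul_le hq n (hF.pow k) hF).trans ?_
    exact mul_le_mul ih h (ps_nonneg hq n hF)
      ((ps_nonneg hq n (hF.pow k)).trans ih)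

/-- coefficientwise derivative -/
def HasDC (F : ℝ → PowerSeries ℝ) (F' : PowerSeries ℝ) (x : ℝ) : Prop :=
  ∀ i, HasDerivAt (fun x => coeff i (F x)) (coeff i F') x

theorem HasDC.mul {F G : ℝ → PowerSeries ℝ} {F' G' : PowerSeries ℝ} {x : ℝ}
    (hF : HasDC F F' x) (hG : HasDC G G' x) :
    HasDC (fun x => F x * G x) (F' * G x + F x * G') x := by
  intro i
  simp only [coeff_mul, map_add]
  rw [← Finset.sum_add_distrib]
  exact HasDerivAt.fun_sum (fun p _ => (hF p.1).mul (hG p.2))

theorem HasDC.congr {F : ℝ → PowerSeries ℝ} {F' F'' : PowerSeries ℝ} {x : ℝ}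
    (hF : HasDC F F' x) (h : F' = F'') : HasDC F F'' x := h ▸ hF

theorem HasDC.pow {F : ℝ → PowerSeries ℝ} {F' : PowerSeries ℝ} {x : ℝ}
    (hF : HasDC F F' x) (k : ℕ) :
    HasDC (fun x => F x ^ k) ((k : PowerSeries ℝ) * F x ^ (k - 1) * F') x := by
  induction k with
  | zero =>
    intro i
    simp only [pow_zero, Nat.cast_zero, zero_mul, map_zero]
    exact hasDerivAt_const _ _
  | succ k ih =>
    have h := ih.mul hF
    have e : (fun x => F x ^ (k + 1)) = fun x => F x ^ k * F x := by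
      funext x; rw [pow_succ]
    rw [e]
    apply h.congr
    rcases k with _ | k
    · simp only [Nat.cast_zero, zero_tsub, pow_zero, mul_one, zero_mul, one_mul, zero_add, Nat.cast_one, tsub_self]
    · simp only [Nat.add_sub_cancel]
      push_cast
      ring

/-- `N₀ = (1-x) r` -/
def fN (r x : ℝ) : ℝ := (1 - x) * r

def fU (r x : ℝ) : PowerSeries ℝ := C (fN r x) + C (x - fN r x) * X

def fV (r x : ℝ) : PowerSeries ℝ := C (1 + fN r x) - C (1 - x + fN r x) * X

def fW (r x : ℝ) : PowerSeries ℝ :=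
  PowerSeries.mk fun i => (1 - x + fN r x) ^ i / (1 + fN r x) ^ (i + 1)

theorem fV_mul_fW {r x : ℝ} (h : 1 + fN r x ≠ 0) : fV r x * fW r x = 1 := by
  ext i
  unfold fV fW
  rw [sub_mul, map_sub, mul_assoc, coeff_C_mul, coeff_C_mul, coeff_mk]
  rcases i with _ | i
  · rw [coeff_zero_X_mul, coeff_one]
    field_simp
    simp
  · rw [coeff_succ_X_mul, coeff_mk, coeff_one]
    simp only [Nat.succ_ne_zero, if_false]
    field_simp
    ring

theorem fV_sub_fU (r x : ℝ) : fV r x - fU r x = 1 - X := by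
  unfold fV fU
  have e : C (1 - x + fN r x) = (1 : PowerSeries ℝ) - C x + C (fN r x) := by simp
  have e2 : C (x - fN r x) = C x - C (fN r x) := by simp only [map_sub]
  have e3 : C (1 + fN r x) = (1 : PowerSeries ℝ) + C (fN r x) := by simp only [map_add, map_one]
  rw [e, e2, e3]
  ring

theorem hasDC_fU (r x : ℝ) : HasDC (fU r) (C (-r) * (1 - X) + X) x := by
  intro i
  unfold fU fN
  have e : ∀ y : ℝ, coeff i (C ((1 - y) * r) + C (y - (1 - y) * r) * X) =
      (1 - y) * r * coeff i (1 : PowerSeries ℝ) + (y - (1 - y) * r) * coeff i (X : PowerSeries ℝ) := by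
    intro y
    rw [map_add, coeff_C_mul]
    congr 1
    rw [← mul_one (C ((1 - y) * r)), coeff_C_mul]
  have e' : coeff i (C (-r) * (1 - X) + X : PowerSeries ℝ) =
      (-r) * coeff i (1 : PowerSeries ℝ) + (1 + r) * coeff i (X : PowerSeries ℝ) := by
    rw [map_add, coeff_C_mul, map_sub]
    ring
  rw [e']
  simp only [e]
  have h0 : HasDerivAt (fun y : ℝ => 1 - y) (-1) x := by
    simpa using (hasDerivAt_id x).const_sub 1
  have h1 : HasDerivAt (fun y : ℝ => (1 - y) * r) (-r) x := by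
    simpa using h0.mul_const r
  have h2 : HasDerivAt (fun y : ℝ => y - (1 - y) * r) (1 + r) x := by
    have h := (hasDerivAt_id' x).sub h1
    rw [sub_neg_eq_add] at h
    exact h
  exact (h1.mul_const _).add (h2.mul_const _)

/-- the common derivative of `U` and `V` -/
def fD (r : ℝ) : PowerSeries ℝ := C (-r) * (1 - X) + X

theorem hasDC_fV (r x : ℝ) : HasDC (fV r) (fD r) x := by
  intro i
  have e : (fun y => coeff i (fV r y)) = fun y => coeff i (fU r y) + coeff i (1 - X : PowerSeries ℝ) := by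
    funext y
    rw [← map_add, ← fV_sub_fU r y]
    congr 1
    ring
  rw [e]
  exact (hasDC_fU r x i).add_const _

theorem hasDC_fW {r x : ℝ} (h : 1 + fN r x ≠ 0) :
    HasDC (fW r) (-(fD r * (fW r x * fW r x))) x := by
  have hN : HasDerivAt (fun y => fN r y) (-r) x := by
    unfold fN
    have h0 : HasDerivAt (fun y : ℝ => 1 - y) (-1) x := by
      simpa using (hasDerivAt_id x).const_sub 1
    simpa using h0.mul_const r
  have hd : ∀ i, DifferentiableAt ℝ (fun y => coeff i (fW r y)) x := by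
    intro i
    unfold fW
    simp only [coeff_mk]
    apply DifferentiableAt.fun_div
    · apply DifferentiableAt.fun_pow
      exact (((differentiableAt_const 1).sub differentiableAt_id).add hN.differentiableAt)
    · apply DifferentiableAt.fun_pow
      exact (differentiableAt_const 1).add hN.differentiableAt
    · exact pow_ne_zero _ h
  set W' : PowerSeries ℝ := PowerSeries.mk fun i => deriv (fun y => coeff i (fW r y)) x with hW'
  have hW : HasDC (fW r) W' x := by
    intro i
    rw [hW', coeff_mk]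
    exact (hd i).hasDerivAt
  have hVW := (hasDC_fV r x).mul hW
  have hev : ∀ᶠ y in nhds x, fV r y * fW r y = 1 := by
    have hc : ContinuousAt (fun y => 1 + fN r y) x := (hN.continuousAt).const_add 1
    filter_upwards [hc.eventually_ne h] with y hy
    exact fV_mul_fW hy
  have h0 : fD r * fW r x + fV r x * W' = 0 := by
    ext i
    have h1 := hVW i
    have h2 : HasDerivAt (fun y => coeff i (fV r y * fW r y)) 0 x := by
      have h3 : HasDerivAt (fun _ : ℝ => coeff i (1 : PowerSeries ℝ)) 0 x := hasDerivAt_const x _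
      apply h3.congr_of_eventuallyEq
      filter_upwards [hev] with y hy
      rw [hy]
    rw [map_zero]
    exact h1.unique h2
  apply hW.congr
  have h4 := fV_mul_fW h
  calc W' = (fV r x * fW r x) * W' := by rw [h4, one_mul]
    _ = fW r x * (fD r * fW r x + fV r x * W') - fD r * (fW r x * fW r x) := by ring
    _ = _ := by rw [h0]; ring

/-- generating series of the transition kernel -/
def fg (r x : ℝ) (k : ℕ) : PowerSeries ℝ := fU r x ^ k * fW r x ^ (k + 1)

theorem hasDC_fg {r x : ℝ} (h : 1 + fN r x ≠ 0) (k : ℕ) :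
    HasDC (fun y => fg r y k)
      ((k : PowerSeries ℝ) * fU r x ^ (k - 1) * fD r * fW r x ^ (k + 1) -
        ((k + 1 : ℕ) : PowerSeries ℝ) * (fU r x ^ k * fD r * fW r x ^ (k + 2))) x := by
  have h1 := ((hasDC_fU r x).pow k).mul ((hasDC_fW h).pow (k + 1))
  apply HasDC.congr (F := fun y => fg r y k) h1
  rw [Nat.add_sub_cancel]
  unfold fD
  push_cast
  ring

theorem C_mul_fD (r x : ℝ) :
    C x * fD r = C (r + 1) * fU r x - C r * fV r x := by
  unfold fD fU fV fN
  simp only [map_add, map_sub, map_mul, map_neg, map_one]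
  ring

theorem fg_gen {r x : ℝ} (h : 1 + fN r x ≠ 0) (k i : ℕ) :
    -(x * coeff i ((k : PowerSeries ℝ) * fU r x ^ (k - 1) * fD r * fW r x ^ (k + 1) -
        ((k + 1 : ℕ) : PowerSeries ℝ) * (fU r x ^ k * fD r * fW r x ^ (k + 2)))) =
    r * k * coeff i (fg r x (k - 1)) + (r + 1) * (k + 1) * coeff i (fg r x (k + 1))
      - (r * (k + 1) + (r + 1) * k) * coeff i (fg r x k) := by
  have hVW := fV_mul_fW h
  have hD := C_mul_fD r x
  set U := fU r x with hU
  set V := fV r x with hV
  set W := fW r x with hW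
  have key : -(C x * ((k : PowerSeries ℝ) * U ^ (k - 1) * fD r * W ^ (k + 1) -
        ((k + 1 : ℕ) : PowerSeries ℝ) * (U ^ k * fD r * W ^ (k + 2)))) =
      C (r * k) * fg r x (k - 1) + C ((r + 1) * (k + 1)) * fg r x (k + 1)
      - C (r * (k + 1) + (r + 1) * k) * fg r x k := by
    unfold fg
    rw [← hU, ← hW]
    simp only [map_add, map_mul, map_natCast, map_one] at hD ⊢
    rcases k with _ | k
    · simp only [Nat.cast_zero, zero_mul, zero_add, pow_zero, mul_zero]
      push_cast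
      linear_combination (-(W * W)) * (-hD) - C r * W * hVW
    · simp only [Nat.add_sub_cancel]
      push_cast
      linear_combination (-(((k : PowerSeries ℝ) + 1) * U ^ k * W ^ (k + 2)
        - ((k : PowerSeries ℝ) + 1 + 1) * (U ^ (k + 1) * W ^ (k + 3)))) * hD
        + (((k : PowerSeries ℝ) + 1) * U ^ k * W ^ (k + 1) * C r
        - ((k : PowerSeries ℝ) + 1 + 1) * (U ^ (k + 1) * W ^ (k + 2)) * C r) * hVW
  have e : ∀ (a b c : ℝ) (F G H : PowerSeries ℝ), coeff i (C a * F + C b * G - C c * H) =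
      a * coeff i F + b * coeff i G - c * coeff i H := by
    intro a b c F G H
    rw [map_sub, map_add, coeff_C_mul, coeff_C_mul, coeff_C_mul]
  have h1 := congrArg (coeff i) key
  rw [map_neg, coeff_C_mul, e] at h1
  exact h1

theorem fN_nonneg {r x : ℝ} (hr : 0 < r) (h1 : x ≤ 1) : 0 ≤ fN r x := by
  unfold fN
  exact mul_nonneg (by linarith) hr.le

theorem fN_ne {r x : ℝ} (hr : 0 < r) (h1 : x ≤ 1) : 1 + fN r x ≠ 0 := by
  have := fN_nonneg hr h1
  positivity

theorem NN_fW {r x : ℝ} (hr : 0 < r) (h1 : x ≤ 1) : NN (fW r x) := by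
  intro i
  unfold fW
  rw [coeff_mk]
  have := fN_nonneg hr h1
  have h2 : 0 ≤ 1 - x + fN r x := by linarith
  positivity

theorem fUW_eq {r x : ℝ} (h : 1 + fN r x ≠ 0) :
    fU r x * fW r x = C (fN r x / (1 + fN r x)) + C (x / (1 + fN r x)) * (X * fW r x) := by
  have hVW := fV_mul_fW h
  have key : fU r x = C (fN r x / (1 + fN r x)) * fV r x + C (x / (1 + fN r x)) * X := by
    unfold fU fV
    have e1 : C (x - fN r x) = C (x / (1 + fN r x)) -
        C (fN r x / (1 + fN r x)) * C (1 - x + fN r x) := by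
      rw [← map_mul, ← map_sub]
      congr 1
      unfold fN at h ⊢
      field_simp
      ring
    have e2 : C (fN r x) = C (fN r x / (1 + fN r x)) * C (1 + fN r x) := by
      rw [← map_mul]
      congr 1
      field_simp
    rw [e1]
    nth_rewrite 1 [e2]
    ring
  nth_rewrite 1 [key]
  linear_combination C (fN r x / (1 + fN r x)) * hVW

theorem NN_fUW {r x : ℝ} (hr : 0 < r) (h0 : 0 ≤ x) (h1 : x ≤ 1) : NN (fU r x * fW r x) := by
  have hN := fN_nonneg hr h1
  rw [fUW_eq (fN_ne hr h1)]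
  intro i
  rw [map_add, coeff_C_mul]
  apply add_nonneg
  · rw [coeff_C]
    split
    · positivity
    · exact le_rfl
  · apply mul_nonneg (by positivity)
    rcases i with _ | i
    · rw [coeff_zero_X_mul]
    · rw [coeff_succ_X_mul]
      exact NN_fW hr h1 i

theorem fg_eq (r x : ℝ) (k : ℕ) : fg r x k = (fU r x * fW r x) ^ k * fW r x := by
  unfold fg
  rw [mul_pow, pow_succ]
  ring

theorem NN_fg {r x : ℝ} (hr : 0 < r) (h0 : 0 ≤ x) (h1 : x ≤ 1) (k : ℕ) : NN (fg r x k) := by
  rw [fg_eq]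
  exact ((NN_fUW hr h0 h1).pow k).mul (NN_fW hr h1)

/-- truncated sums of `W` at `q = r/(r+1)` -/
theorem ps_fW {r x : ℝ} (hr : 0 < r) (h1 : x ≤ 1) (n : ℕ) :
    ps (r / (r + 1)) n (fW r x) =
      1 - ((1 - x + fN r x) * (r / (r + 1)) / (1 + fN r x)) ^ n := by
  have hne := fN_ne hr h1
  have hr1 : r + 1 ≠ 0 := by positivity
  induction n with
  | zero => simp only [ps, range_zero, sum_empty, pow_zero, sub_self]
  | succ n ih =>
    unfold ps at ih ⊢
    rw [Finset.sum_range_succ, ih]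
    unfold fW
    rw [coeff_mk, pow_succ, pow_succ]
    have e : (1 - x + fN r x) ^ n / ((1 + fN r x) ^ n * (1 + fN r x)) * (r / (r + 1)) ^ n =
        ((1 - x + fN r x) * (r / (r + 1)) / (1 + fN r x)) ^ n * (1 / (1 + fN r x)) := by
      simp only [div_pow, mul_pow]
      field_simp
    rw [e]
    have e2 : (1 - x + fN r x) * (r / (r + 1)) / (1 + fN r x) = 1 - 1 / (1 + fN r x) := by
      unfold fN at hne ⊢
      field_simp
      ring
    rw [e2]
    ring

theorem ps_fW_le {r x : ℝ} (hr : 0 < r) (h1 : x ≤ 1) (n : ℕ) :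
    ps (r / (r + 1)) n (fW r x) ≤ 1 := by
  rw [ps_fW hr h1]
  have hN := fN_nonneg hr h1
  have h2 : 0 ≤ 1 - x + fN r x := by linarith
  have : 0 ≤ ((1 - x + fN r x) * (r / (r + 1)) / (1 + fN r x)) ^ n := by positivity
  linarith only [this]

theorem ps_fUW_le {r x : ℝ} (hr : 0 < r) (h0 : 0 ≤ x) (h1 : x ≤ 1) (n : ℕ) :
    ps (r / (r + 1)) n (fU r x * fW r x) ≤ r / (r + 1) := by
  have hN := fN_nonneg hr h1
  have hne := fN_ne hr h1
  rcases n with _ | n
  · simp only [ps, Finset.range_zero, Finset.sum_empty]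
    positivity
  have hle := ps_fW_le hr h1 n
  rw [fUW_eq hne]
  have e : ps (r / (r + 1)) (n + 1) (C (fN r x / (1 + fN r x)) + C (x / (1 + fN r x)) * (X * fW r x))
      = fN r x / (1 + fN r x) + x / (1 + fN r x) * (r / (r + 1)) * ps (r / (r + 1)) n (fW r x) := by
    unfold ps
    rw [Finset.sum_range_succ', Finset.mul_sum, add_comm]
    congr 1
    · rw [map_add, coeff_C_mul, coeff_zero_X_mul, coeff_zero_C]
      ring
    · apply Finset.sum_congr rfl
      intro i _
      rw [map_add, coeff_C_mul, coeff_succ_X_mul, coeff_C, if_neg (Nat.succ_ne_zero i), pow_succ]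
      ring
  rw [e]
  have h2 : x / (1 + fN r x) * (r / (r + 1)) * ps (r / (r + 1)) n (fW r x) ≤
      x / (1 + fN r x) * (r / (r + 1)) := by
    apply mul_le_of_le_one_right (by (clear * - h0 hN hr; positivity)) hle
  have e3 : fN r x / (1 + fN r x) + x / (1 + fN r x) * (r / (r + 1)) = r / (r + 1) := by
    have hr1 : r + 1 ≠ 0 := by positivity
    unfold fN at hne ⊢
    field_simp
    ring
  linarith only [h2, e3]

theorem ps_fg_le {r x : ℝ} (hr : 0 < r) (h0 : 0 ≤ x) (h1 : x ≤ 1) (n k : ℕ) :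
    ps (r / (r + 1)) n (fg r x k) ≤ (r / (r + 1)) ^ k := by
  have hq : 0 ≤ r / (r + 1) := by positivity
  rw [fg_eq]
  refine (ps_mul_le hq n ((NN_fUW hr h0 h1).pow k) (NN_fW hr h1)).trans ?_
  have h2 := ps_pow_le hq n (NN_fUW hr h0 h1) (ps_fUW_le hr h0 h1 n) k
  calc _ ≤ (r / (r + 1)) ^ k * 1 := mul_le_mul h2 (ps_fW_le hr h1 n)
        (ps_nonneg hq n (NN_fW hr h1)) (by positivity)
    _ = _ := mul_one _

theorem coeff_fg_le {r x : ℝ} (hr : 0 < r) (h0 : 0 ≤ x) (h1 : x ≤ 1) (i k : ℕ) :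
    coeff i (fg r x k) ≤ (r / (r + 1)) ^ k / (r / (r + 1)) ^ i := by
  have hq : 0 < r / (r + 1) := by positivity
  rw [le_div_iff₀ (by positivity)]
  refine le_trans ?_ (ps_fg_le hr h0 h1 (i + 1) k)
  unfold ps
  exact Finset.single_le_sum (f := fun i => coeff i (fg r x k) * (r / (r + 1)) ^ i)
    (fun j _ => mul_nonneg (NN_fg hr h0 h1 k j) (by positivity))
    (Finset.mem_range.mpr (Nat.lt_succ_self i))

theorem summable_fg {r x : ℝ} (hr : 0 < r) (h0 : 0 ≤ x) (h1 : x ≤ 1) (i : ℕ) :
    Summable fun k => coeff i (fg r x k) := by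
  have hq : 0 ≤ r / (r + 1) := by positivity
  have hq1 : r / (r + 1) < 1 := by
    rw [div_lt_one (by positivity)]
    linarith
  apply Summable.of_nonneg_of_le (fun k => NN_fg hr h0 h1 k i) (fun k => coeff_fg_le hr h0 h1 i k)
  exact (summable_geometric_of_lt_one hq hq1).div_const _

theorem coeff_zero_fg (r x : ℝ) (k : ℕ) :
    coeff 0 (fg r x k) = fN r x ^ k / (1 + fN r x) ^ (k + 1) := by
  have e1 : coeff 0 (fU r x) = fN r x := by
    unfold fU
    rw [map_add, coeff_C_mul, coeff_zero_X, coeff_zero_C]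
    ring
  have e2 : coeff 0 (fW r x) = 1 / (1 + fN r x) := by
    unfold fW
    rw [coeff_mk]
    simp
  unfold fg
  rw [coeff_zero_eq_constantCoeff_apply] at e1 e2 ⊢
  rw [map_mul, map_pow, map_pow, e1, e2, one_div, inv_pow, div_eq_mul_inv]

theorem coeff_fV_mul (r x : ℝ) (F : PowerSeries ℝ) (i : ℕ) :
    coeff (i + 1) (fV r x * F) = (1 + fN r x) * coeff (i + 1) F -
      (1 - x + fN r x) * coeff i F := by
  unfold fV
  rw [sub_mul, map_sub, mul_assoc, coeff_C_mul, coeff_C_mul, coeff_succ_X_mul]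

theorem coeff_fU_mul (r x : ℝ) (F : PowerSeries ℝ) (i : ℕ) :
    coeff (i + 1) (fU r x * F) = fN r x * coeff (i + 1) F + (x - fN r x) * coeff i F := by
  unfold fU
  rw [add_mul, map_add, mul_assoc, coeff_C_mul, coeff_C_mul, coeff_succ_X_mul]

theorem hasSum_fg {r x : ℝ} (hr : 0 < r) (h0 : 0 ≤ x) (h1 : x ≤ 1) (i : ℕ) :
    HasSum (fun k => coeff i (fg r x k)) 1 := by
  have hN := fN_nonneg hr h1
  have hne := fN_ne hr h1
  have hVW := fV_mul_fW hne
  induction i with
  | zero =>
    have h2 : (fun k => coeff 0 (fg r x k)) =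
        fun k => (fN r x / (1 + fN r x)) ^ k * (1 / (1 + fN r x)) := by
      funext k
      rw [coeff_zero_fg, pow_succ, div_pow]
      field_simp
    rw [h2]
    have hlt : fN r x / (1 + fN r x) < 1 := by
      rw [div_lt_one (by positivity)]
      linarith
    have h3 := (hasSum_geometric_of_lt_one (by (clear * - hN; positivity)) hlt).mul_right (1 / (1 + fN r x))
    have h4 : 1 - fN r x / (1 + fN r x) = 1 / (1 + fN r x) := by
      field_simp
      ring
    rw [h4, one_div, inv_inv, mul_inv_cancel₀ hne] at h3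
    simpa using h3
  | succ i ih =>
    have hs := summable_fg hr h0 h1 (i + 1)
    have hs' := summable_fg hr h0 h1 i
    have r0 : (1 + fN r x) * coeff (i + 1) (fg r x 0) - (1 - x + fN r x) * coeff i (fg r x 0) = 0 := by
      rw [← coeff_fV_mul]
      have : fV r x * fg r x 0 = 1 := by
        unfold fg
        rw [pow_zero, one_mul, zero_add, pow_one, hVW]
      rw [this, coeff_one, if_neg (Nat.succ_ne_zero i)]
    have rk : ∀ k, (1 + fN r x) * coeff (i + 1) (fg r x (k + 1)) -
        (1 - x + fN r x) * coeff i (fg r x (k + 1)) =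
        fN r x * coeff (i + 1) (fg r x k) + (x - fN r x) * coeff i (fg r x k) := by
      intro k
      rw [← coeff_fV_mul, ← coeff_fU_mul]
      congr 1
      unfold fg
      linear_combination (fU r x ^ (k + 1) * fW r x ^ (k + 1)) * hVW
    have t1 := hs.tsum_eq_zero_add
    have t2 := hs'.tsum_eq_zero_add
    have hs1 := (summable_nat_add_iff 1).mpr hs
    have hs1' := (summable_nat_add_iff 1).mpr hs'
    have e1 : ∑' k, ((1 + fN r x) * coeff (i + 1) (fg r x (k + 1)) -
        (1 - x + fN r x) * coeff i (fg r x (k + 1))) =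
        (1 + fN r x) * ∑' k, coeff (i + 1) (fg r x (k + 1)) -
        (1 - x + fN r x) * ∑' k, coeff i (fg r x (k + 1)) := by
      rw [← tsum_mul_left, ← tsum_mul_left]
      exact (hs1.mul_left _).tsum_sub (hs1'.mul_left _)
    have e2 : ∑' k, (fN r x * coeff (i + 1) (fg r x k) + (x - fN r x) * coeff i (fg r x k)) =
        fN r x * ∑' k, coeff (i + 1) (fg r x k) + (x - fN r x) * ∑' k, coeff i (fg r x k) := by
      rw [← tsum_mul_left, ← tsum_mul_left]
      exact (hs.mul_left _).tsum_add (hs'.mul_left _)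
    have e3 : ∑' k, ((1 + fN r x) * coeff (i + 1) (fg r x (k + 1)) -
        (1 - x + fN r x) * coeff i (fg r x (k + 1))) =
        ∑' k, (fN r x * coeff (i + 1) (fg r x k) + (x - fN r x) * coeff i (fg r x k)) :=
      tsum_congr rk
    rw [e1, e2, ih.tsum_eq] at e3
    rw [ih.tsum_eq] at t2
    have : ∑' k, coeff (i + 1) (fg r x k) = 1 := by
      linear_combination e3 + r0 + (1 + fN r x) * t1 - (1 - x + fN r x) * t2
    rw [← this]
    exact hs.hasSum

theorem sum_antitone {p : ℕ → ℝ} (ha : Antitone p) (hp : ∀ k, 0 ≤ p k) {F : PowerSeries ℝ} (hF : NN F)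
    (m : ℕ) : 0 ≤ ∑ i ∈ range m, p i * coeff i ((1 - X) * F) := by
  have key : ∀ m, p m * coeff m F ≤ ∑ i ∈ range (m + 1), p i * coeff i ((1 - X) * F) := by
    intro m
    induction m with
    | zero =>
      rw [Finset.sum_range_one, sub_mul, map_sub, one_mul, coeff_zero_X_mul, sub_zero]
    | succ m ih =>
      rw [Finset.sum_range_succ, sub_mul, map_sub, one_mul, coeff_succ_X_mul]
      have h1 : p (m + 1) * coeff m F ≤ p m * coeff m F :=
        mul_le_mul_of_nonneg_right (ha (Nat.le_succ m)) (hF m)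
      rw [sub_mul, one_mul] at ih
      linarith
  rcases m with _ | m
  · simp only [range_zero, sum_empty, Std.le_refl]
  · exact (mul_nonneg (hp m) (hF m)).trans (key m)

theorem exists_flow (r : ℝ) (hr : 0 < r) (p : ℕ → ℝ) (n : ℕ) (hs : ∀ k, n ≤ k → p k = 0)
    (hp : IsProb p) (ha : Antitone p) :
    ∃ P : ℝ → ℕ → ℝ, P 0 = p ∧ (∀ t, 0 ≤ t → IsProb (P t) ∧ Antitone (P t)) ∧
      (∀ t, 0 < t → ∀ k, HasDerivAt (fun t => P t k) (gen r (P t) k) t) ∧
      (∀ k, ContinuousOn (fun t => P t k) (Set.Ici 0)) ∧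
      (∃ M, 0 < M ∧ ∀ t, 0 ≤ t → ∀ k, P t k ≤ M * tau r k) ∧
      (∀ t, 0 ≤ t → ∀ k, p 0 * tau ((1 - Real.exp (-t)) * r) k ≤ P t k) ∧
      (∀ k, Filter.Tendsto (fun t => P t k) Filter.atTop (nhds (tau r k))) := by
  obtain ⟨hp0, hp1⟩ := hp
  have hsum : ∑ i ∈ range n, p i = 1 := by
    rw [← hp1.tsum_eq]
    symm
    apply tsum_eq_sum
    intro b hb
    apply hs
    rw [Finset.mem_range] at hb
    omega
  have hx0 : ∀ t : ℝ, 0 ≤ Real.exp (-t) := fun t => (Real.exp_pos _).le
  have hx1 : ∀ t : ℝ, 0 ≤ t → Real.exp (-t) ≤ 1 := by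
    intro t ht
    rw [Real.exp_le_one_iff]
    linarith
  have hder : ∀ t, 0 ≤ t → ∀ k, HasDerivAt
      (fun t => ∑ i ∈ range n, p i * coeff i (fg r (Real.exp (-t)) k))
      (gen r (fun k => ∑ i ∈ range n, p i * coeff i (fg r (Real.exp (-t)) k)) k) t := by
    intro t ht k
    have hE : HasDerivAt (fun t : ℝ => Real.exp (-t)) (Real.exp (-t) * -1) t :=
      (hasDerivAt_neg t).exp
    have h1 : ∀ i ∈ range n, HasDerivAt (fun t => p i * coeff i (fg r (Real.exp (-t)) k))
        (p i * (coeff i ((k : PowerSeries ℝ) * fU r (Real.exp (-t)) ^ (k - 1) * fD r *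
          fW r (Real.exp (-t)) ^ (k + 1) -
          ((k + 1 : ℕ) : PowerSeries ℝ) * (fU r (Real.exp (-t)) ^ k * fD r *
            fW r (Real.exp (-t)) ^ (k + 2))) * (Real.exp (-t) * -1))) t := by
      intro i _
      exact ((hasDC_fg (fN_ne hr (hx1 t ht)) k i).comp t hE).const_mul (p i)
    have h2 := HasDerivAt.fun_sum h1
    refine h2.congr_deriv ?_
    unfold gen
    rw [Finset.mul_sum, Finset.mul_sum, Finset.mul_sum, ← Finset.sum_add_distrib,
      ← Finset.sum_sub_distrib]
    apply Finset.sum_congr rfl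
    intro i _
    have h3 := fg_gen (fN_ne hr (hx1 t ht)) k i
    linear_combination (p i) * h3
  refine ⟨fun t k => ∑ i ∈ range n, p i * coeff i (fg r (Real.exp (-t)) k), ?_, ?_, ?_, ?_, ?_, ?_, ?_⟩
  · funext k
    have h1 : fg r (Real.exp (-0)) k = X ^ k := by
      have hN : fN r 1 = 0 := by simp [fN]
      have hU : fU r 1 = X := by
        unfold fU
        rw [hN]
        simp
      have hV : fV r 1 = 1 := by
        unfold fV
        rw [hN]
        simp only [add_zero, map_one, sub_self, map_zero, zero_mul, sub_zero]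
      have hVW := fV_mul_fW (r := r) (x := 1) (by rw [hN]; norm_num)
      rw [hV, one_mul] at hVW
      rw [neg_zero, Real.exp_zero]
      unfold fg
      rw [hVW, hU, one_pow, mul_one]
    simp only [h1, coeff_X_pow]
    simp only [mul_ite, mul_one, mul_zero]
    rw [Finset.sum_ite_eq' (range n) k]
    by_cases hk : k < n
    · rw [if_pos (Finset.mem_range.mpr hk)]
    · rw [if_neg (fun h => hk (Finset.mem_range.mp h)), hs k (by omega)]
  · intro t ht
    refine ⟨⟨?_, ?_⟩, ?_⟩
    · intro k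
      exact Finset.sum_nonneg fun i _ => mul_nonneg (hp0 i) (NN_fg hr (hx0 t) (hx1 t ht) k i)
    · have h2 : HasSum (fun k => ∑ i ∈ range n, p i * coeff i (fg r (Real.exp (-t)) k))
          (∑ i ∈ range n, p i * 1) :=
        hasSum_sum fun i _ => (hasSum_fg hr (hx0 t) (hx1 t ht) i).mul_left (p i)
      simp only [mul_one] at h2
      rw [hsum] at h2
      exact h2
    · apply antitone_nat_of_succ_le
      intro k
      rw [← sub_nonneg, ← Finset.sum_sub_distrib]
      have hF : NN (fg r (Real.exp (-t)) k * fW r (Real.exp (-t))) :=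
        (NN_fg hr (hx0 t) (hx1 t ht) k).mul (NN_fW hr (hx1 t ht))
      have h3 := sum_antitone ha hp0 hF n
      have hVW := fV_mul_fW (fN_ne hr (hx1 t ht))
      have hVU := fV_sub_fU r (Real.exp (-t))
      have e : (1 - X) * (fg r (Real.exp (-t)) k * fW r (Real.exp (-t))) =
          fg r (Real.exp (-t)) k - fg r (Real.exp (-t)) (k + 1) := by
        rw [← hVU]
        unfold fg
        linear_combination (fU r (Real.exp (-t)) ^ k * fW r (Real.exp (-t)) ^ (k + 1)) * hVW
      rw [e] at h3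
      simp only [map_sub, mul_sub] at h3
      exact h3
  · intro t ht k
    exact hder t ht.le k
  · intro k t ht
    exact (hder t ht k).continuousAt.continuousWithinAt
  · have hq : 0 < r / (r + 1) := by positivity
    have hM : 0 < 1 + ∑ j ∈ range n, p j / (r / (r + 1)) ^ j := by
      have : 0 ≤ ∑ j ∈ range n, p j / (r / (r + 1)) ^ j :=
        Finset.sum_nonneg fun j _ => div_nonneg (hp0 j) (by positivity)
      linarith only [this]
    refine ⟨(1 + ∑ j ∈ range n, p j / (r / (r + 1)) ^ j) * (r + 1), by (clear * - hM hr; positivity), ?_⟩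
    intro t ht k
    set M := 1 + ∑ j ∈ range n, p j / (r / (r + 1)) ^ j with hMdef
    have h1 : ∀ i ∈ range n, p i ≤ M * (r / (r + 1)) ^ i := by
      intro i hi
      have h2 := Finset.single_le_sum (f := fun j => p j / (r / (r + 1)) ^ j)
        (fun j _ => div_nonneg (hp0 j) (by positivity)) hi
      have h3 : p i / (r / (r + 1)) ^ i ≤ M := by
        rw [hMdef]
        linarith only [h2]
      rwa [div_le_iff₀ (by positivity)] at h3
    have h2 : ∑ i ∈ range n, p i * coeff i (fg r (Real.exp (-t)) k) ≤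
        M * ps (r / (r + 1)) n (fg r (Real.exp (-t)) k) := by
      unfold ps
      rw [Finset.mul_sum]
      apply Finset.sum_le_sum
      intro i hi
      have h3 := mul_le_mul_of_nonneg_right (h1 i hi) (NN_fg hr (hx0 t) (hx1 t ht) k i)
      linarith only [h3]
    have h3 := ps_fg_le hr (hx0 t) (hx1 t ht) n k
    have h4 : M * (r + 1) * tau r k = M * (r / (r + 1)) ^ k := by
      unfold tau
      rw [div_pow, pow_succ]
      (clear * - hr hM; field_simp)
    rw [h4]
    exact h2.trans (mul_le_mul_of_nonneg_left h3 hM.le)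
  · intro t ht k
    rcases n with _ | n
    · simp at hsum
    · have h1 := Finset.single_le_sum (f := fun i => p i * coeff i (fg r (Real.exp (-t)) k))
        (fun i _ => mul_nonneg (hp0 i) (NN_fg hr (hx0 t) (hx1 t ht) k i))
        (Finset.mem_range.mpr (Nat.succ_pos n))
      refine le_trans (le_of_eq ?_) h1
      rw [coeff_zero_fg]
      unfold tau fN
      rw [add_comm 1]
  · intro k
    have h0 : 1 + fN r 0 ≠ 0 := fN_ne hr zero_le_one
    have hT : Filter.Tendsto (fun t : ℝ => Real.exp (-t)) Filter.atTop (nhds 0) :=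
      Real.tendsto_exp_neg_atTop_nhds_zero
    have h1 : ∀ i, Filter.Tendsto (fun t : ℝ => coeff i (fg r (Real.exp (-t)) k)) Filter.atTop
        (nhds (tau r k)) := by
      intro i
      have hc := (hasDC_fg h0 k i).continuousAt.tendsto.comp hT
      have e : coeff i (fg r 0 k) = tau r k := by
        have hN : fN r 0 = r := by simp [fN]
        have hVW := fV_mul_fW h0
        have hUV : fU r 0 * C (r + 1) = C r * fV r 0 := by
          unfold fU fV
          rw [hN]
          simp only [map_sub, map_zero, map_add, map_one]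
          ring
        have hUW : fU r 0 * fW r 0 = C (r / (r + 1)) := by
          have h5 : C (r + 1) * C (1 / (r + 1)) = (1 : PowerSeries ℝ) := by
            rw [← map_mul]
            have : (r + 1) * (1 / (r + 1)) = 1 := by field_simp
            rw [this, map_one]
          have h6 : C (r / (r + 1)) = C r * C (1 / (r + 1)) := by
            rw [← map_mul]
            congr 1
            ring
          rw [h6]
          linear_combination (-(fU r 0 * fW r 0)) * h5 + C (1 / (r + 1)) * fW r 0 * hUV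
            + C (1 / (r + 1)) * C r * hVW
        rw [fg_eq, hUW, ← map_pow, coeff_C_mul]
        unfold fW tau
        rw [coeff_mk, hN, sub_zero, pow_succ (1 + r) i, pow_succ (r + 1) k, add_comm 1 r, div_pow]
        field_simp
      rw [e] at hc
      exact hc
    have h2 : Filter.Tendsto (fun t : ℝ => ∑ i ∈ range n, p i * coeff i (fg r (Real.exp (-t)) k))
        Filter.atTop (nhds (∑ i ∈ range n, p i * tau r k)) :=
      tendsto_finsetSum _ fun i _ => (h1 i).const_mul (p i)
    rw [← Finset.sum_mul, hsum, one_mul] at h2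
    exact h2

end

end Vale.Agent.P369
end
end
end

section

section

section

/-! The entropy along the flow is differentiable, with derivative `rate`. -/

namespace Vale.Agent.P369

noncomputable section

/-- the dominating sequence -/
def domSeq (lam : ℝ) (k : ℕ) : ℝ := ((k : ℝ) + 1) ^ 2 * lam ^ (k - 1)

theorem summable_domSeq {lam : ℝ} (h0 : 0 ≤ lam) (h1 : lam < 1) : Summable (domSeq lam) := by
  rw [← summable_nat_add_iff 1]
  have hn : ‖lam‖ < 1 := by rwa [Real.norm_of_nonneg h0]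
  have s2 := summable_pow_mul_geometric_of_norm_lt_one 2 hn
  have s1 := summable_pow_mul_geometric_of_norm_lt_one 1 hn
  have s0 := summable_pow_mul_geometric_of_norm_lt_one 0 hn
  have h := (s2.add (s1.mul_left 4)).add (s0.mul_left 4)
  refine h.congr ?_
  intro k
  unfold domSeq
  rw [Nat.add_sub_cancel]
  push_cast
  ring

theorem abs_log_le {a ε μ M lam : ℝ} {k : ℕ} (hε : 0 < ε) (hμ : 0 < μ) (hl0 : 0 ≤ lam)
    (hl1 : lam < 1) (h1 : ε * μ ^ k ≤ a) (h2 : a ≤ M * lam ^ k) :
    |Real.log a| ≤ (|Real.log ε| + |Real.log μ| + |Real.log M|) * ((k : ℝ) + 1) := by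
  have ha : 0 < a := lt_of_lt_of_le (by positivity) h1
  have hlk : lam ^ k ≤ 1 := pow_le_one₀ hl0 hl1.le
  have hlk0 : 0 ≤ lam ^ k := pow_nonneg hl0 k
  have hM : 0 < M := by
    by_contra hM
    push Not at hM
    have : M * lam ^ k ≤ 0 := mul_nonpos_of_nonpos_of_nonneg hM hlk0
    linarith
  have hk : (0 : ℝ) ≤ k := Nat.cast_nonneg k
  have e1 : Real.log (ε * μ ^ k) = Real.log ε + k * Real.log μ := by
    rw [Real.log_mul hε.ne' (by positivity), Real.log_pow]
  have l1 : Real.log ε + k * Real.log μ ≤ Real.log a := by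
    rw [← e1]
    exact Real.log_le_log (by positivity) h1
  have l2 : Real.log a ≤ Real.log M := by
    apply Real.log_le_log ha
    calc a ≤ M * lam ^ k := h2
      _ ≤ M * 1 := mul_le_mul_of_nonneg_left hlk hM.le
      _ = M := mul_one M
  have a1 := neg_abs_le (Real.log ε)
  have a2 := neg_abs_le (Real.log μ)
  have a3 := le_abs_self (Real.log M)
  have b1 := abs_nonneg (Real.log ε)
  have b2 := abs_nonneg (Real.log μ)
  have b3 := abs_nonneg (Real.log M)
  have m1 := mul_nonneg hk b1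
  have m2 := mul_nonneg hk b2
  have m3 := mul_nonneg hk b3
  have m4 := mul_le_mul_of_nonneg_left a2 hk
  rw [abs_le]
  constructor <;> linarith

variable {r : ℝ} {a : ℕ → ℝ} {ε μ M lam : ℝ}

theorem a_pos (hε : 0 < ε) (hμ : 0 < μ) (hb : ∀ k, ε * μ ^ k ≤ a k ∧ a k ≤ M * lam ^ k) (k : ℕ) :
    0 < a k := lt_of_lt_of_le (by positivity) (hb k).1

theorem M_pos (hε : 0 < ε) (hb : ∀ k, ε * μ ^ k ≤ a k ∧ a k ≤ M * lam ^ k) : 0 < M := by
  have h := hb 0
  simp only [pow_zero, mul_one] at h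
  linarith [h.1, h.2]

theorem abs_gen_le (hr : 0 < r) (hε : 0 < ε) (hμ : 0 < μ) (hl0 : 0 ≤ lam) (hl1 : lam < 1)
    (hb : ∀ k, ε * μ ^ k ≤ a k ∧ a k ≤ M * lam ^ k) (k : ℕ) :
    |gen r a k| ≤ 4 * (r + 1) * M * (((k : ℝ) + 1) * lam ^ (k - 1)) := by
  have hM := M_pos hε hb
  have p1 := a_pos hε hμ hb (k - 1)
  have p2 := a_pos hε hμ hb (k + 1)
  have p3 := a_pos hε hμ hb k
  have q1 : a (k - 1) ≤ M * lam ^ (k - 1) := (hb (k - 1)).2
  have q2 : a (k + 1) ≤ M * lam ^ (k - 1) :=
    (hb (k + 1)).2.trans (mul_le_mul_of_nonneg_left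
      (pow_le_pow_of_le_one hl0 hl1.le (by omega)) hM.le)
  have q3 : a k ≤ M * lam ^ (k - 1) :=
    (hb k).2.trans (mul_le_mul_of_nonneg_left
      (pow_le_pow_of_le_one hl0 hl1.le (by omega)) hM.le)
  have hk : (0 : ℝ) ≤ k := Nat.cast_nonneg k
  set B := M * lam ^ (k - 1) with hB
  have hB0 : 0 ≤ B := p1.le.trans q1
  have e : 4 * (r + 1) * M * (((k : ℝ) + 1) * lam ^ (k - 1)) = 4 * (r + 1) * (k + 1) * B := by
    rw [hB]; ring
  rw [e]
  have t1 : 0 ≤ r * k * a (k - 1) := by (clear * - hr p1; positivity)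
  have t2 : 0 ≤ (r + 1) * (k + 1) * a (k + 1) := by positivity
  have t3 : 0 ≤ (r * (k + 1) + (r + 1) * k) * a k := by (clear * - hr p3; positivity)
  have u1 : r * k * a (k - 1) ≤ r * k * B := mul_le_mul_of_nonneg_left q1 (by (clear * - hr; positivity))
  have u2 : (r + 1) * (k + 1) * a (k + 1) ≤ (r + 1) * (k + 1) * B :=
    mul_le_mul_of_nonneg_left q2 (by positivity)
  have u3 : (r * (k + 1) + (r + 1) * k) * a k ≤ (r * (k + 1) + (r + 1) * k) * B :=
    mul_le_mul_of_nonneg_left q3 (by (clear * - hr; positivity))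
  have v : r * k * B + (r + 1) * (k + 1) * B + (r * (k + 1) + (r + 1) * k) * B ≤
      4 * (r + 1) * (k + 1) * B := by
    have h1 : 0 ≤ (4 * (r + 1) * (k + 1) -
      (r * k + (r + 1) * (k + 1) + (r * (k + 1) + (r + 1) * k))) * B := by
      apply mul_nonneg _ hB0
      nlinarith only [hr]
    linarith
  unfold gen
  rw [abs_le]
  constructor <;> linarith only [p1, q1, t1, t2, t3, u3, v, u1, u2]

theorem abs_flux_le (hr : 0 < r) (hε : 0 < ε) (hμ : 0 < μ) (hl0 : 0 ≤ lam) (hl1 : lam < 1)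
    (hb : ∀ k, ε * μ ^ k ≤ a k ∧ a k ≤ M * lam ^ k) (k : ℕ) :
    |((k : ℝ) + 1) * (r * a k - (r + 1) * a (k + 1))| ≤
      2 * (r + 1) * M * (((k : ℝ) + 1) * lam ^ (k - 1)) := by
  have hM := M_pos hε hb
  have p2 := a_pos hε hμ hb (k + 1)
  have p3 := a_pos hε hμ hb k
  have q2 : a (k + 1) ≤ M * lam ^ (k - 1) :=
    (hb (k + 1)).2.trans (mul_le_mul_of_nonneg_left
      (pow_le_pow_of_le_one hl0 hl1.le (by omega)) hM.le)
  have q3 : a k ≤ M * lam ^ (k - 1) :=
    (hb k).2.trans (mul_le_mul_of_nonneg_left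
      (pow_le_pow_of_le_one hl0 hl1.le (by omega)) hM.le)
  have hk : (0 : ℝ) ≤ k := Nat.cast_nonneg k
  set B := M * lam ^ (k - 1) with hB
  have hB0 : 0 ≤ B := p3.le.trans q3
  have e : 2 * (r + 1) * M * (((k : ℝ) + 1) * lam ^ (k - 1)) = (k + 1) * (2 * (r + 1) * B) := by
    rw [hB]; ring
  rw [e, abs_mul, abs_of_nonneg (by (clear * -; positivity) : (0 : ℝ) ≤ (k : ℝ) + 1)]
  apply mul_le_mul_of_nonneg_left _ (by positivity)
  have t2 : 0 ≤ (r + 1) * a (k + 1) := by positivity
  have t3 : 0 ≤ r * a k := by positivity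
  have u2 : (r + 1) * a (k + 1) ≤ (r + 1) * B :=
    mul_le_mul_of_nonneg_left q2 (by positivity)
  have u3 : r * a k ≤ r * B :=
    mul_le_mul_of_nonneg_left q3 (by positivity)
  rw [abs_le]
  constructor <;> linarith

theorem abs_log_a_le (hε : 0 < ε) (hμ : 0 < μ) (hl0 : 0 ≤ lam) (hl1 : lam < 1)
    (hb : ∀ k, ε * μ ^ k ≤ a k ∧ a k ≤ M * lam ^ k) (k : ℕ) :
    |Real.log (a k)| ≤ (|Real.log ε| + |Real.log μ| + |Real.log M|) * ((k : ℝ) + 1) :=
  abs_log_le hε hμ hl0 hl1 (hb k).1 (hb k).2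

/-- a product bounded by the dominating sequence is summable -/
theorem summable_of_dom (hl0 : 0 ≤ lam) (hl1 : lam < 1) {f : ℕ → ℝ} (C : ℝ)
    (h : ∀ k, |f k| ≤ C * domSeq lam k) : Summable f := by
  apply Summable.of_norm_bounded ((summable_domSeq hl0 hl1).mul_left C)
  intro k
  rw [Real.norm_eq_abs]
  exact h k

theorem prod_dom_le {x y A B l : ℝ} {k : ℕ} (hA : 0 ≤ A)
    (hx : |x| ≤ A * ((k : ℝ) + 1)) (hy : |y| ≤ B * (((k : ℝ) + 1) * l)) :
    |x * y| ≤ A * B * (((k : ℝ) + 1) ^ 2 * l) := by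
  rw [abs_mul]
  calc |x| * |y| ≤ (A * ((k : ℝ) + 1)) * (B * (((k : ℝ) + 1) * l)) :=
        mul_le_mul hx hy (abs_nonneg y) (by positivity)
    _ = _ := by ring

theorem abs_logdiff_le (hε : 0 < ε) (hμ : 0 < μ) (hl0 : 0 ≤ lam) (hl1 : lam < 1)
    (hb : ∀ k, ε * μ ^ k ≤ a k ∧ a k ≤ M * lam ^ k) (k : ℕ) :
    |Real.log (a (k + 1)) + 1| ≤
      (2 * (|Real.log ε| + |Real.log μ| + |Real.log M|) + 1) * ((k : ℝ) + 1) := by
  have h := abs_log_a_le hε hμ hl0 hl1 hb (k + 1)
  set L := |Real.log ε| + |Real.log μ| + |Real.log M| with hL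
  have hL0 : 0 ≤ L := by (clear * -; positivity)
  have hk : (0 : ℝ) ≤ k := Nat.cast_nonneg k
  have h1 := abs_add_le (Real.log (a (k + 1))) 1
  rw [abs_one] at h1
  push_cast at h
  nlinarith only [h1, h, hL0]

theorem abs_logone_le (hε : 0 < ε) (hμ : 0 < μ) (hl0 : 0 ≤ lam) (hl1 : lam < 1)
    (hb : ∀ k, ε * μ ^ k ≤ a k ∧ a k ≤ M * lam ^ k) (k : ℕ) :
    |Real.log (a k) + 1| ≤
      (2 * (|Real.log ε| + |Real.log μ| + |Real.log M|) + 1) * ((k : ℝ) + 1) := by
  have h := abs_log_a_le hε hμ hl0 hl1 hb k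
  set L := |Real.log ε| + |Real.log μ| + |Real.log M| with hL
  have hL0 : 0 ≤ L := by (clear * -; positivity)
  have hk : (0 : ℝ) ≤ k := Nat.cast_nonneg k
  have h1 := abs_add_le (Real.log (a k)) 1
  rw [abs_one] at h1
  nlinarith only [h, hL0, h1]

theorem summable_flux (hr : 0 < r) (hε : 0 < ε) (hμ : 0 < μ) (hl0 : 0 ≤ lam) (hl1 : lam < 1)
    (hb : ∀ k, ε * μ ^ k ≤ a k ∧ a k ≤ M * lam ^ k) :
    Summable (fun k : ℕ => (Real.log (a k) + 1) *
      (((k : ℝ) + 1) * (r * a k - (r + 1) * a (k + 1)))) := by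
  apply summable_of_dom hl0 hl1 ((2 * (|Real.log ε| + |Real.log μ| + |Real.log M|) + 1) *
    (2 * (r + 1) * M))
  intro k
  exact prod_dom_le (by (clear * -; positivity)) (abs_logone_le hε hμ hl0 hl1 hb k)
    (abs_flux_le hr hε hμ hl0 hl1 hb k)

theorem summable_flux' (hr : 0 < r) (hε : 0 < ε) (hμ : 0 < μ) (hl0 : 0 ≤ lam) (hl1 : lam < 1)
    (hb : ∀ k, ε * μ ^ k ≤ a k ∧ a k ≤ M * lam ^ k) :
    Summable (fun k : ℕ => (Real.log (a (k + 1)) + 1) *
      (((k : ℝ) + 1) * (r * a k - (r + 1) * a (k + 1)))) := by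
  apply summable_of_dom hl0 hl1 ((2 * (|Real.log ε| + |Real.log μ| + |Real.log M|) + 1) *
    (2 * (r + 1) * M))
  intro k
  exact prod_dom_le (by (clear * -; positivity)) (abs_logdiff_le hε hμ hl0 hl1 hb k)
    (abs_flux_le hr hε hμ hl0 hl1 hb k)

/-- the terms of the rate are summable -/
theorem summable_rate (hr : 0 < r) (hε : 0 < ε) (hμ : 0 < μ) (hl0 : 0 ≤ lam) (hl1 : lam < 1)
    (hb : ∀ k, ε * μ ^ k ≤ a k ∧ a k ≤ M * lam ^ k) :
    Summable (fun k : ℕ => ((k : ℝ) + 1) * (r * a k - (r + 1) * a (k + 1)) *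
      (Real.log (a k) - Real.log (a (k + 1)))) := by
  refine ((summable_flux hr hε hμ hl0 hl1 hb).sub (summable_flux' hr hε hμ hl0 hl1 hb)).congr ?_
  intro k
  ring

/-- summation by parts -/
theorem tsum_parts (hr : 0 < r) (hε : 0 < ε) (hμ : 0 < μ) (hl0 : 0 ≤ lam) (hl1 : lam < 1)
    (hb : ∀ k, ε * μ ^ k ≤ a k ∧ a k ≤ M * lam ^ k) :
    ∑' k, (-Real.log (a k) - 1) * gen r a k = rate r a := by
  have s1 := summable_flux hr hε hμ hl0 hl1 hb
  have s2 := summable_flux' hr hε hμ hl0 hl1 hb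
  set e : ℕ → ℝ := fun k => ((k : ℝ) + 1) * (r * a k - (r + 1) * a (k + 1)) with he
  set F : ℕ → ℝ := fun k => (Real.log (a k) + 1) * ((k : ℝ) * (r * a (k - 1) - (r + 1) * a k)) with hF
  have hF0 : F 0 = 0 := by simp only [hF, CharP.cast_eq_zero, zero_tsub, zero_mul, mul_zero]
  have hF1 : ∀ k, F (k + 1) = (Real.log (a (k + 1)) + 1) *
      (((k : ℝ) + 1) * (r * a k - (r + 1) * a (k + 1))) := by
    intro k
    simp only [hF, Nat.add_sub_cancel]
    push_cast
    ring
  have sF : Summable F := by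
    rw [← summable_nat_add_iff 1]
    exact s2.congr fun k => (hF1 k).symm
  have t1 : ∑' k, F k = ∑' k, (Real.log (a (k + 1)) + 1) *
      (((k : ℝ) + 1) * (r * a k - (r + 1) * a (k + 1))) := by
    rw [sF.tsum_eq_zero_add, hF0, zero_add]
    exact tsum_congr hF1
  have t2 : ∀ k, (-Real.log (a k) - 1) * gen r a k =
      (Real.log (a k) + 1) * (((k : ℝ) + 1) * (r * a k - (r + 1) * a (k + 1))) - F k := by
    intro k
    simp only [hF]
    unfold gen
    ring
  rw [tsum_congr t2, s1.tsum_sub sF, t1, ← s1.tsum_sub s2]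
  unfold rate
  apply tsum_congr
  intro k
  ring

theorem abs_a_le (hε : 0 < ε) (hμ : 0 < μ) (hl0 : 0 ≤ lam) (hl1 : lam < 1)
    (hb : ∀ k, ε * μ ^ k ≤ a k ∧ a k ≤ M * lam ^ k) (k : ℕ) :
    |a k| ≤ M * (((k : ℝ) + 1) * lam ^ (k - 1)) := by
  have hM := M_pos hε hb
  have p3 := a_pos hε hμ hb k
  have hk : (0 : ℝ) ≤ k := Nat.cast_nonneg k
  rw [abs_of_pos p3]
  calc a k ≤ M * lam ^ k := (hb k).2
    _ ≤ M * (1 * lam ^ (k - 1)) := by
        rw [one_mul]
        exact mul_le_mul_of_nonneg_left (pow_le_pow_of_le_one hl0 hl1.le (by omega)) hM.le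
    _ ≤ M * (((k : ℝ) + 1) * lam ^ (k - 1)) := by
        apply mul_le_mul_of_nonneg_left _ hM.le
        exact mul_le_mul_of_nonneg_right (by linarith) (pow_nonneg hl0 _)

theorem summable_negMulLog (hε : 0 < ε) (hμ : 0 < μ) (hl0 : 0 ≤ lam) (hl1 : lam < 1)
    (hb : ∀ k, ε * μ ^ k ≤ a k ∧ a k ≤ M * lam ^ k) :
    Summable (fun k => Real.negMulLog (a k)) := by
  apply summable_of_dom hl0 hl1 ((|Real.log ε| + |Real.log μ| + |Real.log M|) * M)
  intro k
  have e : Real.negMulLog (a k) = -(Real.log (a k) * a k) := by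
    unfold Real.negMulLog
    ring
  rw [e, abs_neg]
  exact prod_dom_le (by (clear * -; positivity)) (abs_log_a_le hε hμ hl0 hl1 hb k)
    (abs_a_le hε hμ hl0 hl1 hb k)

/-- derivative of the entropy along the flow -/
theorem hasDerivAt_entropy (r : ℝ) (hr : 0 < r) (ρ : ℝ → ℕ → ℝ) (t0 δ ε μ M lam : ℝ)
    (hδ : 0 < δ) (hε : 0 < ε) (hμ : 0 < μ) (hl0 : 0 ≤ lam) (hl1 : lam < 1)
    (hb : ∀ t ∈ Set.Ioo (t0 - δ) (t0 + δ), ∀ k, ε * μ ^ k ≤ ρ t k ∧ ρ t k ≤ M * lam ^ k)
    (hd : ∀ t ∈ Set.Ioo (t0 - δ) (t0 + δ), ∀ k,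
      HasDerivAt (fun t => ρ t k) (gen r (ρ t) k) t) :
    HasDerivAt (fun t => Hs (ρ t)) (rate r (ρ t0)) t0 := by
  have hmem : t0 ∈ Set.Ioo (t0 - δ) (t0 + δ) := by
    constructor <;> linarith
  have hu : Summable (fun k => (2 * (|Real.log ε| + |Real.log μ| + |Real.log M|) + 1) *
    (4 * (r + 1) * M) * domSeq lam k) := (summable_domSeq hl0 hl1).mul_left _
  have key := hasDerivAt_tsum_of_isPreconnected (g := fun k t => Real.negMulLog (ρ t k))
    (g' := fun k t => (-Real.log (ρ t k) - 1) * gen r (ρ t) k) hu isOpen_Ioo isPreconnected_Ioo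
    (fun k t ht => by
      have hpos := a_pos hε hμ (hb t ht) k
      exact (Real.hasDerivAt_negMulLog hpos.ne').comp t (hd t ht k))
    (fun k t ht => by
      rw [Real.norm_eq_abs]
      have e : -Real.log (ρ t k) - 1 = -(Real.log (ρ t k) + 1) := by ring
      rw [e, neg_mul, abs_neg]
      exact prod_dom_le (by (clear * -; positivity)) (abs_logone_le hε hμ hl0 hl1 (hb t ht) k)
        (abs_gen_le hr hε hμ hl0 hl1 (hb t ht) k))
    hmem (summable_negMulLog hε hμ hl0 hl1 (hb t0 hmem)) hmem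
  rw [tsum_parts hr hε hμ hl0 hl1 (hb t0 hmem)] at key
  exact key

end

end Vale.Agent.P369
end
end
end

section

section

section

/-!
The output along the two flows satisfies the flow equation.
-/

namespace Vale.Agent.P369

open Real

section adj

/-- shift of the first index in a double sum. -/
theorem hasSum_shift1 {h : ℕ × ℕ → ℝ} (h0 : ∀ j, h (0, j) = 0) {a : ℝ}
    (hs : HasSum (fun x : ℕ × ℕ => h (x.1 + 1, x.2)) a) : HasSum h a := by
  have hinj : Function.Injective (fun x : ℕ × ℕ => (x.1 + 1, x.2)) := by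
    rintro ⟨a, b⟩ ⟨c, d⟩ h; simpa using h
  refine (hinj.hasSum_iff (f := h) ?_).1 (by simpa [Function.comp_def] using hs)
  rintro ⟨a, b⟩ h
  cases a with
  | zero => exact h0 b
  | succ a => exact absurd ⟨(a, b), rfl⟩ h

theorem summable_bdd_mul {f : ℕ → ℕ → ℝ} {K : ℝ} (hf : ∀ i j, |f i j| ≤ K) {F G : ℕ → ℝ}
    (hF : Summable fun i : ℕ => |F i|) (hG : Summable fun j : ℕ => |G j|) :
    Summable fun x : ℕ × ℕ => f x.1 x.2 * (F x.1 * G x.2) := by
  apply Summable.of_norm_bounded ((hF.mul_of_nonneg hG (fun i => by positivity)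
    (fun j => by positivity)).mul_left K)
  rintro ⟨i, j⟩
  simp only [norm_mul, Real.norm_eq_abs]
  have h3 : 0 ≤ |F i| * |G j| := by positivity
  have := hf i j
  calc |f i j| * (|F i| * |G j|) ≤ K * (|F i| * |G j|) := by gcongr
    _ = _ := by ring

/-- adjoint identity for the generator, first index. -/
theorem adj1 {f : ℕ → ℕ → ℝ} {K : ℝ} (hf : ∀ i j, |f i j| ≤ K) (r : ℝ) {P Q : ℕ → ℝ}
    (hP : Summable fun i : ℕ => ((i : ℝ) + 1) * |P i|) (hQ : Summable fun i : ℕ => |Q i|) :
    ∃ a, HasSum (fun x : ℕ × ℕ => f x.1 x.2 * (gen r P x.1 * Q x.2)) a ∧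
      HasSum (fun x : ℕ × ℕ => back r (fun i => f i x.2) x.1 * (P x.1 * Q x.2)) a := by
  have hP1 : Summable fun i : ℕ => |((i : ℝ) + 1) * P i| := by
    refine hP.congr fun i => ?_
    rw [abs_mul, abs_of_nonneg (by positivity : (0 : ℝ) ≤ (i : ℝ) + 1)]
  have hP2 : Summable fun i : ℕ => |((i : ℝ) + 1) * P (i + 1)| := by
    refine (shift_summable hP).congr fun i => ?_
    rw [abs_mul, abs_of_nonneg (by positivity : (0 : ℝ) ≤ (i : ℝ) + 1)]
  have hP3 : Summable fun i : ℕ => |(i : ℝ) * P i| := by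
    apply Summable.of_nonneg_of_le (fun i => abs_nonneg _) _ hP
    intro i
    rw [abs_mul, abs_of_nonneg (by positivity : (0 : ℝ) ≤ (i : ℝ))]
    have : 0 ≤ |P i| := abs_nonneg _
    linarith
  obtain ⟨a, ha⟩ := summable_bdd_mul (fun i j => hf (i + 1) j) hP1 hQ
  obtain ⟨b, hb⟩ := summable_bdd_mul hf hP2 hQ
  obtain ⟨e, he⟩ := summable_bdd_mul hf hP1 hQ
  obtain ⟨d, hd⟩ := summable_bdd_mul hf hP3 hQ
  have ha' : HasSum (fun x : ℕ × ℕ => f x.1 x.2 * ((x.1 : ℝ) * P (x.1 - 1) * Q x.2)) a := by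
    apply hasSum_shift1
    · intro j; simp
    · refine ha.congr_fun fun x => ?_
      simp only [Nat.cast_add, Nat.cast_one, add_tsub_cancel_right]
  have hb' : HasSum (fun x : ℕ × ℕ => f (x.1 - 1) x.2 * ((x.1 : ℝ) * P x.1 * Q x.2)) b := by
    apply hasSum_shift1
    · intro j; simp
    · refine hb.congr_fun fun x => ?_
      simp only [add_tsub_cancel_right, Nat.cast_add, Nat.cast_one]
  refine ⟨r * a + (r + 1) * b - r * e - (r + 1) * d, ?_, ?_⟩
  · refine ((((ha'.mul_left r).add (hb.mul_left (r + 1))).sub (he.mul_left r)).sub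
      (hd.mul_left (r + 1))).congr_fun fun x => ?_
    unfold gen
    ring
  · refine ((((ha.mul_left r).add (hb'.mul_left (r + 1))).sub (he.mul_left r)).sub
      (hd.mul_left (r + 1))).congr_fun fun x => ?_
    unfold back
    ring

/-- adjoint identity for the generator, second index. -/
theorem adj2 {f : ℕ → ℕ → ℝ} {K : ℝ} (hf : ∀ i j, |f i j| ≤ K) (r : ℝ) {P Q : ℕ → ℝ}
    (hP : Summable fun i : ℕ => |P i|) (hQ : Summable fun i : ℕ => ((i : ℝ) + 1) * |Q i|) :
    ∃ a, HasSum (fun x : ℕ × ℕ => f x.1 x.2 * (P x.1 * gen r Q x.2)) a ∧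
      HasSum (fun x : ℕ × ℕ => back r (fun j => f x.1 j) x.2 * (P x.1 * Q x.2)) a := by
  obtain ⟨a, h1, h2⟩ := adj1 (f := fun i j => f j i) (fun i j => hf j i) r hQ hP
  refine ⟨a, ?_, ?_⟩
  · have := (Equiv.prodComm ℕ ℕ).hasSum_iff.2 h1
    refine this.congr_fun fun x => ?_
    simp [mul_comm]
  · have := (Equiv.prodComm ℕ ℕ).hasSum_iff.2 h2
    refine this.congr_fun fun x => ?_
    simp [mul_comm]

variable {η : ℝ}

theorem ker_abs_le (h0 : 0 ≤ η) (h1 : η ≤ 1) (k i j : ℕ) : |ker η k i j| ≤ 1 := by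
  rw [abs_of_nonneg (ker_nonneg η k i j)]; exact ker_le_one h0 h1 k i j

/-- the output of the derivatives is the generator of the output. -/
theorem out_gen (h0 : 0 ≤ η) (h1 : η ≤ 1) (r s : ℝ) {P Q : ℕ → ℝ}
    (hP : Summable fun i : ℕ => ((i : ℝ) + 1) * |P i|)
    (hQ : Summable fun i : ℕ => ((i : ℝ) + 1) * |Q i|) (k : ℕ) :
    ∑' x : ℕ × ℕ, ker η k x.1 x.2 * (gen r P x.1 * Q x.2 + P x.1 * gen s Q x.2) =
      gen (η * r + (1 - η) * s) (out η P Q) k := by
  have hP' : Summable fun i : ℕ => |P i| := by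
    apply Summable.of_nonneg_of_le (fun i => abs_nonneg _) _ hP
    intro i
    have : 0 ≤ |P i| := abs_nonneg _
    have h2 : (0 : ℝ) ≤ i := Nat.cast_nonneg i
    nlinarith only [this]
  have hQ' : Summable fun i : ℕ => |Q i| := by
    apply Summable.of_nonneg_of_le (fun i => abs_nonneg _) _ hQ
    intro i
    have : 0 ≤ |Q i| := abs_nonneg _
    have h2 : (0 : ℝ) ≤ i := Nat.cast_nonneg i
    nlinarith only [this]
  obtain ⟨a, a1, a2⟩ := adj1 (ker_abs_le h0 h1 k) r hP hQ'
  obtain ⟨b, b1, b2⟩ := adj2 (ker_abs_le h0 h1 k) s hP' hQ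
  have e1 : HasSum (fun x : ℕ × ℕ => ker η k x.1 x.2 * (gen r P x.1 * Q x.2 +
      P x.1 * gen s Q x.2)) (a + b) := (a1.add b1).congr_fun fun x => by ring
  have H : ∀ k, HasSum (fun x : ℕ × ℕ => ker η k x.1 x.2 * (P x.1 * Q x.2))
      (out η P Q k) := fun k => (summable_ker_mul h0 h1 k hP' hQ').hasSum
  set c := η * r + (1 - η) * s with hc
  have e2 : HasSum (fun x : ℕ × ℕ => gen c (fun k => ker η k x.1 x.2) k * (P x.1 * Q x.2))
      (gen c (out η P Q) k) := by
    have := ((H (k - 1)).mul_left (c * k)).add ((H (k + 1)).mul_left ((c + 1) * (k + 1)))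
    have := this.sub ((H k).mul_left (c * (k + 1) + (c + 1) * k))
    unfold gen
    refine this.congr_fun fun x => ?_
    ring
  have e3 : HasSum (fun x : ℕ × ℕ => gen c (fun k => ker η k x.1 x.2) k * (P x.1 * Q x.2))
      (a + b) := by
    refine (a2.add b2).congr_fun fun x => ?_
    rw [hc, ker_gen h0 h1]
    ring
  rw [e1.tsum_eq, e2.unique e3]

end adj

end Vale.Agent.P369
end
end
end

section

section

section

/-!
The entropy photon-number inequality for arbitrary number-diagonal inputs, classical form.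
-/

namespace Vale.Agent.P369

open Filter Topology

noncomputable section

variable {α β : Type}

/-- The discrete order. -/
@[reducible] def discr (α : Type) : Preorder α where
  le := Eq
  le_refl := fun _ => rfl
  le_trans := fun _ _ _ h h' => h.trans h'

/-- The linear entropy inequality for all finite-support distributions. -/
def LinAll (K : α → α → α → ℝ) (a b d e : ℝ) : Prop :=
  ∀ p q : α → ℝ, IsFinProb p → IsFinProb q → b * Hs p + d * Hs q + e ≤ a * Hs (outG K p q)

theorem LinAll.prod {K₀ : α → α → α → ℝ} {K₁ : β → β → β → ℝ} (hK₀ : IsKer K₀) (hK₁ : IsKer K₁)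
    {a b d e₀ e₁ : ℝ} (ha : 0 ≤ a) (h₀ : LinAll K₀ a b d e₀) (h₁ : LinAll K₁ a b d e₁) :
    LinAll (prodKer K₀ K₁) a b d (e₀ + e₁) := by
  intro p q hp hq
  have anti : ∀ f : α × β → ℝ, @Antitone (α × β) ℝ
      (@Prod.instPreorder α β (discr α) (discr β)) _ f := by
    intro f x y hxy
    have h1 : x.1 = y.1 := hxy.1
    have h2 : x.2 = y.2 := hxy.2
    rw [Prod.ext h1 h2]
  exact @LinIneq.prod α β (discr α) (discr β) K₀ K₁ hK₀ hK₁ a b d e₀ e₁ ha
    (fun p q hp hq _ _ => h₀ p q hp hq) (fun p q hp hq _ _ => h₁ p q hp hq) p q hp hq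
    (anti p) (anti q)

theorem LinAll.of_equiv (e : α ≃ β) {K : β → β → β → ℝ} {a b d c : ℝ}
    (h : LinAll (fun k i j => K (e k) (e i) (e j)) a b d c) : LinAll K a b d c := by
  intro p q hp hq
  have := h (p ∘ e) (q ∘ e) (hp.comp_equiv e) (hq.comp_equiv e)
  have e1 : Hs (p ∘ e) = Hs p := Hs_comp_equiv e p
  have e2 : Hs (q ∘ e) = Hs q := Hs_comp_equiv e q
  have e3 : outG (fun k i j => K (e k) (e i) (e j)) (p ∘ e) (q ∘ e) = (outG K p q) ∘ e := by
    funext k
    exact outG_comp_equiv e K p q k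
  have e4 : Hs ((outG K p q) ∘ e) = Hs (outG K p q) := Hs_comp_equiv e _
  rw [e1, e2, e3, e4] at this
  exact this

theorem linAll_kern {η : ℝ} (h1 : ∀ i j, ∑' k, ker η k i j = 1) {a b d c : ℝ} (ha : 0 ≤ a)
    (h : LinAll (ker η) a b d c) (n : ℕ) : LinAll (kern (n := n) η) a b d (n * c) := by
  induction n with
  | zero =>
    intro p q hp hq
    have e1 : ∀ f : (Fin 0 → ℕ) → ℝ, IsFinProb f → ∀ x, f x = 1 := by
      intro f hf x
      have := hf.one
      rw [tsum_fintype] at this
      simp only [Finset.univ_unique, Finset.sum_singleton] at this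
      rw [← this]
      exact congrArg f (Subsingleton.elim _ _)
    have e2 : Hs p = 0 := by
      unfold Hs
      simp [e1 p hp]
    have e3 : Hs q = 0 := by
      unfold Hs
      simp [e1 q hq]
    have e4 : ∀ k, outG (kern (n := 0) η) p q k = 1 := by
      intro k
      unfold outG
      rw [tsum_fintype]
      simp only [kern, Finset.univ_eq_empty, Finset.prod_empty, e1 p hp, e1 q hq, mul_one, Finset.sum_const, Finset.card_univ, Fintype.card_prod, Fintype.card_unique, one_smul]
    have e5 : Hs (outG (kern (n := 0) η) p q) = 0 := by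
      unfold Hs
      simp [e4]
    rw [e2, e3, e5]
    simp
  | succ n ih =>
    apply LinAll.of_equiv (Fin.consOrderIso (fun _ : Fin (n + 1) => ℕ)).toEquiv
    have := LinAll.prod (ker_isKer h1) (kern_isKer h1 n) ha h ih
    have e : c + n * c = ((n + 1 : ℕ) : ℝ) * c := by push_cast; ring
    rw [e] at this
    convert this using 4 with k i j
    exact kern_succ η k i j

theorem lin_n_all {η : ℝ} (h1 : ∀ i j, ∑' k, ker η k i j = 1) {a b d c : ℝ} (ha : 0 ≤ a)
    (h : ∀ p q : ℕ → ℝ, IsProb p → IsProb q → (Function.support p).Finite →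
      (Function.support q).Finite → b * Hs p + d * Hs q + c ≤ a * Hs (out η p q))
    {n : ℕ} {p q : Conf n → ℝ} (hp : IsProb p) (hq : IsProb q)
    (Ep : Summable fun k : Conf n => (∑ j, (k j : ℝ)) * p k)
    (Eq : Summable fun k : Conf n => (∑ j, (k j : ℝ)) * q k) :
    b * Hs p + d * Hs q + n * c ≤ a * Hs (outn η p q) := by
  have h' : LinAll (ker η) a b d c := fun p q hp hq =>
    h p q hp.isProb hq.isProb hp.fin hq.fin
  have hk := kern_isKer h1 n
  have anti : ∀ f : Conf n → ℝ, @Antitone (Conf n) ℝ (discr (Conf n)) _ f := by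
    intro f x y hxy
    have h2 : x = y := hxy
    rw [h2]
  exact @lin_limit (Conf n) (discr (Conf n)) (kern η) hk.nonneg
    (fun k l => by
      rw [← hk.one k l]
      exact (summable_of_hasFiniteSupport (hk.fin k l)).hasSum) tot
    tot_nonneg (summable_exp_tot n) kern_tot (box n) (tendsto_box n)
    (fun N k l hkl hl => by
      have h2 : k = l := hkl
      rw [h2]; exact hl) a b d (n * c)
    (fun p q hp hq _ _ => linAll_kern h1 ha h' n p q hp hq) p q hp hq (anti p) (anti q) Ep Eq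

/-- The entropy photon-number inequality from the linear inequalities, classical form. -/
theorem epni_of_lin_all {η : ℝ} (hη0 : 0 ≤ η) (hη1 : η ≤ 1) (hker : ∀ i j, ∑' k, ker η k i j = 1)
    (hlin : ∀ r s : ℝ, 0 < r → 0 < s → ∀ p q : ℕ → ℝ, IsProb p → IsProb q →
      (Function.support p).Finite → (Function.support q).Finite →
      η * theta r * (Hs p - Real.log (1 + r)) + (1 - η) * theta s * (Hs q - Real.log (1 + s)) ≤
        theta (η * r + (1 - η) * s) * (Hs (out η p q) - Real.log (1 + (η * r + (1 - η) * s))))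
    {n : ℕ} (hn : 0 < n) {p q : Conf n → ℝ} (hp : IsProb p) (hq : IsProb q)
    (Ep : Summable fun k : Conf n => (∑ j, (k j : ℝ)) * p k)
    (Eq : Summable fun k : Conf n => (∑ j, (k j : ℝ)) * q k)
    {NA NB : ℝ} (hA : 0 ≤ NA) (hB : 0 ≤ NB) (gA : g NA = Hs p / n) (gB : g NB = Hs q / n) :
    g (η * NA + (1 - η) * NB) ≤ Hs (outn η p q) / n := by
  have hn' : (0 : ℝ) < n := Nat.cast_pos.mpr hn
  have hk := kern_isKer hker n
  have hout : IsProb (outn η p q) := outG_isProb (K := kern η) hk.nonneg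
    (fun k l => by
      rw [← hk.one k l]
      exact (summable_of_hasFiniteSupport (hk.fin k l)).hasSum) hp hq
  have h1η : 0 ≤ 1 - η := by linarith only [hη1]
  have hc0 : 0 ≤ η * NA + (1 - η) * NB := by (clear * - hη0 hA hη1 hB; positivity)
  set c0 := η * NA + (1 - η) * NB with hc0def
  rcases hc0.eq_or_lt with h | h
  · rw [← h, g_zero]
    exact div_nonneg (Hs_nonneg hout) hn'.le
  have key : ∀ ε : ℝ, 0 < ε → η * (theta (NA + ε) * (g NA - Real.log (1 + (NA + ε)))) +
      (1 - η) * (theta (NB + ε) * (g NB - Real.log (1 + (NB + ε)))) ≤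
      theta (c0 + ε) * (Hs (outn η p q) / n - Real.log (1 + (c0 + ε))) := by
    intro ε hε
    have hr : 0 < NA + ε := by (clear * - hA hε; positivity)
    have hs : 0 < NB + ε := by positivity
    have ec : η * (NA + ε) + (1 - η) * (NB + ε) = c0 + ε := by
      rw [hc0def]; ring
    have hc : 0 < c0 + ε := by (clear * - h hε; positivity)
    have hl := hlin (NA + ε) (NB + ε) hr hs
    rw [ec] at hl
    have h2 := lin_n_all hker (a := theta (c0 + ε)) (b := η * theta (NA + ε))
      (d := (1 - η) * theta (NB + ε))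
      (c := -(η * theta (NA + ε) * Real.log (1 + (NA + ε))) -
        (1 - η) * theta (NB + ε) * Real.log (1 + (NB + ε)) +
        theta (c0 + ε) * Real.log (1 + (c0 + ε))) (theta_pos hc).le
      (fun p q hp hq fp fq => by
        have := hl p q hp hq fp fq
        linarith only [this]) hp hq Ep Eq
    rw [gA, gB]
    have h3 : (n : ℝ) * (η * (theta (NA + ε) * (Hs p / n - Real.log (1 + (NA + ε)))) +
      (1 - η) * (theta (NB + ε) * (Hs q / n - Real.log (1 + (NB + ε))))) ≤
      n * (theta (c0 + ε) * (Hs (outn η p q) / n - Real.log (1 + (c0 + ε)))) := by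
      have e1 : (n : ℝ) * (η * (theta (NA + ε) * (Hs p / n - Real.log (1 + (NA + ε)))) +
        (1 - η) * (theta (NB + ε) * (Hs q / n - Real.log (1 + (NB + ε))))) =
        η * theta (NA + ε) * Hs p + (1 - η) * theta (NB + ε) * Hs q +
        n * (-(η * theta (NA + ε) * Real.log (1 + (NA + ε))) -
        (1 - η) * theta (NB + ε) * Real.log (1 + (NB + ε))) := by
        field_simp
        ring
      have e2 : (n : ℝ) * (theta (c0 + ε) * (Hs (outn η p q) / n - Real.log (1 + (c0 + ε)))) =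
        theta (c0 + ε) * Hs (outn η p q) - n * (theta (c0 + ε) * Real.log (1 + (c0 + ε))) := by
        (clear * - hn; field_simp)
      rw [e1, e2]
      linarith only [h2]
    exact le_of_mul_le_mul_left h3 hn'
  have L1 := ((tendsto_term hA).const_mul η).add ((tendsto_term hB).const_mul (1 - η))
  have L2 : Tendsto (fun ε : ℝ => theta (c0 + ε) *
      (Hs (outn η p q) / n - Real.log (1 + (c0 + ε)))) (𝓝[>] 0)
      (𝓝 (theta c0 * (Hs (outn η p q) / n - Real.log (1 + c0)))) := by
    have : ContinuousAt (fun ε : ℝ => theta (c0 + ε) *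
        (Hs (outn η p q) / n - Real.log (1 + (c0 + ε)))) 0 := by
      apply ContinuousAt.mul
      · have h2 : ContinuousAt (fun ε : ℝ => c0 + ε) 0 := continuousAt_const.add continuousAt_id
        have h3 : ContinuousAt theta (c0 + 0) := by
          rw [add_zero]; exact continuousAt_theta h
        exact ContinuousAt.comp (f := fun ε : ℝ => c0 + ε) h3 h2
      · apply continuousAt_const.sub
        apply ContinuousAt.log
        · exact continuousAt_const.add (continuousAt_const.add continuousAt_id)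
        · (clear * - h; positivity)
    have h2 := this.tendsto
    simp only [add_zero] at h2
    exact h2.mono_left nhdsWithin_le_nhds
  have hfin : η * NA + (1 - η) * NB ≤ theta c0 * (Hs (outn η p q) / n - Real.log (1 + c0)) := by
    apply le_of_tendsto_of_tendsto L1 L2
    filter_upwards [self_mem_nhdsWithin] with ε hε
    exact key ε hε
  rw [← hc0def] at hfin
  rw [g_eq h]
  unfold theta at hfin
  have hb := beta_pos h
  rw [one_div, inv_mul_eq_div, le_div_iff₀ hb] at hfin
  linarith only [hfin]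

/-- The entropy photon-number inequality from the linear inequalities, with the inverse of `g`. -/
theorem epni_inv_all {η : ℝ} (hη0 : 0 ≤ η) (hη1 : η ≤ 1) (hker : ∀ i j, ∑' k, ker η k i j = 1)
    (hlin : ∀ r s : ℝ, 0 < r → 0 < s → ∀ p q : ℕ → ℝ, IsProb p → IsProb q →
      (Function.support p).Finite → (Function.support q).Finite →
      η * theta r * (Hs p - Real.log (1 + r)) + (1 - η) * theta s * (Hs q - Real.log (1 + s)) ≤
        theta (η * r + (1 - η) * s) * (Hs (out η p q) - Real.log (1 + (η * r + (1 - η) * s))))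
    {n : ℕ} (hn : 0 < n) {p q : Conf n → ℝ} (hp : IsProb p) (hq : IsProb q)
    (Ep : Summable fun k : Conf n => (∑ j, (k j : ℝ)) * p k)
    (Eq : Summable fun k : Conf n => (∑ j, (k j : ℝ)) * q k) :
    η * Function.invFunOn g (Set.Ici 0) (Hs p / n) +
      (1 - η) * Function.invFunOn g (Set.Ici 0) (Hs q / n) ≤
      Function.invFunOn g (Set.Ici 0) (Hs (outn η p q) / n) := by
  have hn' : (0 : ℝ) < n := Nat.cast_pos.mpr hn
  have hk := kern_isKer hker n
  have hout : IsProb (outn η p q) := outG_isProb (K := kern η) hk.nonneg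
    (fun k l => by
      rw [← hk.one k l]
      exact (summable_of_hasFiniteSupport (hk.fin k l)).hasSum) hp hq
  obtain ⟨a0, a1⟩ := invFunOn_g (div_nonneg (Hs_nonneg hp) hn'.le)
  obtain ⟨b0, b1⟩ := invFunOn_g (div_nonneg (Hs_nonneg hq) hn'.le)
  obtain ⟨c0, c1⟩ := invFunOn_g (div_nonneg (Hs_nonneg hout) hn'.le)
  have h := epni_of_lin_all hη0 hη1 hker hlin hn hp hq Ep Eq a0 b0 a1 b1
  rw [← c1, g_le_iff _ c0] at h
  · exact h
  · exact add_nonneg (mul_nonneg hη0 a0) (mul_nonneg (by linarith only [hη1]) b0)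

end

end Vale.Agent.P369

end
end
end

section

section

/-!
Truncation bounds for the entropy of a positive trace-class operator: comparison of
`∑ i, ⟨e i, η(ρ) e i⟩` with the entropy of the compression of `ρ` to the span of a finite
orthonormal family `e`.
-/

namespace Vale.Agent.P369V

open scoped InnerProductSpace ComplexOrder
open Matrix Filter Topology

noncomputable section

theorem ga_ent_eq {m : Type} [Fintype m] [DecidableEq m] {A : Matrix m m ℂ}
    (hA : A.IsHermitian) : ent A = ∑ i, Real.negMulLog (hA.eigenvalues i) := by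
  unfold ent
  rw [hA.cfc_eq, IsHermitian.cfc, Unitary.conjStarAlgAut_apply, Matrix.trace_mul_comm,
    ← Matrix.mul_assoc, Unitary.coe_star_mul_self, Matrix.one_mul, Matrix.trace_diagonal]
  simp only [Complex.coe_algebraMap, Function.comp_apply, Complex.re_sum, Complex.ofReal_re]

section

variable {κ : Type} [Fintype κ] [DecidableEq κ]
variable {H : Type} [NormedAddCommGroup H] [InnerProductSpace ℂ H]

/-- The matrix of the compression of `ρ` to the span of the `e i`. -/
def gaC (e : κ → H) (ρ : H →L[ℂ] H) : Matrix κ κ ℂ := Matrix.of fun i j => ⟪e i, ρ (e j)⟫_ℂ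

/-- the vector with coordinates `U i a`. -/
def gaV (e : κ → H) (U : Matrix κ κ ℂ) (a : κ) : H := ∑ i, U i a • e i

omit [DecidableEq κ] in
theorem ga_inner (e : κ → H) (U : Matrix κ κ ℂ) (T : H →L[ℂ] H) (a b : κ) :
    ⟪gaV e U a, T (gaV e U b)⟫_ℂ = (Uᴴ * gaC e T * U) a b := by
  unfold gaV gaC
  simp only [map_sum, map_smul, inner_sum, sum_inner, inner_smul_left, inner_smul_right,
    Matrix.mul_apply, Matrix.conjTranspose_apply, Matrix.of_apply, Finset.sum_mul,
    RCLike.star_def]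
  refine Finset.sum_congr rfl fun i _ => ?_
  rw [Finset.mul_sum]
  refine Finset.sum_congr rfl fun j _ => ?_
  ring

omit [Fintype κ] in
theorem ga_id {e : κ → H} (he : Orthonormal ℂ e) :
    gaC e (ContinuousLinearMap.id ℂ H) = 1 := by
  ext i j
  simp only [gaC, Matrix.of_apply, ContinuousLinearMap.coe_id', id_eq, Matrix.one_apply]
  rw [orthonormal_iff_ite.1 he]

theorem ga_inner_self {e : κ → H} (he : Orthonormal ℂ e)
    {U : Matrix κ κ ℂ} (hU : Uᴴ * U = 1) (a b : κ) :
    ⟪gaV e U a, gaV e U b⟫_ℂ = if a = b then 1 else 0 := by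
  have h := ga_inner e U (ContinuousLinearMap.id ℂ H) a b
  rw [ga_id he, Matrix.mul_one, hU, Matrix.one_apply] at h
  exact h

theorem ga_sum (e : κ → H) {U : Matrix κ κ ℂ} (hU : U * Uᴴ = 1) (T : H →L[ℂ] H) :
    ∑ a, ⟪gaV e U a, T (gaV e U a)⟫_ℂ = ∑ i, ⟪e i, T (e i)⟫_ℂ := by
  simp only [ga_inner]
  rw [show ∑ a, (Uᴴ * gaC e T * U) a a = (Uᴴ * gaC e T * U).trace from rfl,
      Matrix.trace_mul_comm, ← Matrix.mul_assoc, hU, Matrix.one_mul]
  rfl

omit [Fintype κ] [DecidableEq κ] in
theorem ga_herm [CompleteSpace H] (e : κ → H) {ρ : H →L[ℂ] H} (hρ : IsSelfAdjoint ρ) :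
    (gaC e ρ).IsHermitian := by
  ext i j
  simp only [gaC, Matrix.of_apply, Matrix.conjTranspose_apply, RCLike.star_def, inner_conj_symm]
  rw [← ContinuousLinearMap.adjoint_inner_right, hρ.adjoint_eq]

/-- the eigenvectors of the compression. -/
theorem ga_eig [CompleteSpace H] (e : κ → H) {ρ : H →L[ℂ] H} (hρ : IsSelfAdjoint ρ)
    (a b : κ) :
    ⟪gaV e ((ga_herm e hρ).eigenvectorUnitary : Matrix κ κ ℂ) a,
      ρ (gaV e ((ga_herm e hρ).eigenvectorUnitary : Matrix κ κ ℂ) b)⟫_ℂ
      = if a = b then ((ga_herm e hρ).eigenvalues a : ℂ) else 0 := by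
  have h := (ga_herm e hρ).conjStarAlgAut_star_eigenvectorUnitary
  rw [Unitary.conjStarAlgAut_apply, Unitary.coe_star, star_star] at h
  rw [ga_inner, ← Matrix.star_eq_conjTranspose, h, Matrix.diagonal_apply]
  simp

theorem ga_norm {e : κ → H} (he : Orthonormal ℂ e)
    {U : Matrix κ κ ℂ} (hU : Uᴴ * U = 1) (a : κ) : ‖gaV e U a‖ = 1 := by
  have h := congrArg Complex.re (ga_inner_self he hU a a)
  rw [if_pos rfl, Complex.one_re] at h
  have h2 := @inner_self_eq_norm_sq ℂ H _ _ _ (gaV e U a)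
  rw [RCLike.re_to_complex, h] at h2
  nlinarith [norm_nonneg (gaV e U a)]

end

section

variable {H : Type} [NormedAddCommGroup H] [InnerProductSpace ℂ H] [CompleteSpace H]

omit [CompleteSpace H] in
theorem ga_mono {A B : H →L[ℂ] H} (h : A ≤ B) (u : H) :
    (⟪u, A u⟫_ℂ).re ≤ (⟪u, B u⟫_ℂ).re := by
  have h1 := (ContinuousLinearMap.le_def A B).1 h
  have h2 := h1.re_inner_nonneg_right u
  simp only [_root_.sub_apply, inner_sub_right, map_sub, RCLike.re_to_complex] at h2
  linarith only [h2]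

theorem ga_cont (s : Set ℝ) : ContinuousOn Real.negMulLog s :=
  Real.continuous_negMulLog.continuousOn

theorem ga_spec {ρ : H →L[ℂ] H} (hρ : 0 ≤ ρ) : ∀ x ∈ spectrum ℝ ρ, 0 ≤ x :=
  fun _ hx => spectrum_nonneg_of_nonneg hρ hx

/-- tangent line. -/
theorem ga_eta_le {ρ : H →L[ℂ] H} (hρ : 0 ≤ ρ) {c : ℝ} (hc : 0 < c) :
    cfc Real.negMulLog ρ ≤ (-(Real.log c + 1)) • ρ + c • (1 : H →L[ℂ] H) := by
  have hsa : IsSelfAdjoint ρ := IsSelfAdjoint.of_nonneg hρ
  have h2 : (-(Real.log c + 1)) • ρ + c • (1 : H →L[ℂ] H)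
      = cfc (fun x : ℝ => (-(Real.log c + 1)) * x + c) ρ := by
    rw [cfc_add (a := ρ) (fun x : ℝ => (-(Real.log c + 1)) * x) (fun _ => c) (by fun_prop)
      (by fun_prop), cfc_const_mul_id (-(Real.log c + 1)) ρ hsa, cfc_const c ρ hsa,
      Algebra.algebraMap_eq_smul_one]
  rw [h2]
  refine cfc_mono ?_ (ga_cont _) (by fun_prop)
  intro x hx
  have hx0 := ga_spec hρ x hx
  rcases hx0.eq_or_lt with h | h
  · rw [← h, Real.negMulLog_zero]; linarith only [hc]
  · have h3 := Real.log_le_sub_one_of_pos (div_pos hc h)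
    rw [Real.log_div hc.ne' h.ne'] at h3
    unfold Real.negMulLog
    have h4 : x * (Real.log c - Real.log x) ≤ x * (c / x - 1) := mul_le_mul_of_nonneg_left h3 h.le
    have h5 : x * (c / x - 1) = c - x := by (clear * - h; field_simp)
    nlinarith only [h4, h5]

/-- Jensen. -/
theorem ga_jensen {ρ : H →L[ℂ] H} (hρ : 0 ≤ ρ) {u : H} (hu : ‖u‖ = 1) :
    (⟪u, cfc Real.negMulLog ρ u⟫_ℂ).re ≤ Real.negMulLog (⟪u, ρ u⟫_ℂ).re := by
  set c := (⟪u, ρ u⟫_ℂ).re with hc
  have key : ∀ c' : ℝ, 0 < c' → (⟪u, cfc Real.negMulLog ρ u⟫_ℂ).re ≤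
      (-(Real.log c' + 1)) * c + c' := by
    intro c' hc'
    have h := ga_mono (ga_eta_le hρ hc') u
    have h2 : (⟪u, ((-(Real.log c' + 1)) • ρ + c' • (1 : H →L[ℂ] H)) u⟫_ℂ).re
        = (-(Real.log c' + 1)) * c + c' := by
      simp only [_root_.add_apply, _root_.smul_apply,
        one_apply_eq_self, inner_add_right, inner_smul_right_eq_smul,
        Complex.add_re, Complex.smul_re, inner_self_eq_norm_sq_to_K, hu, smul_eq_mul, hc]
      simp
    rwa [h2] at h
  have hc0 : 0 ≤ c := by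
    have := ((ContinuousLinearMap.nonneg_iff_isPositive ρ).1 hρ).re_inner_nonneg_right u
    simpa only [ge_iff_le, RCLike.re_to_complex] using this
  rcases hc0.eq_or_lt with h | h
  · rw [← h, Real.negMulLog_zero]
    by_contra hcon
    push Not at hcon
    have := key _ (half_pos hcon)
    rw [← h] at this
    (clear hρ hu c hc key hc0 h; linarith)
  · have := key c h
    have h2 : Real.negMulLog c = -c * Real.log c := rfl
    rw [h2]
    (clear hc0 h2; linarith)

/-- `l (1 - log l) x ≤ x ^ 2 + l η(x)`. -/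
theorem ga_eta_ge {ρ : H →L[ℂ] H} (hρ : 0 ≤ ρ) {l : ℝ} (hl : 0 < l) :
    (l * (1 - Real.log l)) • ρ ≤ ρ * ρ + l • cfc Real.negMulLog ρ := by
  have hsa : IsSelfAdjoint ρ := IsSelfAdjoint.of_nonneg hρ
  have h1 : (l * (1 - Real.log l)) • ρ = cfc (fun x : ℝ => (l * (1 - Real.log l)) * x) ρ := by
    rw [cfc_const_mul_id _ ρ hsa]
  have h2 : ρ * ρ + l • cfc Real.negMulLog ρ
      = cfc (fun x : ℝ => x * x + l * Real.negMulLog x) ρ := by
    have hcont := ga_cont (spectrum ℝ ρ)
    rw [cfc_add (a := ρ) (fun x : ℝ => x * x) (fun x => l * Real.negMulLog x)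
      (by fun_prop) (by fun_prop),
      cfc_mul (fun x : ℝ => x) (fun x : ℝ => x) ρ, cfc_id' ℝ ρ,
      cfc_const_mul l Real.negMulLog ρ hcont]
  rw [h1, h2]
  have hcont := ga_cont (spectrum ℝ ρ)
  refine cfc_mono ?_ (by fun_prop) (by fun_prop)
  intro x hx
  have hx0 := ga_spec hρ x hx
  rcases hx0.eq_or_lt with h | h
  · rw [← h]; simp
  · have h3 := Real.log_le_sub_one_of_pos (div_pos h hl)
    rw [Real.log_div h.ne' hl.ne'] at h3
    unfold Real.negMulLog
    have h4 : l * (Real.log x - Real.log l) ≤ l * (x / l - 1) := mul_le_mul_of_nonneg_left h3 hl.le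
    have h5 : l * (x / l - 1) = x - l := by (clear * - hl; field_simp)
    nlinarith only [hx0, h4, h5]

theorem ga_sqrt_sa (ρ : H →L[ℂ] H) (x y : H) :
    ⟪CFC.sqrt ρ x, y⟫_ℂ = ⟪x, CFC.sqrt ρ y⟫_ℂ := by
  have hs : IsSelfAdjoint (CFC.sqrt ρ) := IsSelfAdjoint.of_nonneg (CFC.sqrt_nonneg ρ)
  rw [← ContinuousLinearMap.adjoint_inner_left, hs.adjoint_eq]

theorem ga_sqrt_sqrt {ρ : H →L[ℂ] H} (hρ : 0 ≤ ρ) (x : H) :
    CFC.sqrt ρ (CFC.sqrt ρ x) = ρ x := by
  have h := CFC.sqrt_mul_sqrt_self ρ hρ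
  exact congrArg (fun T : H →L[ℂ] H => T x) h

/-- The trace dominates every partial trace over an orthonormal family. -/
theorem ga_trace {ι : Type} {e : ι → H} (he : Orthonormal ℂ e)
    (hd : Dense (Submodule.span ℂ (Set.range e) : Set H)) {ρ : H →L[ℂ] H} (hρ : 0 ≤ ρ)
    {t : ℝ} (ht : HasSum (fun k => (⟪e k, ρ (e k)⟫_ℂ).re) t)
    {κ : Type} [Fintype κ] {w : κ → H} (hw : Orthonormal ℂ w) :
    ∑ a, (⟪w a, ρ (w a)⟫_ℂ).re ≤ t := by
  have hsp : ⊤ ≤ (Submodule.span ℂ (Set.range e)).topologicalClosure := by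
    rw [Submodule.dense_iff_topologicalClosure_eq_top.1 hd]
  set b : HilbertBasis ι ℂ H := HilbertBasis.mk he hsp with hb
  have hbe : ∀ k, b k = e k := fun k => congrFun (HilbertBasis.coe_mk he hsp) k
  set s := CFC.sqrt ρ with hs
  have h1 : ∀ a, HasSum (fun k => ‖⟪w a, s (e k)⟫_ℂ‖ ^ 2) (⟪w a, ρ (w a)⟫_ℂ).re := by
    intro a
    have h := b.hasSum_inner_mul_inner (s (w a)) (s (w a))
    have h2 := Complex.hasSum_re h
    rw [ga_sqrt_sa, ga_sqrt_sqrt hρ] at h2
    convert h2 using 2 with k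
    rw [hbe, ga_sqrt_sa, ← inner_conj_symm (e k) (s (w a)), ga_sqrt_sa, Complex.mul_conj,
      Complex.ofReal_re, Complex.normSq_eq_norm_sq]
  have h2 : HasSum (fun k => ∑ a, ‖⟪w a, s (e k)⟫_ℂ‖ ^ 2) (∑ a, (⟪w a, ρ (w a)⟫_ℂ).re) :=
    hasSum_sum fun a _ => h1 a
  refine hasSum_le (fun k => ?_) h2 ht
  have h3 := hw.sum_inner_products_le (x := s (e k)) (s := Finset.univ)
  refine h3.trans ?_
  have h4 := @inner_self_eq_norm_sq ℂ H _ _ _ (s (e k))
  rw [← h4, ga_sqrt_sa, ga_sqrt_sqrt hρ]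
  exact le_rfl

theorem ga_trace1 {ι : Type} {e : ι → H} (he : Orthonormal ℂ e)
    (hd : Dense (Submodule.span ℂ (Set.range e) : Set H)) {ρ : H →L[ℂ] H} (hρ : 0 ≤ ρ)
    {t : ℝ} (ht : HasSum (fun k => (⟪e k, ρ (e k)⟫_ℂ).re) t) (x : H) :
    (⟪x, ρ x⟫_ℂ).re ≤ t * ‖x‖ ^ 2 := by
  rcases eq_or_ne x 0 with h | h
  · rw [h]; simp
  · have hx : 0 < ‖x‖ := norm_pos_iff.2 h
    set y : H := ((‖x‖⁻¹ : ℝ) : ℂ) • x with hy
    have hy1 : ‖y‖ = 1 := by
      rw [hy, norm_smul, Complex.norm_real, Real.norm_eq_abs, abs_of_pos (inv_pos.2 hx)]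
      field_simp
    have hw : Orthonormal ℂ (fun _ : Unit => y) := by
      rw [orthonormal_iff_ite]
      intro i j
      rw [if_pos (Subsingleton.elim i j), inner_self_eq_norm_sq_to_K, hy1]
      simp
    have h1 := ga_trace he hd hρ ht hw
    rw [Fintype.sum_unique] at h1
    have h2 : (⟪y, ρ y⟫_ℂ).re = (‖x‖⁻¹) ^ 2 * (⟪x, ρ x⟫_ℂ).re := by
      rw [hy, map_smul, inner_smul_left, inner_smul_right, ← mul_assoc, Complex.conj_ofReal,
        ← Complex.ofReal_mul, Complex.re_ofReal_mul, sq]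
    rw [h2] at h1
    have h3 : (⟪x, ρ x⟫_ℂ).re = ‖x‖ ^ 2 * ((‖x‖⁻¹) ^ 2 * (⟪x, ρ x⟫_ℂ).re) := by
      field_simp
    rw [h3, mul_comm t]
    exact mul_le_mul_of_nonneg_left h1 (by positivity)

theorem ga_le_one {ι : Type} {e : ι → H} (he : Orthonormal ℂ e)
    (hd : Dense (Submodule.span ℂ (Set.range e) : Set H)) {ρ : H →L[ℂ] H} (hρ : 0 ≤ ρ)
    {t : ℝ} (ht : HasSum (fun k => (⟪e k, ρ (e k)⟫_ℂ).re) t) (ht1 : t ≤ 1) : ρ ≤ 1 := by
  rw [ContinuousLinearMap.le_def, ContinuousLinearMap.isPositive_def']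
  have hsa : IsSelfAdjoint (1 - ρ) := (IsSelfAdjoint.one _).sub (IsSelfAdjoint.of_nonneg hρ)
  refine ⟨hsa, fun x => ?_⟩
  have h := ga_trace1 he hd hρ ht x
  rw [ContinuousLinearMap.reApplyInnerSelf_apply, _root_.sub_apply, inner_sub_left, map_sub,
    one_apply_eq_self, inner_self_eq_norm_sq, RCLike.re_to_complex]
  have h2 : (⟪ρ x, x⟫_ℂ).re = (⟪x, ρ x⟫_ℂ).re := by
    rw [← inner_conj_symm, Complex.conj_re]
  rw [h2]
  nlinarith only [h, ht1]

theorem ga_spec_le {ι : Type} {e : ι → H} (he : Orthonormal ℂ e)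
    (hd : Dense (Submodule.span ℂ (Set.range e) : Set H)) {ρ : H →L[ℂ] H} (hρ : 0 ≤ ρ)
    {t : ℝ} (ht : HasSum (fun k => (⟪e k, ρ (e k)⟫_ℂ).re) t) (ht1 : t ≤ 1) :
    ∀ x ∈ spectrum ℝ ρ, x ≤ 1 := by
  have hsa : IsSelfAdjoint ρ := IsSelfAdjoint.of_nonneg hρ
  refine (le_algebraMap_iff_spectrum_le (r := (1 : ℝ)) hsa).1 ?_
  rw [map_one]
  exact ga_le_one he hd hρ ht ht1

theorem ga_eta_nonneg {ι : Type} {e : ι → H} (he : Orthonormal ℂ e)
    (hd : Dense (Submodule.span ℂ (Set.range e) : Set H)) {ρ : H →L[ℂ] H} (hρ : 0 ≤ ρ)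
    {t : ℝ} (ht : HasSum (fun k => (⟪e k, ρ (e k)⟫_ℂ).re) t) (ht1 : t ≤ 1) :
    0 ≤ cfc Real.negMulLog ρ := by
  refine cfc_nonneg fun x hx => ?_
  exact Real.negMulLog_nonneg (ga_spec hρ x hx) (ga_spec_le he hd hρ ht ht1 x hx)

variable {κ : Type} [Fintype κ] [DecidableEq κ]

/-- the entropy of a compression is at least the partial trace of `η(ρ)`. -/
theorem ga_T1 {e : κ → H} (he : Orthonormal ℂ e) {ρ : H →L[ℂ] H} (hρ : 0 ≤ ρ) :
    ∑ i, (⟪e i, cfc Real.negMulLog ρ (e i)⟫_ℂ).re ≤ ent (gaC e ρ) := by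
  have hsa : IsSelfAdjoint ρ := IsSelfAdjoint.of_nonneg hρ
  have hA := ga_herm e hsa
  rw [ga_ent_eq hA]
  set U : Matrix κ κ ℂ := (hA.eigenvectorUnitary : Matrix κ κ ℂ) with hU
  have hU1 : U * Uᴴ = 1 := by
    rw [← Matrix.star_eq_conjTranspose]; exact Unitary.coe_mul_star_self _
  have hU2 : Uᴴ * U = 1 := by
    rw [← Matrix.star_eq_conjTranspose]; exact Unitary.coe_star_mul_self _
  have h2 := congrArg Complex.re (ga_sum e hU1 (cfc Real.negMulLog ρ))
  rw [Complex.re_sum, Complex.re_sum] at h2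
  rw [← h2]
  refine Finset.sum_le_sum fun a _ => ?_
  have h3 := ga_jensen hρ (ga_norm he hU2 a)
  have h4 := ga_eig e hsa a a
  rw [if_pos rfl] at h4
  rw [h4, Complex.ofReal_re] at h3
  exact h3

/-- the entropy of a compression is at most the partial trace of `η(ρ)` plus the missing trace. -/
theorem ga_T2 {ι : Type} {b : ι → H} (hb : Orthonormal ℂ b)
    (hd : Dense (Submodule.span ℂ (Set.range b) : Set H)) {ρ : H →L[ℂ] H} (hρ : 0 ≤ ρ)
    {t : ℝ} (ht : HasSum (fun k => (⟪b k, ρ (b k)⟫_ℂ).re) t) (ht1 : t ≤ 1)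
    (e : κ → H) :
    ent (gaC e ρ) ≤ ∑ i, (⟪e i, cfc Real.negMulLog ρ (e i)⟫_ℂ).re
      + (t - (gaC e ρ).trace.re) := by
  have hsa : IsSelfAdjoint ρ := IsSelfAdjoint.of_nonneg hρ
  have hA := ga_herm e hsa
  rw [ga_ent_eq hA]
  set U : Matrix κ κ ℂ := (hA.eigenvectorUnitary : Matrix κ κ ℂ) with hU
  have hU1 : U * Uᴴ = 1 := by
    rw [← Matrix.star_eq_conjTranspose]; exact Unitary.coe_mul_star_self _
  set l : κ → ℝ := hA.eigenvalues with hl
  have huu : ∀ a b, ⟪gaV e U a, ρ (gaV e U b)⟫_ℂ = if a = b then (l a : ℂ) else 0 :=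
    fun a b => ga_eig e hsa a b
  have hl0 : ∀ a, 0 ≤ l a := by
    intro a
    have h := ((ContinuousLinearMap.nonneg_iff_isPositive ρ).1 hρ).re_inner_nonneg_right
      (gaV e U a)
    rw [huu, if_pos rfl] at h
    simpa only [ge_iff_le, RCLike.re_to_complex, Complex.ofReal_re] using h
  -- the orthonormal family `w`
  set S := {a : κ // 0 < l a} with hS
  set s := CFC.sqrt ρ with hs
  set w : S → H := fun a => (((Real.sqrt (l a.1))⁻¹ : ℝ) : ℂ) • s (gaV e U a.1) with hw
  have hwo : Orthonormal ℂ w := by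
    classical
    rw [orthonormal_iff_ite]
    intro a b
    simp only [hw]
    rw [inner_smul_left, inner_smul_right, ga_sqrt_sa, ga_sqrt_sqrt hρ, huu, Complex.conj_ofReal]
    by_cases h : a = b
    · subst h
      rw [if_pos rfl, if_pos rfl, ← mul_assoc, ← Complex.ofReal_mul, ← Complex.ofReal_mul,
        ← mul_inv, Real.mul_self_sqrt a.2.le, inv_mul_cancel₀ a.2.ne', Complex.ofReal_one]
    · rw [if_neg h, if_neg (fun h' => h (Subtype.ext h')), mul_zero, mul_zero]
  have h1 := ga_trace hb hd hρ ht hwo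
  have h2 : ∀ a : S, (⟪w a, ρ (w a)⟫_ℂ).re
      = (l a.1)⁻¹ * (⟪gaV e U a.1, (ρ * ρ) (gaV e U a.1)⟫_ℂ).re := by
    intro a
    simp only [hw]
    rw [map_smul, inner_smul_left, inner_smul_right, Complex.conj_ofReal, ← mul_assoc,
      ← Complex.ofReal_mul, ← mul_inv, Real.mul_self_sqrt a.2.le, Complex.re_ofReal_mul]
    congr 2
    have h3 : ρ (s (gaV e U a.1)) = s (ρ (gaV e U a.1)) := by
      rw [← ga_sqrt_sqrt hρ (s (gaV e U a.1)), ← ga_sqrt_sqrt hρ (gaV e U a.1)]
    rw [h3, ga_sqrt_sa, ga_sqrt_sqrt hρ]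
    rfl
  -- the pointwise inequality
  have h4 : ∀ a : κ, Real.negMulLog (l a) + l a ≤
      (if 0 < l a then (l a)⁻¹ * (⟪gaV e U a, (ρ * ρ) (gaV e U a)⟫_ℂ).re else 0)
        + (⟪gaV e U a, cfc Real.negMulLog ρ (gaV e U a)⟫_ℂ).re := by
    intro a
    rcases (hl0 a).eq_or_lt with h | h
    · rw [if_neg (by rw [← h]; exact lt_irrefl _), ← h, Real.negMulLog_zero]
      have h5 := ((ContinuousLinearMap.nonneg_iff_isPositive _).1
        (ga_eta_nonneg hb hd hρ ht ht1)).re_inner_nonneg_right (gaV e U a)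
      simpa only [add_zero, zero_add, ge_iff_le, RCLike.re_to_complex] using h5
    · rw [if_pos h]
      have h5 := ga_mono (ga_eta_ge hρ h) (gaV e U a)
      have h6 : (⟪gaV e U a, ((l a * (1 - Real.log (l a))) • ρ) (gaV e U a)⟫_ℂ).re
          = (l a * (1 - Real.log (l a))) * l a := by
        rw [_root_.smul_apply, inner_smul_right_eq_smul, Complex.smul_re, huu, if_pos rfl,
          Complex.ofReal_re, smul_eq_mul]
      have h7 : (⟪gaV e U a, (ρ * ρ + l a • cfc Real.negMulLog ρ) (gaV e U a)⟫_ℂ).re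
          = (⟪gaV e U a, (ρ * ρ) (gaV e U a)⟫_ℂ).re
            + l a * (⟪gaV e U a, cfc Real.negMulLog ρ (gaV e U a)⟫_ℂ).re := by
        rw [_root_.add_apply, _root_.smul_apply, inner_add_right, inner_smul_right_eq_smul,
          Complex.add_re, Complex.smul_re, smul_eq_mul]
      rw [h6, h7] at h5
      have h8 : Real.negMulLog (l a) = -l a * Real.log (l a) := rfl
      rw [h8]
      have h9 : -l a * Real.log (l a) + l a
          = (l a)⁻¹ * ((l a * (1 - Real.log (l a))) * l a) := by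
        field_simp
        ring
      rw [h9]
      have h10 := mul_le_mul_of_nonneg_left h5 (inv_nonneg.2 h.le)
      refine h10.trans (le_of_eq ?_)
      rw [mul_add, ← mul_assoc (l a)⁻¹ (l a), inv_mul_cancel₀ h.ne', one_mul]
  have h5 : ∑ a, (Real.negMulLog (l a) + l a) ≤
      ∑ a : κ, ((if 0 < l a then (l a)⁻¹ * (⟪gaV e U a, (ρ * ρ) (gaV e U a)⟫_ℂ).re else 0)
        + (⟪gaV e U a, cfc Real.negMulLog ρ (gaV e U a)⟫_ℂ).re) :=
    Finset.sum_le_sum fun a _ => h4 a
  rw [Finset.sum_add_distrib, Finset.sum_add_distrib] at h5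
  have h6 : ∑ a : κ, (if 0 < l a then (l a)⁻¹ * (⟪gaV e U a, (ρ * ρ) (gaV e U a)⟫_ℂ).re else 0)
      = ∑ a : S, (⟪w a, ρ (w a)⟫_ℂ).re := by
    rw [Finset.sum_congr rfl fun a _ => h2 a, ← Finset.sum_filter]
    exact Finset.sum_subtype _ (by simp only [Finset.mem_filter, Finset.mem_univ, true_and, implies_true]) _
  have h7 := congrArg Complex.re (ga_sum e hU1 (cfc Real.negMulLog ρ))
  have h8 : (gaC e ρ).trace.re = ∑ a, l a := by
    rw [hA.trace_eq_sum_eigenvalues, Complex.re_sum]
    exact Finset.sum_congr rfl fun a _ => Complex.ofReal_re _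
  rw [Complex.re_sum, Complex.re_sum] at h7
  rw [h6, h7] at h5
  rw [h8]
  (clear ht1 hU hU1 hl hl0 hS hs h2 h4 h6 h7 h8; linarith)

end

end

end Vale.Agent.P369V
end
end

section

section

/-! Entropy of the compression to at most `M` photons in each mode. -/

namespace Vale.Agent.P369V

open scoped InnerProductSpace ComplexOrder
open Matrix
open Vale.Agent.P369 (Conf)

noncomputable section

variable {n : ℕ} {H : Type} [NormedAddCommGroup H] [InnerProductSpace ℂ H] [CompleteSpace H]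

/-- a configuration with cutoff, as a configuration -/
def cv {M : ℕ} (k : Cf n M) : Conf n := fun i => (k i : ℕ)

/-- the compression of an operator to at most `M` photons in each mode -/
def cutm (e : Conf n → H) (M : ℕ) (T : H →L[ℂ] H) : Matrix (Cf n M) (Cf n M) ℂ :=
  fun k l => ⟪e (cv k), T (e (cv l))⟫_ℂ

theorem g1_cv_inj {M : ℕ} : Function.Injective (cv (n := n) (M := M)) := by
  intro k l h
  funext i
  exact Fin.ext (congrFun h i)

theorem g1_cutm_eq (e : Conf n → H) (M : ℕ) (T : H →L[ℂ] H) :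
    cutm e M T = gaC (fun k : Cf n M => e (cv k)) T := rfl

/-- G1 without the bound on the norm -/
theorem g1_ent_cutm_ge {e : Conf n → H} (he : Orthonormal ℂ e) {T : H →L[ℂ] H}
    (hT : T.IsPositive) (M : ℕ) :
    ∑ k : Cf n M, (⟪e (cv k), P369.negMulLogOp T (e (cv k))⟫_ℂ).re ≤ ent (cutm e M T) := by
  rw [g1_cutm_eq]
  exact ga_T1 (he.comp _ g1_cv_inj) ((ContinuousLinearMap.nonneg_iff_isPositive T).2 hT)

end

end Vale.Agent.P369V
end
end

section

section

namespace Vale.Agent.P369V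

open Matrix Set Filter Topology
open scoped InnerProductSpace ComplexOrder
open Vale.Agent.P369 (Conf box mem_box tendsto_box tot)

noncomputable section

/-- coefficient of the output -/
def g8c {n : ℕ} (x : ℝ) (k k' l : Conf n) : ℝ :=
  ∏ j, Real.sqrt (((k j + l j).choose (k j) : ℕ) : ℝ) *
    Real.sqrt (((k' j + l j).choose (k' j) : ℕ) : ℝ) *
    Real.sqrt x ^ (k j) * Real.sqrt x ^ (k' j) * (1 - x) ^ (l j)

/-- index of a configuration in the box -/
def g8_tr {n M : ℕ} (k : Conf n) (h : ∀ j, k j ≤ M) : Cf n M :=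
  fun j => ⟨k j, Nat.lt_succ_of_le (h j)⟩

theorem cv_g8_tr {n M : ℕ} (k : Conf n) (h : ∀ j, k j ≤ M) : cv (g8_tr k h) = k := rfl

theorem cv_le {n M : ℕ} (k : Cf n M) (j : Fin n) : cv k j ≤ M := Nat.lt_succ_iff.mp (k j).2

theorem cv_injective {n M : ℕ} : Function.Injective (cv : Cf n M → Conf n) := by
  intro k l h
  funext j
  exact Fin.ext (congrFun h j)

theorem sum_cv {n M : ℕ} {β : Type} [AddCommMonoid β] (F : Conf n → β) :
    ∑ l : Cf n M, F (cv l) = ∑ l ∈ box n M, F l := by
  refine Finset.sum_bij (fun l _ => cv l) ?_ ?_ ?_ ?_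
  · intro l _
    rw [mem_box]
    exact cv_le l
  · intro a _ b _ h
    exact cv_injective h
  · intro b hb
    rw [mem_box] at hb
    exact ⟨g8_tr b hb, Finset.mem_univ _, rfl⟩
  · intro l _
    rfl

theorem bsJ_apply {n M : ℕ} (x : ℝ) (k l m : Cf n M) :
    bsJ n M x (k, l) m = if cv m = cv k + cv l then
      ((∏ j, Real.sqrt (((cv k j + cv l j).choose (cv k j) : ℕ) : ℝ) * Real.sqrt x ^ (cv k j) *
        Real.sqrt (1 - x) ^ (cv l j) : ℝ) : ℂ) else 0 := by
  unfold bsJ
  simp only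
  rw [Finset.prod_ite_zero]
  by_cases h : cv m = cv k + cv l
  · have hc : ∀ i ∈ Finset.univ, (m i : ℕ) = (k i : ℕ) + (l i : ℕ) := fun j _ => congrFun h j
    rw [if_pos h, if_pos hc, Complex.ofReal_prod]
    refine Finset.prod_congr rfl fun j _ => ?_
    rw [hc j (Finset.mem_univ j)]
    rfl
  · rw [if_neg h, if_neg]
    intro h'
    exact h (funext fun j => h' j (Finset.mem_univ j))

theorem loss_apply {n M : ℕ} (x : ℝ) (ρ : Matrix (Cf n M) (Cf n M) ℂ) (k k' : Cf n M) :
    loss n M x ρ k k' = ∑ l : Cf n M, ∑ m' : Cf n M, (∑ m : Cf n M, bsJ n M x (k, l) m * ρ m m') *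
      star (bsJ n M x (k', l) m') := by
  unfold loss ptr₁
  refine Finset.sum_congr rfl fun l _ => ?_
  rw [Matrix.mul_apply]
  refine Finset.sum_congr rfl fun m' _ => ?_
  rw [Matrix.mul_apply, Matrix.conjTranspose_apply]

theorem loss_apply' {n M : ℕ} {x : ℝ} (h1 : x ≤ 1) {F : Conf n → Conf n → ℂ}
    {ρ : Matrix (Cf n M) (Cf n M) ℂ} (hρ : ∀ a b, ρ a b = F (cv a) (cv b)) (k k' : Cf n M) :
    loss n M x ρ k k' = ∑ l ∈ box n M,
      if (∀ j, cv k j + l j ≤ M) ∧ (∀ j, cv k' j + l j ≤ M) then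
        ((g8c x (cv k) (cv k') l : ℝ) : ℂ) * F (cv k + l) (cv k' + l) else 0 := by
  rw [loss_apply, ← sum_cv (M := M) (fun l => if (∀ j, cv k j + l j ≤ M) ∧
    (∀ j, cv k' j + l j ≤ M) then
        ((g8c x (cv k) (cv k') l : ℝ) : ℂ) * F (cv k + l) (cv k' + l) else 0)]
  refine Finset.sum_congr rfl fun l _ => ?_
  have key : ∀ (a : Cf n M) (G : Cf n M → ℂ), (∑ m : Cf n M, bsJ n M x (a, l) m * G m) =
      if h : ∀ j, cv a j + cv l j ≤ M then
        ((∏ j, Real.sqrt (((cv a j + cv l j).choose (cv a j) : ℕ) : ℝ) * Real.sqrt x ^ (cv a j) *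
        Real.sqrt (1 - x) ^ (cv l j) : ℝ) : ℂ) * G (g8_tr (cv a + cv l) h) else 0 := by
    intro a G
    split_ifs with h
    · rw [Finset.sum_eq_single (g8_tr (cv a + cv l) h)]
      · rw [bsJ_apply, if_pos (cv_g8_tr (cv a + cv l) h)]
      · intro b _ hb
        rw [bsJ_apply, if_neg, zero_mul]
        intro h'
        exact hb (cv_injective h')
      · intro h'
        exact absurd (Finset.mem_univ _) h'
    · apply Finset.sum_eq_zero
      intro m _
      rw [bsJ_apply, if_neg, zero_mul]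
      intro h'
      apply h
      intro j
      have := congrFun h' j
      rw [Pi.add_apply] at this
      rw [← this]
      exact cv_le m j
  have key2 : ∀ (a : Cf n M) (G : Cf n M → ℂ),
      (∑ m : Cf n M, G m * star (bsJ n M x (a, l) m)) =
      if h : ∀ j, cv a j + cv l j ≤ M then
        G (g8_tr (cv a + cv l) h) *
        ((∏ j, Real.sqrt (((cv a j + cv l j).choose (cv a j) : ℕ) : ℝ) * Real.sqrt x ^ (cv a j) *
        Real.sqrt (1 - x) ^ (cv l j) : ℝ) : ℂ) else 0 := by
    intro a G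
    split_ifs with h
    · rw [Finset.sum_eq_single (g8_tr (cv a + cv l) h)]
      · rw [bsJ_apply, if_pos (cv_g8_tr (cv a + cv l) h), Complex.star_def, Complex.conj_ofReal]
      · intro b _ hb
        rw [bsJ_apply, if_neg, star_zero, mul_zero]
        intro h'
        exact hb (cv_injective h')
      · intro h'
        exact absurd (Finset.mem_univ _) h'
    · apply Finset.sum_eq_zero
      intro m _
      rw [bsJ_apply, if_neg, star_zero, mul_zero]
      intro h'
      apply h
      intro j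
      have := congrFun h' j
      rw [Pi.add_apply] at this
      rw [← this]
      exact cv_le m j
  simp only [hρ]
  rw [key2 k' (fun m' => ∑ m : Cf n M, bsJ n M x (k, l) m * F (cv m) (cv m'))]
  by_cases hk' : ∀ j, cv k' j + cv l j ≤ M
  · rw [dif_pos hk', key k]
    by_cases hk : ∀ j, cv k j + cv l j ≤ M
    · rw [dif_pos hk, if_pos ⟨hk, hk'⟩, cv_g8_tr, cv_g8_tr]
      have e : g8c x (cv k) (cv k') (cv l) =
          (∏ j, Real.sqrt (((cv k j + cv l j).choose (cv k j) : ℕ) : ℝ) * Real.sqrt x ^ (cv k j) *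
            Real.sqrt (1 - x) ^ (cv l j)) *
          (∏ j, Real.sqrt (((cv k' j + cv l j).choose (cv k' j) : ℕ) : ℝ) *
            Real.sqrt x ^ (cv k' j) * Real.sqrt (1 - x) ^ (cv l j)) := by
        unfold g8c
        rw [← Finset.prod_mul_distrib]
        refine Finset.prod_congr rfl fun j _ => ?_
        have hs : (1 - x) ^ (cv l j) = Real.sqrt (1 - x) ^ (cv l j) * Real.sqrt (1 - x) ^ (cv l j) := by
          rw [← mul_pow, Real.mul_self_sqrt (by linarith)]
        rw [hs]
        ring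
      rw [e]
      push_cast
      ring
    · rw [dif_neg hk, if_neg (fun h => hk h.1), zero_mul]
  · rw [dif_neg hk', if_neg (fun h => hk' h.2)]

/-- the embedding of a smaller box -/
def g8_emb {n L M : ℕ} (h : L ≤ M) (k : Cf n L) : Cf n M := g8_tr (cv k) (fun j => (cv_le k j).trans h)

theorem cv_g8_emb {n L M : ℕ} (h : L ≤ M) (k : Cf n L) : cv (g8_emb h k) = cv k := rfl

theorem g8_emb_injective {n L M : ℕ} (h : L ≤ M) :
    Function.Injective (g8_emb h : Cf n L → Cf n M) := by
  intro a b hab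
  have h1 : cv (g8_emb h a) = cv (g8_emb h b) := congrArg cv hab
  exact cv_injective h1

theorem g8_tendsto {n : ℕ} (k k' : Conf n) {f : Conf n → ℂ} {a : ℂ} (hf : HasSum f a) :
    Tendsto (fun M => ∑ l ∈ box n M, if (∀ j, k j + l j ≤ M) ∧ (∀ j, k' j + l j ≤ M) then f l else 0)
      atTop (𝓝 a) := by
  have h1 : Tendsto (fun M => (box n M).filter
      (fun l => (∀ j, k j + l j ≤ M) ∧ (∀ j, k' j + l j ≤ M))) atTop atTop := by
    apply tendsto_atTop_finset_of_monotone
    · intro M M' hM l hl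
      rw [Finset.mem_filter, mem_box] at hl ⊢
      exact ⟨fun j => (hl.1 j).trans hM, fun j => (hl.2.1 j).trans hM, fun j => (hl.2.2 j).trans hM⟩
    · intro l
      refine ⟨∑ j, (k j + k' j + l j), ?_⟩
      rw [Finset.mem_filter, mem_box]
      have h : ∀ j, k j + k' j + l j ≤ ∑ j, (k j + k' j + l j) := fun j =>
        Finset.single_le_sum (f := fun j => k j + k' j + l j) (fun _ _ => Nat.zero_le _)
          (Finset.mem_univ j)
      refine ⟨fun j => ?_, fun j => ?_, fun j => ?_⟩
      · have := h j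
        omega
      · have := h j
        omega
      · have := h j
        omega
  have h2 := (show Tendsto (fun s : Finset (Conf n) => ∑ l ∈ s, f l) atTop (𝓝 a) from hf).comp h1
  refine h2.congr fun M => ?_
  simp only [Function.comp]
  rw [Finset.sum_filter]

end

end Vale.Agent.P369V
end
end

section

section

/-! Upper bound for the entropy of the compression to at most `M` photons in each mode. -/

namespace Vale.Agent.P369V

open scoped InnerProductSpace ComplexOrder
open Matrix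
open Vale.Agent.P369 (Conf)

noncomputable section

variable {n : ℕ} {H : Type} [NormedAddCommGroup H] [InnerProductSpace ℂ H] [CompleteSpace H]

/-- the diagonal of a state sums to one -/
theorem g3_hasSum {e : Conf n → H} {T : H →L[ℂ] H} (hT : P369.Sys.IsState e T) :
    HasSum (fun k => (⟪e k, T (e k)⟫_ℂ).re) 1 := by
  have h := Complex.hasSum_re hT.2
  simpa using h

theorem g3_nonneg {e : Conf n → H} {T : H →L[ℂ] H} (hT : P369.Sys.IsState e T) (k : Conf n) :
    0 ≤ (⟪e k, T (e k)⟫_ℂ).re := hT.1.re_inner_nonneg_right (e k)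

theorem g3_term_nonneg {e : Conf n → H} (he : P369.Sys.IsNumberBasis e) {T : H →L[ℂ] H}
    (hT : P369.Sys.IsState e T) (k : Conf n) :
    0 ≤ (⟪e k, P369.negMulLogOp T (e k)⟫_ℂ).re := by
  have h0 : 0 ≤ T := (ContinuousLinearMap.nonneg_iff_isPositive T).2 hT.1
  have h := ga_eta_nonneg he.1 he.2 h0 (g3_hasSum hT) le_rfl
  exact ((ContinuousLinearMap.nonneg_iff_isPositive _).1 h).re_inner_nonneg_right (e k)

/-- the entropy series converges -/
theorem g3_summable {e : Conf n → H} (he : P369.Sys.IsNumberBasis e) {T : H →L[ℂ] H}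
    (hT : P369.Sys.IsState e T) (hE : P369.Sys.FiniteEnergy e T) :
    Summable fun k : Conf n => (⟪e k, P369.negMulLogOp T (e k)⟫_ℂ).re := by
  have h0 : 0 ≤ T := (ContinuousLinearMap.nonneg_iff_isPositive T).2 hT.1
  have hs := g3_hasSum hT
  have h1 : ∀ k : Conf n, (⟪e k, T (e k)⟫_ℂ).re ≤ 1 := fun k =>
    (hs.summable.le_tsum k fun j _ => g3_nonneg hT j).trans_eq hs.tsum_eq
  have h2 : Summable fun k : Conf n => Real.negMulLog (⟪e k, T (e k)⟫_ℂ).re :=
    P369.summable_negMulLog_of_energy (fun k => g3_nonneg hT k) h1 hE (P369.summable_exp_tot n)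
  refine Summable.of_nonneg_of_le (g3_term_nonneg he hT) (fun k => ?_) h2
  exact ga_jensen h0 (he.1.1 k)

/-- G3 -/
theorem ent_cutm_le {e : Conf n → H} (he : P369.Sys.IsNumberBasis e) {T : H →L[ℂ] H}
    (hT : P369.Sys.IsState e T) (hE : P369.Sys.FiniteEnergy e T) (M : ℕ) :
    ent (cutm e M T) ≤ P369.Sys.entropy e T + (1 - (cutm e M T).trace.re) := by
  have h0 : 0 ≤ T := (ContinuousLinearMap.nonneg_iff_isPositive T).2 hT.1
  have h := ga_T2 he.1 he.2 h0 (g3_hasSum hT) le_rfl (fun k : Cf n M => e (cv k))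
  rw [← g1_cutm_eq] at h
  refine h.trans (add_le_add ?_ le_rfl)
  have h2 : ∑ k : Cf n M, (⟪e (cv k), P369.negMulLogOp T (e (cv k))⟫_ℂ).re
      = ∑ k ∈ Finset.univ.map ⟨cv (n := n) (M := M), g1_cv_inj⟩,
        (⟪e k, P369.negMulLogOp T (e k)⟫_ℂ).re := by
    rw [Finset.sum_map]
    rfl
  have h3 := (g3_summable he hT hE).sum_le_tsum
    (Finset.univ.map ⟨cv (n := n) (M := M), g1_cv_inj⟩) fun k _ => g3_term_nonneg he hT k
  exact h2.trans_le h3

end

end Vale.Agent.P369V
end
end

section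

section

/-!
P369V, A1: Bonnet's form of the second mean value inequality.
-/

namespace Vale.Agent.P369V

open MeasureTheory Set

theorem a1_slice {a b C s : ℝ} (hab : a ≤ b) {w h : ℝ → ℝ} (hw : Antitone w)
    (hC : ∀ τ ∈ Icc a b, ∫ t in a..τ, h t ≤ C) :
    ∫ t in Ioc a b, (if s < w t then h t else 0) ≤ C := by
  have hC0 : 0 ≤ C := by
    have := hC a ⟨le_refl a, hab⟩
    simpa only [ge_iff_le, intervalIntegral.integral_same] using this
  set E : Set ℝ := {t | t ∈ Icc a b ∧ s < w t} with hE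
  by_cases hne : E.Nonempty
  · have hbdd : BddAbove E := ⟨b, fun t ht => ht.1.2⟩
    set τ := sSup E with hτ
    obtain ⟨e0, he0⟩ := hne
    have hτa : a ≤ τ := he0.1.1.trans (le_csSup hbdd he0)
    have hτb : τ ≤ b := csSup_le ⟨e0, he0⟩ (fun t ht => ht.1.2)
    have h1 : ∀ t, a ≤ t → t < τ → s < w t := by
      intro t hta htτ
      obtain ⟨e, he, hte⟩ := exists_lt_of_lt_csSup ⟨e0, he0⟩ htτ
      exact lt_of_lt_of_le he.2 (hw hte.le)
    have h2 : ∀ t, t ≤ b → τ < t → ¬ s < w t := by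
      intro t htb htτ hs
      have : t ∈ E := ⟨⟨hτa.trans htτ.le, htb⟩, hs⟩
      exact absurd (le_csSup hbdd this) (not_le.mpr htτ)
    have h3 : ∫ t in Ioc a b, (if s < w t then h t else 0) =
        ∫ t in Ioc a b, (Ioc a τ).indicator h t := by
      apply setIntegral_congr_ae measurableSet_Ioc
      have hnull : ∀ᵐ t : ℝ ∂volume, t ≠ τ := by
        have : (volume : Measure ℝ) {τ} = 0 := by simp
        exact compl_mem_ae_iff.mpr this
      filter_upwards [hnull] with t ht hmem
      rcases lt_or_gt_of_ne ht with hlt | hgt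
      · have hm : t ∈ Ioc a τ := ⟨hmem.1, hlt.le⟩
        rw [indicator_of_mem hm, if_pos (h1 t hmem.1.le hlt)]
      · have hm : t ∉ Ioc a τ := fun hh => absurd hh.2 (not_le.mpr hgt)
        rw [indicator_of_notMem hm, if_neg (h2 t hmem.2 hgt)]
    rw [h3, setIntegral_indicator measurableSet_Ioc]
    have h4 : Ioc a b ∩ Ioc a τ = Ioc a τ := by
      apply inter_eq_right.mpr
      exact Ioc_subset_Ioc_right hτb
    rw [h4, ← intervalIntegral.integral_of_le hτa]
    exact hC τ ⟨hτa, hτb⟩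
  · have h3 : ∫ t in Ioc a b, (if s < w t then h t else 0) = ∫ t in Ioc a b, (0 : ℝ) := by
      apply setIntegral_congr_fun measurableSet_Ioc
      intro t ht
      have : ¬ s < w t := fun hs => hne ⟨t, ⟨ht.1.le, ht.2⟩, hs⟩
      simp [this]
    rw [h3]
    simpa only [integral_zero, ge_iff_le] using hC0

theorem a1_glob {a b C : ℝ} (hab : a ≤ b) {w h : ℝ → ℝ} (hw : Antitone w) (hw0 : ∀ t, 0 ≤ w t)
    (hwa : ∀ t, w t ≤ w a)
    (hh : IntervalIntegrable h volume a b) (hC : ∀ τ ∈ Icc a b, ∫ t in a..τ, h t ≤ C) :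
    ∫ t in a..b, w t * h t ≤ w a * C := by
  rw [intervalIntegral.integral_of_le hab]
  have hint : IntegrableOn h (Ioc a b) volume := (intervalIntegrable_iff_integrableOn_Ioc_of_le hab).mp hh
  set μ : Measure ℝ := volume.restrict (Ioc a b) with hμ
  set ν : Measure ℝ := volume.restrict (Ioc 0 (w a)) with hν
  let f : ℝ → ℝ → ℝ := fun t s => if s < w t then h t else 0
  have hset : MeasurableSet {p : ℝ × ℝ | p.2 < w p.1} :=
    measurableSet_lt measurable_snd (hw.measurable.comp measurable_fst)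
  have hI : Integrable (Function.uncurry f) (μ.prod ν) := by
    have h1 : Integrable (fun p : ℝ × ℝ => h p.1) (μ.prod ν) := hint.comp_fst ν
    have h2 := h1.indicator hset
    refine h2.congr (Filter.Eventually.of_forall fun p => ?_)
    simp only [indicator, mem_ofPred_eq, Function.uncurry, f]
  have hswap := integral_integral_swap hI
  have hin : ∀ t, ∫ s, f t s ∂ν = w t * h t := by
    intro t
    have h1 : ∫ s, f t s ∂ν = ∫ s in Ioc 0 (w a), (Iio (w t)).indicator (fun _ => h t) s := by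
      apply integral_congr_ae
      refine Filter.Eventually.of_forall fun s => ?_
      simp only [indicator, mem_Iio, f]
    rw [h1, setIntegral_indicator measurableSet_Iio]
    have h2 : Ioc 0 (w a) ∩ Iio (w t) = Ioo 0 (w t) := by
      ext s
      simp only [mem_inter_iff, mem_Ioc, mem_Iio, mem_Ioo]
      constructor
      · rintro ⟨⟨h1, _⟩, h3⟩
        exact ⟨h1, h3⟩
      · rintro ⟨h1, h3⟩
        exact ⟨⟨h1, h3.le.trans (hwa t)⟩, h3⟩
    rw [h2, setIntegral_const]
    simp only [Measure.real, Real.volume_Ioo, sub_zero, hw0 t, ENNReal.toReal_ofReal, smul_eq_mul]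
  have hL : ∫ t in Ioc a b, w t * h t = ∫ t, ∫ s, f t s ∂ν ∂μ := by
    apply integral_congr_ae
    refine Filter.Eventually.of_forall fun t => ?_
    exact (hin t).symm
  rw [hL, hswap]
  have hbound : ∀ s, ∫ t, f t s ∂μ ≤ C := fun s => a1_slice hab hw hC
  calc ∫ s, ∫ t, f t s ∂μ ∂ν ≤ ∫ _s, C ∂ν := by
        apply integral_mono_ae hI.integral_prod_right (integrable_const C)
        exact Filter.Eventually.of_forall hbound
    _ = w a * C := by
        rw [integral_const]
        simp only [Measure.real, hν, MeasurableSet.univ, Measure.restrict_apply, univ_inter, Real.volume_Ioc, sub_zero, hw0 a, ENNReal.toReal_ofReal, smul_eq_mul]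

/-- A1 (Bonnet's second mean value inequality) -/
theorem bonnet {a b C : ℝ} (hab : a ≤ b) {w h : ℝ → ℝ} (hw : AntitoneOn w (Icc a b)) (hw0 : 0 ≤ w b)
    (hh : IntervalIntegrable h volume a b) (hC : ∀ τ ∈ Icc a b, ∫ t in a..τ, h t ≤ C) :
    ∫ t in a..b, w t * h t ≤ w a * C := by
  let p : ℝ → ℝ := fun t => max a (min b t)
  have hp : ∀ t, p t ∈ Icc a b := fun t => ⟨le_max_left _ _, max_le hab (min_le_left _ _)⟩
  have hpm : Monotone p := fun x y hxy => max_le_max le_rfl (min_le_min le_rfl hxy)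
  have hpe : ∀ t ∈ Icc a b, p t = t := by
    intro t ht
    simp only [p]
    rw [min_eq_right ht.2, max_eq_right ht.1]
  have hw' : Antitone (fun t => w (p t)) := fun x y hxy => hw (hp x) (hp y) (hpm hxy)
  have h1 := a1_glob (a := a) (b := b) (C := C) hab (w := fun t => w (p t)) (h := h) hw'
    (fun t => hw0.trans (hw (hp t) ⟨hab, le_rfl⟩ (hp t).2))
    (fun t => by
      have := hw (hp a) (hp t) (by rw [hpe a ⟨le_rfl, hab⟩]; exact (hp t).1)
      exact this) hh hC
  have h2 : ∫ t in a..b, w t * h t = ∫ t in a..b, w (p t) * h t := by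
    apply intervalIntegral.integral_congr
    intro t ht
    rw [uIcc_of_le hab] at ht
    simp only [hpe t ht]
  rw [h2]
  refine h1.trans (le_of_eq ?_)
  simp only [hpe a ⟨le_rfl, hab⟩]

end Vale.Agent.P369V
end
end

section

section

/-!
P369V, A2: an integral inequality for nonnegative superadditive functions.
-/

namespace Vale.Agent.P369V

open MeasureTheory Set

theorem a2_mono {q : ℝ → ℝ} (h0 : ∀ t ∈ Ioc (0 : ℝ) 1, 0 ≤ q t)
    (hs : ∀ x y, 0 < x → 0 < y → x + y ≤ 1 → q x + q y ≤ q (x + y)) :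
    MonotoneOn q (Ioc 0 1) := by
  intro x hx y hy hxy
  rcases eq_or_lt_of_le hxy with h | h
  · rw [h]
  · have h1 := hs x (y - x) hx.1 (by linarith) (by linarith [hy.2])
    have h2 := h0 (y - x) ⟨by linarith, by linarith [hy.2, hx.1]⟩
    have h3 : x + (y - x) = y := by ring
    rw [h3] at h1
    linarith

theorem a2_integrable {q : ℝ → ℝ} (h0 : ∀ t ∈ Ioc (0 : ℝ) 1, 0 ≤ q t)
    (hs : ∀ x y, 0 < x → 0 < y → x + y ≤ 1 → q x + q y ≤ q (x + y)) {a b : ℝ}
    (ha : a ∈ Icc (0 : ℝ) 1) (hb : b ∈ Icc (0 : ℝ) 1) : IntervalIntegrable q volume a b := by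
  have key : ∀ τ ∈ Icc (0 : ℝ) 1, IntervalIntegrable q volume 0 τ := by
    intro τ hτ
    have hmono := a2_mono h0 hs
    have h1 : MonotoneOn (fun t => if t ≤ 0 then 0 else q t) (uIcc 0 τ) := by
      rw [uIcc_of_le hτ.1]
      intro x hx y hy hxy
      by_cases hx0 : x ≤ 0
      · by_cases hy0 : y ≤ 0
        · simp [hx0, hy0]
        · simp only [hx0, if_true, hy0, if_false]
          exact h0 y ⟨not_le.mp hy0, hy.2.trans hτ.2⟩
      · have hx1 : 0 < x := not_le.mp hx0
        have hy1 : ¬ y ≤ 0 := not_le.mpr (hx1.trans_le hxy)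
        simp only [hx0, if_false, hy1]
        exact hmono ⟨hx1, hx.2.trans hτ.2⟩ ⟨hx1.trans_le hxy, hy.2.trans hτ.2⟩ hxy
    refine (MonotoneOn.intervalIntegrable h1).congr ?_
    intro t ht
    rw [uIoc_of_le hτ.1] at ht
    have : ¬ t ≤ 0 := not_le.mpr ht.1
    simp [this]
  exact (key a ha).symm.trans (key b hb)

theorem a2_half {q : ℝ → ℝ} (h0 : ∀ t ∈ Ioc (0 : ℝ) 1, 0 ≤ q t)
    (hs : ∀ x y, 0 < x → 0 < y → x + y ≤ 1 → q x + q y ≤ q (x + y)) {t : ℝ}
    (ht : t ∈ Ioc (0 : ℝ) 1) : 2 * ∫ x in (0 : ℝ)..t, q x ≤ t * q t := by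
  have hI : IntervalIntegrable q volume 0 t :=
    a2_integrable h0 hs ⟨le_rfl, zero_le_one⟩ ⟨ht.1.le, ht.2⟩
  have h1 : ∫ x in (0 : ℝ)..t, q (t - x) = ∫ x in (0 : ℝ)..t, q x := by
    rw [intervalIntegral.integral_comp_sub_left]
    simp
  have hI2 : IntervalIntegrable (fun x => q (t - x)) volume 0 t := by
    have := hI.comp_sub_left t
    simpa using this.symm
  have h2 : 2 * ∫ x in (0 : ℝ)..t, q x = ∫ x in (0 : ℝ)..t, (q x + q (t - x)) := by
    rw [intervalIntegral.integral_add hI hI2, h1]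
    ring
  rw [h2]
  have h3 : ∫ x in (0 : ℝ)..t, (q x + q (t - x)) ≤ ∫ _x in (0 : ℝ)..t, q t := by
    apply intervalIntegral.integral_mono_on_of_le_Ioo ht.1.le (hI.add hI2)
      (intervalIntegrable_const)
    intro x hx
    have := hs x (t - x) hx.1 (by linarith [hx.2]) (by linarith [ht.2])
    have h3 : x + (t - x) = t := by ring
    rw [h3] at this
    exact this
  refine h3.trans (le_of_eq ?_)
  simp

theorem a2_sq {q : ℝ → ℝ} (hc : ContinuousOn q (Ioc 0 1)) (h0 : ∀ t ∈ Ioc (0 : ℝ) 1, 0 ≤ q t)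
    (hs : ∀ x y, 0 < x → 0 < y → x + y ≤ 1 → q x + q y ≤ q (x + y)) {t : ℝ}
    (ht : t ∈ Ioc (0 : ℝ) 1) : ∫ x in (0 : ℝ)..t, q x ≤ t ^ 2 * ∫ x in (0 : ℝ)..1, q x := by
  set G : ℝ → ℝ := fun t => ∫ x in (0 : ℝ)..t, q x with hG
  have hI1 : IntervalIntegrable q volume 0 1 :=
    a2_integrable h0 hs ⟨le_rfl, zero_le_one⟩ ⟨zero_le_one, le_rfl⟩
  have hGc : ContinuousOn G (Icc 0 1) := by
    have := intervalIntegral.continuousOn_primitive_interval (f := q) (μ := volume) (a := 0) (b := 1)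
      (by
        rw [uIcc_of_le (zero_le_one' ℝ)]
        exact (intervalIntegrable_iff_integrableOn_Icc_of_le zero_le_one).mp hI1)
    rwa [uIcc_of_le (zero_le_one' ℝ)] at this
  have hder : ∀ x ∈ Ioo (0 : ℝ) 1, HasDerivAt G (q x) x := by
    intro x hx
    apply intervalIntegral.integral_hasDerivAt_right
    · exact a2_integrable h0 hs ⟨le_rfl, zero_le_one⟩ ⟨hx.1.le, hx.2.le⟩
    · have : StronglyMeasurableAtFilter q (nhds x) volume := by
        have h1 : ContinuousOn q (Ioo 0 1) := hc.mono (fun y hy => ⟨hy.1, hy.2.le⟩)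
        exact h1.stronglyMeasurableAtFilter isOpen_Ioo x hx
      exact this
    · exact (hc.continuousWithinAt ⟨hx.1, hx.2.le⟩).continuousAt (Ioc_mem_nhds hx.1 hx.2)
  have hmono : MonotoneOn (fun s => G s / s ^ 2) (Icc t 1) := by
    apply monotoneOn_of_deriv_nonneg (convex_Icc t 1)
    · apply ContinuousOn.div
      · exact hGc.mono (Icc_subset_Icc_left ht.1.le)
      · fun_prop
      · intro s hs'
        have : 0 < s := ht.1.trans_le hs'.1
        positivity
    · intro s hs'
      rw [interior_Icc] at hs'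
      have hs0 : 0 < s := ht.1.trans hs'.1
      apply DifferentiableAt.differentiableWithinAt
      apply DifferentiableAt.div
      · exact (hder s ⟨hs0, hs'.2⟩).differentiableAt
      · fun_prop
      · positivity
    · intro s hs'
      rw [interior_Icc] at hs'
      have hs0 : 0 < s := ht.1.trans hs'.1
      have hd : HasDerivAt (fun s => G s / s ^ 2) ((q s * s ^ 2 - G s * (2 * s)) / (s ^ 2) ^ 2) s := by
        have h1 : HasDerivAt (fun s => G s / s ^ 2)
            ((q s * s ^ 2 - G s * ((2 : ℕ) * s ^ (2 - 1))) / (s ^ 2) ^ 2) s :=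
          (hder s ⟨hs0, hs'.2⟩).div (hasDerivAt_pow 2 s) (by positivity)
        have e : ((2 : ℕ) : ℝ) * s ^ (2 - 1) = 2 * s := by norm_num
        rw [e] at h1
        exact h1
      rw [hd.deriv]
      have h2 := a2_half h0 hs (t := s) ⟨hs0, hs'.2.le⟩
      have h3 : 0 ≤ q s * s ^ 2 - G s * (2 * s) := by
        have : q s * s ^ 2 - G s * (2 * s) = s * (s * q s - 2 * G s) := by ring
        rw [this]
        exact mul_nonneg hs0.le (by linarith)
      (clear * - h3 hs0; positivity)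
  have h1 := hmono (a := t) (b := 1) ⟨le_rfl, ht.2⟩ ⟨ht.2, le_rfl⟩ ht.2
  have ht2 : 0 < t ^ 2 := by have := ht.1; positivity
  simp only [one_pow, div_one] at h1
  rw [div_le_iff₀ ht2] at h1
  linarith [h1]

/-- A2 (superadditive functions) -/
theorem super_int {q : ℝ → ℝ} (hc : ContinuousOn q (Ioc 0 1)) (h0 : ∀ t ∈ Ioc (0 : ℝ) 1, 0 ≤ q t)
    (hs : ∀ x y, 0 < x → 0 < y → x + y ≤ 1 → q x + q y ≤ q (x + y))
    {ε : ℝ} (hε : 0 < ε) (hε1 : ε ≤ 1) {w : ℝ → ℝ} (hw : AntitoneOn w (Icc ε 1)) (hw0 : 0 ≤ w 1) :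
    ∫ t in ε..1, w t * (q t - t * q 1) ≤ ε ^ 2 * w ε * q 1 := by
  have hq1 : 0 ≤ q 1 := h0 1 ⟨zero_lt_one, le_rfl⟩
  have hwε : 0 ≤ w ε := hw0.trans (hw ⟨le_rfl, hε1⟩ ⟨hε1, le_rfl⟩ hε1)
  have hI : ∀ τ ∈ Icc ε 1, IntervalIntegrable q volume ε τ := fun τ hτ =>
    a2_integrable h0 hs ⟨hε.le, hε1⟩ ⟨hε.le.trans hτ.1, hτ.2⟩
  have hI2 : ∀ τ, IntervalIntegrable (fun t : ℝ => t * q 1) volume ε τ := fun τ =>
    (continuous_id.mul continuous_const).intervalIntegrable _ _
  have hC : ∀ τ ∈ Icc ε 1, ∫ t in ε..τ, (q t - t * q 1) ≤ ε ^ 2 * q 1 := by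
    intro τ hτ
    have hτ0 : 0 < τ := hε.trans_le hτ.1
    rw [intervalIntegral.integral_sub (hI τ hτ) (hI2 τ)]
    have h1 : ∫ t in ε..τ, t * q 1 = (τ ^ 2 - ε ^ 2) / 2 * q 1 := by
      rw [intervalIntegral.integral_mul_const, integral_id]
    have h2 : ∫ t in ε..τ, q t ≤ ∫ t in (0 : ℝ)..τ, q t := by
      have h3 : (∫ t in (0 : ℝ)..ε, q t) + ∫ t in ε..τ, q t = ∫ t in (0 : ℝ)..τ, q t :=
        intervalIntegral.integral_add_adjacent_intervals
          (a2_integrable h0 hs ⟨le_rfl, zero_le_one⟩ ⟨hε.le, hε1⟩) (hI τ hτ)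
      have h4 : 0 ≤ ∫ t in (0 : ℝ)..ε, q t := by
        rw [intervalIntegral.integral_of_le hε.le]
        apply setIntegral_nonneg measurableSet_Ioc
        intro t ht
        exact h0 t ⟨ht.1, ht.2.trans hε1⟩
      linarith only [h3, h4]
    have h3 := a2_sq hc h0 hs (t := τ) ⟨hτ0, hτ.2⟩
    have h4 := a2_half h0 hs (t := 1) ⟨zero_lt_one, le_rfl⟩
    have h5 : τ ^ 2 * ∫ x in (0 : ℝ)..1, q x ≤ τ ^ 2 * (q 1 / 2) := by
      apply mul_le_mul_of_nonneg_left _ (by positivity)
      linarith only [h4]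
    have h6 : 0 ≤ ε ^ 2 * q 1 := by (clear * - hε hq1; positivity)
    rw [h1]
    linarith
  have h1 := bonnet hε1 hw hw0 ((hI 1 ⟨hε1, le_rfl⟩).sub (hI2 1)) hC
  refine h1.trans (le_of_eq ?_)
  ring

end Vale.Agent.P369V
end
end

section

section

/-! P369V, task A7: comparison for the entropy along the loss semigroup. -/

namespace Vale.Agent.P369V

open MeasureTheory Set

noncomputable section

/-- `R log(1+1/R)` -/
def a7_h (R : ℝ) : ℝ := R * Real.log (1 + 1 / R)

theorem a7_h_eq {R : ℝ} (hR : 0 ≤ R) : a7_h R = R * Real.log (R + 1) - R * Real.log R := by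
  rcases hR.eq_or_lt with h | h
  · subst h; simp [a7_h]
  · unfold a7_h
    have e : 1 + 1 / R = (R + 1) / R := by field_simp
    rw [e, Real.log_div (by positivity) h.ne']
    ring

theorem a7_log_gt {R : ℝ} (hR : 0 < R) : 1 / (R + 1) < Real.log (1 + 1 / R) := by
  have h1 : (0 : ℝ) < R / (R + 1) := by positivity
  have h2 : R / (R + 1) ≠ 1 := by
    intro h
    rw [div_eq_one_iff_eq (by positivity)] at h
    linarith
  have h3 := Real.log_lt_sub_one_of_pos h1 h2
  have e : 1 + 1 / R = (R / (R + 1))⁻¹ := by field_simp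
  rw [e, Real.log_inv]
  have e2 : R / (R + 1) - 1 = - (1 / (R + 1)) := by field_simp; ring
  rw [e2] at h3
  linarith only [h3]

theorem a7_h_strictMono : StrictMonoOn a7_h (Ici 0) := by
  have hc : ContinuousOn a7_h (Ici 0) := by
    have h : ContinuousOn (fun R : ℝ => R * Real.log (R + 1) - R * Real.log R) (Ici 0) := by
      refine ContinuousOn.sub ?_ Real.continuous_mul_log.continuousOn
      refine continuousOn_id.mul (ContinuousOn.log (by fun_prop) ?_)
      intro x hx
      have : (0 : ℝ) ≤ x := hx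
      positivity
    exact h.congr fun x hx => a7_h_eq hx
  apply strictMonoOn_of_deriv_pos (convex_Ici 0) hc
  intro x hx
  rw [interior_Ici] at hx
  have hx : 0 < x := hx
  have h1 : HasDerivAt (fun y : ℝ => 1 + 1 / y) (-(1 / x ^ 2)) x := by
    have h := (hasDerivAt_inv hx.ne').const_add 1
    refine (h.congr_deriv ?_).congr_of_eventuallyEq ?_
    · rw [one_div]
    · exact Filter.Eventually.of_forall fun y => by simp
  have hne : 1 + 1 / x ≠ 0 := by positivity
  have h2 := (hasDerivAt_id x).mul (h1.log hne)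
  have h3 : HasDerivAt a7_h (1 * Real.log (1 + 1 / x) + x * (-(1 / x ^ 2) / (1 + 1 / x))) x := h2
  rw [h3.deriv]
  have e : x * (-(1 / x ^ 2) / (1 + 1 / x)) = - (1 / (x + 1)) := by field_simp
  rw [e]
  have := a7_log_gt hx
  linarith only [this]

theorem a7_exists {J : ℝ} (h0 : 0 < J) (h1 : J < 1) : ∃ R : ℝ, 0 < R ∧ J = a7_h R := by
  set b : ℝ := J / (1 - J) with hb
  have hb0 : 0 < b := div_pos h0 (by linarith)
  have hc : ContinuousOn (fun R : ℝ => R * Real.log (R + 1) - R * Real.log R) (Icc 0 b) := by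
    refine ContinuousOn.sub ?_ Real.continuous_mul_log.continuousOn
    refine continuousOn_id.mul (ContinuousOn.log (by fun_prop) ?_)
    intro x hx
    have : (0 : ℝ) ≤ x := hx.1
    positivity
  have h2 : J ≤ b * Real.log (b + 1) - b * Real.log b := by
    rw [← a7_h_eq hb0.le]
    have h3 := a7_log_gt hb0
    have h4 : b * (1 / (b + 1)) ≤ b * Real.log (1 + 1 / b) := mul_le_mul_of_nonneg_left h3.le hb0.le
    have e : b * (1 / (b + 1)) = J := by
      rw [hb]
      have : (1 - J) ≠ 0 := by linarith only [h1]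
      field_simp
      ring
    rw [e] at h4
    exact h4
  have h3 := intermediate_value_Icc hb0.le hc
  obtain ⟨R, hR, hRJ⟩ := h3 ⟨by simp only [zero_mul, sub_zero]; exact h0.le, h2⟩
  have hR0 : 0 < R := by
    rcases hR.1.eq_or_lt with h | h
    · rw [← h] at hRJ
      simp only [zero_mul, sub_zero] at hRJ
      linarith only [h0, hRJ]
    · exact h
  exact ⟨R, hR0, by rw [a7_h_eq hR0.le]; exact hRJ.symm⟩

theorem a7_hasDerivAt_g {x : ℝ} (hx : 0 < x) : HasDerivAt P369.g (Real.log (1 + 1 / x)) x := by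
  have h1 : HasDerivAt (fun y : ℝ => (y + 1) * Real.log (y + 1)) (Real.log (x + 1) + 1) x := by
    have h := (Real.hasDerivAt_mul_log (x := x + 1) (by positivity)).comp x
      ((hasDerivAt_id x).add_const 1)
    simpa [Function.comp_def] using h
  have h2 : HasDerivAt (fun y : ℝ => y * Real.log y) (Real.log x + 1) x :=
    Real.hasDerivAt_mul_log hx.ne'
  have h3 : HasDerivAt P369.g (Real.log (x + 1) + 1 - (Real.log x + 1)) x := h1.sub h2
  have e : 1 + 1 / x = (x + 1) / x := by field_simp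
  rw [e, Real.log_div (by positivity) hx.ne']
  convert h3 using 1
  ring

/-- A7 (comparison) -/
theorem ode_compare {S J : ℝ → ℝ} (hS0 : ∀ t ∈ Ioc (0 : ℝ) 1, 0 ≤ S t) (hSc : ContinuousOn S (Ioc 0 1))
    (hSd : ∀ t ∈ Ioo (0 : ℝ) 1, HasDerivAt S (J t / t) t) (hJ1 : ∀ t ∈ Ioc (0 : ℝ) 1, J t < 1)
    (hiso : ∀ t ∈ Ioc (0 : ℝ) 1, ∀ R : ℝ, 0 < R → J t = R * Real.log (1 + 1 / R) → P369.g R ≤ S t)
    {N : ℝ} (hN : 0 ≤ N) (hg : P369.g N ≤ S 1) {η : ℝ} (hη : η ∈ Ioc (0 : ℝ) 1) :
    P369.g (η * N) ≤ S η := by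
  rcases hN.eq_or_lt with hN0 | hN0
  · rw [← hN0, mul_zero, P369.g_zero]
    exact hS0 η hη
  by_contra hcon
  push Not at hcon
  set D : ℝ → ℝ := fun t => S t - P369.g (t * N) with hD
  have hDη : D η < 0 := by simp only [hD]; linarith
  have hD1 : 0 ≤ D 1 := by simp only [hD, one_mul]; linarith
  have hη1 : η < 1 := by
    rcases hη.2.eq_or_lt with h | h
    · rw [h] at hDη; linarith
    · exact h
  have hDc : ContinuousOn D (Icc η 1) := by
    refine ContinuousOn.sub (hSc.mono fun t ht => ⟨hη.1.trans_le ht.1, ht.2⟩) ?_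
    exact (P369.continuous_g.comp (by fun_prop : Continuous fun t : ℝ => t * N)).continuousOn
  -- the first time at which `D` is nonnegative
  set A : Set ℝ := {t | t ∈ Icc η 1 ∧ 0 ≤ D t} with hA
  have hAne : A.Nonempty := ⟨1, ⟨hη1.le, le_refl _⟩, hD1⟩
  have hAcl : IsClosed A := by
    have : A = Icc η 1 ∩ D ⁻¹' Ici 0 := by
      ext t; simp only [hA, mem_Icc, mem_ofPred_eq, mem_inter_iff, mem_preimage, mem_Ici]
    rw [this]
    exact hDc.preimage_isClosed_of_isClosed isClosed_Icc isClosed_Ici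
  have hAbd : BddBelow A := ⟨η, fun t ht => ht.1.1⟩
  set s := sInf A with hs
  have hsA : s ∈ A := hAcl.csInf_mem hAne hAbd
  have hsη : η < s := by
    rcases hsA.1.1.eq_or_lt with h | h
    · rw [← h] at hsA; have := hsA.2; linarith only [hcon, this]
    · exact h
  have hneg : ∀ t ∈ Ico η s, D t < 0 := by
    intro t ht
    by_contra h
    push Not at h
    have : t ∈ A := ⟨⟨ht.1, ht.2.le.trans hsA.1.2⟩, h⟩
    exact absurd (csInf_le hAbd this) (not_le.2 ht.2)
  have hanti : StrictAntiOn D (Icc η s) := by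
    apply strictAntiOn_of_deriv_neg (convex_Icc η s)
      (hDc.mono (Icc_subset_Icc_right hsA.1.2))
    intro t ht
    rw [interior_Icc] at ht
    have ht0 : 0 < t := hη.1.trans ht.1
    have ht1 : t < 1 := ht.2.trans_le hsA.1.2
    have htN : 0 < t * N := mul_pos ht0 hN0
    have h1 := hSd t ⟨ht0, ht1⟩
    have h2 : HasDerivAt (fun t : ℝ => P369.g (t * N)) (Real.log (1 + 1 / (t * N)) * N) t := by
      have h3 : HasDerivAt (fun t : ℝ => t * N) N t := by
        simpa using (hasDerivAt_id t).mul_const N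
      exact (a7_hasDerivAt_g htN).comp t h3
    have h3 : HasDerivAt D (J t / t - Real.log (1 + 1 / (t * N)) * N) t := h1.sub h2
    rw [h3.deriv]
    have h4 : J t < a7_h (t * N) := by
      rcases le_or_gt (J t) 0 with h | h
      · refine h.trans_lt ?_
        unfold a7_h
        exact mul_pos htN (Real.log_pos (by
          have : 0 < 1 / (t * N) := by (clear * - ht0 hN0; positivity)
          linarith only [this]))
      · obtain ⟨R, hR, hJR⟩ := a7_exists h (hJ1 t ⟨ht0, ht1.le⟩)
        have h5 := hiso t ⟨ht0, ht1.le⟩ R hR hJR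
        have h6 := hneg t ⟨ht.1.le, ht.2⟩
        simp only [hD] at h6
        have h7 : P369.g R < P369.g (t * N) := by linarith only [h5, h6]
        have h8 : R < t * N := by
          by_contra h9
          push Not at h9
          have := (P369.g_le_iff htN.le hR.le).2 h9
          linarith only [h5, h6, this]
        rw [hJR]
        exact a7_h_strictMono hR.le htN.le h8
    have h5 : Real.log (1 + 1 / (t * N)) * N = a7_h (t * N) / t := by
      unfold a7_h
      (clear * - hN0 ht0; field_simp)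
    rw [h5]
    have : J t / t < a7_h (t * N) / t := div_lt_div_of_pos_right h4 ht0
    linarith only [this]
  have := hanti ⟨le_refl _, hsη.le⟩ ⟨hsη.le, le_refl _⟩ hsη
  have := hsA.2
  linarith

end

end Vale.Agent.P369V
end
end

section

section

/-! C2: continuity of the quadratic form. -/

namespace Vale.Agent.P369V

open Matrix MeasureTheory Set
open scoped Kronecker InnerProductSpace ComplexOrder

noncomputable section

variable {ι : Type} [Fintype ι] [DecidableEq ι]

theorem c2_continuous_Kmat :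
    Continuous (fun p : ℝ × Matrix ι ι ℂ × Matrix ι ι ℂ => Kmat p.1 p.2.1) := by
  refine continuous_matrix fun i j => ?_
  have h1 : Continuous (fun p : ℝ × Matrix ι ι ℂ × Matrix ι ι ℂ => p.2.1 j.2 i.2) :=
    (continuous_fst.comp continuous_snd).matrix_elem _ _
  have h2 : Continuous (fun p : ℝ × Matrix ι ι ℂ × Matrix ι ι ℂ => p.2.1 i.1 j.1) :=
    (continuous_fst.comp continuous_snd).matrix_elem _ _
  have h3 : Continuous (fun p : ℝ × Matrix ι ι ℂ × Matrix ι ι ℂ => ((1 - p.1 : ℝ) : ℂ)) :=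
    Complex.continuous_ofReal.comp (continuous_const.sub continuous_fst)
  have h4 : Continuous (fun p : ℝ × Matrix ι ι ℂ × Matrix ι ι ℂ => ((p.1 : ℝ) : ℂ)) :=
    Complex.continuous_ofReal.comp continuous_fst
  simp only [Kmat, Matrix.add_apply, Matrix.smul_apply, Matrix.kroneckerMap_apply,
    Matrix.transpose_apply, smul_eq_mul]
  exact (h3.mul (continuous_const.mul h1)).add (h4.mul (h2.mul continuous_const))

/-- C2 -/
theorem continuousOn_Qf : ContinuousOn (fun p : ℝ × Matrix ι ι ℂ × Matrix ι ι ℂ => Qf p.1 p.2.1 p.2.2)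
    (Icc (0 : ℝ) 1 ×ˢ ({ρ : Matrix ι ι ℂ | ρ.PosDef} ×ˢ Set.univ)) := by
  rintro p ⟨hν, hρ, -⟩
  apply ContinuousAt.continuousWithinAt
  have hd : (Kmat p.1 p.2.1).det ≠ 0 := (c1_isUnit_det hν hρ).ne_zero
  have hK : ContinuousAt (fun p : ℝ × Matrix ι ι ℂ × Matrix ι ι ℂ => (Kmat p.1 p.2.1)⁻¹) p := by
    have h1 : ContinuousAt (fun p : ℝ × Matrix ι ι ℂ × Matrix ι ι ℂ => (Kmat p.1 p.2.1).det⁻¹) p :=
      (c2_continuous_Kmat.matrix_det.continuousAt).inv₀ hd
    have h2 : ContinuousAt (fun p : ℝ × Matrix ι ι ℂ × Matrix ι ι ℂ => (Kmat p.1 p.2.1).adjugate) p :=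
      c2_continuous_Kmat.matrix_adjugate.continuousAt
    have h3 := h1.smul h2
    refine h3.congr (Filter.Eventually.of_forall fun q => ?_)
    simp only [Matrix.inv_def, Ring.inverse_eq_inv']
    rfl
  have hZ : Continuous (fun p : ℝ × Matrix ι ι ℂ × Matrix ι ι ℂ => p.2.2) :=
    continuous_snd.comp continuous_snd
  have hKi : ∀ i j, ContinuousAt (fun p : ℝ × Matrix ι ι ℂ × Matrix ι ι ℂ =>
      Kinv p.1 p.2.1 p.2.2 i j) p := by
    intro i j
    simp only [Kinv, Matrix.mulVec, dotProduct, mvec]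
    refine tendsto_finsetSum _ fun k _ => ?_
    refine Filter.Tendsto.mul ?_ ?_
    · exact ((continuous_id.matrix_elem (i, j) k).tendsto _).comp hK
    · exact (hZ.matrix_elem _ _).continuousAt
  simp only [Qf, Matrix.trace, Matrix.diag_apply, Matrix.mul_apply, Matrix.conjTranspose_apply]
  refine (Complex.continuous_re.tendsto _).comp ?_
  refine tendsto_finsetSum _ fun k _ => ?_
  refine tendsto_finsetSum _ fun l _ => ?_
  refine Filter.Tendsto.mul ?_ (hKi l k)
  exact ((hZ.matrix_elem l k).star).continuousAt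

end

end Vale.Agent.P369V
end
end

section

section

/-! C3: joint convexity of the quadratic form. -/

namespace Vale.Agent.P369V

open Matrix MeasureTheory Set
open scoped Kronecker InnerProductSpace ComplexOrder

noncomputable section

variable {ι : Type} [Fintype ι] [DecidableEq ι]

theorem c3_aux {w₀ w₁ L₀ L₁ s : ℝ} (h0 : 0 < L₀) (h1 : 0 < L₁) (hs0 : 0 ≤ s) (hs1 : s ≤ 1) :
    ((1 - s) * w₀ + s * w₁) ^ 2 / ((1 - s) * L₀ + s * L₁) ≤
      (1 - s) * (w₀ ^ 2 / L₀) + s * (w₁ ^ 2 / L₁) := by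
  have hL : 0 < (1 - s) * L₀ + s * L₁ := c4_den_pos ⟨hs0, hs1⟩ h0 h1
  rw [div_le_iff₀ hL]
  have h : ((1 - s) * (w₀ ^ 2 / L₀) + s * (w₁ ^ 2 / L₁)) * ((1 - s) * L₀ + s * L₁) -
      ((1 - s) * w₀ + s * w₁) ^ 2 = (1 - s) * s * ((w₀ * L₁ - w₁ * L₀) ^ 2 / (L₀ * L₁)) := by
    field_simp
    ring
  have h2 : 0 ≤ (1 - s) * s * ((w₀ * L₁ - w₁ * L₀) ^ 2 / (L₀ * L₁)) :=
    mul_nonneg (mul_nonneg (sub_nonneg.2 hs1) hs0)
      (div_nonneg (sq_nonneg _) (mul_pos h0 h1).le)
  linarith

/-- C3: joint convexity -/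
theorem Qf_joint_convex {ρ : Matrix ι ι ℂ} (hρ : ρ.PosDef) (Z : Matrix ι ι ℂ) {ν₀ ν₁ w₀ w₁ s : ℝ}
    (h0 : ν₀ ∈ Icc (0 : ℝ) 1) (h1 : ν₁ ∈ Icc (0 : ℝ) 1) (hs0 : 0 ≤ s) (hs1 : s ≤ 1) :
    ((1 - s) * w₀ + s * w₁) ^ 2 * Qf ((1 - s) * ν₀ + s * ν₁) ρ Z ≤
      (1 - s) * (w₀ ^ 2 * Qf ν₀ ρ Z) + s * (w₁ ^ 2 * Qf ν₁ ρ Z) := by
  have hs : (1 - s) * ν₀ + s * ν₁ ∈ Icc (0 : ℝ) 1 := by
    have := (convex_Icc (0 : ℝ) 1) h0 h1 (sub_nonneg.2 hs1) hs0 (by ring)
    simpa only [mem_Icc, smul_eq_mul] using this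
  rw [Qf_eigen hs hρ, Qf_eigen h0 hρ, Qf_eigen h1 hρ]
  simp only [Finset.mul_sum]
  rw [← Finset.sum_add_distrib]
  refine Finset.sum_le_sum fun k _ => ?_
  rw [← Finset.sum_add_distrib]
  refine Finset.sum_le_sum fun l _ => ?_
  set p : ι → ℝ := hρ.isHermitian.eigenvalues with hp
  have hp0 : ∀ i, 0 < p i := fun i => hρ.eigenvalues_pos i
  have hL0 := c4_den_pos h0 (hp0 l) (hp0 k)
  have hL1 := c4_den_pos h1 (hp0 l) (hp0 k)
  have e1 : (1 - ((1 - s) * ν₀ + s * ν₁)) * p l + ((1 - s) * ν₀ + s * ν₁) * p k =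
      (1 - s) * ((1 - ν₀) * p l + ν₀ * p k) + s * ((1 - ν₁) * p l + ν₁ * p k) := by ring
  rw [e1]
  have h2 := mul_le_mul_of_nonneg_left (c3_aux (w₀ := w₀) (w₁ := w₁) hL0 hL1 hs0 hs1)
    (Complex.normSq_nonneg ((star (hρ.isHermitian.eigenvectorUnitary : Matrix ι ι ℂ) * Z *
          (hρ.isHermitian.eigenvectorUnitary : Matrix ι ι ℂ)) k l))
  refine le_trans (le_of_eq ?_) (h2.trans (le_of_eq ?_))
  · ring
  · ring

end

end Vale.Agent.P369V
end
end

section

section

/-!
P369V, D3 (part): joint continuity of the loss channel.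
-/

namespace Vale.Agent.P369V

open Matrix

variable {n M : ℕ}

theorem d3c_bsJ : Continuous (fun x : ℝ => bsJ n M x) := by
  refine continuous_matrix fun kl m => ?_
  unfold bsJ
  refine continuous_finsetProd _ fun j _ => ?_
  split_ifs
  · exact Complex.continuous_ofReal.comp
      ((continuous_const.mul (Real.continuous_sqrt.pow _)).mul
        ((Real.continuous_sqrt.comp (continuous_const.sub continuous_id)).pow _))
  · exact continuous_const

theorem continuous_loss :
    Continuous (fun p : ℝ × Matrix (Cf n M) (Cf n M) ℂ => loss n M p.1 p.2) := by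
  have h1 : Continuous (fun p : ℝ × Matrix (Cf n M) (Cf n M) ℂ =>
      bsJ n M p.1 * p.2 * (bsJ n M p.1)ᴴ) :=
    ((d3c_bsJ.comp continuous_fst).matrix_mul continuous_snd).matrix_mul
      (d3c_bsJ.comp continuous_fst).matrix_conjTranspose
  refine continuous_matrix fun k k' => ?_
  unfold loss ptr₁
  exact continuous_finsetSum _ fun l _ => h1.matrix_elem (k, l) (k', l)

end Vale.Agent.P369V
end
end

section

section

/-! E2: entropy production. -/

namespace Vale.Agent.P369V

open Matrix MeasureTheory Set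
open scoped Kronecker InnerProductSpace ComplexOrder

/-- E2: entropy production -/
theorem Jm_eq {n M : ℕ} (hn : 1 ≤ n) {ρ : Matrix (Cf n M) (Cf n M) ℂ} (hρ : ρ.PosDef)
    (ht : ρ.trace = 1) :
    Jm n M ρ = n * (1 - ∫ ν in (0 : ℝ)..1, gf n M ν ρ) :=
  e2_Jm_eq hn hρ (fun _ hν Z => Qf_eigen hν hρ Z) (fun _ hν => HH_eq hν hρ ht)

end Vale.Agent.P369V
end
end

section

section

/-!
P369A: the scalar part of the amplifier inequality.
-/

namespace Vale.Agent.P369A

open MeasureTheory Set Function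

noncomputable section

/-- the pointwise-in-`k` bound. -/
theorem scal_point {C D l : ℝ} (hD : 0 < D) (hDC : D ≤ C) (hl : l ∈ Icc (0 : ℝ) 1)
    {I ic id : ℝ → ℝ} (hIc : ContinuousOn I (Icc 0 1)) (hic : ContinuousOn ic (Icc 0 1))
    (hid : ContinuousOn id (Icc 0 1))
    (ha : ∀ ν ∈ Icc (0 : ℝ) 1, ic ν ≤ I ν)
    (hb : ∀ ν ∈ Icc l 1, (1 - ν) * ic ν + (ν - l) * id (ν - l) ≤ (1 - l) * I l)
    (hc : ∀ μ ∈ Icc (0 : ℝ) 1, id μ ≤ I l) :
    ∫ ν in (0 : ℝ)..1, ((1 - ν) * ic ν / (C + ν) ^ 2 + ν * id ν / (D + ν) ^ 2) ≤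
      ∫ ν in (0 : ℝ)..1, ((1 - ν) * I (min ν l) / (C + ν) ^ 2 + I l * (ν / (D + ν) ^ 2)) := by
  have hC : 0 < C := lt_of_lt_of_le hD hDC
  obtain ⟨hl0, hl1⟩ := hl
  have hCne : ∀ ν : ℝ, 0 ≤ ν → (C + ν) ^ 2 ≠ 0 := fun ν h => by positivity
  have hDne : ∀ ν : ℝ, 0 ≤ ν → (D + ν) ^ 2 ≠ 0 := fun ν h => by positivity
  -- continuity facts
  have c1 : ContinuousOn (fun ν : ℝ => (1 - ν) * ic ν / (C + ν) ^ 2) (Icc 0 1) :=
    ((continuousOn_const.sub continuousOn_id).mul hic).div (by (clear * -; fun_prop)) fun ν h => hCne ν h.1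
  have c2 : ContinuousOn (fun ν : ℝ => ν * id ν / (D + ν) ^ 2) (Icc 0 1) :=
    (continuousOn_id.mul hid).div (by (clear * -; fun_prop)) fun ν h => hDne ν h.1
  have c3 : ContinuousOn (fun ν : ℝ => (1 - ν) * I ν / (C + ν) ^ 2) (Icc 0 1) :=
    ((continuousOn_const.sub continuousOn_id).mul hIc).div (by fun_prop) fun ν h => hCne ν h.1
  have c4 : ContinuousOn (fun ν : ℝ => I l * (ν / (D + ν) ^ 2)) (Icc 0 1) :=
    continuousOn_const.mul (continuousOn_id.div (by fun_prop) fun ν h => hDne ν h.1)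
  have cI : ContinuousOn (fun ν : ℝ => I (min ν l)) (Icc 0 1) := by
    refine hIc.comp (continuous_id.min continuous_const).continuousOn ?_
    intro ν h
    exact ⟨le_min h.1 hl0, (min_le_right _ _).trans hl1⟩
  have c5 : ContinuousOn (fun ν : ℝ => (1 - ν) * I (min ν l) / (C + ν) ^ 2) (Icc 0 1) :=
    ((continuousOn_const.sub continuousOn_id).mul cI).div (by fun_prop) fun ν h => hCne ν h.1
  have ii : ∀ {f : ℝ → ℝ} {a b : ℝ}, ContinuousOn f (Icc 0 1) → 0 ≤ a → a ≤ b → b ≤ 1 →
      IntervalIntegrable f volume a b := by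
    intro f a b hf h0 hab h1
    apply ContinuousOn.intervalIntegrable
    rw [uIcc_of_le hab]
    exact hf.mono (Icc_subset_Icc h0 h1)
  have z01 : (0 : ℝ) ≤ 1 := zero_le_one
  rw [intervalIntegral.integral_add (ii c1 le_rfl z01 le_rfl) (ii c2 le_rfl z01 le_rfl),
    intervalIntegral.integral_add (ii c5 le_rfl z01 le_rfl) (ii c4 le_rfl z01 le_rfl)]
  rw [← intervalIntegral.integral_add_adjacent_intervals (ii c1 le_rfl hl0 hl1) (ii c1 hl0 hl1 le_rfl),
    ← intervalIntegral.integral_add_adjacent_intervals (ii c5 le_rfl hl0 hl1) (ii c5 hl0 hl1 le_rfl)]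
  -- first part
  have p1 : ∫ ν in (0 : ℝ)..l, (1 - ν) * ic ν / (C + ν) ^ 2 ≤
      ∫ ν in (0 : ℝ)..l, (1 - ν) * I (min ν l) / (C + ν) ^ 2 := by
    refine intervalIntegral.integral_mono_on hl0 (ii c1 le_rfl hl0 hl1) (ii c5 le_rfl hl0 hl1) ?_
    intro ν hν
    rw [min_eq_left hν.2]
    have h1 : 0 ≤ 1 - ν := by linarith [hν.2]
    have h2 : ic ν ≤ I ν := ha ν ⟨hν.1, hν.2.trans hl1⟩
    (clear * - h2 h1; gcongr)
  -- the shifted part
  have hl' : 0 ≤ 1 - l := by linarith only [hl1]
  have hl'' : 1 - l ≤ 1 := by linarith only [hl0]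
  have c6 : ContinuousOn (fun μ : ℝ => μ * id μ / (C + (μ + l)) ^ 2) (Icc 0 1) := by
    refine (continuousOn_id.mul hid).div (by fun_prop) fun ν h => hCne _ ?_
    linarith only [hl0, h.1]
  have e1 : ∫ μ in (0 : ℝ)..(1 - l), μ * id μ / (C + (μ + l)) ^ 2 =
      ∫ ν in l..1, (ν - l) * id (ν - l) / (C + ν) ^ 2 := by
    have := intervalIntegral.integral_comp_add_right (a := (0 : ℝ)) (b := 1 - l)
      (fun ν : ℝ => (ν - l) * id (ν - l) / (C + ν) ^ 2) l
    simp only [add_sub_cancel_right, zero_add, sub_add_cancel] at this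
    exact this
  have c7 : ContinuousOn (fun ν : ℝ => (ν - l) * id (ν - l) / (C + ν) ^ 2) (Icc l 1) := by
    refine ContinuousOn.div ((continuousOn_id.sub continuousOn_const).mul
      (hid.comp (continuousOn_id.sub continuousOn_const) ?_)) (by fun_prop)
      fun ν h => hCne _ (hl0.trans h.1)
    intro ν h
    exact ⟨sub_nonneg.2 h.1, (sub_le_self _ hl0).trans h.2⟩
  have ii' : ∀ {f : ℝ → ℝ}, ContinuousOn f (Icc l 1) → IntervalIntegrable f volume l 1 := by
    intro f hf
    apply ContinuousOn.intervalIntegrable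
    rwa [uIcc_of_le hl1]
  -- combined part on [l,1]
  have p2 : (∫ ν in l..1, (1 - ν) * ic ν / (C + ν) ^ 2) +
      ∫ ν in l..1, (ν - l) * id (ν - l) / (C + ν) ^ 2 ≤ ∫ ν in l..1, (1 - l) * I l / (C + ν) ^ 2 := by
    rw [← intervalIntegral.integral_add (ii c1 hl0 hl1 le_rfl) (ii' c7)]
    refine intervalIntegral.integral_mono_on hl1 ((ii c1 hl0 hl1 le_rfl).add (ii' c7)) ?_ ?_
    · apply ii'
      refine continuousOn_const.div (by fun_prop) fun ν h => hCne _ (hl0.trans h.1)
    · intro ν hν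
      rw [← add_div]
      exact div_le_div_of_nonneg_right (hb ν hν) (by (clear * -; positivity))
  -- the part with the `D` weight
  have c8 : ContinuousOn (fun μ : ℝ => I l * (μ / (C + (μ + l)) ^ 2)) (Icc 0 1) := by
    refine continuousOn_const.mul (continuousOn_id.div (by fun_prop) fun ν h => hCne _ ?_)
    linarith only [hl0, h.1]
  have p3 : (∫ μ in (0 : ℝ)..(1 - l), μ * id μ / (D + μ) ^ 2) -
      (∫ μ in (0 : ℝ)..(1 - l), μ * id μ / (C + (μ + l)) ^ 2) ≤
      (∫ μ in (0 : ℝ)..(1 - l), I l * (μ / (D + μ) ^ 2)) -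
      (∫ μ in (0 : ℝ)..(1 - l), I l * (μ / (C + (μ + l)) ^ 2)) := by
    rw [← intervalIntegral.integral_sub (ii c2 le_rfl hl' hl'') (ii c6 le_rfl hl' hl''),
      ← intervalIntegral.integral_sub (ii c4 le_rfl hl' hl'') (ii c8 le_rfl hl' hl'')]
    refine intervalIntegral.integral_mono_on hl' ((ii c2 le_rfl hl' hl'').sub (ii c6 le_rfl hl' hl''))
      ((ii c4 le_rfl hl' hl'').sub (ii c8 le_rfl hl' hl'')) ?_
    intro μ hμ
    have h0 : 0 ≤ μ := hμ.1
    have h1 : id μ ≤ I l := hc μ ⟨hμ.1, hμ.2.trans hl''⟩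
    have h2 : μ / (C + (μ + l)) ^ 2 ≤ μ / (D + μ) ^ 2 := by
      apply div_le_div_of_nonneg_left h0 (by (clear * - hD h0; positivity))
      apply pow_le_pow_left₀ (by positivity)
      linarith only [hDC, hl0]
    have h3 : 0 ≤ (I l - id μ) * (μ / (D + μ) ^ 2 - μ / (C + (μ + l)) ^ 2) :=
      mul_nonneg (by linarith only [h1]) (by linarith only [h2])
    have e : (I l * (μ / (D + μ) ^ 2) - I l * (μ / (C + (μ + l)) ^ 2)) -
      (μ * id μ / (D + μ) ^ 2 - μ * id μ / (C + (μ + l)) ^ 2) =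
        (I l - id μ) * (μ / (D + μ) ^ 2 - μ / (C + (μ + l)) ^ 2) := by ring
    linarith only [h3, e]
  have p4 : (∫ μ in (1 - l)..1, μ * id μ / (D + μ) ^ 2) ≤ ∫ μ in (1 - l)..1, I l * (μ / (D + μ) ^ 2) := by
    refine intervalIntegral.integral_mono_on hl'' (ii c2 hl' hl'' le_rfl) (ii c4 hl' hl'' le_rfl) ?_
    intro μ hμ
    have h0 : 0 ≤ μ := hl'.trans hμ.1
    have h1 : id μ ≤ I l := hc μ ⟨h0, hμ.2⟩
    have h2 : 0 ≤ μ / (D + μ) ^ 2 := by (clear * - h0 hD; positivity)
    have e : μ * id μ / (D + μ) ^ 2 = id μ * (μ / (D + μ) ^ 2) := by ring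
    rw [e]
    exact mul_le_mul_of_nonneg_right h1 h2
  rw [← intervalIntegral.integral_add_adjacent_intervals (ii c2 le_rfl hl' hl'') (ii c2 hl' hl'' le_rfl),
    ← intervalIntegral.integral_add_adjacent_intervals (ii c4 le_rfl hl' hl'') (ii c4 hl' hl'' le_rfl)]
  have e2 : ∫ μ in (0 : ℝ)..(1 - l), I l * (μ / (C + (μ + l)) ^ 2) =
      ∫ ν in l..1, I l * ((ν - l) / (C + ν) ^ 2) := by
    have := intervalIntegral.integral_comp_add_right (a := (0 : ℝ)) (b := 1 - l)
      (fun ν : ℝ => I l * ((ν - l) / (C + ν) ^ 2)) l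
    simp only [add_sub_cancel_right, zero_add, sub_add_cancel] at this
    exact this
  have c9 : ContinuousOn (fun ν : ℝ => I l * ((ν - l) / (C + ν) ^ 2)) (Icc l 1) := by
    refine continuousOn_const.mul ((continuousOn_id.sub continuousOn_const).div (by fun_prop)
      fun ν h => hCne _ (hl0.trans h.1))
  have e3 : (∫ ν in l..1, (1 - l) * I l / (C + ν) ^ 2) =
      (∫ ν in l..1, (1 - ν) * I (min ν l) / (C + ν) ^ 2) + ∫ ν in l..1, I l * ((ν - l) / (C + ν) ^ 2) := by
    rw [← intervalIntegral.integral_add (ii c5 hl0 hl1 le_rfl) (ii' c9)]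
    refine intervalIntegral.integral_congr fun ν hν => ?_
    rw [uIcc_of_le hl1] at hν
    rw [min_eq_right hν.1]
    ring
  rw [e1, e2] at p3
  linarith

/-- the integral in `k`. -/
theorem scal_kint {a b c k₁ K : ℝ} (ha : 0 < a) (h : k₁ ≤ K) (hpos : c ≤ k₁ * a + b)
    (hc : 0 < c) :
    ∫ k in k₁..K, 1 / (k * a + b) ^ 2 ≤ 1 / (a * c) := by
  have hpk : ∀ k ∈ Icc k₁ K, 0 < k * a + b := fun k hk' => by
    have : k₁ * a ≤ k * a := mul_le_mul_of_nonneg_right hk'.1 ha.le
    linarith
  have hd : ∀ k ∈ uIcc k₁ K, HasDerivAt (fun k : ℝ => -(a * (k * a + b))⁻¹) (1 / (k * a + b) ^ 2) k := by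
    intro k hk'
    rw [uIcc_of_le h] at hk'
    have h0 := (hpk k hk').ne'
    have h1 : HasDerivAt (fun k : ℝ => a * (k * a + b)) (a * a) k := by
      simpa using ((hasDerivAt_mul_const (x := k) a).add_const b).const_mul a
    have h2 := (h1.fun_inv (mul_ne_zero ha.ne' h0)).neg
    have e : -(-(a * a) / (a * (k * a + b)) ^ 2) = 1 / (k * a + b) ^ 2 := by
      have ha2 : a ^ 2 ≠ 0 := pow_ne_zero 2 ha.ne'
      rw [neg_div, neg_neg, mul_pow, ← pow_two, ← div_div, div_self ha2]
    rw [e] at h2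
    exact h2
  rw [intervalIntegral.integral_eq_sub_of_hasDerivAt hd]
  · have h1 : 0 < K * a + b := hpk K ⟨h, le_rfl⟩
    have h2 : 0 ≤ (a * (K * a + b))⁻¹ := by positivity
    have h3 : (a * (k₁ * a + b))⁻¹ ≤ 1 / (a * c) := by
      rw [← one_div]
      apply one_div_le_one_div_of_le (by positivity)
      exact mul_le_mul_of_nonneg_left hpos ha.le
    linarith only [h2, h3]
  · apply ContinuousOn.intervalIntegrable
    rw [uIcc_of_le h]
    exact continuousOn_const.div (by (clear * -; fun_prop)) fun k hk' => pow_ne_zero _ (hpk k hk').ne'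

theorem rect_integrable {F : ℝ → ℝ → ℝ} {a b c d : ℝ}
    (hF : ContinuousOn (uncurry F) (Icc a b ×ˢ Icc c d)) :
    Integrable (uncurry F) ((volume.restrict (Ioc a b)).prod (volume.restrict (Ioc c d))) := by
  rw [Measure.prod_restrict]
  exact (hF.integrableOn_compact (isCompact_Icc.prod isCompact_Icc)).mono_set
    (prod_mono Ioc_subset_Icc_self Ioc_subset_Icc_self)

theorem rect_intervalIntegrable {F : ℝ → ℝ → ℝ} {a b c d : ℝ} (hab : a ≤ b) (hcd : c ≤ d)
    (hF : ContinuousOn (uncurry F) (Icc a b ×ˢ Icc c d)) :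
    IntervalIntegrable (fun x => ∫ y in c..d, F x y) volume a b := by
  rw [intervalIntegrable_iff_integrableOn_Ioc_of_le hab]
  have := (rect_integrable hF).integral_prod_left
  simp only [intervalIntegral.integral_of_le hcd]
  exact this

theorem rect_swap {F : ℝ → ℝ → ℝ} {a b c d : ℝ} (hab : a ≤ b) (hcd : c ≤ d)
    (hF : ContinuousOn (uncurry F) (Icc a b ×ˢ Icc c d)) :
    ∫ x in a..b, ∫ y in c..d, F x y = ∫ y in c..d, ∫ x in a..b, F x y := by
  simp only [intervalIntegral.integral_of_le hcd, intervalIntegral.integral_of_le hab]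
  exact integral_integral_swap (rect_integrable hF)

theorem scal_int1 {R : ℝ} (hR : 0 < R) :
    ∫ ν in (0 : ℝ)..1, (1 - ν) / (R + ν) ^ 2 = 1 / R - Real.log (1 + 1 / R) := by
  have hp : ∀ ν ∈ uIcc (0 : ℝ) 1, 0 < R + ν := fun ν h => by
    rw [uIcc_of_le zero_le_one] at h
    linarith [h.1]
  have hd : ∀ ν ∈ uIcc (0 : ℝ) 1, HasDerivAt (fun ν : ℝ => -((R + 1) * (R + ν)⁻¹) - Real.log (R + ν))
      ((1 - ν) / (R + ν) ^ 2) ν := by
    intro ν h
    have h0 := (hp ν h).ne'
    have h1 : HasDerivAt (fun ν : ℝ => R + ν) 1 ν := by simpa using (hasDerivAt_id ν).const_add R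
    have h2 := (((h1.fun_inv h0).const_mul (R + 1)).fun_neg).fun_sub (h1.log h0)
    refine h2.congr_deriv ?_
    field_simp
    ring
  rw [intervalIntegral.integral_eq_sub_of_hasDerivAt hd]
  · have e : Real.log (1 + 1 / R) = Real.log (R + 1) - Real.log R := by
      rw [← Real.log_div (by positivity) hR.ne']
      congr 1
      field_simp
    rw [e]
    have h1 : R + 1 ≠ 0 := by positivity
    simp only [add_zero]
    rw [mul_inv_cancel₀ h1]
    have h2 : (R + 1) * R⁻¹ = 1 + 1 / R := by field_simp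
    rw [h2]
    ring
  · apply ContinuousOn.intervalIntegrable
    exact (continuousOn_const.sub continuousOn_id).div (by (clear * -; fun_prop)) fun ν h => pow_ne_zero _ (hp ν h).ne'

theorem scal_int2 {R : ℝ} (hR : 0 < R) :
    ∫ ν in (0 : ℝ)..1, (1 - ν) / (R + ν) = (R + 1) * Real.log (1 + 1 / R) - 1 := by
  have hp : ∀ ν ∈ uIcc (0 : ℝ) 1, 0 < R + ν := fun ν h => by
    rw [uIcc_of_le zero_le_one] at h
    linarith [h.1]
  have hd : ∀ ν ∈ uIcc (0 : ℝ) 1, HasDerivAt (fun ν : ℝ => (R + 1) * Real.log (R + ν) - ν)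
      ((1 - ν) / (R + ν)) ν := by
    intro ν h
    have h0 := (hp ν h).ne'
    have h1 : HasDerivAt (fun ν : ℝ => R + ν) 1 ν := by simpa using (hasDerivAt_id ν).const_add R
    have h2 := ((h1.log h0).const_mul (R + 1)).fun_sub (hasDerivAt_id ν)
    refine h2.congr_deriv ?_
    field_simp
    ring
  rw [intervalIntegral.integral_eq_sub_of_hasDerivAt hd]
  · have e : Real.log (1 + 1 / R) = Real.log (R + 1) - Real.log R := by
      rw [← Real.log_div (by positivity) hR.ne']
      congr 1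
      field_simp
    rw [e]
    simp only [add_zero]
    ring
  · apply ContinuousOn.intervalIntegrable
    exact (continuousOn_const.sub continuousOn_id).div (by fun_prop) fun ν h => (hp ν h).ne'

/-- the denominator is positive -/
theorem scal_den_pos {R : ℝ} (hR : 0 < R) : 0 < 1 / R - Real.log (1 + 1 / R) := by
  rw [← scal_int1 hR]
  apply intervalIntegral.intervalIntegral_pos_of_pos_on
  · apply ContinuousOn.intervalIntegrable
    refine (continuousOn_const.sub continuousOn_id).div (by (clear * -; fun_prop)) fun ν h => ?_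
    rw [uIcc_of_le zero_le_one] at h
    have : 0 < R + ν := by linarith [h.1]
    positivity
  · intro ν h
    have h1 : 0 < R + ν := by linarith [h.1]
    have h2 : 0 < 1 - ν := by linarith [h.2]
    positivity
  · exact zero_lt_one

/-- Chebyshev's inequality for the measure `(1-ν)/(R+ν)^2 dν` -/
theorem scal_cheb {R : ℝ} (hR : 0 < R) {J : ℝ → ℝ} (hJ : Antitone J) (hJc : ContinuousOn J (Icc 0 1)) :
    (∫ ν in (0 : ℝ)..1, J ν * ((1 - ν) / (R + ν))) * (1 / R - Real.log (1 + 1 / R)) ≤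
      ((R + 1) * Real.log (1 + 1 / R) - 1) * ∫ ν in (0 : ℝ)..1, J ν * ((1 - ν) / (R + ν) ^ 2) := by
  have ha := scal_den_pos hR
  set a := 1 / R - Real.log (1 + 1 / R) with ha_def
  set b := (R + 1) * Real.log (1 + 1 / R) - 1 with hb_def
  have hp : ∀ ν ∈ Icc (0 : ℝ) 1, R + ν ≠ 0 := fun ν h => by
    have : 0 < R + ν := by linarith only [hR, h.1]
    exact this.ne'
  have c1 : ContinuousOn (fun ν : ℝ => (1 - ν) / (R + ν)) (Icc 0 1) :=
    (continuousOn_const.sub continuousOn_id).div (by fun_prop) hp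
  have c2 : ContinuousOn (fun ν : ℝ => (1 - ν) / (R + ν) ^ 2) (Icc 0 1) :=
    (continuousOn_const.sub continuousOn_id).div (by (clear * -; fun_prop)) fun ν h => pow_ne_zero _ (hp ν h)
  have ii : ∀ {f : ℝ → ℝ}, ContinuousOn f (Icc 0 1) → IntervalIntegrable f volume 0 1 := by
    intro f hf
    apply ContinuousOn.intervalIntegrable
    rwa [uIcc_of_le zero_le_one]
  -- the mean
  obtain ⟨c, hc⟩ : ∃ c : ℝ, c = b / a := ⟨_, rfl⟩
  have hca : c * a = b := by rw [hc]; (clear * - ha; field_simp)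
  have c3 : ContinuousOn (fun ν : ℝ => J ν * ((1 - ν) / (R + ν))) (Icc 0 1) := hJc.mul c1
  have c4 : ContinuousOn (fun ν : ℝ => J ν * ((1 - ν) / (R + ν) ^ 2)) (Icc 0 1) := hJc.mul c2
  have i1 : ∫ ν in (0 : ℝ)..1, (1 - ν) / (R + ν) ^ 2 = a := scal_int1 hR
  have i2 : ∫ ν in (0 : ℝ)..1, (1 - ν) / (R + ν) = b := scal_int2 hR
  have key : 0 ≤ ∫ ν in (0 : ℝ)..1, ((c * (J ν * ((1 - ν) / (R + ν) ^ 2)) - J ν * ((1 - ν) / (R + ν))) -
      (J (c - R) * (c * ((1 - ν) / (R + ν) ^ 2)) - J (c - R) * ((1 - ν) / (R + ν)))) := by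
    apply intervalIntegral.integral_nonneg zero_le_one
    intro ν hν
    have h1 : 0 < R + ν := by linarith only [hR, hν.1]
    have h2 : 0 ≤ 1 - ν := by linarith only [hν.2]
    have e : (c * (J ν * ((1 - ν) / (R + ν) ^ 2)) - J ν * ((1 - ν) / (R + ν))) -
      (J (c - R) * (c * ((1 - ν) / (R + ν) ^ 2)) - J (c - R) * ((1 - ν) / (R + ν))) =
      ((J ν - J (c - R)) * ((c - R) - ν)) * ((1 - ν) / (R + ν) ^ 2) := by
      field_simp
      ring
    rw [e]
    refine mul_nonneg ?_ (by (clear * - h2 h1; positivity))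
    rcases le_total ν (c - R) with h | h
    · exact mul_nonneg (sub_nonneg.2 (hJ h)) (sub_nonneg.2 h)
    · exact mul_nonneg_of_nonpos_of_nonpos (sub_nonpos.2 (hJ h)) (sub_nonpos.2 h)
  rw [intervalIntegral.integral_sub ((ii c4).const_mul c |>.sub (ii c3))
      ((((ii c2).const_mul c).const_mul _).sub ((ii c1).const_mul _)),
    intervalIntegral.integral_sub ((ii c4).const_mul c) (ii c3),
    intervalIntegral.integral_sub (((ii c2).const_mul c).const_mul _) ((ii c1).const_mul _),
    intervalIntegral.integral_const_mul, intervalIntegral.integral_const_mul,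
    intervalIntegral.integral_const_mul, intervalIntegral.integral_const_mul, i1, i2, hca, sub_self,
    sub_zero] at key
  have h3 : ∫ ν in (0 : ℝ)..1, J ν * ((1 - ν) / (R + ν)) ≤
      c * ∫ ν in (0 : ℝ)..1, J ν * ((1 - ν) / (R + ν) ^ 2) := by linarith only [key]
  calc _ ≤ (c * ∫ ν in (0 : ℝ)..1, J ν * ((1 - ν) / (R + ν) ^ 2)) * a :=
        mul_le_mul_of_nonneg_right h3 ha.le
    _ = b * ∫ ν in (0 : ℝ)..1, J ν * ((1 - ν) / (R + ν) ^ 2) := by rw [← hca]; ring

/-- the scalar part of the amplifier inequality (helper526, note 6769) -/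
theorem amp_scalar {R : ℝ} (hR : 0 < R) {I : ℝ → ℝ} (hI : ConvexOn ℝ (Icc 0 1) I)
    (hIc : ContinuousOn I (Icc 0 1)) (hI0 : ∀ ν ∈ Icc (0 : ℝ) 1, 0 ≤ I ν)
    {ic id : ℝ → ℝ → ℝ} {k₁ K : ℝ} (h1 : 1 < k₁) (hK : k₁ ≤ K)
    (hic : ContinuousOn (uncurry ic) (Icc k₁ K ×ˢ Icc 0 1))
    (hid : ContinuousOn (uncurry id) (Icc k₁ K ×ˢ Icc 0 1))
    (ha : ∀ k ∈ Icc k₁ K, ∀ ν ∈ Icc (0 : ℝ) 1, ic k ν ≤ I ν)
    (hb : ∀ k ∈ Icc k₁ K, ∀ l ν : ℝ, 0 ≤ l → l ≤ ν → ν ≤ 1 →
      (1 - ν) * ic k ν + (ν - l) * id k (ν - l) ≤ (1 - l) * I l)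
    (hc : ∀ k ∈ Icc k₁ K, ∀ l ∈ Icc (0 : ℝ) 1, ∀ μ ∈ Icc (0 : ℝ) 1, id k μ ≤ I l) :
    ∫ k in k₁..K, ∫ ν in (0 : ℝ)..1,
        ((1 - ν) * ic k ν / (k * (R + 1) - 1 + ν) ^ 2 + ν * id k ν / ((k - 1) * (R + 1) + ν) ^ 2) ≤
      Real.log (1 + 1 / R) / (1 / R - Real.log (1 + 1 / R)) *
        ∫ ν in (0 : ℝ)..1, (1 - ν) / (R + ν) ^ 2 * I ν := by
  have z01 : (0 : ℝ) ≤ 1 := zero_le_one
  obtain ⟨l, hl, hmin⟩ := isCompact_Icc.exists_isMinOn (nonempty_Icc.2 z01) hIc
  have hminl : ∀ ν ∈ Icc (0 : ℝ) 1, I l ≤ I ν := fun ν h => hmin h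
  -- the truncated profile
  set J : ℝ → ℝ := fun ν => I (min (max ν 0) l) with hJ_def
  have hJanti : Antitone J := by
    intro x y hxy
    have hx : min (max x 0) l ∈ Icc (0 : ℝ) 1 :=
      ⟨le_min (le_max_right _ _) hl.1, (min_le_right _ _).trans hl.2⟩
    have hle : min (max x 0) l ≤ min (max y 0) l := min_le_min (max_le_max hxy le_rfl) le_rfl
    have h2 := hI.le_max_of_mem_Icc hx hl ⟨hle, min_le_right _ _⟩
    rwa [max_eq_left (hminl _ hx)] at h2
  have hJeq : ∀ ν ∈ Icc (0 : ℝ) 1, J ν = I (min ν l) := fun ν h => by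
    simp only [hJ_def, max_eq_left h.1]
  have hJc : ContinuousOn J (Icc 0 1) := by
    refine hIc.comp ((continuous_id.max continuous_const).min continuous_const).continuousOn ?_
    intro ν _
    exact ⟨le_min (le_max_right _ _) hl.1, (min_le_right _ _).trans hl.2⟩
  have hJI : ∀ ν ∈ Icc (0 : ℝ) 1, J ν ≤ I ν := by
    intro ν h
    rw [hJeq ν h]
    rcases le_total ν l with h' | h'
    · rw [min_eq_left h']
    · rw [min_eq_right h']; exact hminl ν h
  have hJm : ∀ ν ∈ Icc (0 : ℝ) 1, I l ≤ J ν := by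
    intro ν h
    rw [hJeq ν h]
    exact hminl _ ⟨le_min h.1 hl.1, (min_le_right _ _).trans hl.2⟩
  have hR1 : 0 < R + 1 := by linarith
  have hpos : ∀ ν ∈ Icc (0 : ℝ) 1, 0 < R + ν := fun ν h => by linarith [h.1]
  -- denominators
  have hCk : ∀ k ∈ Icc k₁ K, R < k * (R + 1) - 1 := fun k hk => by
    have : 1 * (R + 1) < k * (R + 1) := mul_lt_mul_of_pos_right (lt_of_lt_of_le h1 hk.1) hR1
    linarith
  have hDk : ∀ k ∈ Icc k₁ K, 0 < (k - 1) * (R + 1) := fun k hk =>
    mul_pos (by linarith [hk.1]) hR1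
  have hden1 : ∀ p ∈ Icc k₁ K ×ˢ Icc (0 : ℝ) 1, (p.1 * (R + 1) - 1 + p.2) ^ 2 ≠ 0 := by
    rintro p ⟨hk, hν⟩
    have := hCk p.1 hk
    have h0 := hν.1
    have : 0 < p.1 * (R + 1) - 1 + p.2 := by linarith
    (clear * - this; positivity)
  have hden2 : ∀ p ∈ Icc k₁ K ×ˢ Icc (0 : ℝ) 1, ((p.1 - 1) * (R + 1) + p.2) ^ 2 ≠ 0 := by
    rintro p ⟨hk, hν⟩
    have := hDk p.1 hk
    have h0 := hν.1
    have : 0 < (p.1 - 1) * (R + 1) + p.2 := by linarith
    (clear I hI hIc hI0 ic id hK hic hid ha hb hc z01 l hl hmin hminl J hJ_def hJanti hJeq hJc hJI hJm hpos hCk hden1 this; positivity)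
  set F : ℝ → ℝ → ℝ := fun k ν =>
    (1 - ν) * ic k ν / (k * (R + 1) - 1 + ν) ^ 2 + ν * id k ν / ((k - 1) * (R + 1) + ν) ^ 2 with hF
  set G : ℝ → ℝ → ℝ := fun k ν =>
    (1 - ν) * J ν / (k * (R + 1) - 1 + ν) ^ 2 + I l * (ν / ((k - 1) * (R + 1) + ν) ^ 2) with hG
  have cF : ContinuousOn (uncurry F) (Icc k₁ K ×ˢ Icc 0 1) := by
    have e : uncurry F = fun p : ℝ × ℝ => (1 - p.2) * uncurry ic p / (p.1 * (R + 1) - 1 + p.2) ^ 2 +
        p.2 * uncurry id p / ((p.1 - 1) * (R + 1) + p.2) ^ 2 := rfl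
    rw [e]
    refine ContinuousOn.add (ContinuousOn.div (ContinuousOn.mul (by fun_prop) hic) (by (clear * -; fun_prop)) hden1)
      (ContinuousOn.div (ContinuousOn.mul (by fun_prop) hid) (by (clear * -; fun_prop)) hden2)
  have cG : ContinuousOn (uncurry G) (Icc k₁ K ×ˢ Icc 0 1) := by
    have e : uncurry G = fun p : ℝ × ℝ => (1 - p.2) * J p.2 / (p.1 * (R + 1) - 1 + p.2) ^ 2 +
        I l * (p.2 / ((p.1 - 1) * (R + 1) + p.2) ^ 2) := rfl
    rw [e]
    have cJ : ContinuousOn (fun p : ℝ × ℝ => J p.2) (Icc k₁ K ×ˢ Icc 0 1) :=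
      hJc.comp continuousOn_snd fun p hp => hp.2
    refine ContinuousOn.add (ContinuousOn.div (ContinuousOn.mul (by fun_prop) cJ) (by fun_prop) hden1)
      (continuousOn_const.mul (ContinuousOn.div (by fun_prop) (by fun_prop) hden2))
  have step2 : ∫ k in k₁..K, ∫ ν in (0 : ℝ)..1, F k ν ≤ ∫ k in k₁..K, ∫ ν in (0 : ℝ)..1, G k ν := by
    refine intervalIntegral.integral_mono_on hK (rect_intervalIntegrable hK z01 cF)
      (rect_intervalIntegrable hK z01 cG) ?_
    intro k hk
    have hick : ContinuousOn (ic k) (Icc 0 1) := by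
      have : ContinuousOn (fun ν : ℝ => (k, ν)) (Icc (0 : ℝ) 1) := by fun_prop
      exact hic.comp this fun ν hν => ⟨hk, hν⟩
    have hidk : ContinuousOn (id k) (Icc 0 1) := by
      have : ContinuousOn (fun ν : ℝ => (k, ν)) (Icc (0 : ℝ) 1) := by fun_prop
      exact hid.comp this fun ν hν => ⟨hk, hν⟩
    have := scal_point (hDk k hk) (C := k * (R + 1) - 1) (by linarith only [hR]) hl hIc hick hidk (ha k hk)
      (fun ν hν => hb k hk l ν hl.1 hν.1 hν.2) (fun μ hμ => hc k hk l hl μ hμ)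
    refine this.trans (le_of_eq ?_)
    refine intervalIntegral.integral_congr fun ν hν => ?_
    rw [uIcc_of_le z01] at hν
    simp only [hG]
    rw [hJeq ν hν]
  refine step2.trans ?_
  rw [rect_swap hK z01 cG]
  -- integrate in `k`
  have ii : ∀ {f : ℝ → ℝ}, ContinuousOn f (Icc 0 1) → IntervalIntegrable f volume 0 1 := by
    intro f hf
    apply ContinuousOn.intervalIntegrable
    rwa [uIcc_of_le z01]
  have c1 : ContinuousOn (fun ν : ℝ => (1 - ν) / (R + ν)) (Icc 0 1) :=
    (continuousOn_const.sub continuousOn_id).div (by fun_prop) fun ν h => (hpos ν h).ne'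
  have c2 : ContinuousOn (fun ν : ℝ => (1 - ν) / (R + ν) ^ 2) (Icc 0 1) :=
    (continuousOn_const.sub continuousOn_id).div (by fun_prop) fun ν h => pow_ne_zero _ (hpos ν h).ne'
  have c3 : ContinuousOn (fun ν : ℝ => J ν * ((1 - ν) / (R + ν))) (Icc 0 1) := hJc.mul c1
  have c4 : ContinuousOn (fun ν : ℝ => J ν * ((1 - ν) / (R + ν) ^ 2)) (Icc 0 1) := hJc.mul c2
  have step4 : ∫ ν in (0 : ℝ)..1, ∫ k in k₁..K, G k ν ≤
      ∫ ν in (0 : ℝ)..1, ((1 / (R + 1)) * (J ν * ((1 - ν) / (R + ν))) + (1 / (R + 1)) * I l) := by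
    refine intervalIntegral.integral_mono_on z01 ?_ ((((ii c3).const_mul _)).add
      intervalIntegrable_const) ?_
    · have cG' : ContinuousOn (uncurry fun ν k => G k ν) (Icc 0 1 ×ˢ Icc k₁ K) :=
        cG.comp continuous_swap.continuousOn fun p hp => ⟨hp.2, hp.1⟩
      exact rect_intervalIntegrable z01 hK cG'
    · intro ν hν
      have hν0 := hν.1
      have hJ0 : 0 ≤ (1 - ν) * J ν := mul_nonneg (by linarith only [hν.2]) ((hI0 l hl).trans (hJm ν hν))
      have e : (fun k : ℝ => G k ν) = fun k => (1 - ν) * J ν * (1 / (k * (R + 1) + (ν - 1)) ^ 2) +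
          I l * ν * (1 / (k * (R + 1) + (ν - (R + 1))) ^ 2) := by
        funext k
        simp only [hG]
        have e1 : k * (R + 1) - 1 + ν = k * (R + 1) + (ν - 1) := by ring
        have e2 : (k - 1) * (R + 1) + ν = k * (R + 1) + (ν - (R + 1)) := by ring
        rw [e1, e2]
        ring
      rw [e]
      have b1 : R + ν ≤ k₁ * (R + 1) + (ν - 1) := by
        have := hCk k₁ ⟨le_rfl, hK⟩
        linarith only [this]
      have b2 : (k₁ - 1) * (R + 1) + ν ≤ k₁ * (R + 1) + (ν - (R + 1)) := le_of_eq (by ring)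
      have b2' : 0 < (k₁ - 1) * (R + 1) + ν := by
        have := hDk k₁ ⟨le_rfl, hK⟩
        linarith only [hν0, this]
      have k1 := scal_kint hR1 hK b1 (hpos ν hν)
      have k2 := scal_kint hR1 hK b2 b2'
      have iik : ∀ {c : ℝ}, 0 < k₁ * (R + 1) + c → IntervalIntegrable
          (fun k : ℝ => 1 / (k * (R + 1) + c) ^ 2) volume k₁ K := by
        intro c hc
        apply ContinuousOn.intervalIntegrable
        rw [uIcc_of_le hK]
        refine continuousOn_const.div (by fun_prop) fun k hk => ?_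
        have : k₁ * (R + 1) ≤ k * (R + 1) := mul_le_mul_of_nonneg_right hk.1 hR1.le
        have : 0 < k * (R + 1) + c := by linarith only [hc, this]
        (clear * - this; positivity)
      have j1 := iik (c := ν - 1) (by have := hpos ν hν; linarith only [hR, b2'])
      have j2 := iik (c := ν - (R + 1)) (by linarith only [b2'])
      rw [intervalIntegral.integral_add (j1.const_mul _) (j2.const_mul _),
        intervalIntegral.integral_const_mul, intervalIntegral.integral_const_mul]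
      have m1 := mul_le_mul_of_nonneg_left k1 hJ0
      have m2 := mul_le_mul_of_nonneg_left k2 (mul_nonneg (hI0 l hl) hν0)
      have m3 : I l * ν * (1 / ((R + 1) * ((k₁ - 1) * (R + 1) + ν))) ≤ 1 / (R + 1) * I l := by
        have e3 : I l * ν * (1 / ((R + 1) * ((k₁ - 1) * (R + 1) + ν))) =
          (1 / (R + 1) * I l) * (ν / ((k₁ - 1) * (R + 1) + ν)) := by (clear * - hR; field_simp)
        rw [e3]
        have : ν / ((k₁ - 1) * (R + 1) + ν) ≤ 1 := by
          rw [div_le_one b2']
          have := hDk k₁ ⟨le_rfl, hK⟩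
          linarith only [this]
        exact mul_le_of_le_one_right (mul_nonneg (by positivity) (hI0 l hl)) this
      have m4 : (1 - ν) * J ν * (1 / ((R + 1) * (R + ν))) =
          1 / (R + 1) * (J ν * ((1 - ν) / (R + ν))) := by
        have := (hpos ν hν).ne'
        (clear * - this hR; field_simp)
      linarith only [m1, m2, m3, m4]
  refine step4.trans ?_
  rw [intervalIntegral.integral_add ((ii c3).const_mul _) intervalIntegrable_const,
    intervalIntegral.integral_const_mul, intervalIntegral.integral_const]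
  simp only [sub_zero, one_smul]
  have hch := scal_cheb hR hJanti hJc
  have hapos := scal_den_pos hR
  set a := 1 / R - Real.log (1 + 1 / R) with ha_def
  set L := Real.log (1 + 1 / R) with hL
  set X := ∫ ν in (0 : ℝ)..1, J ν * ((1 - ν) / (R + ν)) with hX
  set Y := ∫ ν in (0 : ℝ)..1, J ν * ((1 - ν) / (R + ν) ^ 2) with hY
  have hmY : I l * a ≤ Y := by
    rw [hY, ha_def, ← scal_int1 hR, ← intervalIntegral.integral_const_mul]
    refine intervalIntegral.integral_mono_on z01 ((ii c2).const_mul _) (ii c4) ?_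
    intro ν hν
    refine mul_le_mul_of_nonneg_right (hJm ν hν) ?_
    have h2 : 0 ≤ 1 - ν := by linarith only [hν.2]
    have := (hpos ν hν)
    (clear * - h2 this; positivity)
  have hYI : Y ≤ ∫ ν in (0 : ℝ)..1, (1 - ν) / (R + ν) ^ 2 * I ν := by
    refine intervalIntegral.integral_mono_on z01 (ii c4) (ii (c2.mul hIc)) ?_
    intro ν hν
    rw [mul_comm]
    refine mul_le_mul_of_nonneg_left (hJI ν hν) ?_
    have h2 : 0 ≤ 1 - ν := by linarith only [hν.2]
    have := (hpos ν hν)
    (clear * - h2 this; positivity)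
  have hL0 : 0 ≤ L := Real.log_nonneg (by have : 0 ≤ 1 / R := by positivity
                                          linarith only [this])
  have h5 : (X + I l) * a ≤ (R + 1) * (L * Y) := by
    have : (X + I l) * a = X * a + I l * a := by ring
    have : ((R + 1) * L - 1) * Y + Y = (R + 1) * (L * Y) := by ring
    linarith only [hch, hmY]
  have h6 : 1 / (R + 1) * X + 1 / (R + 1) * I l ≤ L / a * Y := by
    have e5 : 1 / (R + 1) * X + 1 / (R + 1) * I l = (X + I l) * a / ((R + 1) * a) := by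
      (clear * - hapos hR; field_simp)
    have e6 : L / a * Y = (R + 1) * (L * Y) / ((R + 1) * a) := by
      (clear * - hR hapos; field_simp)
    rw [e5, e6]
    exact div_le_div_of_nonneg_right h5 (by (clear * - hR hapos; positivity))
  exact h6.trans (mul_le_mul_of_nonneg_left hYI (by (clear * - hL0 hapos; positivity)))

end

end Vale.Agent.P369A
end
end

section

section

/-!
P369A: comparison for the entropy along the amplifier semigroup.
-/

namespace Vale.Agent.P369A

open MeasureTheory Set Filter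
open scoped Topology

noncomputable section

/-- `(R+1) log(1+1/R)` -/
def hamp (R : ℝ) : ℝ := (R + 1) * Real.log (1 + 1 / R)

theorem cmp_log_lt {R : ℝ} (hR : 0 < R) : Real.log (1 + 1 / R) < 1 / R := by
  have h1 : (0 : ℝ) < 1 + 1 / R := by positivity
  have h2 : 1 + 1 / R ≠ 1 := by
    have : 0 < 1 / R := by positivity
    linarith only [this]
  have h3 := Real.log_lt_sub_one_of_pos h1 h2
  linarith only [h3]

theorem hamp_continuousOn : ContinuousOn hamp (Ioi 0) := by
  unfold hamp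
  refine ContinuousOn.mul (by fun_prop) (ContinuousOn.log (continuousOn_const.add
    (continuousOn_const.div continuousOn_id fun x hx => (ne_of_gt hx))) ?_)
  intro x hx
  have : (0 : ℝ) < x := hx
  positivity

theorem hamp_strictAnti : StrictAntiOn hamp (Ioi 0) := by
  apply strictAntiOn_of_deriv_neg (convex_Ioi 0) hamp_continuousOn
  intro x hx
  rw [interior_Ioi] at hx
  have hx : 0 < x := hx
  have h1 : HasDerivAt (fun y : ℝ => 1 + 1 / y) (-(1 / x ^ 2)) x := by
    have h := (hasDerivAt_inv hx.ne').const_add 1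
    refine (h.congr_deriv ?_).congr_of_eventuallyEq ?_
    · rw [one_div]
    · exact Filter.Eventually.of_forall fun y => by simp
  have hne : 1 + 1 / x ≠ 0 := by positivity
  have h2 := ((hasDerivAt_id x).add_const 1).mul (h1.log hne)
  have h3 : HasDerivAt hamp (1 * Real.log (1 + 1 / x) + (x + 1) * (-(1 / x ^ 2) / (1 + 1 / x))) x := h2
  rw [h3.deriv]
  have e : (x + 1) * (-(1 / x ^ 2) / (1 + 1 / x)) = - (1 / x) := by field_simp
  rw [e]
  have := cmp_log_lt hx
  linarith only [this]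

/-- comparison along the amplifier flow. `y k = S(C_k)/n`; `JX X k` is the entropy production (per
mode) of the compression to at most `X` photons. -/
theorem amp_compare {y : ℝ → ℝ} {JX : ℕ → ℝ → ℝ} {K : ℝ} (hK : 1 ≤ K)
    (hm : MonotoneOn y (Icc 1 K)) (hpos : ∀ k ∈ Ioc 1 K, 0 < y k)
    (hJc : ∀ X, ContinuousOn (JX X) (Ioc 1 K)) (hJ0 : ∀ X, ∀ k ∈ Ioc 1 K, 0 ≤ JX X k)
    (hiso : ∀ k ∈ Ioc 1 K, ∀ R : ℝ, 0 < R → P369.g R = y k → ∀ ε > 0, ∀ᶠ X in atTop,
      hamp R - ε ≤ JX X k)
    (hint : ∀ k₁ k₂, 1 < k₁ → k₁ ≤ k₂ → k₂ ≤ K → ∀ ε > 0, ∀ᶠ X in atTop,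
      ∫ k in k₁..k₂, JX X k / k ≤ y k₂ - y k₁ + ε)
    {N : ℝ} (hN : 0 ≤ N) (hg : P369.g N ≤ y 1) : P369.g (K * (N + 1) - 1) ≤ y K := by
  by_contra hcon
  push Not at hcon
  set z : ℝ → ℝ := fun k => P369.g (k * (N + 1) - 1) with hz
  have hzc : Continuous z := P369.continuous_g.comp (by fun_prop : Continuous fun k : ℝ => k * (N + 1) - 1)
  set A : Set ℝ := {k | k ∈ Icc 1 K ∧ z k ≤ y k} with hA
  have h1A : (1 : ℝ) ∈ A := by
    refine ⟨⟨le_rfl, hK⟩, ?_⟩
    simp only [hz, one_mul, add_sub_cancel_right]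
    exact hg
  have hAbd : BddAbove A := ⟨K, fun t ht => ht.1.2⟩
  set s := sSup A with hs
  have hs1 : 1 ≤ s := le_csSup hAbd h1A
  have hsK : s ≤ K := csSup_le ⟨1, h1A⟩ fun t ht => ht.1.2
  have hzs : z s ≤ y s := by
    obtain ⟨u, -, hu, huA⟩ := exists_seq_tendsto_sSup ⟨1, h1A⟩ hAbd
    refine le_of_tendsto ((hzc.tendsto s).comp hu) (Eventually.of_forall fun j => ?_)
    exact (huA j).2.trans (hm (huA j).1 ⟨hs1, hsK⟩ (le_csSup hAbd (huA j)))
  have hsK' : s < K := by
    rcases hsK.eq_or_lt with h | h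
    · rw [h] at hzs
      exact absurd hzs (not_le.2 hcon)
    · exact h
  have hlt : ∀ k ∈ Ioc s K, y k < z k := by
    intro k hk
    by_contra h
    push Not at h
    have : k ∈ A := ⟨⟨hs1.trans hk.1.le, hk.2⟩, h⟩
    exact absurd (le_csSup hAbd this) (not_le.2 hk.1)
  have hZ : ∀ k : ℝ, 1 < k → 0 < k * (N + 1) - 1 := fun k hk => by nlinarith only [hN, hk]
  have claim : ∀ k₁ ∈ Ioo s K, z K - z k₁ ≤ y K - y k₁ := by
    intro k₁ hk₁
    have h1k : 1 < k₁ := hs1.trans_lt hk₁.1
    set H : ℝ → ℝ := fun k => hamp (k * (N + 1) - 1) with hH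
    have hHc : ContinuousOn H (Icc k₁ K) := by
      refine hamp_continuousOn.comp (by fun_prop) ?_
      intro k hk
      exact hZ k (h1k.trans_le hk.1)
    have hne : ∀ k ∈ Icc k₁ K, k ≠ 0 := fun k hk => by
      have : 1 < k := h1k.trans_le hk.1
      positivity
    have e1 : ∫ k in k₁..K, H k / k = z K - z k₁ := by
      apply intervalIntegral.integral_eq_sub_of_hasDerivAt
      · intro k hk
        rw [uIcc_of_le hk₁.2.le] at hk
        have h1 : 1 < k := h1k.trans_le hk.1
        have h2 := P369V.a7_hasDerivAt_g (hZ k h1)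
        have h3 : HasDerivAt (fun k : ℝ => k * (N + 1) - 1) (N + 1) k := by
          simpa using ((hasDerivAt_id k).mul_const (N + 1)).sub_const 1
        have h4 := h2.comp k h3
        refine h4.congr_deriv ?_
        simp only [hH, hamp]
        have : k ≠ 0 := hne k hk
        field_simp
        ring
      · apply ContinuousOn.intervalIntegrable
        rw [uIcc_of_le hk₁.2.le]
        exact hHc.div continuousOn_id hne
    have hHpos : ∀ k ∈ Icc k₁ K, 0 ≤ H k := by
      intro k hk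
      have h1 := hZ k (h1k.trans_le hk.1)
      simp only [hH, hamp]
      have h2 : 0 ≤ Real.log (1 + 1 / (k * (N + 1) - 1)) := Real.log_nonneg (by
        have : 0 ≤ 1 / (k * (N + 1) - 1) := by (clear * - h1; positivity)
        linarith only [this])
      (clear * - h1 h2; positivity)
    have hJc' : ∀ X, ContinuousOn (JX X) (Icc k₁ K) := fun X =>
      (hJc X).mono fun k hk => ⟨h1k.trans_le hk.1, hk.2⟩
    have hlim : Tendsto (fun X => ∫ k in k₁..K, min (JX X k) (H k) / k) atTop
        (𝓝 (∫ k in k₁..K, H k / k)) := by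
      apply intervalIntegral.tendsto_integral_filter_of_dominated_convergence (fun k => H k / k)
      · refine Eventually.of_forall fun X => ?_
        have : IntervalIntegrable (fun k => min (JX X k) (H k) / k) volume k₁ K := by
          apply ContinuousOn.intervalIntegrable
          rw [uIcc_of_le hk₁.2.le]
          exact ((hJc' X).inf hHc).div continuousOn_id hne
        exact this.def'.aestronglyMeasurable
      · refine Eventually.of_forall fun X => ae_of_all _ fun k hk => ?_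
        rw [uIoc_of_le hk₁.2.le] at hk
        have hk' : k ∈ Icc k₁ K := Ioc_subset_Icc_self hk
        have hk1 : 1 < k := h1k.trans_le hk'.1
        have h0 : 0 ≤ min (JX X k) (H k) / k :=
          div_nonneg (le_min (hJ0 X k ⟨hk1, hk.2⟩) (hHpos k hk')) (by positivity)
        rw [Real.norm_of_nonneg h0]
        exact div_le_div_of_nonneg_right (min_le_right _ _) (by positivity)
      · apply ContinuousOn.intervalIntegrable
        rw [uIcc_of_le hk₁.2.le]
        exact hHc.div continuousOn_id hne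
      · refine ae_of_all _ fun k hk => ?_
        rw [uIoc_of_le hk₁.2.le] at hk
        have hk' : k ∈ Icc k₁ K := Ioc_subset_Icc_self hk
        have hk1 : 1 < k := h1k.trans_le hk'.1
        apply tendsto_const_nhds.congr'
        obtain ⟨R, hR0, hRy⟩ := P369.exists_g (hpos k ⟨hk1, hk.2⟩).le
        have hR0 : 0 ≤ R := hR0
        have hRpos : 0 < R := by
          rcases hR0.eq_or_lt with h | h
          · rw [← h, P369.g_zero] at hRy
            exact absurd hRy (hpos k ⟨hk1, hk.2⟩).ne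
          · exact h
        have hRlt : R < k * (N + 1) - 1 := by
          by_contra hc
          push Not at hc
          have h5 := (P369.g_le_iff (hZ k hk1).le hR0).2 hc
          have h6 := hlt k ⟨hk₁.1.trans_le hk'.1, hk.2⟩
          rw [← hRy] at h6
          exact absurd h5 (not_le.2 h6)
        have hgap : H k < hamp R := hamp_strictAnti hRpos (hZ k hk1) hRlt
        have h7 := hiso k ⟨hk1, hk.2⟩ R hRpos hRy (hamp R - H k) (by linarith only [hgap])
        filter_upwards [h7] with X hX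
        rw [min_eq_right (by linarith only [hX])]
    rw [← e1]
    refine le_of_forall_pos_le_add fun ε hε => ?_
    refine le_of_tendsto hlim ?_
    filter_upwards [hint k₁ K h1k hk₁.2.le le_rfl ε hε] with X hX
    refine le_trans ?_ hX
    refine intervalIntegral.integral_mono_on hk₁.2.le ?_ ?_ ?_
    · apply ContinuousOn.intervalIntegrable
      rw [uIcc_of_le hk₁.2.le]
      exact ((hJc' X).inf hHc).div continuousOn_id hne
    · apply ContinuousOn.intervalIntegrable
      rw [uIcc_of_le hk₁.2.le]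
      exact (hJc' X).div continuousOn_id hne
    · intro k hk
      have hk1 : 1 < k := h1k.trans_le hk.1
      exact div_le_div_of_nonneg_right (min_le_left _ _) (by positivity)
  -- let `k₁ → s`
  have h2 : ∀ k₁ ∈ Ioo s K, z K ≤ y K - y s + z k₁ := by
    intro k₁ hk₁
    have h3 := claim k₁ hk₁
    have h4 := hm ⟨hs1, hsK⟩ ⟨hs1.trans hk₁.1.le, hk₁.2.le⟩ hk₁.1.le
    linarith
  have h3 : z K ≤ y K - y s + z s := by
    have h4 : Tendsto (fun k₁ => y K - y s + z k₁) (𝓝[>] s) (𝓝 (y K - y s + z s)) :=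
      (tendsto_const_nhds.add (hzc.tendsto s)).mono_left nhdsWithin_le_nhds
    refine ge_of_tendsto h4 ?_
    filter_upwards [Ioo_mem_nhdsGT hsK'] with k₁ hk₁
    exact h2 k₁ hk₁
  have : z K ≤ y K := by linarith
  exact absurd this (not_le.2 hcon)

end

end Vale.Agent.P369A
end
end

section

section

/-!
P369A, Z3: real-analysis part of the isoperimetric inequality for the amplifier.
-/

namespace Vale.Agent.P369A

open MeasureTheory Set Filter
open scoped Topology

noncomputable section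

/-- the thermal part of the potential of the amplifier output -/
def PhiC (n R e t : ℝ) : ℝ :=
  Real.log (1 + 1 / (t * (R + 1) - 1)) * (t * e - n) + n * Real.log (t * (R + 1))

/-- the thermal part of the potential of the environment output -/
def PsiD (n R e t : ℝ) : ℝ :=
  Real.log (1 + 1 / ((t - 1) * (R + 1))) * ((t - 1) * e) + n * Real.log (1 + (t - 1) * (R + 1))

theorem z3_rC {R t : ℝ} (hR : 0 < R) (ht : 1 ≤ t) : R ≤ t * (R + 1) - 1 := by nlinarith

theorem z3_rD {R t : ℝ} (hR : 0 < R) (ht : 1 < t) : 0 < (t - 1) * (R + 1) := by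
  have : 0 < t - 1 := by linarith
  positivity

theorem z3_hasDerivAt_psi {f : ℝ → ℝ} {f' t : ℝ} (hf : HasDerivAt f f' t) (h0 : 0 < f t) :
    HasDerivAt (fun t => Real.log (1 + 1 / f t)) (-f' / (f t * (f t + 1))) t := by
  have h1 : HasDerivAt (fun t => 1 + (f t)⁻¹) (-f' / (f t) ^ 2) t := (hf.fun_inv h0.ne').const_add 1
  have h2 : 1 + (f t)⁻¹ ≠ 0 := by positivity
  have h3 := h1.log h2
  have h4 : (fun t => Real.log (1 + 1 / f t)) = fun t => Real.log (1 + (f t)⁻¹) := by
    funext t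
    rw [one_div]
  rw [h4]
  refine h3.congr_deriv ?_
  have : f t + 1 ≠ 0 := by positivity
  field_simp

theorem hasDerivAt_PhiC {n R e t : ℝ} (hR : 0 < R) (ht : 1 ≤ t) :
    HasDerivAt (PhiC n R e) (1 / t * (n - 1 / (t * (R + 1) - 1) * (t * e - n) +
      Real.log (1 + 1 / (t * (R + 1) - 1)) * (t * e))) t := by
  have hr : 0 < t * (R + 1) - 1 := hR.trans_le (z3_rC hR ht)
  have ht0 : 0 < t := by linarith
  have hR1 : 0 < R + 1 := by linarith
  have h1 : HasDerivAt (fun t : ℝ => t * (R + 1) - 1) (R + 1) t := by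
    simpa using ((hasDerivAt_id t).mul_const (R + 1)).sub_const 1
  have h2 := z3_hasDerivAt_psi h1 hr
  have h3 : HasDerivAt (fun t : ℝ => t * e - n) e t := by
    simpa using ((hasDerivAt_id t).mul_const e).sub_const n
  have h4 : HasDerivAt (fun t : ℝ => t * (R + 1)) (R + 1) t := by
    simpa using (hasDerivAt_id t).mul_const (R + 1)
  have h5 := (h2.fun_mul h3).fun_add ((h4.log (by positivity)).const_mul n)
  refine h5.congr_deriv ?_
  have e1 : t * (R + 1) - 1 + 1 = t * (R + 1) := by ring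
  rw [e1]
  have := hr.ne'
  generalize hu : t * (R + 1) - 1 = u at *
  have e2 : R + 1 = (u + 1) / t := by field_simp; linarith only [hu]
  have hu1 : u + 1 ≠ 0 := by positivity
  rw [e2]
  field_simp
  ring

theorem hasDerivAt_PsiD {n R e t : ℝ} (hR : 0 < R) (ht : 1 < t) :
    HasDerivAt (PsiD n R e) (1 / (t - 1) * (n + Real.log (1 + 1 / ((t - 1) * (R + 1))) *
      ((t - 1) * e) - 1 / (1 + (t - 1) * (R + 1)) * ((t - 1) * e + n))) t := by
  have hr : 0 < (t - 1) * (R + 1) := z3_rD hR ht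
  have ht0 : 0 < t - 1 := by linarith
  have hR1 : 0 < R + 1 := by linarith
  have h1 : HasDerivAt (fun t : ℝ => (t - 1) * (R + 1)) (R + 1) t := by
    simpa using ((hasDerivAt_id t).sub_const 1).mul_const (R + 1)
  have h2 := z3_hasDerivAt_psi h1 hr
  have h3 : HasDerivAt (fun t : ℝ => (t - 1) * e) e t := by
    simpa using ((hasDerivAt_id t).sub_const 1).mul_const e
  have h5 := (h2.fun_mul h3).fun_add (((h1.const_add 1).log (by positivity)).const_mul n)
  refine h5.congr_deriv ?_
  have h6 : 1 + (t - 1) * (R + 1) ≠ 0 := by positivity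
  have h7 : (t - 1) * (R + 1) + 1 ≠ 0 := by positivity
  have h8 : t - 1 ≠ 0 := ht0.ne'
  generalize hv : t - 1 = v at *
  have hR2 := hR1.ne'
  generalize R + 1 = w at *
  have h9 : v * w + 1 = 1 + v * w := by ring
  rw [h9]
  generalize Real.log (1 + 1 / (v * w)) = L
  field_simp
  ring

/-! ### dominated convergence -/

theorem z3_lim3 {a b : ℝ} (hab : a ≤ b) {w₁ w₂ w₃ : ℝ → ℝ} (hw₁ : ContinuousOn w₁ (Icc a b))
    (hw₂ : ContinuousOn w₂ (Icc a b)) (hw₃ : ContinuousOn w₃ (Icc a b))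
    {q₁ q₂ q₃ : ℕ → ℝ → ℝ} {q₁' q₂' q₃' : ℝ → ℝ} (hc₁ : ∀ X, ContinuousOn (q₁ X) (Icc a b))
    (hc₂ : ∀ X, ContinuousOn (q₂ X) (Icc a b)) (hc₃ : ∀ X, ContinuousOn (q₃ X) (Icc a b)) {M : ℝ}
    (hM₁ : ∀ X, ∀ t ∈ Icc a b, |q₁ X t| ≤ M) (hM₂ : ∀ X, ∀ t ∈ Icc a b, |q₂ X t| ≤ M)
    (hM₃ : ∀ X, ∀ t ∈ Icc a b, |q₃ X t| ≤ M)
    (hl₁ : ∀ t ∈ Icc a b, Tendsto (fun X => q₁ X t) atTop (𝓝 (q₁' t)))
    (hl₂ : ∀ t ∈ Icc a b, Tendsto (fun X => q₂ X t) atTop (𝓝 (q₂' t)))
    (hl₃ : ∀ t ∈ Icc a b, Tendsto (fun X => q₃ X t) atTop (𝓝 (q₃' t))) :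
    Tendsto (fun X => ∫ t in a..b, (w₁ t * q₁ X t - w₂ t * q₂ X t + w₃ t * q₃ X t)) atTop
      (𝓝 (∫ t in a..b, (w₁ t * q₁' t - w₂ t * q₂' t + w₃ t * q₃' t))) := by
  apply intervalIntegral.tendsto_integral_filter_of_dominated_convergence
    (fun t => (|w₁ t| + |w₂ t| + |w₃ t|) * M)
  · refine Eventually.of_forall fun X => ?_
    have : IntervalIntegrable (fun t => w₁ t * q₁ X t - w₂ t * q₂ X t + w₃ t * q₃ X t)
        volume a b := by
      apply ContinuousOn.intervalIntegrable
      rw [uIcc_of_le hab]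
      exact ((hw₁.mul (hc₁ X)).sub (hw₂.mul (hc₂ X))).add (hw₃.mul (hc₃ X))
    exact this.def'.aestronglyMeasurable
  · refine Eventually.of_forall fun X => ae_of_all _ fun t ht => ?_
    rw [uIoc_of_le hab] at ht
    have ht' := Ioc_subset_Icc_self ht
    have h1 := mul_le_mul_of_nonneg_left (hM₁ X t ht') (abs_nonneg (w₁ t))
    have h2 := mul_le_mul_of_nonneg_left (hM₂ X t ht') (abs_nonneg (w₂ t))
    have h3 := mul_le_mul_of_nonneg_left (hM₃ X t ht') (abs_nonneg (w₃ t))
    rw [Real.norm_eq_abs]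
    have h4 := abs_add_le (w₁ t * q₁ X t - w₂ t * q₂ X t) (w₃ t * q₃ X t)
    have h5 := abs_sub (w₁ t * q₁ X t) (w₂ t * q₂ X t)
    rw [abs_mul, abs_mul] at h5
    rw [abs_mul (w₃ t)] at h4
    linarith
  · apply ContinuousOn.intervalIntegrable
    rw [uIcc_of_le hab]
    exact ((hw₁.abs.add hw₂.abs).add hw₃.abs).mul continuousOn_const
  · refine ae_of_all _ fun t ht => ?_
    rw [uIoc_of_le hab] at ht
    have ht' := Ioc_subset_Icc_self ht
    exact (((hl₁ t ht').const_mul _).sub ((hl₂ t ht').const_mul _)).add ((hl₃ t ht').const_mul _)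

theorem z3_cont_inner {a b : ℝ} {F : ℝ → ℝ → ℝ}
    (hF : ContinuousOn (Function.uncurry F) (Icc a b ×ˢ Icc (0 : ℝ) 1)) :
    ContinuousOn (fun t => ∫ m in (0 : ℝ)..1, F t m) (Icc a b) := by
  rcases le_or_gt a b with hab | hab
  swap
  · rw [Icc_eq_empty (not_le.2 hab)]
    exact continuousOn_empty _
  set G : ℝ → ℝ → ℝ := fun t m => F (projIcc a b hab t) (projIcc 0 1 zero_le_one m) with hG
  have hGc : Continuous (Function.uncurry G) := by
    have e : Function.uncurry G = fun p : ℝ × ℝ => Function.uncurry F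
        ((projIcc a b hab p.1 : ℝ), (projIcc (0 : ℝ) 1 zero_le_one p.2 : ℝ)) := rfl
    rw [e, ← continuousOn_univ]
    refine hF.comp (Continuous.continuousOn (by fun_prop)) fun p _ => ?_
    exact ⟨(projIcc a b hab p.1).2, (projIcc (0 : ℝ) 1 zero_le_one p.2).2⟩
  have h1 := (intervalIntegral.continuous_parametric_intervalIntegral_of_continuous'
    (μ := volume) hGc 0 1).continuousOn (s := Icc a b)
  refine h1.congr fun t ht => ?_
  refine intervalIntegral.integral_congr fun m hm => ?_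
  rw [uIcc_of_le zero_le_one] at hm
  simp only [hG, projIcc_of_mem _ ht, projIcc_of_mem _ hm]

/-- stage A: the amplifier flow -/
theorem z3_stageA {n R e : ℝ} (hR : 0 < R) {a b : ℝ} (ha : 1 ≤ a) (hab : a ≤ b)
    {yC : ℝ → ℝ} {PC trC enC : ℕ → ℝ → ℝ} {iC : ℕ → ℝ → ℝ → ℝ}
    (hPC : ∀ X, ∀ t ∈ Icc a b, PC X t = n * trC (X + 1) t +
      (∫ m in (0 : ℝ)..1, (1 - m) * iC X t m / (t * (R + 1) - 1 + m) ^ 2) -
      1 / (t * (R + 1) - 1) * enC (X + 1) t +
      Real.log (1 + 1 / (t * (R + 1) - 1)) * (enC X t + n * trC X t))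
    (hiC : ∀ X, ContinuousOn (Function.uncurry (iC X)) (Icc a b ×ˢ Icc (0 : ℝ) 1))
    (htc : ∀ X, ContinuousOn (trC X) (Icc a b)) (hec : ∀ X, ContinuousOn (enC X) (Icc a b))
    {M : ℝ} (htM : ∀ X, ∀ t ∈ Icc a b, |trC X t| ≤ M) (heM : ∀ X, ∀ t ∈ Icc a b, |enC X t| ≤ M)
    (htl : ∀ t ∈ Icc a b, Tendsto (fun X => trC X t) atTop (𝓝 1))
    (hel : ∀ t ∈ Icc a b, Tendsto (fun X => enC X t) atTop (𝓝 (t * e - n)))
    (hf : ∀ ε > 0, ∀ᶠ X in atTop, yC b - yC a - ε ≤ ∫ t in a..b, 1 / t * PC X t) :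
    ∀ ε > 0, ∀ᶠ X in atTop, (PhiC n R e a - yC a) - (PhiC n R e b - yC b) ≤
      (∫ t in a..b, ∫ m in (0 : ℝ)..1, (1 - m) * (iC X t m / t) / (t * (R + 1) - 1 + m) ^ 2) + ε := by
  intro ε hε
  have hr : ∀ t ∈ Icc a b, 0 < t * (R + 1) - 1 := fun t ht =>
    hR.trans_le (z3_rC hR (ha.trans ht.1))
  have ht0 : ∀ t ∈ Icc a b, t ≠ 0 := fun t ht => by
    have : 1 ≤ t := ha.trans ht.1
    linarith
  have c1 : ContinuousOn (fun t : ℝ => 1 / t) (Icc a b) := continuousOn_const.div continuousOn_id ht0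
  have c2 : ContinuousOn (fun t : ℝ => 1 / (t * (R + 1) - 1)) (Icc a b) :=
    continuousOn_const.div (by fun_prop) fun t ht => (hr t ht).ne'
  have c3 : ContinuousOn (fun t : ℝ => Real.log (1 + 1 / (t * (R + 1) - 1))) (Icc a b) := by
    refine ContinuousOn.log (f := fun t : ℝ => 1 + 1 / (t * (R + 1) - 1))
      (continuousOn_const.add c2) fun t ht => ?_
    have h1 : 0 < 1 / (t * (R + 1) - 1) := one_div_pos.2 (hr t ht)
    exact ne_of_gt (by linarith only [h1])
  have w1 : ContinuousOn (fun t : ℝ => 1 / t * n) (Icc a b) := c1.mul continuousOn_const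
  have w2 : ContinuousOn (fun t : ℝ => 1 / t * (1 / (t * (R + 1) - 1))) (Icc a b) := c1.mul c2
  have w3 : ContinuousOn (fun t : ℝ => 1 / t * Real.log (1 + 1 / (t * (R + 1) - 1))) (Icc a b) :=
    c1.mul c3
  have q3 : ∀ X, ContinuousOn (fun t => enC X t + n * trC X t) (Icc a b) := fun X =>
    (hec X).add (continuousOn_const.mul (htc X))
  have hM0 : 0 ≤ M := (abs_nonneg _).trans (htM 0 a ⟨le_rfl, hab⟩)
  have hMn : M ≤ M + |n| * M := le_add_of_nonneg_right (mul_nonneg (abs_nonneg _) hM0)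
  have l4 := z3_lim3 hab w1 w2 w3 (q₁ := fun X => trC (X + 1)) (q₂ := fun X => enC (X + 1))
    (q₃ := fun X t => enC X t + n * trC X t) (fun X => htc (X + 1)) (fun X => hec (X + 1)) q3
    (M := M + |n| * M)
    (fun X t ht => (htM (X + 1) t ht).trans hMn) (fun X t ht => (heM (X + 1) t ht).trans hMn)
    (fun X t ht => (abs_add_le _ _).trans (add_le_add (heM X t ht) (by
      rw [abs_mul]
      exact mul_le_mul_of_nonneg_left (htM X t ht) (abs_nonneg _))))
    (fun t ht => (tendsto_add_atTop_iff_nat 1).2 (htl t ht))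
    (fun t ht => (tendsto_add_atTop_iff_nat 1).2 (hel t ht))
    (fun t ht => (hel t ht).add ((htl t ht).const_mul n))
  have ii : ∀ {f : ℝ → ℝ}, ContinuousOn f (Icc a b) → IntervalIntegrable f volume a b := by
    intro f hf
    apply ContinuousOn.intervalIntegrable
    rwa [uIcc_of_le hab]
  have e1 : ∫ t in a..b, (1 / t * n * 1 - 1 / t * (1 / (t * (R + 1) - 1)) *
      (t * e - n) + 1 / t * Real.log (1 + 1 / (t * (R + 1) - 1)) *
      (t * e - n + n * 1)) = PhiC n R e b - PhiC n R e a := by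
    rw [← intervalIntegral.integral_eq_sub_of_hasDerivAt (f := PhiC n R e)
      (f' := fun t => 1 / t * (n - 1 / (t * (R + 1) - 1) * (t * e - n) +
        Real.log (1 + 1 / (t * (R + 1) - 1)) * (t * e)))]
    · refine intervalIntegral.integral_congr fun t _ => ?_
      ring
    · intro t ht
      rw [uIcc_of_le hab] at ht
      exact hasDerivAt_PhiC hR (ha.trans ht.1)
    · exact ii (c1.mul ((continuousOn_const.sub (c2.mul (by fun_prop))).add (c3.mul (by fun_prop))))
  rw [e1] at l4
  have l5 := l4.eventually (eventually_lt_nhds (show PhiC n R e b - PhiC n R e a <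
    PhiC n R e b - PhiC n R e a + ε / 2 by linarith only [hε]))
  filter_upwards [l5, hf (ε / 2) (by linarith only [hε])] with X h1 h2
  have cF : ContinuousOn (Function.uncurry fun t m => (1 - m) * (iC X t m / t) /
      (t * (R + 1) - 1 + m) ^ 2) (Icc a b ×ˢ Icc (0 : ℝ) 1) := by
    have e : (Function.uncurry fun t m => (1 - m) * (iC X t m / t) / (t * (R + 1) - 1 + m) ^ 2) =
        fun p : ℝ × ℝ => (1 - p.2) * (Function.uncurry (iC X) p / p.1) /
          (p.1 * (R + 1) - 1 + p.2) ^ 2 := rfl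
    rw [e]
    refine ContinuousOn.div (ContinuousOn.mul (by fun_prop) ((hiC X).div (by fun_prop)
      fun p hp => ht0 p.1 hp.1)) (by (clear * -; fun_prop)) fun p hp => ?_
    have h1 := hr p.1 hp.1
    have h2 := hp.2.1
    have : 0 < p.1 * (R + 1) - 1 + p.2 := by linarith only [h1, h2]
    (clear * - h1 h2; positivity)
  have e2 : ∫ t in a..b, 1 / t * PC X t =
      (∫ t in a..b, ∫ m in (0 : ℝ)..1, (1 - m) * (iC X t m / t) / (t * (R + 1) - 1 + m) ^ 2) +
      ∫ t in a..b, (1 / t * n * trC (X + 1) t - 1 / t * (1 / (t * (R + 1) - 1)) *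
        enC (X + 1) t + 1 / t * Real.log (1 + 1 / (t * (R + 1) - 1)) *
        (enC X t + n * trC X t)) := by
    have h3 : ContinuousOn (fun t => 1 / t * n * trC (X + 1) t - 1 / t *
        (1 / (t * (R + 1) - 1)) * enC (X + 1) t + 1 / t * Real.log (1 + 1 / (t * (R + 1) - 1)) *
        (enC X t + n * trC X t)) (Icc a b) :=
      ((w1.mul (htc _)).sub (w2.mul (hec _))).add (w3.mul (q3 X))
    rw [← intervalIntegral.integral_add (ii (z3_cont_inner cF)) (ii h3)]
    refine intervalIntegral.integral_congr fun t ht => ?_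
    rw [uIcc_of_le hab] at ht
    rw [hPC X t ht]
    have e3 : ∫ m in (0 : ℝ)..1, (1 - m) * (iC X t m / t) / (t * (R + 1) - 1 + m) ^ 2 =
        1 / t * ∫ m in (0 : ℝ)..1, (1 - m) * iC X t m / (t * (R + 1) - 1 + m) ^ 2 := by
      rw [← intervalIntegral.integral_const_mul]
      refine intervalIntegral.integral_congr fun m _ => ?_
      ring
    rw [e3]
    ring
  rw [e2] at h2
  linarith only [h1, h2]

/-- stage B: the environment flow -/
theorem z3_stageB {n R e : ℝ} (hR : 0 < R) {a b : ℝ} (ha : 1 < a) (hab : a ≤ b)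
    {yD : ℝ → ℝ} {GD trD enD : ℕ → ℝ → ℝ} {iD : ℕ → ℝ → ℝ → ℝ}
    (hGD : ∀ X, ∀ t ∈ Icc a b, GD X t =
      (∫ m in (0 : ℝ)..1, m * iD X t m / ((t - 1) * (R + 1) + m) ^ 2) -
      Real.log (1 + 1 / ((t - 1) * (R + 1))) * enD (X + 1) t +
      1 / (1 + (t - 1) * (R + 1)) * (enD X t + n * trD X t))
    (hiD : ∀ X, ContinuousOn (Function.uncurry (iD X)) (Icc a b ×ˢ Icc (0 : ℝ) 1))
    (htc : ∀ X, ContinuousOn (trD X) (Icc a b)) (hec : ∀ X, ContinuousOn (enD X) (Icc a b))
    {M : ℝ} (htM : ∀ X, ∀ t ∈ Icc a b, |trD X t| ≤ M) (heM : ∀ X, ∀ t ∈ Icc a b, |enD X t| ≤ M)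
    (htl : ∀ t ∈ Icc a b, Tendsto (fun X => trD X t) atTop (𝓝 1))
    (hel : ∀ t ∈ Icc a b, Tendsto (fun X => enD X t) atTop (𝓝 ((t - 1) * e)))
    (hf : ∀ ε > 0, ∀ᶠ X in atTop,
      ∫ t in a..b, 1 / (t - 1) * (n * trD X t - GD (2 * X) t) ≤ yD b - yD a + ε) :
    ∀ ε > 0, ∀ᶠ X in atTop, (PsiD n R e b - yD b) - (PsiD n R e a - yD a) ≤
      (∫ t in a..b, ∫ m in (0 : ℝ)..1,
        m * (iD (2 * X) t m / (t - 1)) / ((t - 1) * (R + 1) + m) ^ 2) + ε := by
  intro ε hε
  have hr : ∀ t ∈ Icc a b, 0 < (t - 1) * (R + 1) := fun t ht => z3_rD hR (ha.trans_le ht.1)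
  have ht0 : ∀ t ∈ Icc a b, t - 1 ≠ 0 := fun t ht => by
    have : 1 < t := ha.trans_le ht.1
    linarith
  have c1 : ContinuousOn (fun t : ℝ => 1 / (t - 1)) (Icc a b) :=
    continuousOn_const.div (by fun_prop) ht0
  have c2 : ContinuousOn (fun t : ℝ => 1 / (1 + (t - 1) * (R + 1))) (Icc a b) :=
    continuousOn_const.div (by fun_prop) fun t ht => by
      have := hr t ht
      linarith
  have c3 : ContinuousOn (fun t : ℝ => Real.log (1 + 1 / ((t - 1) * (R + 1)))) (Icc a b) := by
    refine ContinuousOn.log (f := fun t : ℝ => 1 + 1 / ((t - 1) * (R + 1)))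
      (continuousOn_const.add (continuousOn_const.div (by fun_prop) fun t ht => (hr t ht).ne'))
      fun t ht => ?_
    have h1 : 0 < 1 / ((t - 1) * (R + 1)) := one_div_pos.2 (hr t ht)
    exact ne_of_gt (by linarith only [h1])
  have w1 : ContinuousOn (fun t : ℝ => 1 / (t - 1) * n) (Icc a b) := c1.mul continuousOn_const
  have w2 : ContinuousOn (fun t : ℝ => 1 / (t - 1) * (1 / (1 + (t - 1) * (R + 1)))) (Icc a b) :=
    c1.mul c2
  have w3 : ContinuousOn (fun t : ℝ => 1 / (t - 1) * Real.log (1 + 1 / ((t - 1) * (R + 1))))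
      (Icc a b) := c1.mul c3
  have q3 : ∀ X, ContinuousOn (fun t => enD X t + n * trD X t) (Icc a b) := fun X =>
    (hec X).add (continuousOn_const.mul (htc X))
  have hM0 : 0 ≤ M := (abs_nonneg _).trans (htM 0 a ⟨le_rfl, hab⟩)
  have hMn : M ≤ M + |n| * M := le_add_of_nonneg_right (mul_nonneg (abs_nonneg _) hM0)
  have l2X : Tendsto (fun X : ℕ => 2 * X) atTop atTop :=
    tendsto_atTop_mono (fun X => by show X ≤ 2 * X; omega) tendsto_id
  have l2X1 : Tendsto (fun X : ℕ => 2 * X + 1) atTop atTop :=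
    tendsto_atTop_mono (fun X => by show X ≤ 2 * X + 1; omega) tendsto_id
  have l4 := z3_lim3 hab w1 w2 w3 (q₁ := trD) (q₂ := fun X t => enD (2 * X) t + n * trD (2 * X) t)
    (q₃ := fun X => enD (2 * X + 1)) htc (fun X => q3 (2 * X)) (fun X => hec (2 * X + 1))
    (M := M + |n| * M)
    (fun X t ht => (htM X t ht).trans hMn)
    (fun X t ht => (abs_add_le _ _).trans (add_le_add (heM (2 * X) t ht) (by
      rw [abs_mul]
      exact mul_le_mul_of_nonneg_left (htM (2 * X) t ht) (abs_nonneg _))))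
    (fun X t ht => (heM (2 * X + 1) t ht).trans hMn)
    htl
    (fun t ht => ((hel t ht).comp l2X).add (((htl t ht).comp l2X).const_mul n))
    (fun t ht => (hel t ht).comp l2X1)
  have ii : ∀ {f : ℝ → ℝ}, ContinuousOn f (Icc a b) → IntervalIntegrable f volume a b := by
    intro f hf
    apply ContinuousOn.intervalIntegrable
    rwa [uIcc_of_le hab]
  have e1 : ∫ t in a..b, (1 / (t - 1) * n * 1 - 1 / (t - 1) * (1 / (1 + (t - 1) * (R + 1))) *
      ((t - 1) * e + n * 1) + 1 / (t - 1) * Real.log (1 + 1 / ((t - 1) * (R + 1))) *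
      ((t - 1) * e)) = PsiD n R e b - PsiD n R e a := by
    rw [← intervalIntegral.integral_eq_sub_of_hasDerivAt (f := PsiD n R e)
      (f' := fun t => 1 / (t - 1) * (n + Real.log (1 + 1 / ((t - 1) * (R + 1))) *
      ((t - 1) * e) - 1 / (1 + (t - 1) * (R + 1)) * ((t - 1) * e + n)))]
    · refine intervalIntegral.integral_congr fun t _ => ?_
      ring
    · intro t ht
      rw [uIcc_of_le hab] at ht
      exact hasDerivAt_PsiD hR (ha.trans_le ht.1)
    · exact ii (c1.mul ((continuousOn_const.add (c3.mul (by fun_prop))).sub (c2.mul (by fun_prop))))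
  rw [e1] at l4
  have l6 := l4.eventually (eventually_gt_nhds (show PsiD n R e b - PsiD n R e a - ε / 2 <
    PsiD n R e b - PsiD n R e a by linarith only [hε]))
  filter_upwards [l6, hf (ε / 2) (by linarith only [hε])] with X h1 h2
  have cF : ContinuousOn (Function.uncurry fun t m => m * (iD (2 * X) t m / (t - 1)) /
      ((t - 1) * (R + 1) + m) ^ 2) (Icc a b ×ˢ Icc (0 : ℝ) 1) := by
    have e : (Function.uncurry fun t m => m * (iD (2 * X) t m / (t - 1)) /
        ((t - 1) * (R + 1) + m) ^ 2) =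
        fun p : ℝ × ℝ => p.2 * (Function.uncurry (iD (2 * X)) p / (p.1 - 1)) /
          ((p.1 - 1) * (R + 1) + p.2) ^ 2 := rfl
    rw [e]
    refine ContinuousOn.div (ContinuousOn.mul (by fun_prop) ((hiD (2 * X)).div (by fun_prop)
      fun p hp => ht0 p.1 hp.1)) (by (clear * -; fun_prop)) fun p hp => ?_
    have h1 := hr p.1 hp.1
    have h2 := hp.2.1
    have : 0 < (p.1 - 1) * (R + 1) + p.2 := by linarith only [h1, h2]
    (clear * - h1 h2; positivity)
  have e2 : ∫ t in a..b, 1 / (t - 1) * (n * trD X t - GD (2 * X) t) =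
      (∫ t in a..b, (1 / (t - 1) * n * trD X t - 1 / (t - 1) * (1 / (1 + (t - 1) * (R + 1))) *
        (enD (2 * X) t + n * trD (2 * X) t) + 1 / (t - 1) *
        Real.log (1 + 1 / ((t - 1) * (R + 1))) * enD (2 * X + 1) t)) -
      ∫ t in a..b, ∫ m in (0 : ℝ)..1,
        m * (iD (2 * X) t m / (t - 1)) / ((t - 1) * (R + 1) + m) ^ 2 := by
    have h3 : ContinuousOn (fun t => 1 / (t - 1) * n * trD X t - 1 / (t - 1) *
        (1 / (1 + (t - 1) * (R + 1))) * (enD (2 * X) t + n * trD (2 * X) t) + 1 / (t - 1) *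
        Real.log (1 + 1 / ((t - 1) * (R + 1))) * enD (2 * X + 1) t) (Icc a b) :=
      ((w1.mul (htc _)).sub (w2.mul (q3 _))).add (w3.mul (hec _))
    rw [← intervalIntegral.integral_sub (ii h3) (ii (z3_cont_inner cF))]
    refine intervalIntegral.integral_congr fun t ht => ?_
    rw [uIcc_of_le hab] at ht
    rw [hGD (2 * X) t ht]
    have e3 : ∫ m in (0 : ℝ)..1, m * (iD (2 * X) t m / (t - 1)) / ((t - 1) * (R + 1) + m) ^ 2 =
        1 / (t - 1) * ∫ m in (0 : ℝ)..1, m * iD (2 * X) t m / ((t - 1) * (R + 1) + m) ^ 2 := by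
      rw [← intervalIntegral.integral_const_mul]
      refine intervalIntegral.integral_congr fun m _ => ?_
      ring
    rw [e3]
    ring
  rw [e2] at h2
  linarith only [h1, h2]

/-! ### scalar limits -/

theorem z3_Psi_zero {n R e : ℝ} (hR : 0 < R) :
    Tendsto (fun t => PsiD n R e t) (𝓝[>] 1) (𝓝 0) := by
  set H : ℝ → ℝ := fun t => (((t - 1) * (R + 1)) * Real.log (1 + (t - 1) * (R + 1)) -
    ((t - 1) * (R + 1)) * Real.log ((t - 1) * (R + 1))) * (e / (R + 1)) +
    n * Real.log (1 + (t - 1) * (R + 1)) with hH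
  have hR1 : 0 < R + 1 := by linarith only [hR]
  have h1 : ContinuousAt H 1 := by
    have h2 : ContinuousAt (fun t : ℝ => Real.log (1 + (t - 1) * (R + 1))) 1 := by
      apply ContinuousAt.log (by fun_prop)
      simp
    have h3 : ContinuousAt (fun t : ℝ => ((t - 1) * (R + 1)) * Real.log ((t - 1) * (R + 1))) 1 :=
      (Real.continuous_mul_log.comp (by fun_prop : Continuous fun t : ℝ => (t - 1) * (R + 1))).continuousAt
    have h4 : ContinuousAt (fun t : ℝ => (t - 1) * (R + 1)) 1 := by fun_prop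
    exact (((h4.mul h2).sub h3).mul continuousAt_const).add (continuousAt_const.mul h2)
  have h2 : H 1 = 0 := by simp [hH]
  have h3 : Tendsto H (𝓝[>] 1) (𝓝 0) := by
    rw [← h2]
    exact h1.tendsto.mono_left nhdsWithin_le_nhds
  refine h3.congr' ?_
  filter_upwards [self_mem_nhdsWithin] with t ht
  have ht' : (1 : ℝ) < t := ht
  have hr := z3_rD hR ht'
  have e1 : Real.log (1 + 1 / ((t - 1) * (R + 1))) =
      Real.log (1 + (t - 1) * (R + 1)) - Real.log ((t - 1) * (R + 1)) := by
    rw [← Real.log_div (by (clear * - ht' hR; positivity)) hr.ne']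
    congr 1
    have : t - 1 ≠ 0 := by linarith only [ht']
    field_simp
    ring
  simp only [hH, PsiD]
  rw [e1]
  (clear * - hR; field_simp)

theorem z3_top {n R e : ℝ} (hR : 0 < R) :
    Tendsto (fun t => PhiC n R e t - PsiD n R e t) atTop (𝓝 0) := by
  have hR1 : 0 < R + 1 := by linarith
  have tx : Tendsto (fun t : ℝ => t * (R + 1) - 1) atTop atTop :=
    tendsto_atTop_add_const_right _ _ (tendsto_id.atTop_mul_const hR1)
  have ty : Tendsto (fun t : ℝ => (t - 1) * (R + 1)) atTop atTop :=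
    (tendsto_atTop_add_const_right _ _ tendsto_id).atTop_mul_const hR1
  have hx := (Real.tendsto_mul_log_one_add_div_atTop 1).comp tx
  have hy := (Real.tendsto_mul_log_one_add_div_atTop 1).comp ty
  have hix : Tendsto (fun t : ℝ => (t * (R + 1) - 1)⁻¹) atTop (𝓝 0) := tendsto_inv_atTop_zero.comp tx
  -- `(t e - n) / x = e/(R+1) + (e/(R+1) - n)/x`
  have h1 : Tendsto (fun t : ℝ => ((t * (R + 1) - 1) * Real.log (1 + 1 / (t * (R + 1) - 1))) *
      (e / (R + 1) + (e / (R + 1) - n) * (t * (R + 1) - 1)⁻¹)) atTop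
      (𝓝 (1 * (e / (R + 1) + (e / (R + 1) - n) * 0))) :=
    hx.mul (tendsto_const_nhds.add (hix.const_mul _))
  have h2 : Tendsto (fun t : ℝ => (((t - 1) * (R + 1)) * Real.log (1 + 1 / ((t - 1) * (R + 1)))) *
      (e / (R + 1))) atTop (𝓝 (1 * (e / (R + 1)))) := hy.mul_const _
  have hq : Tendsto (fun t : ℝ => 1 + R * (1 + (t - 1) * (R + 1))⁻¹) atTop (𝓝 (1 + R * 0)) :=
    tendsto_const_nhds.add ((tendsto_inv_atTop_zero.comp
      (tendsto_atTop_add_const_left _ _ ty)).const_mul _)
  have h3 : Tendsto (fun t : ℝ => n * Real.log (1 + R * (1 + (t - 1) * (R + 1))⁻¹)) atTop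
      (𝓝 (n * Real.log (1 + R * 0))) :=
    (hq.log (by simp)).const_mul n
  have h4 := (h1.sub h2).add h3
  have e0 : 1 * (e / (R + 1) + (e / (R + 1) - n) * 0) - 1 * (e / (R + 1)) +
      n * Real.log (1 + R * 0) = 0 := by simp
  rw [e0] at h4
  refine h4.congr' ?_
  filter_upwards [eventually_gt_atTop 1] with t ht
  have hr := z3_rD hR ht
  have hrC : 0 < t * (R + 1) - 1 := hR.trans_le (z3_rC hR ht.le)
  have e1 : (t * (R + 1) - 1) * Real.log (1 + 1 / (t * (R + 1) - 1)) *
      (e / (R + 1) + (e / (R + 1) - n) * (t * (R + 1) - 1)⁻¹) =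
      Real.log (1 + 1 / (t * (R + 1) - 1)) * (t * e - n) := by
    field_simp
    ring
  have e2 : (t - 1) * (R + 1) * Real.log (1 + 1 / ((t - 1) * (R + 1))) * (e / (R + 1)) =
      Real.log (1 + 1 / ((t - 1) * (R + 1))) * ((t - 1) * e) := by
    (clear * - hR ht; field_simp)
  have e3 : Real.log (1 + R * (1 + (t - 1) * (R + 1))⁻¹) =
      Real.log (t * (R + 1)) - Real.log (1 + (t - 1) * (R + 1)) := by
    rw [← Real.log_div (by positivity) (by positivity)]
    congr 1
    field_simp
    ring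
  rw [e1, e2, e3]
  unfold PhiC PsiD
  ring

/-! ### double integrals -/

theorem z3_add2 {a b : ℝ} (hab : a ≤ b) {F G : ℝ → ℝ → ℝ}
    (hF : ContinuousOn (Function.uncurry F) (Icc a b ×ˢ Icc (0 : ℝ) 1))
    (hG : ContinuousOn (Function.uncurry G) (Icc a b ×ˢ Icc (0 : ℝ) 1)) :
    ∫ t in a..b, ∫ m in (0 : ℝ)..1, (F t m + G t m) =
      (∫ t in a..b, ∫ m in (0 : ℝ)..1, F t m) + ∫ t in a..b, ∫ m in (0 : ℝ)..1, G t m := by
  have ii : ∀ {a b : ℝ} {f : ℝ → ℝ}, a ≤ b → ContinuousOn f (Icc a b) →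
      IntervalIntegrable f volume a b := by
    intro a b f hab hf
    apply ContinuousOn.intervalIntegrable
    rwa [uIcc_of_le hab]
  have sl : ∀ {F : ℝ → ℝ → ℝ}, ContinuousOn (Function.uncurry F) (Icc a b ×ˢ Icc (0 : ℝ) 1) →
      ∀ t ∈ Icc a b, ContinuousOn (F t) (Icc 0 1) := by
    intro F hF t ht
    have : ContinuousOn (fun m : ℝ => (t, m)) (Icc (0 : ℝ) 1) := by fun_prop
    exact hF.comp this fun m hm => ⟨ht, hm⟩
  rw [← intervalIntegral.integral_add (ii hab (z3_cont_inner hF)) (ii hab (z3_cont_inner hG))]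
  refine intervalIntegral.integral_congr fun t ht => ?_
  rw [uIcc_of_le hab] at ht
  exact intervalIntegral.integral_add (ii zero_le_one (sl hF t ht)) (ii zero_le_one (sl hG t ht))

theorem z3_dct2 {a b : ℝ} (hab : a ≤ b) {F : ℕ → ℝ → ℝ → ℝ} {F' : ℝ → ℝ → ℝ} {M : ℝ}
    (hc : ∀ᶠ Y in atTop, ContinuousOn (Function.uncurry (F Y)) (Icc a b ×ˢ Icc (0 : ℝ) 1))
    (hM : ∀ᶠ Y in atTop, ∀ t ∈ Icc a b, ∀ m ∈ Icc (0 : ℝ) 1, |F Y t m| ≤ M)
    (hl : ∀ t ∈ Icc a b, ∀ m ∈ Icc (0 : ℝ) 1, Tendsto (fun Y => F Y t m) atTop (𝓝 (F' t m))) :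
    Tendsto (fun Y => ∫ t in a..b, ∫ m in (0 : ℝ)..1, F Y t m) atTop
      (𝓝 (∫ t in a..b, ∫ m in (0 : ℝ)..1, F' t m)) := by
  have ii : ∀ {a b : ℝ} {f : ℝ → ℝ}, a ≤ b → ContinuousOn f (Icc a b) →
      IntervalIntegrable f volume a b := by
    intro a b f hab hf
    apply ContinuousOn.intervalIntegrable
    rwa [uIcc_of_le hab]
  have sl : ∀ {F : ℝ → ℝ → ℝ}, ContinuousOn (Function.uncurry F) (Icc a b ×ˢ Icc (0 : ℝ) 1) →
      ∀ t ∈ Icc a b, ContinuousOn (F t) (Icc 0 1) := by
    intro F hF t ht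
    have : ContinuousOn (fun m : ℝ => (t, m)) (Icc (0 : ℝ) 1) := by fun_prop
    exact hF.comp this fun m hm => ⟨ht, hm⟩
  apply intervalIntegral.tendsto_integral_filter_of_dominated_convergence (fun _ => M)
  · filter_upwards [hc] with Y hY
    exact (ii hab (z3_cont_inner hY)).def'.aestronglyMeasurable
  · filter_upwards [hM] with Y hY
    refine ae_of_all _ fun t ht => ?_
    rw [uIoc_of_le hab] at ht
    have h1 := intervalIntegral.norm_integral_le_of_norm_le_const (a := (0 : ℝ)) (b := 1)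
      (f := F Y t) (C := M) fun m hm => by
        rw [uIoc_of_le zero_le_one] at hm
        exact hY t (Ioc_subset_Icc_self ht) m (Ioc_subset_Icc_self hm)
    simpa only [Real.norm_eq_abs, ge_iff_le, sub_zero, abs_one, mul_one] using h1
  · exact intervalIntegrable_const
  · refine ae_of_all _ fun t ht => ?_
    rw [uIoc_of_le hab] at ht
    have ht' := Ioc_subset_Icc_self ht
    apply intervalIntegral.tendsto_integral_filter_of_dominated_convergence (fun _ => M)
    · filter_upwards [hc] with Y hY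
      exact (ii zero_le_one (sl hY t ht')).def'.aestronglyMeasurable
    · filter_upwards [hM] with Y hY
      refine ae_of_all _ fun m hm => ?_
      rw [uIoc_of_le zero_le_one] at hm
      exact hY t ht' m (Ioc_subset_Icc_self hm)
    · exact intervalIntegrable_const
    · refine ae_of_all _ fun m hm => ?_
      rw [uIoc_of_le zero_le_one] at hm
      exact hl t ht' m (Ioc_subset_Icc_self hm)

end

end Vale.Agent.P369A
end
end

section

section

/-!
P369V, G5-G7, part a: the beam splitter with vacuum second input, in the sequence model.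
-/

namespace Vale.Agent.P369V

open scoped InnerProductSpace
open Vale.Agent.P369

noncomputable section

/-! ### amplitudes with no photon in the second input -/

theorem g5_amp_vac (s c : ℝ) (k l : ℕ) :
    amp s c k l (k + l) 0 = Real.sqrt (((k + l).choose k : ℕ) : ℝ) * s ^ k * (-c) ^ l := by
  induction k with
  | zero =>
    induction l with
    | zero => simp [amp_zero_zero]
    | succ l ih =>
      have h := amp_A2 s c 0 l (0 + (l + 1)) 0
      simp only [Nat.cast_zero, Real.sqrt_zero, mul_zero, zero_mul, add_zero, Nat.zero_add,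
        Nat.add_sub_cancel, Nat.choose_zero_right, Nat.cast_one, Real.sqrt_one, one_mul,
        pow_zero] at h ih ⊢
      have hp : (0 : ℝ) < Real.sqrt ((l : ℝ) + 1) := Real.sqrt_pos.mpr (by (clear * -; positivity))
      push_cast at h
      rw [ih] at h
      apply mul_left_cancel₀ hp.ne'
      rw [h]
      ring
  | succ k ih =>
    have h := amp_A1 s c k l (k + 1 + l) 0
    have e : k + 1 + l - 1 = k + l := by omega
    simp only [Nat.cast_zero, Real.sqrt_zero, mul_zero, zero_mul, add_zero, e] at h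
    rw [ih] at h
    have hp : (0 : ℝ) < Real.sqrt ((k : ℝ) + 1) := Real.sqrt_pos.mpr (by (clear * -; positivity))
    apply mul_left_cancel₀ hp.ne'
    rw [h]
    have e2 : Real.sqrt ((k + 1 + l : ℕ) : ℝ) * Real.sqrt (((k + l).choose k : ℕ) : ℝ) =
        Real.sqrt ((k : ℝ) + 1) * Real.sqrt (((k + 1 + l).choose (k + 1) : ℕ) : ℝ) := by
      rw [← Real.sqrt_mul (by (clear * -; positivity)), ← Real.sqrt_mul (by positivity)]
      congr 1
      have h3 := Nat.add_one_mul_choose_eq (k + l) k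
      have h4 : k + l + 1 = k + 1 + l := by omega
      rw [h4] at h3
      have h5 : ((k + 1 + l : ℕ) : ℝ) * (((k + l).choose k : ℕ) : ℝ) =
          (((k + 1 + l).choose (k + 1) : ℕ) : ℝ) * ((k + 1 : ℕ) : ℝ) := by
        exact_mod_cast h3
      rw [h5]
      push_cast
      ring
    rw [pow_succ]
    linear_combination (s * (s ^ k * (-c) ^ l)) * e2

theorem g5_ampn_vac {n : ℕ} (s c : ℝ) (k l : Conf n) :
    ampn s c k l (k + l) 0 =
      ∏ j, (Real.sqrt (((k j + l j).choose (k j) : ℕ) : ℝ) * s ^ (k j) * (-c) ^ (l j)) := by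
  unfold ampn
  apply Finset.prod_congr rfl
  intro j _
  simp only [Pi.add_apply, Pi.zero_apply]
  exact g5_amp_vac s c (k j) (l j)

theorem g5_prod_eq {n : ℕ} {η : ℝ} (h1 : η ≤ 1) (k k' l : Conf n) :
    ampn (Real.sqrt η) (Real.sqrt (1 - η)) k l (k + l) 0 *
      ampn (Real.sqrt η) (Real.sqrt (1 - η)) k' l (k' + l) 0 =
      ∏ j, Real.sqrt (((k j + l j).choose (k j) : ℕ) : ℝ) *
        Real.sqrt (((k' j + l j).choose (k' j) : ℕ) : ℝ) *
        Real.sqrt η ^ (k j) * Real.sqrt η ^ (k' j) * (1 - η) ^ (l j) := by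
  rw [g5_ampn_vac, g5_ampn_vac, ← Finset.prod_mul_distrib]
  apply Finset.prod_congr rfl
  intro j _
  have h2 : (-Real.sqrt (1 - η)) ^ (l j) * (-Real.sqrt (1 - η)) ^ (l j) = (1 - η) ^ (l j) := by
    rw [← mul_pow, neg_mul_neg, Real.mul_self_sqrt (by linarith only [h1])]
  linear_combination (Real.sqrt (((k j + l j).choose (k j) : ℕ) : ℝ) *
        Real.sqrt (((k' j + l j).choose (k' j) : ℕ) : ℝ) *
        Real.sqrt η ^ (k j) * Real.sqrt η ^ (k' j)) * h2

/-! ### positive operators -/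

section pos

variable {H : Type} [NormedAddCommGroup H] [InnerProductSpace ℂ H] [CompleteSpace H]

theorem g5_factor {T : H →L[ℂ] H} (hT : T.IsPositive) :
    ∃ S : H →L[ℂ] H, ∀ x y, ⟪x, T y⟫_ℂ = ⟪S x, S y⟫_ℂ := by
  have h0 : 0 ≤ T := (ContinuousLinearMap.nonneg_iff_isPositive T).mpr hT
  refine ⟨CFC.sqrt T, fun x y => ?_⟩
  have h1 : CFC.sqrt T * CFC.sqrt T = T := CFC.sqrt_mul_sqrt_self T h0
  have h2 : (CFC.sqrt T).IsPositive :=
    (ContinuousLinearMap.nonneg_iff_isPositive _).mp (CFC.sqrt_nonneg T)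
  conv_lhs => rw [← h1]
  rw [mul_apply_eq_comp]
  exact (h2.inner_left_eq_inner_right x _).symm

theorem g5_apply_eq_zero {T : H →L[ℂ] H} (hT : T.IsPositive) {x : H} (h : ⟪x, T x⟫_ℂ = 0) :
    T x = 0 := by
  obtain ⟨S, hS⟩ := g5_factor hT
  have h1 : S x = 0 := by
    rw [hS] at h
    exact inner_self_eq_zero.mp h
  have h2 : ⟪T x, T x⟫_ℂ = 0 := by
    rw [hS, h1, inner_zero_right]
  exact inner_self_eq_zero.mp h2

theorem g5_cauchy {T : H →L[ℂ] H} (hT : T.IsPositive) (x y : H) :
    ‖⟪x, T y⟫_ℂ‖ ^ 2 ≤ (⟪x, T x⟫_ℂ).re * (⟪y, T y⟫_ℂ).re := by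
  obtain ⟨S, hS⟩ := g5_factor hT
  rw [hS, hS, hS]
  have h1 := norm_inner_le_norm (𝕜 := ℂ) (S x) (S y)
  have h2 : (⟪S x, S x⟫_ℂ).re = ‖S x‖ ^ 2 := by
    rw [inner_self_eq_norm_sq_to_K]; norm_cast
  have h3 : (⟪S y, S y⟫_ℂ).re = ‖S y‖ ^ 2 := by
    rw [inner_self_eq_norm_sq_to_K]; norm_cast
  rw [h2, h3, ← mul_pow]
  exact pow_le_pow_left₀ (norm_nonneg _) h1 2

end pos

/-- the norm of a positive operator is at most its trace -/
theorem g5_norm_le {n : ℕ} {T : Fock n →L[ℂ] Fock n} (hT : T.IsPositive) {τ : ℝ}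
    (h : HasSum (fun k : Conf n => (⟪ket k, T (ket k)⟫_ℂ).re) τ) : ‖T‖ ≤ τ := by
  have hτ : 0 ≤ τ := h.nonneg fun k => hT.re_inner_nonneg_right (ket k)
  apply ContinuousLinearMap.opNorm_le_bound _ hτ
  intro x
  have h1 : HasSum (fun k : Conf n => ‖(T x) k‖ ^ 2) (‖T x‖ ^ 2) := by
    have := lp.hasSum_norm (p := 2) (E := fun _ : Conf n => ℂ) (by norm_num) (T x)
    simpa only [ENNReal.toReal_ofNat, Real.rpow_ofNat] using this
  have h2 : ‖T x‖ ^ 2 ≤ τ * (⟪x, T x⟫_ℂ).re := by
    have h3 : HasSum (fun k : Conf n => (⟪ket k, T (ket k)⟫_ℂ).re * (⟪x, T x⟫_ℂ).re)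
        (τ * (⟪x, T x⟫_ℂ).re) := h.mul_right _
    refine hasSum_le (fun k => ?_) h1 h3
    rw [← inner_ket]
    exact g5_cauchy hT (ket k) x
  have h4 : (⟪x, T x⟫_ℂ).re ≤ ‖x‖ * ‖T x‖ :=
    (Complex.re_le_norm _).trans (norm_inner_le_norm _ _)
  have h5 : ‖T x‖ ^ 2 ≤ τ * (‖x‖ * ‖T x‖) := h2.trans (mul_le_mul_of_nonneg_left h4 hτ)
  rcases (norm_nonneg (T x)).eq_or_lt with h6 | h6
  · rw [← h6]; (clear * - hτ; positivity)
  · have h7 : ‖T x‖ * ‖T x‖ ≤ (τ * ‖x‖) * ‖T x‖ := by linarith
    exact le_of_mul_le_mul_right h7 h6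

end

end Vale.Agent.P369V
end
end

section

section

/-! P369V, D1: identities of the beam splitter isometry. -/

namespace Vale.Agent.P369V

open Matrix MeasureTheory Set
open scoped Kronecker InnerProductSpace ComplexOrder

set_option linter.all false

noncomputable section

variable {n M : ℕ}

/-- one-mode beam splitter amplitude -/
def d1b (x : ℝ) (m k l : ℕ) : ℂ :=
  if m = k + l then
    ((Real.sqrt ((m.choose k : ℕ) : ℝ) * Real.sqrt x ^ k * Real.sqrt (1 - x) ^ l : ℝ) : ℂ) else 0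

/-- one-mode annihilation amplitude -/
def d1a (k l : ℕ) : ℂ := if l = k + 1 then ((Real.sqrt (l : ℕ) : ℝ) : ℂ) else 0

/-- factor of mode `i` of the annihilation operator of mode `j` -/
def d1A (j i : Fin n) (k l : ℕ) : ℂ := if i = j then d1a k l else if k = l then 1 else 0

theorem d1_sum {α : Type} [Fintype α] (f : Fin n → α → ℂ) :
    ∑ k : Fin n → α, ∏ i, f i (k i) = ∏ i, ∑ a, f i a := by
  rw [Finset.prod_univ_sum, Fintype.piFinset_univ]

theorem d1_sum₂ {α β : Type} [Fintype α] [Fintype β] (f : Fin n → α → β → ℂ) :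
    ∑ k : Fin n → α, ∑ l : Fin n → β, ∏ i, f i (k i) (l i) = ∏ i, ∑ a, ∑ b, f i a b := by
  rw [← d1_sum (fun i a => ∑ b, f i a b)]
  refine Finset.sum_congr rfl fun k _ => ?_
  exact d1_sum (fun i b => f i (k i) b)

theorem d1_bsJ (x : ℝ) (kl : Cf n M × Cf n M) (m : Cf n M) :
    bsJ n M x kl m = ∏ i, d1b x (m i) (kl.1 i) (kl.2 i) := rfl

theorem d1_ann (j : Fin n) (k l : Cf n M) : ann n M j k l = ∏ i, d1A j i (k i) (l i) := by
  unfold ann
  by_cases h : ∀ i, (l i : ℕ) = (k i : ℕ) + (if i = j then 1 else 0)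
  · rw [if_pos h, Finset.prod_eq_single j]
    · have h1 := h j
      rw [if_pos rfl] at h1
      rw [d1A, if_pos rfl, d1a, if_pos h1]
    · intro i _ hij
      have h1 := h i
      rw [if_neg hij] at h1
      rw [d1A, if_neg hij, if_pos (by omega)]
    · intro h; exact absurd (Finset.mem_univ _) h
  · rw [if_neg h]
    push Not at h
    obtain ⟨i, hi⟩ := h
    symm
    apply Finset.prod_eq_zero (Finset.mem_univ i)
    by_cases hij : i = j
    · rw [if_pos hij] at hi
      rw [d1A, if_pos hij, d1a, if_neg hi]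
    · rw [if_neg hij] at hi
      rw [d1A, if_neg hij, if_neg (by omega)]

theorem d1_one (k l : Cf n M) :
    (1 : Matrix (Cf n M) (Cf n M) ℂ) k l = ∏ i, if (k i : ℕ) = (l i : ℕ) then 1 else 0 := by
  by_cases h : k = l
  · subst h
    simp only [one_apply_eq, ↓reduceIte, Finset.prod_const_one]
  · rw [Matrix.one_apply_ne h]
    have : ∃ i, k i ≠ l i := by
      by_contra hcon
      push Not at hcon
      exact h (funext hcon)
    obtain ⟨i, hi⟩ := this
    symm
    apply Finset.prod_eq_zero (Finset.mem_univ i)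
    rw [if_neg (fun h' => hi (Fin.ext h'))]

theorem d1_b_star (x : ℝ) (m k l : ℕ) : star (d1b x m k l) = d1b x m k l := by
  unfold d1b
  split
  · rw [Complex.star_def, Complex.conj_ofReal]
  · simp

theorem d1_single_iso {x : ℝ} (h0 : 0 ≤ x) (h1 : x ≤ 1) (m m' : Fin (M + 1)) :
    ∑ a : Fin (M + 1), ∑ c : Fin (M + 1), star (d1b x m a c) * d1b x m' a c =
      if (m : ℕ) = (m' : ℕ) then 1 else 0 := by
  by_cases h : (m : ℕ) = (m' : ℕ)
  · rw [if_pos h, ← h]
    have e1 : ∀ a : Fin (M + 1), ∑ c : Fin (M + 1), star (d1b x m a c) * d1b x m a c =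
        if (a : ℕ) ≤ m then
          (((m : ℕ).choose a * x ^ (a : ℕ) * (1 - x) ^ ((m : ℕ) - a) : ℝ) : ℂ) else 0 := by
      intro a
      by_cases ha : (a : ℕ) ≤ m
      · have hm := m.2
        rw [if_pos ha, Finset.sum_eq_single ⟨(m : ℕ) - a, by omega⟩]
        · rw [d1_b_star, d1b, if_pos (by simp only; omega), ← Complex.ofReal_mul]
          congr 1
          have e2 : ∀ (u v w : ℝ), u * v * w * (u * v * w) = (u * u) * (v * v) * (w * w) := by
            intros; ring
          rw [e2, Real.mul_self_sqrt (Nat.cast_nonneg _), ← mul_pow, ← mul_pow,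
            Real.mul_self_sqrt h0, Real.mul_self_sqrt (by linarith only [h1])]
        · intro c _ hc
          have : ¬ (m : ℕ) = a + c := by
            intro h'
            apply hc
            apply Fin.ext
            simp only
            omega
          rw [d1b, if_neg this, star_zero, zero_mul]
        · intro h; exact absurd (Finset.mem_univ _) h
      · rw [if_neg ha]
        refine Finset.sum_eq_zero fun c _ => ?_
        rw [d1b, if_neg (by omega), star_zero, zero_mul]
    simp only [e1]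
    rw [Fin.sum_univ_eq_sum_range (fun a => if a ≤ (m : ℕ) then
      (((m : ℕ).choose a * x ^ a * (1 - x) ^ ((m : ℕ) - a) : ℝ) : ℂ) else 0) (M + 1)]
    have hsub : Finset.range ((m : ℕ) + 1) ⊆ Finset.range (M + 1) := by
      have := m.2
      intro a ha
      rw [Finset.mem_range] at *
      omega
    rw [← Finset.sum_subset hsub]
    · have e2 : ∀ a ∈ Finset.range ((m : ℕ) + 1), (if a ≤ (m : ℕ) then
          (((m : ℕ).choose a * x ^ a * (1 - x) ^ ((m : ℕ) - a) : ℝ) : ℂ) else 0) =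
          ((x ^ a * (1 - x) ^ ((m : ℕ) - a) * (m : ℕ).choose a : ℝ) : ℂ) := by
        intro a ha
        rw [Finset.mem_range] at ha
        rw [if_pos (by omega)]
        congr 1
        ring
      rw [Finset.sum_congr rfl e2, ← Complex.ofReal_sum, ← add_pow]
      simp
    · intro a _ ha
      rw [Finset.mem_range] at ha
      rw [if_neg (by omega)]
  · rw [if_neg h]
    refine Finset.sum_eq_zero fun a _ => Finset.sum_eq_zero fun c _ => ?_
    by_cases h2 : (m : ℕ) = a + c
    · have : ¬ (m' : ℕ) = a + c := by omega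
      have e : d1b x m' a c = 0 := by rw [d1b, if_neg this]
      rw [e, mul_zero]
    · rw [d1b, if_neg h2, star_zero, zero_mul]

/-- D1 -/
theorem bsJ_isometry {x : ℝ} (h0 : 0 ≤ x) (h1 : x ≤ 1) : (bsJ n M x)ᴴ * bsJ n M x = 1 := by
  ext m m'
  rw [Matrix.mul_apply, Fintype.sum_prod_type, d1_one]
  have e : ∀ (k l : Cf n M), (bsJ n M x)ᴴ m (k, l) * bsJ n M x (k, l) m' =
      ∏ i, (star (d1b x (m i) (k i) (l i)) * d1b x (m' i) (k i) (l i)) := by
    intro k l
    rw [conjTranspose_apply, d1_bsJ, d1_bsJ, Finset.prod_mul_distrib, star_prod]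
  simp only [e]
  rw [d1_sum₂ (fun i (a c : Fin (M + 1)) => star (d1b x (m i) a c) * d1b x (m' i) a c)]
  exact Finset.prod_congr rfl fun i _ => d1_single_iso h0 h1 (m i) (m' i)

theorem d1_mul_ann (x : ℝ) (j : Fin n) (k l m : Cf n M) :
    (bsJ n M x * ann n M j) (k, l) m =
      ∏ i, ∑ a : Fin (M + 1), d1b x a (k i) (l i) * d1A j i a (m i) := by
  rw [Matrix.mul_apply, ← d1_sum]
  refine Finset.sum_congr rfl fun p _ => ?_
  rw [d1_bsJ, d1_ann, Finset.prod_mul_distrib]

theorem d1_kron_left (A : Matrix (Cf n M) (Cf n M) ℂ)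
    (B : Matrix (Cf n M × Cf n M) (Cf n M) ℂ) (k l m : Cf n M) :
    ((A ⊗ₖ (1 : Matrix (Cf n M) (Cf n M) ℂ)) * B) (k, l) m = ∑ p, A k p * B (p, l) m := by
  rw [Matrix.mul_apply, Fintype.sum_prod_type]
  refine Finset.sum_congr rfl fun p _ => ?_
  rw [Finset.sum_eq_single l]
  · simp [kroneckerMap_apply]
  · intro q _ hq
    simp [kroneckerMap_apply, Matrix.one_apply_ne (Ne.symm hq)]
  · intro h; exact absurd (Finset.mem_univ _) h

theorem d1_kron_right (A : Matrix (Cf n M) (Cf n M) ℂ)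
    (B : Matrix (Cf n M × Cf n M) (Cf n M) ℂ) (k l m : Cf n M) :
    (((1 : Matrix (Cf n M) (Cf n M) ℂ) ⊗ₖ A) * B) (k, l) m = ∑ q, A l q * B (k, q) m := by
  rw [Matrix.mul_apply, Fintype.sum_prod_type, Finset.sum_eq_single k]
  · refine Finset.sum_congr rfl fun q _ => ?_
    simp [kroneckerMap_apply]
  · intro p _ hp
    refine Finset.sum_eq_zero fun q _ => ?_
    simp [kroneckerMap_apply, Matrix.one_apply_ne (Ne.symm hp)]
  · intro h; exact absurd (Finset.mem_univ _) h

/-- products which differ in one mode only -/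
theorem d1_prod {F G : Fin n → ℂ} (j : Fin n) {c : ℂ} (h1 : F j = c * G j)
    (h2 : ∀ i, i ≠ j → F i = G i) : ∏ i, F i = c * ∏ i, G i := by
  rw [← Finset.mul_prod_erase Finset.univ F (Finset.mem_univ j),
    ← Finset.mul_prod_erase Finset.univ G (Finset.mem_univ j), h1, mul_assoc]
  congr 2
  exact Finset.prod_congr rfl fun i hi => h2 i (Finset.ne_of_mem_erase hi)

theorem d1_other {j i : Fin n} (hij : i ≠ j) (x : ℝ) (k l m : Fin (M + 1)) :
    ∑ a : Fin (M + 1), d1b x a k l * d1A j i a m = d1b x m k l := by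
  rw [Finset.sum_eq_single m]
  · rw [d1A, if_neg hij, if_pos rfl, mul_one]
  · intro a _ ha
    rw [d1A, if_neg hij, if_neg (fun h => ha (Fin.ext h)), mul_zero]
  · intro h; exact absurd (Finset.mem_univ _) h

theorem d1_other_left {j i : Fin n} (hij : i ≠ j) (k : Fin (M + 1)) (f : ℕ → ℂ) :
    ∑ a : Fin (M + 1), d1A j i k a * f a = f k := by
  rw [Finset.sum_eq_single k]
  · rw [d1A, if_neg hij, if_pos rfl, one_mul]
  · intro a _ ha
    rw [d1A, if_neg hij, if_neg (fun h => ha (Fin.ext h.symm)), zero_mul]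
  · intro h; exact absurd (Finset.mem_univ _) h

theorem d1_sum_a (k : Fin (M + 1)) (f : ℕ → ℂ) (hf : ∀ a, M < a → f a = 0) :
    ∑ a : Fin (M + 1), d1a k a * f a =
      ((Real.sqrt (((k : ℕ) + 1 : ℕ) : ℝ) : ℝ) : ℂ) * f ((k : ℕ) + 1) := by
  by_cases hk : (k : ℕ) + 1 < M + 1
  · rw [Finset.sum_eq_single ⟨(k : ℕ) + 1, hk⟩]
    · rw [d1a, if_pos rfl]
    · intro a _ ha
      rw [d1a, if_neg (fun h => ha (Fin.ext h)), zero_mul]
    · intro h; exact absurd (Finset.mem_univ _) h
  · rw [hf _ (by omega), mul_zero]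
    refine Finset.sum_eq_zero fun a _ => ?_
    have := a.2
    rw [d1a, if_neg (by omega), zero_mul]

theorem d1_sum_a' (m : Fin (M + 1)) (f : ℕ → ℂ) :
    ∑ a : Fin (M + 1), f a * d1a a m =
      if (m : ℕ) = 0 then 0 else f ((m : ℕ) - 1) * ((Real.sqrt ((m : ℕ) : ℝ) : ℝ) : ℂ) := by
  have hm := m.2
  by_cases h : (m : ℕ) = 0
  · rw [if_pos h]
    refine Finset.sum_eq_zero fun a _ => ?_
    rw [d1a, if_neg (by omega), mul_zero]
  · rw [if_neg h, Finset.sum_eq_single ⟨(m : ℕ) - 1, by omega⟩]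
    · rw [d1a, if_pos (by simp only; omega)]
    · intro a _ ha
      have : ¬ (m : ℕ) = a + 1 := by
        intro h'
        apply ha
        apply Fin.ext
        simp only
        omega
      rw [d1a, if_neg this, mul_zero]
    · intro h; exact absurd (Finset.mem_univ _) h

theorem d1_mode (x : ℝ) (k l m : Fin (M + 1)) :
    ∑ a : Fin (M + 1), d1a k a * d1b x m a l =
      (Real.sqrt x : ℂ) * ∑ a : Fin (M + 1), d1b x a k l * d1a a m := by
  have hm := m.2
  rw [d1_sum_a k (fun a => d1b x m a l) (fun a ha => by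
      show d1b x m a l = 0
      rw [d1b, if_neg (by omega)]),
    d1_sum_a' m (fun a => d1b x a k l)]
  by_cases h : (m : ℕ) = k + l + 1
  · rw [if_neg (by omega), d1b, if_pos (by omega), d1b, if_pos (by omega), h]
    simp only [Nat.add_sub_cancel]
    rw [← Complex.ofReal_mul, ← Complex.ofReal_mul, ← Complex.ofReal_mul]
    congr 1
    have e : Real.sqrt (((k : ℕ) + 1 : ℕ) : ℝ) *
        Real.sqrt ((((k : ℕ) + l + 1).choose ((k : ℕ) + 1) : ℕ) : ℝ) =
        Real.sqrt ((((k : ℕ) + l).choose (k : ℕ) : ℕ) : ℝ) *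
        Real.sqrt (((k : ℕ) + l + 1 : ℕ) : ℝ) := by
      rw [← Real.sqrt_mul (Nat.cast_nonneg _), ← Real.sqrt_mul (Nat.cast_nonneg _)]
      congr 1
      have h3 := Nat.add_one_mul_choose_eq ((k : ℕ) + l) (k : ℕ)
      have h4 : ((k : ℕ) + 1) * ((k : ℕ) + l + 1).choose ((k : ℕ) + 1) =
          ((k : ℕ) + l).choose (k : ℕ) * ((k : ℕ) + l + 1) := by
        linarith only [h3]
      exact_mod_cast h4
    have e2 : Real.sqrt (((k : ℕ) + 1 : ℕ) : ℝ) *
        (Real.sqrt ((((k : ℕ) + l + 1).choose ((k : ℕ) + 1) : ℕ) : ℝ) *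
          Real.sqrt x ^ ((k : ℕ) + 1) * Real.sqrt (1 - x) ^ (l : ℕ)) =
        (Real.sqrt (((k : ℕ) + 1 : ℕ) : ℝ) *
        Real.sqrt ((((k : ℕ) + l + 1).choose ((k : ℕ) + 1) : ℕ) : ℝ)) *
        (Real.sqrt x ^ ((k : ℕ) + 1) * Real.sqrt (1 - x) ^ (l : ℕ)) := by ring
    rw [e2, e, pow_succ]
    ring
  · rw [d1b, if_neg (by omega), mul_zero]
    split_ifs with h0
    · simp
    · rw [d1b, if_neg (by omega)]
      simp

theorem d1_mode' (x : ℝ) (k l m : Fin (M + 1)) :
    ∑ a : Fin (M + 1), d1a l a * d1b x m k a =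
      (Real.sqrt (1 - x) : ℂ) * ∑ a : Fin (M + 1), d1b x a k l * d1a a m := by
  have hm := m.2
  rw [d1_sum_a l (fun a => d1b x m k a) (fun a ha => by
      show d1b x m k a = 0
      rw [d1b, if_neg (by omega)]),
    d1_sum_a' m (fun a => d1b x a k l)]
  by_cases h : (m : ℕ) = k + l + 1
  · rw [if_neg (by omega), d1b, if_pos (by omega), d1b, if_pos (by omega), h]
    simp only [Nat.add_sub_cancel]
    rw [← Complex.ofReal_mul, ← Complex.ofReal_mul, ← Complex.ofReal_mul]
    congr 1
    have e : Real.sqrt (((l : ℕ) + 1 : ℕ) : ℝ) *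
        Real.sqrt ((((k : ℕ) + l + 1).choose (k : ℕ) : ℕ) : ℝ) =
        Real.sqrt ((((k : ℕ) + l).choose (k : ℕ) : ℕ) : ℝ) *
        Real.sqrt (((k : ℕ) + l + 1 : ℕ) : ℝ) := by
      rw [← Real.sqrt_mul (Nat.cast_nonneg _), ← Real.sqrt_mul (Nat.cast_nonneg _)]
      congr 1
      have h3 := Nat.choose_mul_succ_eq ((k : ℕ) + l) (k : ℕ)
      have h5 : (k : ℕ) + l + 1 - k = l + 1 := by omega
      rw [h5] at h3
      have h4 : ((l : ℕ) + 1) * ((k : ℕ) + l + 1).choose (k : ℕ) =
          ((k : ℕ) + l).choose (k : ℕ) * ((k : ℕ) + l + 1) := by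
        rw [h3]; ring
      exact_mod_cast h4
    have e2 : Real.sqrt (((l : ℕ) + 1 : ℕ) : ℝ) *
        (Real.sqrt ((((k : ℕ) + l + 1).choose (k : ℕ) : ℕ) : ℝ) *
          Real.sqrt x ^ (k : ℕ) * Real.sqrt (1 - x) ^ ((l : ℕ) + 1)) =
        (Real.sqrt (((l : ℕ) + 1 : ℕ) : ℝ) *
        Real.sqrt ((((k : ℕ) + l + 1).choose (k : ℕ) : ℕ) : ℝ)) *
        (Real.sqrt x ^ (k : ℕ) * Real.sqrt (1 - x) ^ ((l : ℕ) + 1)) := by ring
    rw [e2, e, pow_succ]
    ring
  · rw [d1b, if_neg (by omega), mul_zero]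
    split_ifs with h0
    · simp
    · rw [d1b, if_neg (by omega)]
      simp

theorem ann_bsJ {x : ℝ} (h0 : 0 ≤ x) (h1 : x ≤ 1) (j : Fin n) :
    (ann n M j ⊗ₖ (1 : Matrix (Cf n M) (Cf n M) ℂ)) * bsJ n M x =
      (Real.sqrt x : ℂ) • (bsJ n M x * ann n M j) := by
  ext ⟨k, l⟩ m
  rw [d1_kron_left, Matrix.smul_apply, d1_mul_ann, smul_eq_mul]
  have e : ∑ p, ann n M j k p * bsJ n M x (p, l) m =
      ∏ i, ∑ a : Fin (M + 1), d1A j i (k i) a * d1b x (m i) a (l i) := by
    rw [← d1_sum]
    refine Finset.sum_congr rfl fun p _ => ?_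
    rw [d1_bsJ, d1_ann, Finset.prod_mul_distrib]
  rw [e]
  refine d1_prod j ?_ ?_
  · simp only [d1A, if_pos]
    exact d1_mode x (k j) (l j) (m j)
  · intro i hij
    rw [d1_other hij x (k i) (l i) (m i),
      d1_other_left hij (k i) (fun a => d1b x (m i) a (l i))]

theorem ann_bsJ' {x : ℝ} (h0 : 0 ≤ x) (h1 : x ≤ 1) (j : Fin n) :
    ((1 : Matrix (Cf n M) (Cf n M) ℂ) ⊗ₖ ann n M j) * bsJ n M x =
      (Real.sqrt (1 - x) : ℂ) • (bsJ n M x * ann n M j) := by
  ext ⟨k, l⟩ m
  rw [d1_kron_right, Matrix.smul_apply, d1_mul_ann, smul_eq_mul]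
  have e : ∑ q, ann n M j l q * bsJ n M x (k, q) m =
      ∏ i, ∑ a : Fin (M + 1), d1A j i (l i) a * d1b x (m i) (k i) a := by
    rw [← d1_sum]
    refine Finset.sum_congr rfl fun p _ => ?_
    rw [d1_bsJ, d1_ann, Finset.prod_mul_distrib]
  rw [e]
  refine d1_prod j ?_ ?_
  · simp only [d1A, if_pos]
    exact d1_mode' x (k j) (l j) (m j)
  · intro i hij
    rw [d1_other hij x (k i) (l i) (m i),
      d1_other_left hij (l i) (fun a => d1b x (m i) (k i) a)]

end

end Vale.Agent.P369V
end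
end

section

section

/-! P369V, D3 (part): semigroup property of the loss channel and its energy. -/

namespace Vale.Agent.P369V

open Matrix MeasureTheory Set
open scoped Kronecker InnerProductSpace ComplexOrder

noncomputable section

variable {n M : ℕ}

/-- one-mode kernel of the loss channel -/
def d3b (M : ℕ) (x : ℝ) (k k' m m' : ℕ) : ℂ :=
  ∑ c : Fin (M + 1), d1b x m k c * star (d1b x m' k' c)

theorem d3_loss (x : ℝ) (ρ : Matrix (Cf n M) (Cf n M) ℂ) (k k' : Cf n M) :
    loss n M x ρ k k' = ∑ m : Cf n M, ∑ m' : Cf n M,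
      (∏ i, d3b M x (k i) (k' i) (m i) (m' i)) * ρ m m' := by
  have h1 : ∀ m m' : Cf n M, ∏ i, d3b M x (k i) (k' i) (m i) (m' i) =
      ∑ l : Cf n M, bsJ n M x (k, l) m * star (bsJ n M x (k', l) m') := by
    intro m m'
    unfold d3b
    rw [← d1_sum (fun i (c : Fin (M + 1)) => d1b x (m i) (k i) c * star (d1b x (m' i) (k' i) c))]
    refine Finset.sum_congr rfl fun l _ => ?_
    rw [Finset.prod_mul_distrib, d1_bsJ, d1_bsJ, star_prod]
  simp only [h1, loss, ptr₁, Matrix.mul_apply, conjTranspose_apply, Finset.sum_mul]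
  rw [Finset.sum_comm' (t' := Finset.univ) (s' := fun _ => Finset.univ) (by simp)]
  have h2 : ∀ m' : Cf n M, ∑ l : Cf n M, ∑ m : Cf n M,
      bsJ n M x (k, l) m * ρ m m' * star (bsJ n M x (k', l) m') =
      ∑ m : Cf n M, ∑ l : Cf n M,
      bsJ n M x (k, l) m * star (bsJ n M x (k', l) m') * ρ m m' := by
    intro m'
    rw [Finset.sum_comm]
    refine Finset.sum_congr rfl fun m _ => Finset.sum_congr rfl fun l _ => ?_
    ring
  rw [Finset.sum_congr rfl (fun m' _ => h2 m'), Finset.sum_comm]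

theorem d3b_closed {x : ℝ} (h1 : x ≤ 1) {k k' m m' : ℕ} (hm : m ≤ M) :
    d3b M x k k' m m' = if m + k' = m' + k ∧ k ≤ m then
      ((Real.sqrt ((m.choose k : ℕ) : ℝ) * Real.sqrt ((m'.choose k' : ℕ) : ℝ) *
        (Real.sqrt x ^ k * Real.sqrt x ^ k') * (1 - x) ^ (m - k) : ℝ) : ℂ) else 0 := by
  unfold d3b
  split_ifs with h
  · rw [Finset.sum_eq_single ⟨m - k, by omega⟩]
    · rw [d1_b_star, d1b, d1b, if_pos (by simp only; omega), if_pos (by simp only; omega),
        ← Complex.ofReal_mul]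
      congr 1
      simp only
      have e : Real.sqrt (1 - x) ^ (m - k) * Real.sqrt (1 - x) ^ (m - k) = (1 - x) ^ (m - k) := by
        rw [← mul_pow, Real.mul_self_sqrt (by linarith only [h1])]
      rw [← e]
      ring
    · intro c _ hc
      have : ¬ m = k + c := by
        intro h'
        apply hc
        apply Fin.ext
        simp only
        omega
      rw [d1b, if_neg this, zero_mul]
    · intro h; exact absurd (Finset.mem_univ _) h
  · refine Finset.sum_eq_zero fun c _ => ?_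
    rw [d1_b_star]
    by_cases h2 : m = k + c
    · have : ¬ m' = k' + c := by omega
      have e : d1b x m' k' c = 0 := by rw [d1b, if_neg this]
      rw [e, mul_zero]
    · rw [d1b, if_neg h2, zero_mul]

/-- binomial bookkeeping -/
theorem d3_choose (m k i : ℕ) (h : k + i ≤ m) :
    Real.sqrt (((k + i).choose k : ℕ) : ℝ) * Real.sqrt ((m.choose (k + i) : ℕ) : ℝ) =
      Real.sqrt ((m.choose k : ℕ) : ℝ) * Real.sqrt (((m - k).choose i : ℕ) : ℝ) := by
  rw [← Real.sqrt_mul (Nat.cast_nonneg _), ← Real.sqrt_mul (Nat.cast_nonneg _)]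
  congr 1
  have := Nat.choose_mul (n := m) (k := k + i) (s := k) (by omega)
  rw [show k + i - k = i by omega] at this
  rw [mul_comm]
  exact_mod_cast this

theorem d3_single {x y : ℝ} (hx0 : 0 ≤ x) (hx1 : x ≤ 1) (hy0 : 0 ≤ y) (hy1 : y ≤ 1)
    (k k' m m' : Fin (M + 1)) :
    ∑ a : Fin (M + 1), ∑ b : Fin (M + 1), d3b M y k k' a b * d3b M x a b m m' =
      d3b M (x * y) k k' m m' := by
  have hxy : x * y ≤ 1 := mul_le_one₀ hx1 hy0 hy1
  have hm := m.2
  have hm' := m'.2
  rw [d3b_closed hxy (by omega)]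
  have hterm : ∀ a b : Fin (M + 1), d3b M y k k' a b * d3b M x a b m m' =
      if (a : ℕ) + k' = b + k ∧ (k : ℕ) ≤ a ∧ (m : ℕ) + b = m' + a ∧ (a : ℕ) ≤ m then
        ((Real.sqrt (((a : ℕ).choose k : ℕ) : ℝ) * Real.sqrt (((b : ℕ).choose k' : ℕ) : ℝ) *
        (Real.sqrt y ^ (k : ℕ) * Real.sqrt y ^ (k' : ℕ)) * (1 - y) ^ ((a : ℕ) - k) *
        (Real.sqrt (((m : ℕ).choose a : ℕ) : ℝ) * Real.sqrt (((m' : ℕ).choose b : ℕ) : ℝ) *
        (Real.sqrt x ^ (a : ℕ) * Real.sqrt x ^ (b : ℕ)) * (1 - x) ^ ((m : ℕ) - a)) : ℝ) : ℂ)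
      else 0 := by
    intro a b
    have ha := a.2
    rw [d3b_closed hy1 (by omega), d3b_closed hx1 (by omega)]
    by_cases h1 : (a : ℕ) + k' = b + k ∧ (k : ℕ) ≤ a
    · by_cases h2 : (m : ℕ) + b = m' + a ∧ (a : ℕ) ≤ m
      · rw [if_pos h1, if_pos h2, if_pos ⟨h1.1, h1.2, h2.1, h2.2⟩, ← Complex.ofReal_mul]
      · rw [if_neg h2, mul_zero, if_neg (fun h => h2 ⟨h.2.2.1, h.2.2.2⟩)]
    · rw [if_neg h1, zero_mul, if_neg (fun h => h1 ⟨h.1, h.2.1⟩)]
  simp only [hterm]
  by_cases hP : (m : ℕ) + k' = m' + k ∧ (k : ℕ) ≤ m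
  · rw [if_pos hP]
    obtain ⟨s, hs⟩ := Nat.exists_eq_add_of_le hP.2
    have hs' : (m' : ℕ) = k' + s := by omega
    have hk' := k'.2
    -- inner sum
    have hin : ∀ a : Fin (M + 1), (∑ b : Fin (M + 1),
        if (a : ℕ) + k' = b + k ∧ (k : ℕ) ≤ a ∧ (m : ℕ) + b = m' + a ∧ (a : ℕ) ≤ m then
        ((Real.sqrt (((a : ℕ).choose k : ℕ) : ℝ) * Real.sqrt (((b : ℕ).choose k' : ℕ) : ℝ) *
        (Real.sqrt y ^ (k : ℕ) * Real.sqrt y ^ (k' : ℕ)) * (1 - y) ^ ((a : ℕ) - k) *
        (Real.sqrt (((m : ℕ).choose a : ℕ) : ℝ) * Real.sqrt (((m' : ℕ).choose b : ℕ) : ℝ) *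
        (Real.sqrt x ^ (a : ℕ) * Real.sqrt x ^ (b : ℕ)) * (1 - x) ^ ((m : ℕ) - a)) : ℝ) : ℂ)
        else 0) =
        if (k : ℕ) ≤ a ∧ (a : ℕ) ≤ m then
          ((Real.sqrt (((m : ℕ).choose k : ℕ) : ℝ) * Real.sqrt (((m' : ℕ).choose k' : ℕ) : ℝ) *
            (Real.sqrt (x * y) ^ (k : ℕ) * Real.sqrt (x * y) ^ (k' : ℕ)) *
            ((x * (1 - y)) ^ ((a : ℕ) - k) * (1 - x) ^ (s - ((a : ℕ) - k)) *
              ((s.choose ((a : ℕ) - k) : ℕ) : ℝ)) : ℝ) : ℂ) else 0 := by
      intro a
      by_cases ha : (k : ℕ) ≤ a ∧ (a : ℕ) ≤ m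
      · rw [if_pos ha]
        obtain ⟨i, hi⟩ := Nat.exists_eq_add_of_le ha.1
        have hb : (k' : ℕ) + i < M + 1 := by omega
        rw [Finset.sum_eq_single ⟨(k' : ℕ) + i, hb⟩]
        · rw [if_pos ⟨by simp only; omega, ha.1, by simp only; omega, ha.2⟩]
          congr 1
          simp only
          have c1 := d3_choose (m : ℕ) k i (by omega)
          have c2 := d3_choose (m' : ℕ) k' i (by omega)
          rw [show (m : ℕ) - k = s by omega] at c1
          rw [show (m' : ℕ) - k' = s by omega] at c2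
          rw [hi, show (k : ℕ) + i - k = i by omega, show (m : ℕ) - (k + i) = s - i by omega]
          have c3 : Real.sqrt ((s.choose i : ℕ) : ℝ) * Real.sqrt ((s.choose i : ℕ) : ℝ) =
              ((s.choose i : ℕ) : ℝ) := Real.mul_self_sqrt (Nat.cast_nonneg _)
          have c4 : Real.sqrt x ^ i * Real.sqrt x ^ i = x ^ i := by
            rw [← mul_pow, Real.mul_self_sqrt hx0]
          rw [Real.sqrt_mul hx0, mul_pow, mul_pow, mul_pow, ← c3, ← c4, pow_add, pow_add]
          calc _ = (Real.sqrt ((((k : ℕ) + i).choose k : ℕ) : ℝ) *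
                Real.sqrt (((m : ℕ).choose (k + i) : ℕ) : ℝ)) *
                (Real.sqrt ((((k' : ℕ) + i).choose k' : ℕ) : ℝ) *
                Real.sqrt (((m' : ℕ).choose (k' + i) : ℕ) : ℝ)) *
                (Real.sqrt y ^ (k : ℕ) * Real.sqrt y ^ (k' : ℕ) * (1 - y) ^ i *
                (Real.sqrt x ^ (k : ℕ) * Real.sqrt x ^ i * (Real.sqrt x ^ (k' : ℕ) * Real.sqrt x ^ i)) *
                (1 - x) ^ (s - i)) := by ring
            _ = _ := by
                rw [c1, c2]
                ring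
        · intro b _ hbn
          rw [if_neg]
          rintro ⟨h1, -, -, -⟩
          apply hbn
          apply Fin.ext
          simp only
          omega
        · intro h; exact absurd (Finset.mem_univ _) h
      · rw [if_neg ha]
        refine Finset.sum_eq_zero fun b _ => ?_
        rw [if_neg]
        rintro ⟨-, h2, -, h4⟩
        exact ha ⟨h2, h4⟩
    simp only [hin]
    rw [Fin.sum_univ_eq_sum_range (fun a => if (k : ℕ) ≤ a ∧ a ≤ (m : ℕ) then
          ((Real.sqrt (((m : ℕ).choose k : ℕ) : ℝ) * Real.sqrt (((m' : ℕ).choose k' : ℕ) : ℝ) *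
            (Real.sqrt (x * y) ^ (k : ℕ) * Real.sqrt (x * y) ^ (k' : ℕ)) *
            ((x * (1 - y)) ^ (a - k) * (1 - x) ^ (s - (a - k)) *
              ((s.choose (a - k) : ℕ) : ℝ)) : ℝ) : ℂ) else 0) (M + 1)]
    have hsub : Finset.Ico (k : ℕ) (k + (s + 1)) ⊆ Finset.range (M + 1) := by
      intro a ha
      rw [Finset.mem_Ico] at ha
      rw [Finset.mem_range]
      omega
    rw [← Finset.sum_subset hsub]
    · rw [Finset.sum_Ico_eq_sum_range, show (k : ℕ) + (s + 1) - k = s + 1 by omega]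
      have e2 : ∀ i ∈ Finset.range (s + 1), (if (k : ℕ) ≤ k + i ∧ (k : ℕ) + i ≤ m then
          ((Real.sqrt (((m : ℕ).choose k : ℕ) : ℝ) * Real.sqrt (((m' : ℕ).choose k' : ℕ) : ℝ) *
            (Real.sqrt (x * y) ^ (k : ℕ) * Real.sqrt (x * y) ^ (k' : ℕ)) *
            ((x * (1 - y)) ^ ((k : ℕ) + i - k) * (1 - x) ^ (s - ((k : ℕ) + i - k)) *
              ((s.choose ((k : ℕ) + i - k) : ℕ) : ℝ)) : ℝ) : ℂ) else 0) =
          ((Real.sqrt (((m : ℕ).choose k : ℕ) : ℝ) * Real.sqrt (((m' : ℕ).choose k' : ℕ) : ℝ) *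
            (Real.sqrt (x * y) ^ (k : ℕ) * Real.sqrt (x * y) ^ (k' : ℕ)) *
            ((x * (1 - y)) ^ i * (1 - x) ^ (s - i) * ((s.choose i : ℕ) : ℝ)) : ℝ) : ℂ) := by
        intro i hi
        rw [Finset.mem_range] at hi
        rw [if_pos ⟨by omega, by omega⟩, show (k : ℕ) + i - k = i by omega]
      rw [Finset.sum_congr rfl e2, ← Complex.ofReal_sum, ← Finset.mul_sum, ← add_pow]
      congr 2
      rw [show (m : ℕ) - k = s by omega]
      congr 1
      ring
    · intro a _ ha
      rw [Finset.mem_Ico] at ha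
      rw [if_neg (by omega)]
  · rw [if_neg hP]
    refine Finset.sum_eq_zero fun a _ => Finset.sum_eq_zero fun b _ => ?_
    rw [if_neg]
    rintro ⟨h1, h2, h3, h4⟩
    apply hP
    constructor <;> omega

theorem loss_loss {x y : ℝ} (hx0 : 0 ≤ x) (hx1 : x ≤ 1) (hy0 : 0 ≤ y) (hy1 : y ≤ 1)
    (ρ : Matrix (Cf n M) (Cf n M) ℂ) : loss n M y (loss n M x ρ) = loss n M (x * y) ρ := by
  ext k k'
  rw [d3_loss, d3_loss]
  have h1 : ∀ m m' : Cf n M, ∏ i, d3b M (x * y) (k i) (k' i) (m i) (m' i) =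
      ∑ p : Cf n M, ∑ p' : Cf n M, (∏ i, d3b M y (k i) (k' i) (p i) (p' i)) *
        ∏ i, d3b M x (p i) (p' i) (m i) (m' i) := by
    intro m m'
    have e := d1_sum₂ (fun i (a b : Fin (M + 1)) =>
      d3b M y (k i) (k' i) a b * d3b M x a b (m i) (m' i))
    rw [Finset.prod_congr rfl (fun i _ => (d3_single hx0 hx1 hy0 hy1 (k i) (k' i) (m i) (m' i)).symm),
      ← e]
    refine Finset.sum_congr rfl fun p _ => Finset.sum_congr rfl fun p' _ => ?_
    rw [Finset.prod_mul_distrib]
  simp only [d3_loss, h1, Finset.mul_sum, Finset.sum_mul]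
  calc (∑ p : Cf n M, ∑ p' : Cf n M, ∑ m : Cf n M, ∑ m' : Cf n M,
        (∏ i, d3b M y (k i) (k' i) (p i) (p' i)) *
          ((∏ i, d3b M x (p i) (p' i) (m i) (m' i)) * ρ m m'))
      = ∑ q : (Cf n M × Cf n M) × (Cf n M × Cf n M),
        (∏ i, d3b M y (k i) (k' i) (q.1.1 i) (q.1.2 i)) *
          ((∏ i, d3b M x (q.1.1 i) (q.1.2 i) (q.2.1 i) (q.2.2 i)) * ρ q.2.1 q.2.2) := by
        simp only [Fintype.sum_prod_type]
    _ = ∑ q : (Cf n M × Cf n M) × (Cf n M × Cf n M),
        (∏ i, d3b M y (k i) (k' i) (q.2.1 i) (q.2.2 i)) *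
          ((∏ i, d3b M x (q.2.1 i) (q.2.2 i) (q.1.1 i) (q.1.2 i)) * ρ q.1.1 q.1.2) :=
        Fintype.sum_equiv (Equiv.prodComm _ _) _ _ (fun q => rfl)
    _ = _ := by
        simp only [Fintype.sum_prod_type]
        refine Finset.sum_congr rfl fun m _ => Finset.sum_congr rfl fun m' _ =>
          Finset.sum_congr rfl fun p _ => Finset.sum_congr rfl fun p' _ => ?_
        ring

/-- trace of a marginal against an operator -/
theorem d3_trace_ptr {ι : Type} [Fintype ι] [DecidableEq ι] (T : Matrix (ι × ι) (ι × ι) ℂ)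
    (A : Matrix ι ι ℂ) :
    (ptr₁ T * A).trace = (T * (A ⊗ₖ (1 : Matrix ι ι ℂ))).trace := by
  simp only [Matrix.trace, Matrix.diag_apply, Matrix.mul_apply, ptr₁, Fintype.sum_prod_type,
    Matrix.kroneckerMap_apply, Matrix.one_apply, Finset.sum_mul]
  refine Finset.sum_congr rfl fun i _ => ?_
  rw [Finset.sum_comm]
  refine Finset.sum_congr rfl fun l _ => Finset.sum_congr rfl fun j _ => ?_
  rw [Finset.sum_eq_single l]
  · simp
  · intro l' _ hl
    simp [hl]
  · intro h; exact absurd (Finset.mem_univ _) h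

theorem en_loss {x : ℝ} (h0 : 0 ≤ x) (h1 : x ≤ 1) (ρ : Matrix (Cf n M) (Cf n M) ℂ) :
    en n M (loss n M x ρ) = x * en n M ρ := by
  unfold en
  rw [Finset.mul_sum]
  refine Finset.sum_congr rfl fun j _ => ?_
  set a := ann n M j with ha
  set J := bsJ n M x with hJ
  have e1 : (loss n M x ρ * (aᴴ * a)).trace = (x : ℂ) * (ρ * (aᴴ * a)).trace := by
    rw [loss, d3_trace_ptr, ← hJ]
    have e2 : (aᴴ * a) ⊗ₖ (1 : Matrix (Cf n M) (Cf n M) ℂ) =
        (a ⊗ₖ (1 : Matrix (Cf n M) (Cf n M) ℂ))ᴴ * (a ⊗ₖ (1 : Matrix (Cf n M) (Cf n M) ℂ)) := by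
      rw [Matrix.conjTranspose_kronecker, ← Matrix.mul_kronecker_mul, conjTranspose_one, Matrix.one_mul]
    have e3 : (a ⊗ₖ (1 : Matrix (Cf n M) (Cf n M) ℂ)) * J = (Real.sqrt x : ℂ) • (J * a) :=
      ann_bsJ h0 h1 j
    have e4 : Jᴴ * (a ⊗ₖ (1 : Matrix (Cf n M) (Cf n M) ℂ))ᴴ = (Real.sqrt x : ℂ) • (aᴴ * Jᴴ) := by
      rw [← conjTranspose_mul, e3, conjTranspose_smul, conjTranspose_mul, Complex.star_def,
        Complex.conj_ofReal]
    rw [e2]
    have e5 : (J * ρ * Jᴴ * ((a ⊗ₖ (1 : Matrix (Cf n M) (Cf n M) ℂ))ᴴ *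
        (a ⊗ₖ (1 : Matrix (Cf n M) (Cf n M) ℂ)))).trace =
        (ρ * (Jᴴ * (a ⊗ₖ (1 : Matrix (Cf n M) (Cf n M) ℂ))ᴴ *
        ((a ⊗ₖ (1 : Matrix (Cf n M) (Cf n M) ℂ)) * J))).trace := by
      rw [Matrix.mul_assoc, Matrix.mul_assoc, Matrix.trace_mul_comm]
      simp only [Matrix.mul_assoc]
    have e6 : aᴴ * Jᴴ * (J * a) = aᴴ * a := by
      rw [Matrix.mul_assoc, ← Matrix.mul_assoc Jᴴ, bsJ_isometry h0 h1, Matrix.one_mul]
    have e7 : Jᴴ * (a ⊗ₖ (1 : Matrix (Cf n M) (Cf n M) ℂ))ᴴ *
        ((a ⊗ₖ (1 : Matrix (Cf n M) (Cf n M) ℂ)) * J) = (x : ℂ) • (aᴴ * a) := by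
      rw [e4, e3, Matrix.smul_mul, Matrix.mul_smul, smul_smul, e6, ← Complex.ofReal_mul,
        Real.mul_self_sqrt h0]
    rw [e5, e7, Matrix.mul_smul, Matrix.trace_smul, smul_eq_mul]
  rw [e1, Complex.re_ofReal_mul]

end

end Vale.Agent.P369V
end
end

section

section

/-! P369V, D3 (part): trace, positivity and the environment marginal of the loss channel. -/

namespace Vale.Agent.P369V

open Matrix MeasureTheory Set
open scoped Kronecker InnerProductSpace ComplexOrder

noncomputable section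

variable {n M : ℕ}

/-- the Kraus operators of the loss channel -/
def d3R (n M : ℕ) (x : ℝ) (l : Cf n M) : Matrix (Cf n M) (Cf n M) ℂ := fun k m => bsJ n M x (k, l) m

theorem d3_kraus (x : ℝ) (ρ : Matrix (Cf n M) (Cf n M) ℂ) :
    loss n M x ρ = ∑ l, d3R n M x l * ρ * (d3R n M x l)ᴴ := by
  ext k k'
  rw [Matrix.sum_apply]
  rfl

theorem trace_loss {x : ℝ} (h0 : 0 ≤ x) (h1 : x ≤ 1) (ρ : Matrix (Cf n M) (Cf n M) ℂ) :
    (loss n M x ρ).trace = ρ.trace := by
  have h := d3_trace_ptr (bsJ n M x * ρ * (bsJ n M x)ᴴ) (1 : Matrix (Cf n M) (Cf n M) ℂ)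
  rw [Matrix.mul_one, Matrix.one_kronecker_one, Matrix.mul_one, Matrix.mul_assoc,
    Matrix.trace_mul_comm, Matrix.mul_assoc, bsJ_isometry h0 h1, Matrix.mul_one] at h
  rw [loss, Matrix.mul_assoc]
  exact h

theorem loss_posSemidef {x : ℝ} {ρ : Matrix (Cf n M) (Cf n M) ℂ}
    (hρ : ρ.PosSemidef) : (loss n M x ρ).PosSemidef := by
  rw [d3_kraus]
  exact Matrix.posSemidef_sum _ fun l _ => hρ.mul_mul_conjTranspose_same _

theorem d3_bsJ_zero (x : ℝ) : d3R n M x 0 =
    Matrix.diagonal fun k : Cf n M => ((∏ j, Real.sqrt x ^ (k j : ℕ) : ℝ) : ℂ) := by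
  ext k m
  rw [Matrix.diagonal_apply]
  unfold d3R bsJ
  by_cases h : k = m
  · subst h
    rw [if_pos rfl, Complex.ofReal_prod]
    refine Finset.prod_congr rfl fun j _ => ?_
    simp only [Pi.zero_apply, Fin.coe_ofNat_eq_mod, Nat.zero_mod, add_zero, ↓reduceIte, Nat.choose_self, Nat.cast_one, Real.sqrt_one, one_mul, pow_zero, mul_one, Complex.ofReal_pow]
  · rw [if_neg h]
    obtain ⟨j, hj⟩ := Function.ne_iff.1 h
    refine Finset.prod_eq_zero (Finset.mem_univ j) ?_
    rw [if_neg]
    intro h'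
    apply hj
    apply Fin.ext
    simpa only [Pi.zero_apply, Fin.coe_ofNat_eq_mod, Nat.zero_mod, add_zero] using h'.symm

theorem loss_posDef {x : ℝ} (h0 : 0 < x) (_h1 : x ≤ 1) {ρ : Matrix (Cf n M) (Cf n M) ℂ}
    (hρ : ρ.PosDef) : (loss n M x ρ).PosDef := by
  rw [d3_kraus, ← Finset.add_sum_erase _ _ (Finset.mem_univ (0 : Cf n M))]
  refine Matrix.PosDef.add_posSemidef ?_ (Matrix.posSemidef_sum _ fun l _ =>
    hρ.posSemidef.mul_mul_conjTranspose_same _)
  refine Matrix.PosDef.mul_mul_conjTranspose_same hρ ?_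
  rw [d3_bsJ_zero]
  intro v w hvw
  funext k
  have h := congrFun hvw k
  simp only [Matrix.vecMul_diagonal] at h
  refine mul_right_cancel₀ ?_ h
  rw [Complex.ofReal_ne_zero]
  exact Finset.prod_ne_zero_iff.2 fun j _ => pow_ne_zero _ (Real.sqrt_ne_zero'.2 h0)

theorem d3_bsJ_swap (x : ℝ) (k l m : Cf n M) : bsJ n M x (k, l) m = bsJ n M (1 - x) (l, k) m := by
  unfold bsJ
  refine Finset.prod_congr rfl fun j _ => ?_
  by_cases h : (m j : ℕ) = (k j : ℕ) + (l j : ℕ)
  · rw [if_pos h, if_pos (by rw [h, Nat.add_comm])]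
    congr 1
    rw [sub_sub_cancel, h, Nat.choose_symm_add]
    ring
  · rw [if_neg h, if_neg (by intro h'; exact h (by simpa [Nat.add_comm] using h'))]

theorem ptr₂_loss {x : ℝ} (_h0 : 0 ≤ x) (_h1 : x ≤ 1) (ρ : Matrix (Cf n M) (Cf n M) ℂ) :
    ptr₂ (bsJ n M x * ρ * (bsJ n M x)ᴴ) = loss n M (1 - x) ρ := by
  ext l l'
  unfold loss ptr₂ ptr₁
  refine Finset.sum_congr rfl fun k _ => ?_
  simp only [Matrix.mul_apply, Matrix.conjTranspose_apply, d3_bsJ_swap x]

theorem loss_one (ρ : Matrix (Cf n M) (Cf n M) ℂ) : loss n M 1 ρ = ρ := by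
  rw [d3_kraus, Finset.sum_eq_single (0 : Cf n M)]
  · rw [d3_bsJ_zero]
    have : (Matrix.diagonal fun k : Cf n M => ((∏ j, Real.sqrt 1 ^ (k j : ℕ) : ℝ) : ℂ)) = 1 := by
      rw [← Matrix.diagonal_one]
      congr 1
      funext k
      simp only [Real.sqrt_one, one_pow, Finset.prod_const_one, Complex.ofReal_one]
    rw [this]
    simp
  · intro l _ hl
    have : d3R n M 1 l = 0 := by
      ext k m
      unfold d3R bsJ
      obtain ⟨j, hj⟩ := Function.ne_iff.1 hl
      refine Finset.prod_eq_zero (Finset.mem_univ j) ?_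
      have hj' : (l j : ℕ) ≠ 0 := by
        intro h
        exact hj (Fin.ext h)
      split_ifs
      · simp only [Real.sqrt_one, one_pow, mul_one, sub_self, Real.sqrt_zero, ne_eq, hj', not_false_eq_true, zero_pow, mul_zero, Complex.ofReal_zero]
      · rfl
    rw [this]
    simp only [zero_mul, conjTranspose_zero, mul_zero]
  · intro h
    exact absurd (Finset.mem_univ _) h

end

end Vale.Agent.P369V
end
end

section

section

/-! P369V, D4: derivative of the loss semigroup. -/

namespace Vale.Agent.P369V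

open Matrix MeasureTheory Set
open scoped Kronecker InnerProductSpace ComplexOrder

noncomputable section

variable {n M : ℕ}

theorem d4_sqrt_pow {t : ℝ} (ht : 0 < t) (K : ℕ) :
    HasDerivAt (fun x : ℝ => Real.sqrt x ^ K) ((K : ℝ) / (2 * t) * Real.sqrt t ^ K) t := by
  have h := (Real.hasDerivAt_sqrt ht.ne').pow K
  refine h.congr_deriv ?_
  rcases K with _ | K
  · simp only [CharP.cast_eq_zero, zero_tsub, pow_zero, mul_one, one_div, _root_.mul_inv_rev, zero_mul, zero_div]
  · have h1 : Real.sqrt t * Real.sqrt t = t := Real.mul_self_sqrt ht.le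
    have h2 : Real.sqrt t ≠ 0 := (Real.sqrt_pos.2 ht).ne'
    have h3 : 2 * t = 2 * (Real.sqrt t * Real.sqrt t) := by rw [h1]
    rw [Nat.add_sub_cancel, pow_succ, h3]
    (clear * - h2 ht; field_simp)

theorem d4_sqrt_pow' {t : ℝ} (ht : t < 1) (L : ℕ) :
    HasDerivAt (fun x : ℝ => Real.sqrt (1 - x) ^ L)
      (-((L : ℝ) / (2 * (1 - t))) * Real.sqrt (1 - t) ^ L) t := by
  have h1 : HasDerivAt (fun x : ℝ => 1 - x) (-1) t := by
    simpa using (hasDerivAt_id t).const_sub 1
  have h := (d4_sqrt_pow (t := 1 - t) (by linarith only [ht]) L).comp t h1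
  refine h.congr_deriv ?_
  ring

/-- total photon number -/
def d4N (k : Cf n M) : ℝ := ∑ j, ((k j : ℕ) : ℝ)

theorem d4_bsJ {t : ℝ} (ht : t ∈ Ioo (0 : ℝ) 1) (p : Cf n M × Cf n M) (m : Cf n M) :
    HasDerivAt (fun x : ℝ => bsJ n M x p m)
      (((d4N p.1 / (2 * t) - d4N p.2 / (2 * (1 - t)) : ℝ) : ℂ) * bsJ n M t p m) t := by
  by_cases hc : ∀ j, (m j : ℕ) = (p.1 j : ℕ) + (p.2 j : ℕ)
  · have e : ∀ x : ℝ, bsJ n M x p m =
        (((∏ j, Real.sqrt (((m j : ℕ).choose (p.1 j : ℕ) : ℕ) : ℝ)) *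
          (Real.sqrt x ^ (∑ j, (p.1 j : ℕ)) * Real.sqrt (1 - x) ^ (∑ j, (p.2 j : ℕ))) : ℝ) : ℂ) := by
      intro x
      unfold bsJ
      rw [Finset.prod_congr rfl (fun j _ => if_pos (hc j)), ← Complex.ofReal_prod,
        Finset.prod_mul_distrib, Finset.prod_mul_distrib, Finset.prod_pow_eq_pow_sum,
        Finset.prod_pow_eq_pow_sum]
      congr 1
      ring
    have h := ((d4_sqrt_pow ht.1 (∑ j, (p.1 j : ℕ))).mul
      (d4_sqrt_pow' ht.2 (∑ j, (p.2 j : ℕ)))).const_mul
        (∏ j, Real.sqrt (((m j : ℕ).choose (p.1 j : ℕ) : ℕ) : ℝ))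
    have h2 := h.ofReal_comp
    have e1 : (fun x : ℝ => bsJ n M x p m) = fun x : ℝ =>
        (((∏ j, Real.sqrt (((m j : ℕ).choose (p.1 j : ℕ) : ℕ) : ℝ)) *
          (Real.sqrt x ^ (∑ j, (p.1 j : ℕ)) * Real.sqrt (1 - x) ^ (∑ j, (p.2 j : ℕ))) : ℝ) : ℂ) :=
      funext e
    rw [e1, e t]
    refine h2.congr_deriv ?_
    rw [← Complex.ofReal_mul]
    congr 1
    unfold d4N
    push_cast
    ring
  · have e : ∀ x : ℝ, bsJ n M x p m = 0 := by
      intro x
      push Not at hc
      obtain ⟨j, hj⟩ := hc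
      unfold bsJ
      exact Finset.prod_eq_zero (Finset.mem_univ j) (if_neg hj)
    have e1 : (fun x : ℝ => bsJ n M x p m) = fun _ => (0 : ℂ) := funext e
    rw [e1, e t, mul_zero]
    exact hasDerivAt_const t (0 : ℂ)

/-- the output state of the dilation -/
def d4T (n M : ℕ) (x : ℝ) (ρ : Matrix (Cf n M) (Cf n M) ℂ) :
    Matrix (Cf n M × Cf n M) (Cf n M × Cf n M) ℂ := bsJ n M x * ρ * (bsJ n M x)ᴴ

theorem d4_T {t : ℝ} (ht : t ∈ Ioo (0 : ℝ) 1) (ρ : Matrix (Cf n M) (Cf n M) ℂ)
    (p q : Cf n M × Cf n M) :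
    HasDerivAt (fun x : ℝ => d4T n M x ρ p q)
      ((((d4N p.1 / (2 * t) - d4N p.2 / (2 * (1 - t))) +
        (d4N q.1 / (2 * t) - d4N q.2 / (2 * (1 - t))) : ℝ) : ℂ) * d4T n M t ρ p q) t := by
  have e : ∀ x : ℝ, d4T n M x ρ p q =
      ∑ m', (∑ m, bsJ n M x p m * ρ m m') * star (bsJ n M x q m') := by
    intro x
    rfl
  have hs : ∀ m', HasDerivAt (fun x : ℝ => star (bsJ n M x q m'))
      (((d4N q.1 / (2 * t) - d4N q.2 / (2 * (1 - t)) : ℝ) : ℂ) * star (bsJ n M t q m')) t := by
    intro m'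
    have h := (d4_bsJ ht q m').star
    refine h.congr_deriv ?_
    rw [star_mul', Complex.star_def, Complex.conj_ofReal]
  have h : HasDerivAt (fun x : ℝ => ∑ m', (∑ m, bsJ n M x p m * ρ m m') * star (bsJ n M x q m'))
      (∑ m', ((∑ m, (((d4N p.1 / (2 * t) - d4N p.2 / (2 * (1 - t)) : ℝ) : ℂ) * bsJ n M t p m) *
        ρ m m') * star (bsJ n M t q m') + (∑ m, bsJ n M t p m * ρ m m') *
        (((d4N q.1 / (2 * t) - d4N q.2 / (2 * (1 - t)) : ℝ) : ℂ) * star (bsJ n M t q m')))) t := by
    refine HasDerivAt.fun_sum fun m' _ => ?_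
    exact (HasDerivAt.fun_sum fun m _ => (d4_bsJ ht p m).mul_const (ρ m m')).mul (hs m')
  have e1 : (fun x : ℝ => d4T n M x ρ p q) = fun x : ℝ =>
      ∑ m', (∑ m, bsJ n M x p m * ρ m m') * star (bsJ n M x q m') := funext e
  rw [e1, e t]
  refine h.congr_deriv ?_
  rw [Finset.mul_sum]
  refine Finset.sum_congr rfl fun m' _ => ?_
  have e2 : ∑ m, (((d4N p.1 / (2 * t) - d4N p.2 / (2 * (1 - t)) : ℝ) : ℂ) * bsJ n M t p m) *
      ρ m m' = ((d4N p.1 / (2 * t) - d4N p.2 / (2 * (1 - t)) : ℝ) : ℂ) *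
        ∑ m, bsJ n M t p m * ρ m m' := by
    rw [Finset.mul_sum]
    exact Finset.sum_congr rfl fun m _ => by ring
  rw [e2]
  push_cast
  ring

theorem d4_loss {t : ℝ} (ht : t ∈ Ioo (0 : ℝ) 1) (ρ : Matrix (Cf n M) (Cf n M) ℂ)
    (k k' : Cf n M) :
    HasDerivAt (fun x : ℝ => loss n M x ρ k k')
      (((d4N k + d4N k') / (2 * t) : ℝ) * loss n M t ρ k k' -
        ((1 / (1 - t) : ℝ) : ℂ) * ∑ l, (d4N l : ℂ) * d4T n M t ρ (k, l) (k', l)) t := by
  have h : HasDerivAt (fun x : ℝ => ∑ l, d4T n M x ρ (k, l) (k', l))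
      (∑ l, ((((d4N k / (2 * t) - d4N l / (2 * (1 - t))) +
        (d4N k' / (2 * t) - d4N l / (2 * (1 - t))) : ℝ) : ℂ) * d4T n M t ρ (k, l) (k', l))) t :=
    HasDerivAt.fun_sum fun l _ => d4_T ht ρ (k, l) (k', l)
  have e : (fun x : ℝ => loss n M x ρ k k') = fun x : ℝ => ∑ l, d4T n M x ρ (k, l) (k', l) := rfl
  rw [e]
  refine h.congr_deriv ?_
  have e2 : loss n M t ρ k k' = ∑ l, d4T n M t ρ (k, l) (k', l) := rfl
  rw [e2, Finset.mul_sum, Finset.mul_sum, ← Finset.sum_sub_distrib]
  refine Finset.sum_congr rfl fun l _ => ?_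
  have h1 : (1 - t) ≠ 0 := by linarith only [ht.2]
  have h2 : ((d4N k / (2 * t) - d4N l / (2 * (1 - t))) +
        (d4N k' / (2 * t) - d4N l / (2 * (1 - t))) : ℝ) =
      (d4N k + d4N k') / (2 * t) - 1 / (1 - t) * d4N l := by
    field_simp
    ring
  rw [h2]
  push_cast
  ring

theorem d4_num (j : Fin n) (k l : Cf n M) :
    ((ann n M j)ᴴ * ann n M j) k l = if k = l then ((k j : ℕ) : ℂ) else 0 := by
  rw [Matrix.mul_apply]
  simp only [conjTranspose_apply]
  by_cases hkl : k = l
  · subst hkl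
    rw [if_pos rfl]
    by_cases h0 : (k j : ℕ) = 0
    · rw [h0, Nat.cast_zero]
      refine Finset.sum_eq_zero fun m _ => ?_
      have : ¬ ∀ i, (k i : ℕ) = (m i : ℕ) + (if i = j then 1 else 0) := by
        intro h
        have := h j
        rw [if_pos rfl] at this
        omega
      rw [ann, if_neg this, mul_zero]
    · have hm : ∀ i, (k i : ℕ) - (if i = j then 1 else 0) < M + 1 := fun i =>
        lt_of_le_of_lt (Nat.sub_le _ _) (k i).2
      set m₀ : Cf n M := fun i => ⟨(k i : ℕ) - (if i = j then 1 else 0), hm i⟩ with hm₀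
      have hk : ∀ i, (k i : ℕ) = (m₀ i : ℕ) + (if i = j then 1 else 0) := by
        intro i
        rw [hm₀]
        by_cases hij : i = j
        · subst hij; simp only [↓reduceIte]; omega
        · simp [hij]
      rw [Finset.sum_eq_single m₀]
      · rw [ann, if_pos hk, Complex.star_def, Complex.conj_ofReal, ← Complex.ofReal_mul,
          Real.mul_self_sqrt (Nat.cast_nonneg _)]
        simp
      · intro m _ hm'
        have : ¬ ∀ i, (k i : ℕ) = (m i : ℕ) + (if i = j then 1 else 0) := by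
          intro h
          apply hm'
          funext i
          apply Fin.ext
          have h1 := h i
          have h2 := hk i
          omega
        rw [ann, if_neg this, mul_zero]
      · intro h; exact absurd (Finset.mem_univ _) h
  · rw [if_neg hkl]
    refine Finset.sum_eq_zero fun m _ => ?_
    by_cases h1 : ∀ i, (k i : ℕ) = (m i : ℕ) + (if i = j then 1 else 0)
    · have : ¬ ∀ i, (l i : ℕ) = (m i : ℕ) + (if i = j then 1 else 0) := by
        intro h
        apply hkl
        funext i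
        apply Fin.ext
        rw [h1 i, h i]
      have e : ann n M j m l = 0 := by rw [ann, if_neg this]
      rw [e, mul_zero]
    · have e : ann n M j m k = 0 := by rw [ann, if_neg h1]
      rw [e, star_zero, zero_mul]

theorem d4_num_mul (j : Fin n) (L : Matrix (Cf n M) (Cf n M) ℂ) (k k' : Cf n M) :
    ((ann n M j)ᴴ * ann n M j * L) k k' = ((k j : ℕ) : ℂ) * L k k' := by
  rw [Matrix.mul_apply, Finset.sum_eq_single k]
  · rw [d4_num, if_pos rfl]
  · intro m _ hm
    rw [d4_num, if_neg (Ne.symm hm), zero_mul]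
  · intro h; exact absurd (Finset.mem_univ _) h

theorem d4_mul_num (j : Fin n) (L : Matrix (Cf n M) (Cf n M) ℂ) (k k' : Cf n M) :
    (L * ((ann n M j)ᴴ * ann n M j)) k k' = ((k' j : ℕ) : ℂ) * L k k' := by
  rw [Matrix.mul_apply, Finset.sum_eq_single k']
  · rw [d4_num, if_pos rfl, mul_comm]
  · intro m _ hm
    rw [d4_num, if_neg hm, mul_zero]
  · intro h; exact absurd (Finset.mem_univ _) h

/-- partial trace of `(1 ⊗ a) T (1 ⊗ a)†` -/
theorem d4_ptr_snd (j : Fin n) (T : Matrix (Cf n M × Cf n M) (Cf n M × Cf n M) ℂ)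
    (k k' : Cf n M) :
    ptr₁ (((1 : Matrix (Cf n M) (Cf n M) ℂ) ⊗ₖ ann n M j) * T *
      ((1 : Matrix (Cf n M) (Cf n M) ℂ) ⊗ₖ ann n M j)ᴴ) k k' =
    ∑ l, ((l j : ℕ) : ℂ) * T (k, l) (k', l) := by
  have e1 : ∀ l, (((1 : Matrix (Cf n M) (Cf n M) ℂ) ⊗ₖ ann n M j) * T *
      ((1 : Matrix (Cf n M) (Cf n M) ℂ) ⊗ₖ ann n M j)ᴴ) (k, l) (k', l) =
      ∑ q, ∑ p, ann n M j l p * T (k, p) (k', q) * star (ann n M j l q) := by
    intro l
    rw [Matrix.mul_apply, Fintype.sum_prod_type, Finset.sum_eq_single k']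
    · refine Finset.sum_congr rfl fun q _ => ?_
      rw [Matrix.mul_apply, Fintype.sum_prod_type, Finset.sum_eq_single k, Finset.sum_mul]
      · refine Finset.sum_congr rfl fun p _ => ?_
        simp [conjTranspose_apply, kroneckerMap_apply]
      · intro m _ hm
        refine Finset.sum_eq_zero fun p _ => ?_
        simp [kroneckerMap_apply, Matrix.one_apply_ne (Ne.symm hm)]
      · intro h; exact absurd (Finset.mem_univ _) h
    · intro m _ hm
      refine Finset.sum_eq_zero fun q _ => ?_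
      simp [conjTranspose_apply, kroneckerMap_apply, Matrix.one_apply_ne (Ne.symm hm)]
    · intro h; exact absurd (Finset.mem_univ _) h
  unfold ptr₁
  simp only [e1]
  rw [Finset.sum_comm]
  have e2 : ∀ q, ∑ l, ∑ p, ann n M j l p * T (k, p) (k', q) * star (ann n M j l q) =
      ((q j : ℕ) : ℂ) * T (k, q) (k', q) := by
    intro q
    rw [Finset.sum_comm]
    have e3 : ∀ p, ∑ l, ann n M j l p * T (k, p) (k', q) * star (ann n M j l q) =
        ((ann n M j)ᴴ * ann n M j) q p * T (k, p) (k', q) := by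
      intro p
      rw [Matrix.mul_apply, Finset.sum_mul]
      refine Finset.sum_congr rfl fun l _ => ?_
      rw [conjTranspose_apply]
      ring
    simp only [e3]
    rw [Finset.sum_eq_single q]
    · rw [d4_num, if_pos rfl]
    · intro m _ hm
      rw [d4_num, if_neg (Ne.symm hm), zero_mul]
    · intro h; exact absurd (Finset.mem_univ _) h
  exact Finset.sum_congr rfl fun q _ => e2 q

/-- partial trace of `(a ⊗ 1) T (a ⊗ 1)†` -/
theorem d4_ptr_fst (A : Matrix (Cf n M) (Cf n M) ℂ)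
    (T : Matrix (Cf n M × Cf n M) (Cf n M × Cf n M) ℂ) :
    ptr₁ ((A ⊗ₖ (1 : Matrix (Cf n M) (Cf n M) ℂ)) * T *
      (A ⊗ₖ (1 : Matrix (Cf n M) (Cf n M) ℂ))ᴴ) = A * ptr₁ T * Aᴴ := by
  ext k k'
  have e1 : ∀ l, ((A ⊗ₖ (1 : Matrix (Cf n M) (Cf n M) ℂ)) * T *
      (A ⊗ₖ (1 : Matrix (Cf n M) (Cf n M) ℂ))ᴴ) (k, l) (k', l) =
      ∑ q, ∑ p, A k p * T (p, l) (q, l) * star (A k' q) := by
    intro l
    rw [Matrix.mul_apply, Fintype.sum_prod_type]
    refine Finset.sum_congr rfl fun q _ => ?_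
    rw [Finset.sum_eq_single l]
    · rw [Matrix.mul_apply, Fintype.sum_prod_type, Finset.sum_mul]
      refine Finset.sum_congr rfl fun p _ => ?_
      rw [Finset.sum_eq_single l]
      · simp only [kroneckerMap_apply, one_apply_eq, mul_one, conjTranspose_apply, RCLike.star_def]
      · intro m _ hm
        simp [kroneckerMap_apply, Matrix.one_apply_ne (Ne.symm hm)]
      · intro h; exact absurd (Finset.mem_univ _) h
    · intro m _ hm
      simp [conjTranspose_apply, kroneckerMap_apply, Matrix.one_apply_ne (Ne.symm hm)]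
    · intro h; exact absurd (Finset.mem_univ _) h
  have e0 : ptr₁ ((A ⊗ₖ (1 : Matrix (Cf n M) (Cf n M) ℂ)) * T *
      (A ⊗ₖ (1 : Matrix (Cf n M) (Cf n M) ℂ))ᴴ) k k' =
      ∑ l, ∑ q, ∑ p, A k p * T (p, l) (q, l) * star (A k' q) :=
    Finset.sum_congr rfl fun l _ => e1 l
  rw [e0, Finset.sum_comm, Matrix.mul_apply]
  refine Finset.sum_congr rfl fun q _ => ?_
  rw [Finset.sum_comm, Matrix.mul_apply, Finset.sum_mul]
  refine Finset.sum_congr rfl fun p _ => ?_
  unfold ptr₁
  rw [conjTranspose_apply, Finset.mul_sum, Finset.sum_mul]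

theorem d4_ptr_smul (c : ℂ) (T : Matrix (Cf n M × Cf n M) (Cf n M × Cf n M) ℂ) :
    ptr₁ (c • T) = c • ptr₁ T := by
  ext k k'
  simp only [ptr₁, Matrix.smul_apply, smul_eq_mul, Finset.mul_sum]

/-- the environment energy -/
theorem d4_env {t : ℝ} (ht : t ∈ Ioo (0 : ℝ) 1) (ρ : Matrix (Cf n M) (Cf n M) ℂ) (j : Fin n)
    (k k' : Cf n M) :
    ∑ l, ((l j : ℕ) : ℂ) * d4T n M t ρ (k, l) (k', l) =
      (((1 - t) / t : ℝ) : ℂ) * (ann n M j * loss n M t ρ * (ann n M j)ᴴ) k k' := by
  have h0 : (0 : ℝ) ≤ t := ht.1.le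
  have h1 : t ≤ 1 := ht.2.le
  have eS : ((1 : Matrix (Cf n M) (Cf n M) ℂ) ⊗ₖ ann n M j) * d4T n M t ρ *
      ((1 : Matrix (Cf n M) (Cf n M) ℂ) ⊗ₖ ann n M j)ᴴ =
      ((1 - t : ℝ) : ℂ) • (bsJ n M t * (ann n M j * ρ * (ann n M j)ᴴ) * (bsJ n M t)ᴴ) := by
    have e1 : ((1 : Matrix (Cf n M) (Cf n M) ℂ) ⊗ₖ ann n M j) * d4T n M t ρ *
      ((1 : Matrix (Cf n M) (Cf n M) ℂ) ⊗ₖ ann n M j)ᴴ =
      (((1 : Matrix (Cf n M) (Cf n M) ℂ) ⊗ₖ ann n M j) * bsJ n M t) * ρ *
        (((1 : Matrix (Cf n M) (Cf n M) ℂ) ⊗ₖ ann n M j) * bsJ n M t)ᴴ := by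
      unfold d4T
      rw [conjTranspose_mul]
      simp only [Matrix.mul_assoc]
    rw [e1, ann_bsJ' h0 h1, conjTranspose_smul, conjTranspose_mul]
    simp only [smul_mul, Matrix.mul_assoc, Matrix.mul_smul, smul_smul]
    congr 1
    rw [Complex.star_def, Complex.conj_ofReal, ← Complex.ofReal_mul,
      Real.mul_self_sqrt (by linarith)]
  have eF : (ann n M j ⊗ₖ (1 : Matrix (Cf n M) (Cf n M) ℂ)) * d4T n M t ρ *
      (ann n M j ⊗ₖ (1 : Matrix (Cf n M) (Cf n M) ℂ))ᴴ =
      (t : ℂ) • (bsJ n M t * (ann n M j * ρ * (ann n M j)ᴴ) * (bsJ n M t)ᴴ) := by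
    have e1 : (ann n M j ⊗ₖ (1 : Matrix (Cf n M) (Cf n M) ℂ)) * d4T n M t ρ *
      (ann n M j ⊗ₖ (1 : Matrix (Cf n M) (Cf n M) ℂ))ᴴ =
      ((ann n M j ⊗ₖ (1 : Matrix (Cf n M) (Cf n M) ℂ)) * bsJ n M t) * ρ *
        ((ann n M j ⊗ₖ (1 : Matrix (Cf n M) (Cf n M) ℂ)) * bsJ n M t)ᴴ := by
      unfold d4T
      rw [conjTranspose_mul]
      simp only [Matrix.mul_assoc]
    rw [e1, ann_bsJ h0 h1, conjTranspose_smul, conjTranspose_mul]
    simp only [Matrix.smul_mul, Matrix.mul_smul, smul_smul, Matrix.mul_assoc]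
    congr 1
    rw [Complex.star_def, Complex.conj_ofReal, ← Complex.ofReal_mul, Real.mul_self_sqrt h0]
  have hS := d4_ptr_snd j (d4T n M t ρ) k k'
  have hF := d4_ptr_fst (ann n M j) (d4T n M t ρ)
  rw [eS, d4_ptr_smul] at hS
  rw [eF, d4_ptr_smul] at hF
  have hF' := congrFun (congrFun hF k) k'
  have e3 : loss n M t ρ = ptr₁ (d4T n M t ρ) := rfl
  rw [← hS, e3, ← hF']
  simp only [Matrix.smul_apply, smul_eq_mul]
  rw [← mul_assoc, ← Complex.ofReal_mul]
  have ht' := ht.1.ne'
  congr 2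
  field_simp

/-- D4 -/
theorem hasDerivAt_loss (ρ : Matrix (Cf n M) (Cf n M) ℂ) {t : ℝ} (ht : t ∈ Ioo (0 : ℝ) 1)
    (k k' : Cf n M) :
    HasDerivAt (fun t => loss n M t ρ k k') (-(1 / (t : ℂ)) * gen n M (loss n M t ρ) k k') t := by
  refine (d4_loss ht ρ k k').congr_deriv ?_
  have h1 : ∑ l, (d4N l : ℂ) * d4T n M t ρ (k, l) (k', l) =
      (((1 - t) / t : ℝ) : ℂ) * ∑ j, (ann n M j * loss n M t ρ * (ann n M j)ᴴ) k k' := by
    rw [Finset.mul_sum]
    simp only [← d4_env ht ρ _ k k']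
    rw [Finset.sum_comm]
    refine Finset.sum_congr rfl fun l _ => ?_
    rw [← Finset.sum_mul]
    unfold d4N
    push_cast
    rfl
  have h2 : gen n M (loss n M t ρ) k k' =
      ∑ j, (ann n M j * loss n M t ρ * (ann n M j)ᴴ) k k' -
        (1 / 2 : ℂ) * (((d4N k + d4N k' : ℝ) : ℂ) * loss n M t ρ k k') := by
    unfold gen
    rw [Matrix.sum_apply]
    simp only [Matrix.sub_apply, Matrix.smul_apply, Matrix.add_apply, smul_eq_mul]
    simp only [d4_num_mul, d4_mul_num]
    rw [Finset.sum_sub_distrib, ← Finset.mul_sum, Finset.sum_add_distrib, ← Finset.sum_mul,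
      ← Finset.sum_mul]
    unfold d4N
    push_cast
    ring
  rw [h1, h2]
  have ht0 : (t : ℂ) ≠ 0 := by exact_mod_cast ht.1.ne'
  have ht1 : ((1 - t : ℝ) : ℂ) ≠ 0 := by
    have : (1 - t : ℝ) ≠ 0 := by linarith only [ht.2]
    exact_mod_cast this
  push_cast at ht1 ⊢
  field_simp
  ring

end

end Vale.Agent.P369V
end
end

section

section

/-! P369V, D2: the inclusion in the space with one more photon. -/

namespace Vale.Agent.P369V

open Matrix MeasureTheory Set
open scoped Kronecker InnerProductSpace ComplexOrder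

set_option linter.all false

noncomputable section

variable {n M : ℕ}

/-- one-mode Kronecker delta -/
def d2d (k l : ℕ) : ℂ := if k = l then 1 else 0

theorem d2_inc (k : Cf n (M + 1)) (l : Cf n M) : inc n M k l = ∏ i, d2d (k i) (l i) := by
  unfold inc d2d
  by_cases h : ∀ i, (k i : ℕ) = (l i : ℕ)
  · rw [if_pos h]
    symm
    exact Finset.prod_eq_one fun i _ => if_pos (h i)
  · rw [if_neg h]
    push Not at h
    obtain ⟨i, hi⟩ := h
    symm
    exact Finset.prod_eq_zero (Finset.mem_univ i) (if_neg hi)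

theorem d2d_star (k l : ℕ) : star (d2d k l) = d2d k l := by
  unfold d2d
  split_ifs <;> simp

/-- sums against a delta on the small space -/
theorem d2_sum_small (k : ℕ) (f : ℕ → ℂ) :
    ∑ a : Fin (M + 1), d2d k a * f a = if k ≤ M then f k else 0 := by
  by_cases hk : k ≤ M
  · rw [if_pos hk, Finset.sum_eq_single ⟨k, by omega⟩]
    · simp [d2d]
    · intro a _ ha
      have : ¬ k = a := by
        intro h
        exact ha (Fin.ext h.symm)
      rw [d2d, if_neg this, zero_mul]
    · intro h; exact absurd (Finset.mem_univ _) h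
  · rw [if_neg hk]
    refine Finset.sum_eq_zero fun a _ => ?_
    have := a.2
    rw [d2d, if_neg (by omega), zero_mul]

/-- sums against a delta on the large space -/
theorem d2_sum_large (l : Fin (M + 1)) (f : ℕ → ℂ) :
    ∑ a : Fin (M + 1 + 1), f a * d2d a l = f l := by
  have hl := l.2
  rw [Finset.sum_eq_single ⟨(l : ℕ), by omega⟩]
  · simp [d2d]
  · intro a _ ha
    have : ¬ (a : ℕ) = l := by
      intro h
      exact ha (Fin.ext h)
    rw [d2d, if_neg this, mul_zero]
  · intro h; exact absurd (Finset.mem_univ _) h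

/-- D2 -/
theorem inc_isometry : (inc n M)ᴴ * inc n M = 1 := by
  ext l l'
  rw [Matrix.mul_apply, d1_one]
  have e : ∀ k : Cf n (M + 1), (inc n M)ᴴ l k * inc n M k l' =
      ∏ i, (d2d (k i) (l i) * d2d (k i) (l' i)) := by
    intro k
    rw [conjTranspose_apply, d2_inc, d2_inc, Finset.prod_mul_distrib, star_prod]
    simp only [d2d_star]
  simp only [e]
  rw [d1_sum (fun i (a : Fin (M + 1 + 1)) => d2d a (l i) * d2d a (l' i))]
  refine Finset.prod_congr rfl fun i _ => ?_
  rw [d2_sum_large (l' i) (fun a => d2d a (l i))]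
  unfold d2d
  by_cases h : (l i : ℕ) = l' i
  · rw [if_pos h, if_pos h.symm]
  · rw [if_neg h, if_neg (fun h' => h h'.symm)]

theorem ann_inc (j : Fin n) : ann n (M + 1) j * inc n M = inc n M * ann n M j := by
  ext k l
  have e1 : (ann n (M + 1) j * inc n M) k l =
      ∏ i, ∑ a : Fin (M + 1 + 1), d1A j i (k i) a * d2d a (l i) := by
    rw [Matrix.mul_apply, ← d1_sum]
    refine Finset.sum_congr rfl fun p _ => ?_
    rw [d2_inc, d1_ann, Finset.prod_mul_distrib]
  have e2 : (inc n M * ann n M j) k l =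
      ∏ i, ∑ a : Fin (M + 1), d2d (k i) a * d1A j i a (l i) := by
    rw [Matrix.mul_apply, ← d1_sum]
    refine Finset.sum_congr rfl fun p _ => ?_
    rw [d2_inc, d1_ann, Finset.prod_mul_distrib]
  rw [e1, e2]
  refine Finset.prod_congr rfl fun i _ => ?_
  rw [d2_sum_large (l i) (fun a => d1A j i (k i) a),
    d2_sum_small (k i) (fun a => d1A j i a (l i))]
  have h1 := (l i).2
  split_ifs with h
  · rfl
  · unfold d1A d1a
    split_ifs <;> first | omega | rfl

theorem d2_bsJ_inc (x : ℝ) (k l : Cf n (M + 1)) (m : Cf n M) :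
    (bsJ n (M + 1) x * inc n M) (k, l) m = ∏ i, d1b x (m i) (k i) (l i) := by
  rw [Matrix.mul_apply]
  have e : ∀ p : Cf n (M + 1), bsJ n (M + 1) x (k, l) p * inc n M p m =
      ∏ i, (d1b x (p i) (k i) (l i) * d2d (p i) (m i)) := by
    intro p
    rw [d2_inc, d1_bsJ, Finset.prod_mul_distrib]
  simp only [e]
  rw [d1_sum (fun i (a : Fin (M + 1 + 1)) => d1b x a (k i) (l i) * d2d a (m i))]
  exact Finset.prod_congr rfl fun i _ => d2_sum_large (m i) (fun a => d1b x a (k i) (l i))

theorem bsJ_inc {x : ℝ} (h0 : 0 ≤ x) (h1 : x ≤ 1) :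
    bsJ n (M + 1) x * inc n M = (inc n M ⊗ₖ inc n M) * bsJ n M x := by
  ext ⟨k, l⟩ m
  rw [d2_bsJ_inc, Matrix.mul_apply, Fintype.sum_prod_type]
  have e : ∀ p q : Cf n M, (inc n M ⊗ₖ inc n M) (k, l) (p, q) * bsJ n M x (p, q) m =
      ∏ i, (d2d (k i) (p i) * (d2d (l i) (q i) * d1b x (m i) (p i) (q i))) := by
    intro p q
    rw [kroneckerMap_apply, d2_inc, d2_inc, d1_bsJ, Finset.prod_mul_distrib,
      Finset.prod_mul_distrib, mul_assoc]
  simp only [e]
  rw [d1_sum₂ (fun i (a b : Fin (M + 1)) => d2d (k i) a * (d2d (l i) b * d1b x (m i) a b))]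
  refine Finset.prod_congr rfl fun i _ => ?_
  have e2 : ∀ a : Fin (M + 1), ∑ b : Fin (M + 1), d2d (k i) a *
      (d2d (l i) b * d1b x (m i) a b) =
      d2d (k i) a * (if (l i : ℕ) ≤ M then d1b x (m i) a (l i) else 0) := by
    intro a
    rw [← Finset.mul_sum, d2_sum_small (l i) (fun b => d1b x (m i) a b)]
  simp only [e2]
  rw [d2_sum_small (k i) (fun a => if (l i : ℕ) ≤ M then d1b x (m i) a (l i) else 0)]
  have h3 := (m i).2
  split_ifs
  · rfl
  · rw [d1b, if_neg (by omega)]
  · rw [d1b, if_neg (by omega)]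

/-- the operator `a a†` -/
theorem d2_aad (j : Fin n) (k l : Cf n M) :
    (ann n M j * (ann n M j)ᴴ) k l =
      if k = l then (if (k j : ℕ) < M then (((k j : ℕ) + 1 : ℕ) : ℂ) else 0) else 0 := by
  rw [Matrix.mul_apply]
  simp only [conjTranspose_apply]
  by_cases hkl : k = l
  · subst hkl
    rw [if_pos rfl]
    by_cases h0 : (k j : ℕ) < M
    · rw [if_pos h0]
      have hm : ∀ i, (k i : ℕ) + (if i = j then 1 else 0) < M + 1 := fun i => by
        by_cases hij : i = j
        · subst hij; rw [if_pos rfl]; omega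
        · rw [if_neg hij]; exact (k i).2
      set m₀ : Cf n M := fun i => ⟨(k i : ℕ) + (if i = j then 1 else 0), hm i⟩ with hm₀
      have hk : ∀ i, (m₀ i : ℕ) = (k i : ℕ) + (if i = j then 1 else 0) := fun i => rfl
      rw [Finset.sum_eq_single m₀]
      · rw [ann, if_pos hk, Complex.star_def, Complex.conj_ofReal, ← Complex.ofReal_mul,
          Real.mul_self_sqrt (Nat.cast_nonneg _), hk j, if_pos rfl]
        simp only [Nat.cast_add, Nat.cast_one, Complex.ofReal_add, Complex.ofReal_natCast, Complex.ofReal_one]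
      · intro m _ hm'
        have : ¬ ∀ i, (m i : ℕ) = (k i : ℕ) + (if i = j then 1 else 0) := by
          intro h
          apply hm'
          funext i
          apply Fin.ext
          rw [h i, hk i]
        rw [ann, if_neg this, zero_mul]
      · intro h; exact absurd (Finset.mem_univ _) h
    · rw [if_neg h0]
      refine Finset.sum_eq_zero fun m _ => ?_
      have : ¬ ∀ i, (m i : ℕ) = (k i : ℕ) + (if i = j then 1 else 0) := by
        intro h
        have h1 := h j
        have h2 := (m j).2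
        rw [if_pos rfl] at h1
        omega
      rw [ann, if_neg this, zero_mul]
  · rw [if_neg hkl]
    refine Finset.sum_eq_zero fun m _ => ?_
    by_cases h1 : ∀ i, (m i : ℕ) = (k i : ℕ) + (if i = j then 1 else 0)
    · have : ¬ ∀ i, (m i : ℕ) = (l i : ℕ) + (if i = j then 1 else 0) := by
        intro h
        apply hkl
        funext i
        apply Fin.ext
        have h2 := h1 i
        have h3 := h i
        omega
      have e : ann n M j l m = 0 := by rw [ann, if_neg this]
      rw [e, star_zero, mul_zero]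
    · have e : ann n M j k m = 0 := by rw [ann, if_neg h1]
      rw [e, zero_mul]

/-- the operator `a† a` -/
theorem d2_ada (j : Fin n) (k l : Cf n M) :
    ((ann n M j)ᴴ * ann n M j) k l = if k = l then ((k j : ℕ) : ℂ) else 0 := by
  rw [Matrix.mul_apply]
  simp only [conjTranspose_apply]
  by_cases hkl : k = l
  · subst hkl
    rw [if_pos rfl]
    by_cases h0 : (k j : ℕ) = 0
    · rw [h0, Nat.cast_zero]
      refine Finset.sum_eq_zero fun m _ => ?_
      have : ¬ ∀ i, (k i : ℕ) = (m i : ℕ) + (if i = j then 1 else 0) := by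
        intro h
        have := h j
        rw [if_pos rfl] at this
        omega
      rw [ann, if_neg this, mul_zero]
    · have hm : ∀ i, (k i : ℕ) - (if i = j then 1 else 0) < M + 1 := fun i =>
        lt_of_le_of_lt (Nat.sub_le _ _) (k i).2
      set m₀ : Cf n M := fun i => ⟨(k i : ℕ) - (if i = j then 1 else 0), hm i⟩ with hm₀
      have hk : ∀ i, (k i : ℕ) = (m₀ i : ℕ) + (if i = j then 1 else 0) := by
        intro i
        rw [hm₀]
        by_cases hij : i = j
        · subst hij; simp only [↓reduceIte]; omega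
        · simp [hij]
      rw [Finset.sum_eq_single m₀]
      · rw [ann, if_pos hk, Complex.star_def, Complex.conj_ofReal, ← Complex.ofReal_mul,
          Real.mul_self_sqrt (Nat.cast_nonneg _)]
        simp
      · intro m _ hm'
        have : ¬ ∀ i, (k i : ℕ) = (m i : ℕ) + (if i = j then 1 else 0) := by
          intro h
          apply hm'
          funext i
          apply Fin.ext
          have h1 := h i
          have h2 := hk i
          omega
        rw [ann, if_neg this, mul_zero]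
      · intro h; exact absurd (Finset.mem_univ _) h
  · rw [if_neg hkl]
    refine Finset.sum_eq_zero fun m _ => ?_
    by_cases h1 : ∀ i, (k i : ℕ) = (m i : ℕ) + (if i = j then 1 else 0)
    · have : ¬ ∀ i, (l i : ℕ) = (m i : ℕ) + (if i = j then 1 else 0) := by
        intro h
        apply hkl
        funext i
        apply Fin.ext
        rw [h1 i, h i]
      have e : ann n M j m l = 0 := by rw [ann, if_neg this]
      rw [e, mul_zero]
    · have e : ann n M j m k = 0 := by rw [ann, if_neg h1]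
      rw [e, star_zero, zero_mul]

theorem ccr_inc (j : Fin n) :
    (ann n (M + 1) j * (ann n (M + 1) j)ᴴ) * inc n M =
      ((ann n (M + 1) j)ᴴ * ann n (M + 1) j) * inc n M + inc n M := by
  ext k l
  rw [Matrix.add_apply, Matrix.mul_apply, Matrix.mul_apply,
    Finset.sum_eq_single k, Finset.sum_eq_single k]
  · rw [d2_aad, d2_ada, if_pos rfl, if_pos rfl]
    by_cases h : ∀ i, (k i : ℕ) = (l i : ℕ)
    · have h1 := h j
      have h2 := (l j).2
      rw [if_pos (by omega), inc, if_pos h]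
      push_cast
      ring
    · rw [inc, if_neg h]
      simp only [Order.lt_add_one_iff, Nat.cast_add, Nat.cast_one, mul_zero, add_zero]
  · intro m _ hm
    rw [d2_ada, if_neg (Ne.symm hm), zero_mul]
  · intro h; exact absurd (Finset.mem_univ _) h
  · intro m _ hm
    rw [d2_aad, if_neg (Ne.symm hm), zero_mul]
  · intro h; exact absurd (Finset.mem_univ _) h

theorem d2_sum_adag (k : Fin (M + 1)) (f : ℕ → ℂ) :
    ∑ a : Fin (M + 1), star (d1a a k) * f a =
      if (k : ℕ) = 0 then 0 else ((Real.sqrt ((k : ℕ) : ℝ) : ℝ) : ℂ) * f ((k : ℕ) - 1) := by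
  have hm := k.2
  by_cases h : (k : ℕ) = 0
  · rw [if_pos h]
    refine Finset.sum_eq_zero fun a _ => ?_
    rw [d1a, if_neg (by omega), star_zero, zero_mul]
  · rw [if_neg h, Finset.sum_eq_single ⟨(k : ℕ) - 1, by omega⟩]
    · rw [d1a, if_pos (by simp only; omega), Complex.star_def, Complex.conj_ofReal]
    · intro a _ ha
      have : ¬ (k : ℕ) = a + 1 := by
        intro h'
        apply ha
        apply Fin.ext
        simp only
        omega
      rw [d1a, if_neg this, star_zero, zero_mul]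
    · intro h; exact absurd (Finset.mem_univ _) h

theorem d2_sum_adag_other {j i : Fin n} (hij : i ≠ j) (k : Fin (M + 1)) (f : ℕ → ℂ) :
    ∑ a : Fin (M + 1), star (d1A j i a k) * f a = f k := by
  rw [Finset.sum_eq_single k]
  · rw [d1A, if_neg hij, if_pos rfl, star_one, one_mul]
  · intro a _ ha
    rw [d1A, if_neg hij, if_neg (fun h => ha (Fin.ext h)), star_zero, zero_mul]
  · intro h; exact absurd (Finset.mem_univ _) h

/-- the one-mode identity for the creation operators -/
theorem d2_mode {x : ℝ} (h0 : 0 ≤ x) (h1 : x ≤ 1) (k l m : ℕ) :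
    (Real.sqrt x : ℂ) * (if k = 0 then 0 else ((Real.sqrt (k : ℝ) : ℝ) : ℂ) * d1b x m (k - 1) l) +
      (Real.sqrt (1 - x) : ℂ) *
        (if l = 0 then 0 else ((Real.sqrt (l : ℝ) : ℝ) : ℂ) * d1b x m k (l - 1)) =
      ((Real.sqrt ((m + 1 : ℕ) : ℝ) : ℝ) : ℂ) * d1b x (m + 1) k l := by
  by_cases h : m + 1 = k + l
  · have hL : (Real.sqrt x : ℂ) *
        (if k = 0 then 0 else ((Real.sqrt (k : ℝ) : ℝ) : ℂ) * d1b x m (k - 1) l) =
        (((k : ℝ) * (Real.sqrt (((m + 1).choose k : ℕ) : ℝ) / Real.sqrt ((m + 1 : ℕ) : ℝ)) *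
          (Real.sqrt x ^ k * Real.sqrt (1 - x) ^ l) : ℝ) : ℂ) := by
      by_cases hk : k = 0
      · rw [if_pos hk, hk]
        simp only [mul_zero, CharP.cast_eq_zero, Nat.choose_zero_right, Nat.cast_one, Real.sqrt_one, Nat.cast_add, one_div, zero_mul, pow_zero, one_mul, Complex.ofReal_zero]
      · rw [if_neg hk, d1b, if_pos (by omega), ← Complex.ofReal_mul, ← Complex.ofReal_mul]
        congr 1
        obtain ⟨k', rfl⟩ : ∃ k', k = k' + 1 := ⟨k - 1, by omega⟩
        have e : Real.sqrt ((k' + 1 : ℕ) : ℝ) * Real.sqrt ((m.choose k' : ℕ) : ℝ) =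
            ((k' + 1 : ℕ) : ℝ) * (Real.sqrt (((m + 1).choose (k' + 1) : ℕ) : ℝ) /
              Real.sqrt ((m + 1 : ℕ) : ℝ)) := by
          have e1 : ((k' + 1 : ℕ) : ℝ) = Real.sqrt (((k' + 1 : ℕ) : ℝ) * ((k' + 1 : ℕ) : ℝ)) := by
            rw [Real.sqrt_mul_self (Nat.cast_nonneg _)]
          have e2 : ((k' + 1 : ℕ) : ℝ) * (Real.sqrt (((m + 1).choose (k' + 1) : ℕ) : ℝ) /
              Real.sqrt ((m + 1 : ℕ) : ℝ)) =
              Real.sqrt (((k' + 1 : ℕ) : ℝ) * ((k' + 1 : ℕ) : ℝ)) *
                (Real.sqrt (((m + 1).choose (k' + 1) : ℕ) : ℝ) /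
              Real.sqrt ((m + 1 : ℕ) : ℝ)) := by
            rw [← e1]
          rw [e2, ← Real.sqrt_mul (Nat.cast_nonneg _),
            ← Real.sqrt_div (Nat.cast_nonneg _), ← Real.sqrt_mul (by (clear * -; positivity))]
          congr 1
          have h3 := Nat.add_one_mul_choose_eq m k'
          have h3' : ((m : ℝ) + 1) * ((m.choose k' : ℕ) : ℝ) =
              (((m + 1).choose (k' + 1) : ℕ) : ℝ) * ((k' : ℝ) + 1) := by exact_mod_cast h3
          have hm0 : ((m : ℝ) + 1) ≠ 0 := by (clear * -; positivity)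
          push_cast
          field_simp
          linarith only [h3']
        simp only [Nat.add_sub_cancel]
        have e3 : Real.sqrt x * (Real.sqrt ((k' + 1 : ℕ) : ℝ) *
            (Real.sqrt ((m.choose k' : ℕ) : ℝ) * Real.sqrt x ^ k' * Real.sqrt (1 - x) ^ l)) =
            (Real.sqrt ((k' + 1 : ℕ) : ℝ) * Real.sqrt ((m.choose k' : ℕ) : ℝ)) *
              (Real.sqrt x ^ k' * Real.sqrt x * Real.sqrt (1 - x) ^ l) := by ring
        rw [e3, e, pow_succ]
    have hR : (Real.sqrt (1 - x) : ℂ) *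
        (if l = 0 then 0 else ((Real.sqrt (l : ℝ) : ℝ) : ℂ) * d1b x m k (l - 1)) =
        (((l : ℝ) * (Real.sqrt (((m + 1).choose k : ℕ) : ℝ) / Real.sqrt ((m + 1 : ℕ) : ℝ)) *
          (Real.sqrt x ^ k * Real.sqrt (1 - x) ^ l) : ℝ) : ℂ) := by
      by_cases hl : l = 0
      · rw [if_pos hl, hl]
        simp only [mul_zero, CharP.cast_eq_zero, Nat.cast_add, Nat.cast_one, zero_mul, pow_zero, mul_one, Complex.ofReal_zero]
      · rw [if_neg hl, d1b, if_pos (by omega), ← Complex.ofReal_mul, ← Complex.ofReal_mul]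
        congr 1
        obtain ⟨l', rfl⟩ : ∃ l', l = l' + 1 := ⟨l - 1, by (clear * - hl; omega)⟩
        have e : Real.sqrt ((l' + 1 : ℕ) : ℝ) * Real.sqrt ((m.choose k : ℕ) : ℝ) =
            ((l' + 1 : ℕ) : ℝ) * (Real.sqrt (((m + 1).choose k : ℕ) : ℝ) /
              Real.sqrt ((m + 1 : ℕ) : ℝ)) := by
          have e1 : ((l' + 1 : ℕ) : ℝ) = Real.sqrt (((l' + 1 : ℕ) : ℝ) * ((l' + 1 : ℕ) : ℝ)) := by
            rw [Real.sqrt_mul_self (Nat.cast_nonneg _)]
          have e2 : ((l' + 1 : ℕ) : ℝ) * (Real.sqrt (((m + 1).choose k : ℕ) : ℝ) /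
              Real.sqrt ((m + 1 : ℕ) : ℝ)) =
              Real.sqrt (((l' + 1 : ℕ) : ℝ) * ((l' + 1 : ℕ) : ℝ)) *
                (Real.sqrt (((m + 1).choose k : ℕ) : ℝ) /
              Real.sqrt ((m + 1 : ℕ) : ℝ)) := by
            rw [← e1]
          rw [e2, ← Real.sqrt_mul (Nat.cast_nonneg _),
            ← Real.sqrt_div (Nat.cast_nonneg _), ← Real.sqrt_mul (by (clear * -; positivity))]
          congr 1
          have h3 := Nat.choose_mul_succ_eq m k
          have h5 : m + 1 - k = l' + 1 := by (clear * - h; omega)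
          rw [h5] at h3
          have h3' : ((m.choose k : ℕ) : ℝ) * ((m : ℝ) + 1) =
              (((m + 1).choose k : ℕ) : ℝ) * ((l' : ℝ) + 1) := by exact_mod_cast h3
          have hm0 : ((m : ℝ) + 1) ≠ 0 := by (clear * -; positivity)
          push_cast
          field_simp
          linarith only [h3']
        simp only [Nat.add_sub_cancel]
        have e3 : Real.sqrt (1 - x) * (Real.sqrt ((l' + 1 : ℕ) : ℝ) *
            (Real.sqrt ((m.choose k : ℕ) : ℝ) * Real.sqrt x ^ k * Real.sqrt (1 - x) ^ l')) =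
            (Real.sqrt ((l' + 1 : ℕ) : ℝ) * Real.sqrt ((m.choose k : ℕ) : ℝ)) *
              (Real.sqrt x ^ k * (Real.sqrt (1 - x) ^ l' * Real.sqrt (1 - x))) := by ring
        rw [e3, e, pow_succ (Real.sqrt (1 - x))]
    rw [hL, hR, d1b, if_pos h, ← Complex.ofReal_add, ← Complex.ofReal_mul]
    congr 1
    have hs : Real.sqrt ((m + 1 : ℕ) : ℝ) ≠ 0 := (Real.sqrt_pos.2 (by (clear * -; positivity))).ne'
    have hs2 : Real.sqrt ((m + 1 : ℕ) : ℝ) * Real.sqrt ((m + 1 : ℕ) : ℝ) = (k : ℝ) + l := by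
      rw [Real.mul_self_sqrt (Nat.cast_nonneg _), h]
      push_cast
      ring
    rw [← add_mul, ← add_mul, ← hs2]
    field_simp
  · have e1 : (if k = 0 then (0 : ℂ) else ((Real.sqrt (k : ℝ) : ℝ) : ℂ) * d1b x m (k - 1) l) = 0 := by
      split_ifs with hk
      · rfl
      · rw [d1b, if_neg (by omega), mul_zero]
    have e2 : (if l = 0 then (0 : ℂ) else ((Real.sqrt (l : ℝ) : ℝ) : ℂ) * d1b x m k (l - 1)) = 0 := by
      split_ifs with hl
      · rfl
      · rw [d1b, if_neg (by omega), mul_zero]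
    rw [e1, e2, d1b, if_neg h]
    simp only [mul_zero, add_zero, Nat.cast_add, Nat.cast_one]

theorem d2_kron_left {γ : Type} [Fintype γ] (A : Matrix (Cf n M) (Cf n M) ℂ)
    (B : Matrix (Cf n M × Cf n M) γ ℂ) (k l : Cf n M) (m : γ) :
    ((A ⊗ₖ (1 : Matrix (Cf n M) (Cf n M) ℂ)) * B) (k, l) m = ∑ p, A k p * B (p, l) m := by
  rw [Matrix.mul_apply, Fintype.sum_prod_type]
  refine Finset.sum_congr rfl fun p _ => ?_
  rw [Finset.sum_eq_single l]
  · simp [kroneckerMap_apply]
  · intro q _ hq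
    simp [kroneckerMap_apply, Matrix.one_apply_ne (Ne.symm hq)]
  · intro h; exact absurd (Finset.mem_univ _) h

theorem d2_kron_right {γ : Type} [Fintype γ] (A : Matrix (Cf n M) (Cf n M) ℂ)
    (B : Matrix (Cf n M × Cf n M) γ ℂ) (k l : Cf n M) (m : γ) :
    (((1 : Matrix (Cf n M) (Cf n M) ℂ) ⊗ₖ A) * B) (k, l) m = ∑ q, A l q * B (k, q) m := by
  rw [Matrix.mul_apply, Fintype.sum_prod_type, Finset.sum_eq_single k]
  · refine Finset.sum_congr rfl fun q _ => ?_
    simp [kroneckerMap_apply]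
  · intro p _ hp
    refine Finset.sum_eq_zero fun q _ => ?_
    simp [kroneckerMap_apply, Matrix.one_apply_ne (Ne.symm hp)]
  · intro h; exact absurd (Finset.mem_univ _) h

theorem cre_bsJ {x : ℝ} (h0 : 0 ≤ x) (h1 : x ≤ 1) (j : Fin n) :
    ((Real.sqrt x : ℂ) • ((ann n (M + 1) j)ᴴ ⊗ₖ (1 : Matrix (Cf n (M + 1)) (Cf n (M + 1)) ℂ)) +
      (Real.sqrt (1 - x) : ℂ) • ((1 : Matrix (Cf n (M + 1)) (Cf n (M + 1)) ℂ) ⊗ₖ (ann n (M + 1) j)ᴴ)) *
      (bsJ n (M + 1) x * inc n M) = bsJ n (M + 1) x * ((ann n (M + 1) j)ᴴ * inc n M) := by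
  ext ⟨k, l⟩ m
  rw [Matrix.add_mul, Matrix.smul_mul, Matrix.smul_mul, Matrix.add_apply, Matrix.smul_apply,
    Matrix.smul_apply, d2_kron_left, d2_kron_right, smul_eq_mul, smul_eq_mul]
  have eL : ∑ p, (ann n (M + 1) j)ᴴ k p * (bsJ n (M + 1) x * inc n M) (p, l) m =
      ∏ i, ∑ a : Fin (M + 1 + 1), star (d1A j i a (k i)) * d1b x (m i) a (l i) := by
    rw [← d1_sum]
    refine Finset.sum_congr rfl fun p _ => ?_
    rw [d2_bsJ_inc, conjTranspose_apply, d1_ann, star_prod, Finset.prod_mul_distrib]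
  have eR : ∑ q, (ann n (M + 1) j)ᴴ l q * (bsJ n (M + 1) x * inc n M) (k, q) m =
      ∏ i, ∑ a : Fin (M + 1 + 1), star (d1A j i a (l i)) * d1b x (m i) (k i) a := by
    rw [← d1_sum]
    refine Finset.sum_congr rfl fun p _ => ?_
    rw [d2_bsJ_inc, conjTranspose_apply, d1_ann, star_prod, Finset.prod_mul_distrib]
  have eC : (bsJ n (M + 1) x * ((ann n (M + 1) j)ᴴ * inc n M)) (k, l) m =
      ∏ i, ∑ a : Fin (M + 1 + 1), d1b x a (k i) (l i) *
        ∑ b : Fin (M + 1 + 1), star (d1A j i b a) * d2d b (m i) := by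
    rw [Matrix.mul_apply, ← d1_sum]
    refine Finset.sum_congr rfl fun p _ => ?_
    have e3 : ((ann n (M + 1) j)ᴴ * inc n M) p m =
        ∏ i, ∑ b : Fin (M + 1 + 1), star (d1A j i b (p i)) * d2d b (m i) := by
      rw [Matrix.mul_apply, ← d1_sum]
      refine Finset.sum_congr rfl fun q _ => ?_
      rw [d2_inc, conjTranspose_apply, d1_ann, star_prod, Finset.prod_mul_distrib]
    rw [e3, d1_bsJ, Finset.prod_mul_distrib]
  rw [eL, eR, eC]
  rw [← Finset.mul_prod_erase Finset.univ _ (Finset.mem_univ j),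
    ← Finset.mul_prod_erase Finset.univ
      (fun i => ∑ a : Fin (M + 1 + 1), star (d1A j i a (l i)) * d1b x (m i) (k i) a)
      (Finset.mem_univ j),
    ← Finset.mul_prod_erase Finset.univ
      (fun i => ∑ a : Fin (M + 1 + 1), d1b x a (k i) (l i) *
        ∑ b : Fin (M + 1 + 1), star (d1A j i b a) * d2d b (m i))
      (Finset.mem_univ j)]
  have o1 : ∏ i ∈ Finset.univ.erase j, ∑ a : Fin (M + 1 + 1),
      star (d1A j i a (k i)) * d1b x (m i) a (l i) =
      ∏ i ∈ Finset.univ.erase j, d1b x (m i) (k i) (l i) := by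
    refine Finset.prod_congr rfl fun i hi => ?_
    exact d2_sum_adag_other (Finset.ne_of_mem_erase hi) (k i) (fun a => d1b x (m i) a (l i))
  have o2 : ∏ i ∈ Finset.univ.erase j, ∑ a : Fin (M + 1 + 1),
      star (d1A j i a (l i)) * d1b x (m i) (k i) a =
      ∏ i ∈ Finset.univ.erase j, d1b x (m i) (k i) (l i) := by
    refine Finset.prod_congr rfl fun i hi => ?_
    exact d2_sum_adag_other (Finset.ne_of_mem_erase hi) (l i) (fun a => d1b x (m i) (k i) a)
  have o3 : ∏ i ∈ Finset.univ.erase j, ∑ a : Fin (M + 1 + 1), d1b x a (k i) (l i) *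
        ∑ b : Fin (M + 1 + 1), star (d1A j i b a) * d2d b (m i) =
      ∏ i ∈ Finset.univ.erase j, d1b x (m i) (k i) (l i) := by
    refine Finset.prod_congr rfl fun i hi => ?_
    have hij := Finset.ne_of_mem_erase hi
    have e4 : ∀ a : Fin (M + 1 + 1), d1b x a (k i) (l i) *
        ∑ b : Fin (M + 1 + 1), star (d1A j i b a) * d2d b (m i) =
        d1b x a (k i) (l i) * d2d a (m i) := by
      intro a
      rw [d2_sum_adag_other hij a (fun b => d2d b (m i))]
    simp only [e4]
    exact d2_sum_large (m i) (fun a => d1b x a (k i) (l i))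
  rw [o1, o2, o3, ← mul_assoc, ← mul_assoc, ← add_mul]
  congr 1
  have s1 : ∑ a : Fin (M + 1 + 1), star (d1A j j a (k j)) * d1b x (m j) a (l j) =
      if (k j : ℕ) = 0 then 0 else
        ((Real.sqrt ((k j : ℕ) : ℝ) : ℝ) : ℂ) * d1b x (m j) ((k j : ℕ) - 1) (l j) := by
    simp only [d1A, if_pos]
    exact d2_sum_adag (k j) (fun a => d1b x (m j) a (l j))
  have s2 : ∑ a : Fin (M + 1 + 1), star (d1A j j a (l j)) * d1b x (m j) (k j) a =
      if (l j : ℕ) = 0 then 0 else
        ((Real.sqrt ((l j : ℕ) : ℝ) : ℝ) : ℂ) * d1b x (m j) (k j) ((l j : ℕ) - 1) := by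
    simp only [d1A, if_pos]
    exact d2_sum_adag (l j) (fun a => d1b x (m j) (k j) a)
  have s3 : ∑ a : Fin (M + 1 + 1), d1b x a (k j) (l j) *
        ∑ b : Fin (M + 1 + 1), star (d1A j j b a) * d2d b (m j) =
      ((Real.sqrt (((m j : ℕ) + 1 : ℕ) : ℝ) : ℝ) : ℂ) * d1b x ((m j : ℕ) + 1) (k j) (l j) := by
    have e5 : ∀ a : Fin (M + 1 + 1), ∑ b : Fin (M + 1 + 1), star (d1A j j b a) * d2d b (m j) =
        star (d1a (m j) a) := by
      intro a
      simp only [d1A, if_pos]
      exact d2_sum_large (m j) (fun b => star (d1a b a))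
    simp only [e5]
    have hm := (m j).2
    rw [Finset.sum_eq_single ⟨(m j : ℕ) + 1, by omega⟩]
    · rw [d1a, if_pos rfl, Complex.star_def, Complex.conj_ofReal, mul_comm]
    · intro a _ ha
      have : ¬ (a : ℕ) = (m j : ℕ) + 1 := by
        intro h
        exact ha (Fin.ext h)
      rw [d1a, if_neg this, star_zero, mul_zero]
    · intro h; exact absurd (Finset.mem_univ _) h
  rw [s1, s2, s3]
  exact d2_mode h0 h1 (k j) (l j) (m j)

end

end Vale.Agent.P369V
end
end

section

section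

section

/-!
The entropy of an operator which is diagonal in the number basis.
-/

namespace Vale.Agent.P369

open scoped InnerProductSpace

section generic

variable {H : Type} [NormedAddCommGroup H] [InnerProductSpace ℂ H]

theorem mem_spectrum_of_eigen {T : H →L[ℂ] H} {v : H} (hv : v ≠ 0) {x : ℝ}
    (h : T v = (x : ℂ) • v) : x ∈ spectrum ℝ T := by
  intro hu
  have hu' : IsUnit (algebraMap ℝ (H →L[ℂ] H) x - T) := hu
  obtain ⟨u, hu⟩ := hu'
  have h1 : (u : H →L[ℂ] H) v = 0 := by
    rw [hu]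
    have : (algebraMap ℝ (H →L[ℂ] H) x - T) v = (algebraMap ℝ (H →L[ℂ] H) x) v - T v := rfl
    rw [this, h, Algebra.algebraMap_eq_smul_one]
    simp only [smul_apply, one_apply_eq_self, Complex.coe_smul, sub_self]
  have h2 : ((↑u⁻¹ : H →L[ℂ] H) * (u : H →L[ℂ] H)) v = 0 := by
    have : ((↑u⁻¹ : H →L[ℂ] H) * (u : H →L[ℂ] H)) v = (↑u⁻¹ : H →L[ℂ] H) ((u : H →L[ℂ] H) v) :=
      rfl
    rw [this, h1, map_zero]
  rw [Units.inv_mul] at h2
  exact hv h2

variable [CompleteSpace H]

theorem cfc_eigen {T : H →L[ℂ] H} (hT : IsSelfAdjoint T) {v : H} {x : ℝ}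
    (h : T v = (x : ℂ) • v) {f : ℝ → ℝ} (hf : Continuous f) :
    cfc f T v = (f x : ℂ) • v := by
  by_cases hv : v = 0
  · simp only [hv, map_zero, smul_zero]
  have hx := mem_spectrum_of_eigen hv h
  have key : ∀ g : C(spectrum ℝ T, ℝ), cfcHom hT g v = ((g ⟨x, hx⟩ : ℝ) : ℂ) • v := by
    intro g
    refine ContinuousMap.induction_on_of_compact (p := fun g : C(spectrum ℝ T, ℝ) =>
      cfcHom hT g v = ((g ⟨x, hx⟩ : ℝ) : ℂ) • v) ?_ ?_ ?_ ?_ ?_ ?_ g
    · intro r
      have e : (ContinuousMap.const (spectrum ℝ T) r) = algebraMap ℝ C(spectrum ℝ T, ℝ) r := rfl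
      rw [e, AlgHomClass.commutes, Algebra.algebraMap_eq_smul_one]
      simp
    · rw [cfcHom_id hT, h]
      rfl
    · have e : star (ContinuousMap.restrict (spectrum ℝ T) (ContinuousMap.id ℝ)) =
        ContinuousMap.restrict (spectrum ℝ T) (ContinuousMap.id ℝ) := by
        ext y; simp only [star_trivial, ContinuousMap.restrict_apply, ContinuousMap.id_apply]
      rw [e, cfcHom_id hT, h]
      rfl
    · intro f g hf hg
      rw [map_add]
      have : (cfcHom hT f + cfcHom hT g) v = cfcHom hT f v + cfcHom hT g v := rfl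
      rw [this, hf, hg, ← add_smul]
      simp
    · intro f g hf hg
      rw [map_mul]
      have : (cfcHom hT f * cfcHom hT g) v = cfcHom hT f (cfcHom hT g v) := rfl
      rw [this, hg, map_smul, hf, smul_smul]
      congr 1
      simp [mul_comm]
    · intro f hf
      refine hf.mem_of_closed (s := {g | cfcHom hT g v = ((g ⟨x, hx⟩ : ℝ) : ℂ) • v}) ?_
      apply isClosed_eq
      · exact (ContinuousLinearMap.apply ℂ H v).continuous.comp (cfcHom_continuous hT)
      · apply Continuous.smul _ continuous_const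
        exact Complex.continuous_ofReal.comp (continuous_eval_const _)
  rw [cfc_apply f T hT hf.continuousOn, key]
  rfl

theorem negMulLogOp_eigen {T : H →L[ℂ] H} (hT : IsSelfAdjoint T) {v : H} {x : ℝ}
    (h : T v = (x : ℂ) • v) : negMulLogOp T v = (Real.negMulLog x : ℂ) • v :=
  cfc_eigen hT h Real.continuous_negMulLog

end generic

theorem inner_ket_ket {n : ℕ} (k l : Conf n) : ⟪ket k, ket l⟫_ℂ = if k = l then 1 else 0 := by
  unfold ket
  rw [lp.inner_single_left]
  by_cases h : k = l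
  · subst h; simp only [lp.single_apply, Pi.single_eq_same, inner_self_eq_norm_sq_to_K, norm_one, Complex.coe_algebraMap, Complex.ofReal_one, one_pow, ↓reduceIte]
  · rw [if_neg h, lp.single_apply_ne _ _ _ h]; simp only [RCLike.inner_apply, map_one, mul_one]

theorem inner_diag {n : ℕ} {ρ : Fock n →L[ℂ] Fock n} {p : Conf n → ℝ}
    (h : ∀ k, ρ (ket k) = (p k : ℂ) • ket k) (k : Conf n) : ⟪ket k, ρ (ket k)⟫_ℂ = p k := by
  rw [h, inner_smul_right, inner_ket_ket, if_pos rfl, mul_one]

end Vale.Agent.P369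
end
end
end

section

section

section

/-!
From the sequence model of the Fock space to an arbitrary Hilbert space with number states.
-/

namespace Vale.Agent.P369

open scoped InnerProductSpace

noncomputable section

variable {H H' : Type} [NormedAddCommGroup H] [InnerProductSpace ℂ H]
  [NormedAddCommGroup H'] [InnerProductSpace ℂ H']

/-- conjugation of an operator by a unitary. -/
def cj (T : H ≃ₗᵢ[ℂ] H') (ρ : H →L[ℂ] H) : H' →L[ℂ] H' :=
  (T.toContinuousLinearEquiv : H →L[ℂ] H') ∘L ρ ∘L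
    (T.symm.toContinuousLinearEquiv : H' →L[ℂ] H)

theorem cj_apply (T : H ≃ₗᵢ[ℂ] H') (ρ : H →L[ℂ] H) (x : H') :
    cj T ρ x = T (ρ (T.symm x)) := rfl

theorem cj_inner (T : H ≃ₗᵢ[ℂ] H') (ρ : H →L[ℂ] H) (x y : H) :
    ⟪T x, cj T ρ (T y)⟫_ℂ = ⟪x, ρ y⟫_ℂ := by
  rw [cj_apply, T.symm_apply_apply, T.inner_map_map]

theorem cj_isPositive (T : H ≃ₗᵢ[ℂ] H') {ρ : H →L[ℂ] H} (h : ρ.IsPositive) :
    (cj T ρ).IsPositive := by
  refine ⟨fun x y => ?_, fun x => ?_⟩
  · have h1 := h.1 (T.symm x) (T.symm y)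
    change ⟪cj T ρ x, y⟫_ℂ = ⟪x, cj T ρ y⟫_ℂ
    change ⟪ρ (T.symm x), T.symm y⟫_ℂ = ⟪T.symm x, ρ (T.symm y)⟫_ℂ at h1
    rw [cj_apply, cj_apply]
    calc ⟪T (ρ (T.symm x)), y⟫_ℂ = ⟪T (ρ (T.symm x)), T (T.symm y)⟫_ℂ := by
          rw [T.apply_symm_apply]
      _ = ⟪T (T.symm x), T (ρ (T.symm y))⟫_ℂ := by rw [T.inner_map_map, h1, T.inner_map_map]
      _ = _ := by rw [T.apply_symm_apply]
  · have h1 := h.2 (T.symm x)
    change 0 ≤ (⟪cj T ρ x, x⟫_ℂ).re
    change 0 ≤ (⟪ρ (T.symm x), T.symm x⟫_ℂ).re at h1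
    have e : ⟪cj T ρ x, x⟫_ℂ = ⟪ρ (T.symm x), T.symm x⟫_ℂ := by
      rw [cj_apply]
      calc ⟪T (ρ (T.symm x)), x⟫_ℂ = ⟪T (ρ (T.symm x)), T (T.symm x)⟫_ℂ := by
            rw [T.apply_symm_apply]
        _ = _ := T.inner_map_map _ _
    rw [e]; exact h1

theorem exists_repr [CompleteSpace H] {ι : Type} [DecidableEq ι] {e : ι → H}
    (he : Sys.IsNumberBasis e) :
    ∃ T : H ≃ₗᵢ[ℂ] lp (fun _ : ι => ℂ) 2, ∀ k : ι, T (e k) = lp.single 2 k (1 : ℂ) := by
  have hd : ⊤ ≤ (Submodule.span ℂ (Set.range e)).topologicalClosure := by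
    rw [top_le_iff]
    exact (Submodule.dense_iff_topologicalClosure_eq_top).1 he.2
  refine ⟨(HilbertBasis.mk he.1 hd).repr, ?_⟩
  intro k
  have := (HilbertBasis.mk he.1 hd).repr_self k
  rw [HilbertBasis.coe_mk] at this
  rw [this]

section system

variable {K : Type} [NormedAddCommGroup K] [InnerProductSpace ℂ K]
variable {n : ℕ} {η : ℝ}

theorem bs_to {f : Conf n → Conf n → K} {U : K ≃ₗᵢ[ℂ] K} (hU : Sys.IsBeamSplitter η f U)
    (T : K ≃ₗᵢ[ℂ] Fock2 n) (hT : ∀ k l, T (f k l) = ket2 k l) :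
    IsBeamSplitter η (T.symm.trans (U.trans T)) := by
  have hT' : ∀ k l, T.symm (ket2 k l) = f k l := by
    intro k l; rw [← hT, T.symm_apply_apply]
  have cA : ∀ j k l, T (Sys.annA f j k l) = annA j k l := by
    intro j k l; unfold Sys.annA annA; rw [map_smul, hT]
  have cB : ∀ j k l, T (Sys.annB f j k l) = annB j k l := by
    intro j k l; unfold Sys.annB annB; rw [map_smul, hT]
  have dA : ∀ j k l, T (Sys.creA f j k l) = creA j k l := by
    intro j k l; unfold Sys.creA creA; rw [map_smul, hT]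
  have dB : ∀ j k l, T (Sys.creB f j k l) = creB j k l := by
    intro j k l; unfold Sys.creB creB; rw [map_smul, hT]
  have hap : ∀ x, (T.symm.trans (U.trans T)) x = T (U (T.symm x)) := fun x => rfl
  obtain ⟨h0, h1⟩ := hU
  refine ⟨?_, ?_, ?_⟩
  · rw [hap, hT', h0, hT]
  · intro j k l k' l'
    have h2 := (h1 j k l k' l').1
    rw [hap, hap, hT', ← dA, ← cA, ← cB, ← hT, ← map_smul, ← map_smul, ← map_add,
      T.symm_apply_apply, T.inner_map_map, T.inner_map_map]
    exact h2
  · intro j k l k' l'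
    have h2 := (h1 j k l k' l').2
    rw [hap, hap, hT', ← dB, ← cA, ← cB, ← hT, ← map_smul, ← map_smul, ← map_add,
      T.symm_apply_apply, T.inner_map_map, T.inner_map_map]
    exact h2

theorem bs_from {f : Conf n → Conf n → K} {U : Fock2 n ≃ₗᵢ[ℂ] Fock2 n}
    (hU : IsBeamSplitter η U)
    (T : K ≃ₗᵢ[ℂ] Fock2 n) (hT : ∀ k l, T (f k l) = ket2 k l) :
    Sys.IsBeamSplitter η f (T.trans (U.trans T.symm)) := by
  have hT' : ∀ k l, T.symm (ket2 k l) = f k l := by
    intro k l; rw [← hT, T.symm_apply_apply]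
  have cA : ∀ j k l, T.symm (annA j k l) = Sys.annA f j k l := by
    intro j k l; unfold Sys.annA annA; rw [map_smul, hT']
  have cB : ∀ j k l, T.symm (annB j k l) = Sys.annB f j k l := by
    intro j k l; unfold Sys.annB annB; rw [map_smul, hT']
  have dA : ∀ j k l, T.symm (creA j k l) = Sys.creA f j k l := by
    intro j k l; unfold Sys.creA creA; rw [map_smul, hT']
  have dB : ∀ j k l, T.symm (creB j k l) = Sys.creB f j k l := by
    intro j k l; unfold Sys.creB creB; rw [map_smul, hT']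
  have hap : ∀ x, (T.trans (U.trans T.symm)) x = T.symm (U (T x)) := fun x => rfl
  obtain ⟨h0, h1, h2⟩ := hU
  refine ⟨?_, fun j k l k' l' => ⟨?_, ?_⟩⟩
  · rw [hap, hT, h0, hT']
  · have h3 := h1 j k l k' l'
    rw [hap, hap, hT, ← dA, ← cA, ← cB, ← hT' k' l', ← map_smul, ← map_smul, ← map_add,
      T.apply_symm_apply, T.symm.inner_map_map, T.symm.inner_map_map]
    exact h3
  · have h3 := h2 j k l k' l'
    rw [hap, hap, hT, ← dB, ← cA, ← cB, ← hT' k' l', ← map_smul, ← map_smul, ← map_add,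
      T.apply_symm_apply, T.symm.inner_map_map, T.symm.inner_map_map]
    exact h3

theorem output_to {e : Conf n → H} {f : Conf n → Conf n → K} {ρA ρB ρC : H →L[ℂ] H}
    (T : H ≃ₗᵢ[ℂ] Fock n) (hT : ∀ k, T (e k) = ket k)
    (T2 : K ≃ₗᵢ[ℂ] Fock2 n) (hT2 : ∀ k l, T2 (f k l) = ket2 k l)
    (hO : Sys.IsOutput η e f ρA ρB ρC) : IsOutput η (cj T ρA) (cj T ρB) (cj T ρC) := by
  obtain ⟨U, ρAB, hU, hP, hM⟩ := hO
  refine ⟨T2.symm.trans (U.trans T2), cj T2 ρAB, bs_to hU T2 hT2, ?_, ?_⟩
  · intro k l k' l'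
    rw [← hT2, ← hT2, ← hT, ← hT, ← hT, ← hT, cj_inner, cj_inner, cj_inner]
    exact hP k l k' l'
  · intro m m'
    have h := hM m m'
    rw [← hT, ← hT, cj_inner]
    refine h.congr_fun fun l => ?_
    rw [← hT2, ← hT2]
    change ⟪T2 (f m l), T2 (U (T2.symm (T2 (ρAB (T2.symm (T2 (U.symm (T2.symm (T2 (f m' l))))))))))⟫_ℂ
      = _
    rw [T2.symm_apply_apply, T2.symm_apply_apply, T2.symm_apply_apply, T2.inner_map_map]

theorem output_from {e : Conf n → H} {f : Conf n → Conf n → K} {ρA ρB : H →L[ℂ] H}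
    {ρC' : Fock n →L[ℂ] Fock n}
    (T : H ≃ₗᵢ[ℂ] Fock n) (hT : ∀ k, T (e k) = ket k)
    (T2 : K ≃ₗᵢ[ℂ] Fock2 n) (hT2 : ∀ k l, T2 (f k l) = ket2 k l)
    (hO : IsOutput η (cj T ρA) (cj T ρB) ρC') : Sys.IsOutput η e f ρA ρB (cj T.symm ρC') := by
  obtain ⟨U, ρAB, hU, hP, hM⟩ := hO
  have hT' : ∀ k, T.symm (ket k) = e k := by
    intro k; rw [← hT, T.symm_apply_apply]
  have hT2' : ∀ k l, T2.symm (ket2 k l) = f k l := by
    intro k l; rw [← hT2, T2.symm_apply_apply]
  refine ⟨T2.trans (U.trans T2.symm), cj T2.symm ρAB, bs_from hU T2 hT2, ?_, ?_⟩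
  · intro k l k' l'
    have h := hP k l k' l'
    rw [← hT, ← hT, ← hT, ← hT, cj_inner, cj_inner] at h
    rw [← hT2', ← hT2', cj_inner]
    exact h
  · intro m m'
    have h := hM m m'
    rw [← hT' m, ← hT' m', cj_inner]
    refine h.congr_fun fun l => ?_
    rw [← hT2', ← hT2']
    change ⟪T2.symm (ket2 m l), T2.symm (U (T2 (T2.symm (ρAB (T2 (T2.symm (U.symm (T2 (T2.symm
      (ket2 m' l))))))))))⟫_ℂ = _
    rw [T2.apply_symm_apply, T2.apply_symm_apply, T2.apply_symm_apply,
      T2.symm.inner_map_map]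
    rfl

theorem entropy_sys [CompleteSpace H] (e : Conf n → H) (he : Orthonormal ℂ e) (ρ : H →L[ℂ] H)
    (hρ : Sys.IsState e ρ) (p : Conf n → ℝ) (h : ∀ k, ρ (e k) = (p k : ℂ) • e k) :
    Sys.entropy e ρ = Hs p := by
  unfold Sys.entropy Hs
  congr 1
  funext k
  rw [negMulLogOp_eigen hρ.1.isSelfAdjoint (h k), inner_smul_right,
    (orthonormal_iff_ite.1 he k k), if_pos rfl]
  simp

theorem inner_sys {e : Conf n → H} (he : Orthonormal ℂ e) {ρ : H →L[ℂ] H} {p : Conf n → ℝ}
    (h : ∀ k, ρ (e k) = (p k : ℂ) • e k) (k : Conf n) : ⟪e k, ρ (e k)⟫_ℂ = p k := by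
  rw [h, inner_smul_right, (orthonormal_iff_ite.1 he k k), if_pos rfl, mul_one]

theorem isProb_sys {e : Conf n → H} (he : Orthonormal ℂ e) {ρ : H →L[ℂ] H}
    (hρ : Sys.IsState e ρ) {p : Conf n → ℝ} (h : ∀ k, ρ (e k) = (p k : ℂ) • e k) : IsProb p := by
  constructor
  · intro k
    have h1 := hρ.1.inner_nonneg_right (e k)
    rw [inner_sys he h] at h1
    exact_mod_cast h1
  · have h2 := hρ.2
    simp only [inner_sys he h] at h2
    have h3 := Complex.hasSum_re h2
    simpa using h3

end system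

end

end Vale.Agent.P369
end
end
end

section

section

/-! Task A3: the weight of the middle region. -/

namespace Vale.Agent.P369V

open MeasureTheory Set

noncomputable section

/-- weight of the middle region -/
def Om (θ R t : ℝ) : ℝ := ∫ s in (0 : ℝ)..1, (1 - s) * ((1 - t) * θ) * (t * θ + s * ((1 - t) * θ)) /
  (t * θ + s * ((1 - t) * θ) + t * R) ^ 2

theorem a3_cont {θ R t : ℝ} (hθ : 0 < θ) (hR : 0 ≤ R) (ht : t ∈ Ioc (0 : ℝ) 1) :
    ContinuousOn (fun s : ℝ => (1 - s) * ((1 - t) * θ) * (t * θ + s * ((1 - t) * θ)) /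
      (t * θ + s * ((1 - t) * θ) + t * R) ^ 2) (Icc 0 1) := by
  apply ContinuousOn.div (by fun_prop) (by (clear * -; fun_prop))
  intro s hs
  have h1 : 0 < t * θ := mul_pos ht.1 hθ
  have h2 : 0 ≤ s * ((1 - t) * θ) := mul_nonneg hs.1 (mul_nonneg (by linarith only [ht.2]) hθ.le)
  have h3 : 0 ≤ t * R := mul_nonneg ht.1.le hR
  (clear * - h1 h2 h3; positivity)

theorem a3_int {θ R t : ℝ} (hθ : 0 < θ) (hR : 0 ≤ R) (ht : t ∈ Ioc (0 : ℝ) 1) :
    IntervalIntegrable (fun s : ℝ => (1 - s) * ((1 - t) * θ) * (t * θ + s * ((1 - t) * θ)) /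
      (t * θ + s * ((1 - t) * θ) + t * R) ^ 2) volume 0 1 := by
  apply ContinuousOn.intervalIntegrable
  rw [uIcc_of_le zero_le_one]
  exact a3_cont hθ hR ht

/-- pointwise monotonicity -/
theorem a3_mono {θ R s a b : ℝ} (hθ : 0 < θ) (hR : 0 ≤ R) (hs : s ∈ Icc (0 : ℝ) 1)
    (ha : 0 < a) (hab : a ≤ b) (hb : b ≤ 1) :
    (1 - s) * ((1 - b) * θ) * (b * θ + s * ((1 - b) * θ)) / (b * θ + s * ((1 - b) * θ) + b * R) ^ 2 / b ≤
      (1 - s) * ((1 - a) * θ) * (a * θ + s * ((1 - a) * θ)) /
        (a * θ + s * ((1 - a) * θ) + a * R) ^ 2 / a := by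
  have hb0 : 0 < b := lt_of_lt_of_le ha hab
  set u := a * θ + s * ((1 - a) * θ) with hu
  set v := b * θ + s * ((1 - b) * θ) with hv
  have hu0 : 0 < u := by
    have h1 : 0 < a * θ := mul_pos ha hθ
    have h2 : 0 ≤ s * ((1 - a) * θ) := mul_nonneg hs.1 (mul_nonneg (by linarith only [hab, hb]) hθ.le)
    rw [hu]; linarith only [h1, h2]
  have huv : u ≤ v := by
    have : v - u = (1 - s) * θ * (b - a) := by rw [hu, hv]; ring
    have h2 : 0 ≤ (1 - s) * θ * (b - a) :=
      mul_nonneg (mul_nonneg (by linarith only [hs.2]) hθ.le) (by linarith)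
    linarith only [h2]
  have hv0 : 0 < v := lt_of_lt_of_le hu0 huv
  have hcross : a * v ≤ b * u := by
    have : b * u - a * v = θ * s * (b - a) := by rw [hu, hv]; ring
    have h2 : 0 ≤ θ * s * (b - a) := mul_nonneg (mul_nonneg hθ.le hs.1) (by linarith only [hab])
    linarith only [h2]
  have hA : 0 < u + a * R := by (clear * - hu0 ha hR; positivity)
  have hB : 0 < v + b * R := by (clear * - hv0 hb0 hR; positivity)
  -- the main quotient
  have hq : v / (v + b * R) ^ 2 ≤ u / (u + a * R) ^ 2 := by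
    rw [div_le_div_iff₀ (by (clear * - hv0 hb0 hR; positivity)) (by (clear * - hu0 ha hR; positivity))]
    have e1 : u * u * v ≤ u * v * v := by
      have := mul_le_mul_of_nonneg_left huv (mul_pos hu0 hv0).le
      linarith
    have e2 : 2 * u * v * (a * R) ≤ 2 * u * v * (b * R) := by
      apply mul_le_mul_of_nonneg_left (mul_le_mul_of_nonneg_right hab hR) (by (clear * - hu0 hv0; positivity))
    have e3 : v * a * a * R ^ 2 ≤ u * b * b * R ^ 2 := by
      have h1 : v * a * a ≤ u * b * b := by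
        calc v * a * a = (a * v) * a := by ring
          _ ≤ (b * u) * a := mul_le_mul_of_nonneg_right hcross ha.le
          _ ≤ (b * u) * b := mul_le_mul_of_nonneg_left hab (by (clear * - hb0 hu0; positivity))
          _ = u * b * b := by ring
      exact mul_le_mul_of_nonneg_right h1 (by (clear * -; positivity))
    calc v * (u + a * R) ^ 2 = u * u * v + 2 * u * v * (a * R) + v * a * a * R ^ 2 := by ring
      _ ≤ u * v * v + 2 * u * v * (b * R) + u * b * b * R ^ 2 := add_le_add (add_le_add e1 e2) e3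
      _ = u * (v + b * R) ^ 2 := by ring
  have hp : (1 - b) / b ≤ (1 - a) / a := by
    rw [div_le_div_iff₀ hb0 ha]
    nlinarith only [hab]
  have hc : 0 ≤ (1 - s) * θ := mul_nonneg (by linarith only [hs.2]) hθ.le
  calc (1 - s) * ((1 - b) * θ) * v / (v + b * R) ^ 2 / b
      = (1 - s) * θ * ((1 - b) / b * (v / (v + b * R) ^ 2)) := by
        (clear * - hv0 hb0 hR hθ; field_simp)
    _ ≤ (1 - s) * θ * ((1 - a) / a * (u / (u + a * R) ^ 2)) := by
        apply mul_le_mul_of_nonneg_left _ hc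
        apply mul_le_mul hp hq (by (clear * - hv0 hb0 hR; positivity))
        exact div_nonneg (by linarith only [hab, hb]) ha.le
    _ = (1 - s) * ((1 - a) * θ) * u / (u + a * R) ^ 2 / a := by
        (clear * - hu0 ha hR hθ; field_simp)

/-- A3 -/
theorem Om_div_antitone {θ R : ℝ} (hθ : 0 < θ) (hR : 0 ≤ R) :
    AntitoneOn (fun t => Om θ R t / t) (Ioc 0 1) := by
  intro a ha b hb hab
  show Om θ R b / b ≤ Om θ R a / a
  rw [Om, Om, ← intervalIntegral.integral_div, ← intervalIntegral.integral_div]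
  apply intervalIntegral.integral_mono_on zero_le_one
  · exact (a3_int hθ hR hb).div_const _
  · exact (a3_int hθ hR ha).div_const _
  · intro s hs
    exact a3_mono hθ hR hs ha.1 hab hb.2

theorem Om_nonneg {θ R t : ℝ} (hθ : 0 < θ) (hR : 0 ≤ R) (ht : t ∈ Ioc (0 : ℝ) 1) : 0 ≤ Om θ R t := by
  apply intervalIntegral.integral_nonneg zero_le_one
  intro s hs
  have h0 : 0 ≤ (1 - t) * θ := mul_nonneg (by linarith only [ht.2]) hθ.le
  have h1 : 0 < t * θ := mul_pos ht.1 hθ
  have h2 : 0 ≤ s * ((1 - t) * θ) := mul_nonneg hs.1 h0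
  have h3 : 0 ≤ 1 - s := by linarith [hs.2]
  (clear * - h3 h0 h1 h2; positivity)

/-- logarithmic upper bound -/
theorem a3_le_log {θ R t : ℝ} (hθ : 0 < θ) (hR : 0 ≤ R) (ht : t ∈ Ioc (0 : ℝ) 1) :
    Om θ R t ≤ - Real.log t := by
  have ht0 := ht.1
  have hpos : ∀ s ∈ Icc (0 : ℝ) 1, 0 < t + s * (1 - t) := by
    intro s hs
    have : 0 ≤ s * (1 - t) := mul_nonneg hs.1 (by linarith [ht.2])
    linarith only [ht0, this]
  have hint : IntervalIntegrable (fun s : ℝ => (1 - t) / (t + s * (1 - t))) volume 0 1 := by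
    apply ContinuousOn.intervalIntegrable
    rw [uIcc_of_le zero_le_one]
    apply ContinuousOn.div (by fun_prop) (by fun_prop)
    intro s hs
    exact (hpos s hs).ne'
  have hval : ∫ s in (0 : ℝ)..1, (1 - t) / (t + s * (1 - t)) = - Real.log t := by
    rw [intervalIntegral.integral_eq_sub_of_hasDerivAt (f := fun s => Real.log (t + s * (1 - t))) _ hint]
    · simp
    · intro s hs
      rw [uIcc_of_le zero_le_one] at hs
      have h1 : HasDerivAt (fun s : ℝ => t + s * (1 - t)) (1 - t) s := by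
        simpa only [hasDerivAt_const_add_iff, id_eq, one_mul] using ((hasDerivAt_id s).mul_const (1 - t)).const_add t
      exact h1.log (hpos s hs).ne'
  rw [← hval]
  apply intervalIntegral.integral_mono_on zero_le_one (a3_int hθ hR ht) hint
  intro s hs
  have hw := hpos s hs
  set w := t + s * (1 - t) with hwdef
  have e1 : t * θ + s * ((1 - t) * θ) = w * θ := by rw [hwdef]; ring
  rw [e1]
  have h1t : 0 ≤ 1 - t := by linarith only [ht.2]
  have h3 : 0 ≤ t * R := mul_nonneg ht0.le hR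
  rw [div_le_div_iff₀ (by (clear * - hw hθ ht0 hR; positivity)) hw]
  have k1 : (1 - s) * ((1 - t) * θ) * (w * θ) * w ≤ (1 - t) * (w * θ) ^ 2 := by
    have : (1 - t) * (w * θ) ^ 2 - (1 - s) * ((1 - t) * θ) * (w * θ) * w = s * ((1 - t) * (w * θ) ^ 2) := by
      ring
    have h4 : 0 ≤ s * ((1 - t) * (w * θ) ^ 2) := mul_nonneg hs.1 (by (clear * - h1t hw hθ; positivity))
    linarith only [h4]
  have k2 : (w * θ) ^ 2 ≤ (w * θ + t * R) ^ 2 := by
    apply pow_le_pow_left₀ (by (clear * - hw hθ; positivity))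
    linarith only [h3]
  calc (1 - s) * ((1 - t) * θ) * (w * θ) * w ≤ (1 - t) * (w * θ) ^ 2 := k1
    _ ≤ (1 - t) * (w * θ + t * R) ^ 2 := mul_le_mul_of_nonneg_left k2 h1t

theorem tendsto_Om {θ R : ℝ} (hθ : 0 < θ) (hR : 0 ≤ R) :
    Filter.Tendsto (fun ε => ε ^ 2 * (Om θ R ε / ε)) (nhdsWithin 0 (Ioi 0)) (nhds 0) := by
  have hup : Filter.Tendsto (fun ε : ℝ => -(ε * Real.log ε)) (nhdsWithin 0 (Ioi 0)) (nhds 0) := by
    have h1 : Filter.Tendsto (fun ε : ℝ => -(ε * Real.log ε)) (nhds 0) (nhds (-(0 * Real.log 0))) :=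
      (Real.continuous_mul_log.neg).tendsto 0
    simp only [zero_mul, neg_zero] at h1
    exact h1.mono_left nhdsWithin_le_nhds
  have hev : ∀ᶠ ε : ℝ in nhdsWithin 0 (Ioi 0), ε ∈ Ioc (0 : ℝ) 1 := Ioc_mem_nhdsGT zero_lt_one
  refine tendsto_of_tendsto_of_tendsto_of_le_of_le' tendsto_const_nhds hup ?_ ?_
  · filter_upwards [hev] with ε hε
    have h1 := Om_nonneg hθ hR hε
    have h2 := hε.1
    (clear * - h2 h1; positivity)
  · filter_upwards [hev] with ε hε
    have h1 := a3_le_log hθ hR hε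
    have h2 := hε.1
    have h3 : ε ^ 2 * (Om θ R ε / ε) = ε * Om θ R ε := by field_simp
    rw [h3]
    have := mul_le_mul_of_nonneg_left h1 h2.le
    linarith only [this]

end

end Vale.Agent.P369V
end
end

section

section

/-!
# P369V, A5: pointwise lower bound
-/

namespace Vale.Agent.P369V

open Matrix MeasureTheory Set

noncomputable section

theorem a5_int_div {c : ℝ} (hc : 0 < c) :
    ∫ ν in (0 : ℝ)..1, ν / (ν + c) = 1 - c * Real.log (1 + 1 / c) := by
  have h1 : ∀ ν ∈ uIcc (0 : ℝ) 1, ν / (ν + c) = 1 - c * (1 / (ν + c)) := by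
    intro ν hν
    rw [uIcc_of_le zero_le_one] at hν
    have : ν + c ≠ 0 := by linarith [hν.1]
    field_simp
    ring
  rw [intervalIntegral.integral_congr h1]
  have h2 : IntervalIntegrable (fun ν : ℝ => c * (1 / (ν + c))) volume 0 1 := by
    apply ContinuousOn.intervalIntegrable
    refine continuousOn_const.mul (continuousOn_const.div (by fun_prop) ?_)
    intro ν hν
    rw [uIcc_of_le zero_le_one] at hν
    linarith [hν.1]
  rw [intervalIntegral.integral_sub intervalIntegrable_const h2,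
    intervalIntegral.integral_const_mul,
    intervalIntegral.integral_comp_add_right (fun x => 1 / x) c,
    integral_one_div_of_pos (by linarith) (by linarith only [hc])]
  rw [intervalIntegral.integral_const]
  have e : (1 + c) / (0 + c) = 1 + 1 / c := by
    field_simp
    ring
  rw [e]
  simp only [sub_zero, smul_eq_mul, mul_one, one_div]

/-- Bonnet with a smooth weight -/
theorem a5_bonnet {a b : ℝ} (hab : a ≤ b) {W W' h : ℝ → ℝ} (hW : ∀ x ∈ Icc a b, HasDerivAt W (W' x) x)
    (hWc : ContinuousOn W' (Icc a b)) (hW' : ∀ x ∈ Icc a b, W' x ≤ 0) (hb : 1 ≤ W b)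
    (hh : ContinuousOn h (Icc a b)) (hH : ∀ l ∈ Icc a b, ∫ t in a..l, h t ≤ 0) :
    ∫ t in a..b, W t * h t ≤ ∫ t in a..b, h t := by
  set h1 : ℝ → ℝ := IccExtend hab (fun x => h x) with hh1
  have hc1 : Continuous h1 := by
    apply Continuous.Icc_extend'
    exact continuousOn_iff_continuous_domRestrict.mp hh
  have he : ∀ x ∈ Icc a b, h1 x = h x := fun x hx => by
    rw [hh1, IccExtend_of_mem hab _ hx]
  have hu : uIcc a b = Icc a b := uIcc_of_le hab
  have e1 : ∀ l ∈ Icc a b, ∫ t in a..l, h1 t = ∫ t in a..l, h t := by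
    intro l hl
    apply intervalIntegral.integral_congr
    intro x hx
    rw [uIcc_of_le hl.1] at hx
    exact he x ⟨hx.1, hx.2.trans hl.2⟩
  have e2 : ∫ t in a..b, W t * h t = ∫ t in a..b, W t * h1 t := by
    apply intervalIntegral.integral_congr
    intro x hx
    rw [hu] at hx
    simp only [he x hx]
  have hF : ∀ x, HasDerivAt (fun x => ∫ t in a..x, h1 t) (h1 x) x := fun x =>
    intervalIntegral.integral_hasDerivAt_right (hc1.intervalIntegrable _ _)
      (hc1.stronglyMeasurableAtFilter _ _) hc1.continuousAt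
  have h3 := intervalIntegral.integral_mul_deriv_eq_deriv_mul
    (u := W) (v := fun x => ∫ t in a..x, h1 t) (u' := W') (v' := h1) (a := a) (b := b)
    (fun x hx => hW x (hu ▸ hx)) (fun x _ => hF x)
    (ContinuousOn.intervalIntegrable (by rw [hu]; exact hWc)) (hc1.intervalIntegrable _ _)
  have h4 : 0 ≤ ∫ x in a..b, W' x * ∫ t in a..x, h1 t := by
    apply intervalIntegral.integral_nonneg hab
    intro x hx
    rw [e1 x hx]
    exact mul_nonneg_of_nonpos_of_nonpos (hW' x hx) (hH x hx)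
  have h5 := hH b (right_mem_Icc.mpr hab)
  rw [e2, h3, e1 b (right_mem_Icc.mpr hab), intervalIntegral.integral_same, mul_zero, sub_zero]
  nlinarith only [h4, hb, h5]

/-- A5 (pointwise lower bound). `T = ∫_0^θ (g 1 - ν/(ν+R)) = -∫_θ^1`. -/
theorem pointwise_bound {g : ℝ → ℝ → ℝ} {R θ t : ℝ} (hR : 0 < R) (hθ : θ ∈ Ioo (0 : ℝ) 1)
    (ht : t ∈ Ioo (0 : ℝ) 1)
    (hcont : ContinuousOn (g t) (Icc 0 1)) (hcont1 : ContinuousOn (g 1) (Icc 0 1))
    (hconv : ∀ ν₀ ∈ Ioc (0 : ℝ) 1, ∀ ν₁ ∈ Ioc (0 : ℝ) 1, ∀ w₀ w₁ s : ℝ, 0 ≤ w₀ → 0 ≤ w₁ → 0 ≤ s →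
      s ≤ 1 → ((1 - s) * w₀ + s * w₁) ^ 2 * (g t ((1 - s) * ν₀ + s * ν₁) / ((1 - s) * ν₀ + s * ν₁)) ≤
        (1 - s) * (w₀ ^ 2 * (g t ν₀ / ν₀)) + s * (w₁ ^ 2 * (g t ν₁ / ν₁)))
    (hdp : ∀ ν ∈ Ioc (0 : ℝ) 1, ∀ r : ℝ, 0 ≤ r →
      (ν + t * r) ^ 2 * (g t ν / ν) ≤ (1 - t) * ν + t * ((ν + r) ^ 2 * (g 1 ν / ν)))
    (hθ1 : g 1 θ = θ / (θ + R)) (hθ2 : ∀ l ∈ Icc θ 1, ∫ ν in θ..l, (g 1 ν - ν / (ν + R)) ≤ 0) :
    R * Real.log (1 + 1 / (t * R))
      - ((∫ l in (0 : ℝ)..θ, g t (t * l)) - ∫ l in (0 : ℝ)..θ, l / (l + R))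
      - Om θ R t / t * (t * (θ + R) ^ 2 * g t (t * θ) / θ - t * (θ + R))
      - (∫ ν in θ..1, (g 1 ν - ν / (ν + R)))
      ≤ (1 - ∫ ν in (0 : ℝ)..1, g t ν) / t := by
  obtain ⟨hθ0, hθ1'⟩ := hθ
  obtain ⟨ht0, ht1⟩ := ht
  have htR : 0 < t * R := mul_pos ht0 hR
  have htθ : 0 < t * θ := mul_pos ht0 hθ0
  have htθ1 : t * θ ≤ θ := by nlinarith only [hθ0, ht1]
  set q : ℝ := t * (θ + R) ^ 2 * g t (t * θ) / θ with hq
  -- integrability
  have hI : ∀ a ∈ Icc (0 : ℝ) 1, ∀ b ∈ Icc (0 : ℝ) 1, IntervalIntegrable (g t) volume a b := by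
    intro a ha b hb
    apply ContinuousOn.intervalIntegrable
    exact hcont.mono (uIcc_subset_Icc ha hb)
  have hV : ∀ a ∈ Icc (0 : ℝ) 1, ∀ b ∈ Icc (0 : ℝ) 1, ∀ c : ℝ, 0 < c →
      ContinuousOn (fun ν : ℝ => ν / (ν + c)) (uIcc a b) := by
    intro a ha b hb c hc
    refine continuousOn_id.div (by fun_prop) ?_
    intro x hx
    have := (uIcc_subset_Icc ha hb hx).1
    linarith only [hc, this]
  have m0 : (0 : ℝ) ∈ Icc (0 : ℝ) 1 := ⟨le_rfl, zero_le_one⟩
  have m1 : (1 : ℝ) ∈ Icc (0 : ℝ) 1 := ⟨zero_le_one, le_rfl⟩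
  have mθ : θ ∈ Icc (0 : ℝ) 1 := ⟨hθ0.le, hθ1'.le⟩
  have mtθ : t * θ ∈ Icc (0 : ℝ) 1 := ⟨htθ.le, htθ1.trans hθ1'.le⟩
  -- part 1
  have p1 : ∫ ν in (0 : ℝ)..(t * θ), g t ν = t * ∫ l in (0 : ℝ)..θ, g t (t * l) := by
    rw [intervalIntegral.integral_comp_mul_left (fun x => g t x) ht0.ne', mul_zero, smul_eq_mul,
      ← mul_assoc, mul_inv_cancel₀ ht0.ne', one_mul]
  have p1' : ∫ ν in (0 : ℝ)..(t * θ), ν / (ν + t * R) = t * ∫ l in (0 : ℝ)..θ, l / (l + R) := by
    have h := intervalIntegral.integral_comp_mul_left (a := 0) (b := θ)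
      (fun x : ℝ => x / (x + t * R)) ht0.ne'
    rw [mul_zero, smul_eq_mul] at h
    have h2 : ∫ l in (0 : ℝ)..θ, l / (l + R) = ∫ l in (0 : ℝ)..θ, t * l / (t * l + t * R) := by
      apply intervalIntegral.integral_congr
      intro l hl
      simp only
      rw [← mul_add, mul_div_mul_left _ _ ht0.ne']
    rw [h2, h, ← mul_assoc, mul_inv_cancel₀ ht0.ne', one_mul]
  -- DP at θ
  have d1 : (θ + t * R) ^ 2 * (g t θ / θ) ≤ θ + t * R := by
    have h := hdp θ ⟨hθ0, hθ1'.le⟩ R hR.le
    rw [hθ1] at h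
    have e : (θ + R) ^ 2 * (θ / (θ + R) / θ) = θ + R := by
      have : θ + R ≠ 0 := by linarith only [hR, hθ0]
      (clear * - hθ0 this; field_simp)
    rw [e] at h
    linarith only [h]
  -- the middle
  have mid : ∀ s ∈ Icc (0 : ℝ) 1, g t (t * θ + s * ((1 - t) * θ)) ≤
      (t * θ + s * ((1 - t) * θ)) / (t * θ + s * ((1 - t) * θ) + t * R) +
      (1 - s) * (t * θ + s * ((1 - t) * θ)) / (t * θ + s * ((1 - t) * θ) + t * R) ^ 2 *
        (q - t * (θ + R)) := by
    intro s hs
    have h := hconv (t * θ) ⟨htθ, mtθ.2⟩ θ ⟨hθ0, hθ1'.le⟩ (t * (θ + R)) (θ + t * R) s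
      (by positivity) (by positivity) hs.1 hs.2
    have e1 : (1 - s) * (t * θ) + s * θ = t * θ + s * ((1 - t) * θ) := by ring
    have e2 : (1 - s) * (t * (θ + R)) + s * (θ + t * R) = t * θ + s * ((1 - t) * θ) + t * R := by
      ring
    have e3 : (t * (θ + R)) ^ 2 * (g t (t * θ) / (t * θ)) = q := by
      rw [hq]; (clear * - hθ0 hR ht0; field_simp)
    rw [e1, e2, e3] at h
    have hν : 0 < t * θ + s * ((1 - t) * θ) := by
      have := mul_nonneg hs.1 (mul_nonneg (sub_nonneg.mpr ht1.le) hθ0.le)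
      linarith only [htθ, this]
    set ν := t * θ + s * ((1 - t) * θ) with hνd
    have h2 : (ν + t * R) ^ 2 * (g t ν / ν) ≤ (1 - s) * (q - t * (θ + R)) + (ν + t * R) := by
      calc (ν + t * R) ^ 2 * (g t ν / ν) ≤ (1 - s) * q + s * ((θ + t * R) ^ 2 * (g t θ / θ)) := h
        _ ≤ (1 - s) * q + s * (θ + t * R) := by
          have := mul_le_mul_of_nonneg_left d1 hs.1
          linarith only [this]
        _ = _ := by rw [hνd]; ring
    have h3 : 0 < ν + t * R := by linarith only [htR, hν]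
    have h4 : g t ν = ((ν + t * R) ^ 2 * (g t ν / ν)) * (ν / (ν + t * R) ^ 2) := by
      (clear * - hν ht0 hR; field_simp)
    rw [h4]
    calc ((ν + t * R) ^ 2 * (g t ν / ν)) * (ν / (ν + t * R) ^ 2)
        ≤ ((1 - s) * (q - t * (θ + R)) + (ν + t * R)) * (ν / (ν + t * R) ^ 2) :=
          mul_le_mul_of_nonneg_right h2 (by (clear * - hν ht0 hR; positivity))
      _ = _ := by field_simp; ring
  have hK : 0 < (1 - t) * θ := mul_pos (by linarith only [ht1]) hθ0
  have sub1 : ∀ F : ℝ → ℝ, ∫ ν in (t * θ)..θ, F ν =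
      (1 - t) * θ * ∫ s in (0 : ℝ)..1, F (t * θ + s * ((1 - t) * θ)) := by
    intro F
    have h := intervalIntegral.integral_comp_add_mul (a := 0) (b := 1) F hK.ne' (t * θ)
    have e : ∀ s : ℝ, t * θ + (1 - t) * θ * s = t * θ + s * ((1 - t) * θ) := fun s => by ring
    simp only [e] at h
    rw [h, zero_mul, one_mul, add_zero, smul_eq_mul, ← mul_assoc, mul_inv_cancel₀ hK.ne', one_mul]
    congr 1
    ring
  have cν : ContinuousOn (fun s : ℝ => t * θ + s * ((1 - t) * θ)) (Icc 0 1) := by fun_prop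
  have hpos : ∀ s ∈ Icc (0 : ℝ) 1, 0 < t * θ + s * ((1 - t) * θ) := fun s hs => by
    have := mul_nonneg hs.1 hK.le
    linarith only [htθ, this]
  have hle1 : ∀ s ∈ Icc (0 : ℝ) 1, t * θ + s * ((1 - t) * θ) ≤ 1 := fun s hs => by
    have := mul_le_mul_of_nonneg_right hs.2 hK.le
    linarith only [hθ1', this]
  have i1 : IntervalIntegrable (fun s : ℝ => g t (t * θ + s * ((1 - t) * θ))) volume 0 1 := by
    apply ContinuousOn.intervalIntegrable
    rw [uIcc_of_le zero_le_one]
    exact hcont.comp cν fun s hs => ⟨(hpos s hs).le, hle1 s hs⟩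
  have i2 : IntervalIntegrable (fun s : ℝ => (t * θ + s * ((1 - t) * θ)) /
      (t * θ + s * ((1 - t) * θ) + t * R)) volume 0 1 := by
    apply ContinuousOn.intervalIntegrable
    rw [uIcc_of_le zero_le_one]
    exact cν.div (cν.add continuousOn_const) fun s hs => by
      have := hpos s hs
      (clear * - this ht0 hR; positivity)
  have i3 : IntervalIntegrable (fun s : ℝ => (1 - s) * (t * θ + s * ((1 - t) * θ)) /
      (t * θ + s * ((1 - t) * θ) + t * R) ^ 2 * (q - t * (θ + R))) volume 0 1 := by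
    apply ContinuousOn.intervalIntegrable
    rw [uIcc_of_le zero_le_one]
    refine ContinuousOn.mul (ContinuousOn.div (by fun_prop) (by (clear * -; fun_prop)) ?_) continuousOn_const
    intro s hs
    have := hpos s hs
    (clear * - this ht0 hR; positivity)
  have p2 : ∫ ν in (t * θ)..θ, g t ν ≤
      (∫ ν in (t * θ)..θ, ν / (ν + t * R)) + Om θ R t * (q - t * (θ + R)) := by
    rw [sub1 (g t), sub1 (fun ν => ν / (ν + t * R))]
    have h1 := intervalIntegral.integral_mono_on zero_le_one i1 (i2.add i3) mid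
    rw [intervalIntegral.integral_add i2 i3, intervalIntegral.integral_mul_const] at h1
    have h2 : Om θ R t = (1 - t) * θ * ∫ s in (0 : ℝ)..1, (1 - s) * (t * θ + s * ((1 - t) * θ)) /
        (t * θ + s * ((1 - t) * θ) + t * R) ^ 2 := by
      unfold Om
      rw [← intervalIntegral.integral_const_mul]
      apply intervalIntegral.integral_congr
      intro s _
      simp only
      ring
    rw [h2]
    have h3 := mul_le_mul_of_nonneg_left h1 hK.le
    linarith only [h3]
  -- the outer part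
  have cV : ∀ c : ℝ, 0 < c → ContinuousOn (fun ν : ℝ => ν / (ν + c)) (Icc θ 1) := fun c hc => by
    refine continuousOn_id.div (by fun_prop) ?_
    intro x hx
    have := hx.1
    linarith only [htθ, hK, hc, this]
  have sθ : Icc θ 1 ⊆ Icc (0 : ℝ) 1 := Icc_subset_Icc_left hθ0.le
  have ch : ContinuousOn (fun ν => g 1 ν - ν / (ν + R)) (Icc θ 1) :=
    (hcont1.mono sθ).sub (cV R hR)
  have hWd : ∀ x ∈ Icc θ 1, HasDerivAt (fun ν : ℝ => ((ν + R) / (ν + t * R)) ^ 2)
      (2 * ((x + R) / (x + t * R)) * (-((1 - t) * R) / (x + t * R) ^ 2)) x := by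
    intro x hx
    have hx0 : 0 < x + t * R := by linarith only [htR, htθ, hK, hx.1]
    have h0 := ((hasDerivAt_id x).add_const R).div ((hasDerivAt_id x).add_const (t * R)) hx0.ne'
    have h1 : HasDerivAt (fun ν : ℝ => (ν + R) / (ν + t * R))
        (-((1 - t) * R) / (x + t * R) ^ 2) x := h0.congr_deriv (by simp only [id]; ring)
    exact (h1.pow 2).congr_deriv (by (clear * -; norm_num))
  have outer : ∀ ν ∈ Icc θ 1, g t ν ≤ ν / (ν + t * R) +
      t * (((ν + R) / (ν + t * R)) ^ 2 * (g 1 ν - ν / (ν + R))) := by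
    intro ν hν
    have h0 : 0 < ν := hθ0.trans_le hν.1
    have h := hdp ν ⟨h0, hν.2⟩ R hR.le
    have h3 : 0 < ν + t * R := by linarith only [htR, h0]
    have h3' : 0 < ν + R := by linarith only [hR, h0]
    have h4 : g t ν = ((ν + t * R) ^ 2 * (g t ν / ν)) * (ν / (ν + t * R) ^ 2) := by
      (clear * - h0 ht0 hR; field_simp)
    rw [h4]
    calc ((ν + t * R) ^ 2 * (g t ν / ν)) * (ν / (ν + t * R) ^ 2)
        ≤ ((1 - t) * ν + t * ((ν + R) ^ 2 * (g 1 ν / ν))) * (ν / (ν + t * R) ^ 2) :=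
          mul_le_mul_of_nonneg_right h (by (clear * - h0 ht0 hR; positivity))
      _ = _ := by field_simp; ring
  have hu1 : uIcc θ 1 = Icc θ 1 := uIcc_of_le hθ1'.le
  have i4 : IntervalIntegrable (fun ν => ν / (ν + t * R)) volume θ 1 :=
    ContinuousOn.intervalIntegrable (by rw [hu1]; exact cV _ htR)
  have cW : ContinuousOn (fun ν : ℝ => ((ν + R) / (ν + t * R)) ^ 2) (Icc θ 1) := fun x hx =>
    (hWd x hx).continuousAt.continuousWithinAt
  have i5 : IntervalIntegrable (fun ν => t * (((ν + R) / (ν + t * R)) ^ 2 *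
      (g 1 ν - ν / (ν + R)))) volume θ 1 :=
    ContinuousOn.intervalIntegrable (by rw [hu1]; exact continuousOn_const.mul (cW.mul ch))
  have p3 : ∫ ν in θ..1, g t ν ≤ (∫ ν in θ..1, ν / (ν + t * R)) +
      t * ∫ ν in θ..1, (g 1 ν - ν / (ν + R)) := by
    have h1 := intervalIntegral.integral_mono_on hθ1'.le (hI θ mθ 1 m1) (i4.add i5) outer
    rw [intervalIntegral.integral_add i4 i5, intervalIntegral.integral_const_mul] at h1
    have h2 := a5_bonnet hθ1'.le hWd (by
      refine ContinuousOn.mul (continuousOn_const.mul (ContinuousOn.div (by fun_prop) (by fun_prop)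
        fun x hx => ?_)) (ContinuousOn.div (by fun_prop) (by fun_prop) fun x hx => ?_)
      · have := hx.1
        have : 0 < x + t * R := by linarith only [htR, htθ, hK, this]
        exact this.ne'
      · have := hx.1
        have : 0 < x + t * R := by linarith only [htR, htθ, hK, this]
        (clear * - this; positivity)) (fun x hx => by
        have := hx.1
        have h3 : 0 < x + t * R := by linarith only [htR, htθ, hK, this]
        have h3' : 0 < x + R := by linarith only [hR, htθ, hK, this]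
        have h4 : 0 < (1 - t) * R := mul_pos (by linarith only [ht1]) hR
        rw [neg_div, mul_neg, neg_nonpos]
        (clear * - h3' h3 ht1 hR; positivity)) (by
        have h3 : 0 < 1 + t * R := by linarith only [htR]
        have h5 : 1 ≤ (1 + R) / (1 + t * R) := by
          rw [le_div_iff₀ h3]; nlinarith only [hR, ht1]
        calc (1 : ℝ) = 1 ^ 2 := by norm_num
          _ ≤ ((1 + R) / (1 + t * R)) ^ 2 := pow_le_pow_left₀ zero_le_one h5 2) ch hθ2
    have h3 := mul_le_mul_of_nonneg_left h2 ht0.le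
    linarith only [h1, h3]
  -- assembling
  have iV : ∀ a ∈ Icc (0 : ℝ) 1, ∀ b ∈ Icc (0 : ℝ) 1,
      IntervalIntegrable (fun ν : ℝ => ν / (ν + t * R)) volume a b := fun a ha b hb =>
    (hV a ha b hb _ htR).intervalIntegrable
  have s1 : (∫ ν in (0 : ℝ)..(t * θ), g t ν) + ((∫ ν in (t * θ)..θ, g t ν) + ∫ ν in θ..1, g t ν) =
      ∫ ν in (0 : ℝ)..1, g t ν := by
    rw [intervalIntegral.integral_add_adjacent_intervals (hI _ mtθ _ mθ) (hI _ mθ _ m1),
      intervalIntegral.integral_add_adjacent_intervals (hI _ m0 _ mtθ) (hI _ mtθ _ m1)]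
  have s2 : (∫ ν in (0 : ℝ)..(t * θ), ν / (ν + t * R)) + ((∫ ν in (t * θ)..θ, ν / (ν + t * R)) +
      ∫ ν in θ..1, ν / (ν + t * R)) = 1 - t * R * Real.log (1 + 1 / (t * R)) := by
    rw [intervalIntegral.integral_add_adjacent_intervals (iV _ mtθ _ mθ) (iV _ mθ _ m1),
      intervalIntegral.integral_add_adjacent_intervals (iV _ m0 _ mtθ) (iV _ mtθ _ m1),
      a5_int_div htR]
  rw [le_div_iff₀ ht0]
  have e5 : Om θ R t / t * (q - t * (θ + R)) * t = Om θ R t * (q - t * (θ + R)) := by
    (clear * - ht0; field_simp)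
  rw [p1] at s1
  rw [p1'] at s2
  refine le_trans (le_of_eq (b := t * R * Real.log (1 + 1 / (t * R))
      - t * (∫ l in (0 : ℝ)..θ, g t (t * l)) + t * (∫ l in (0 : ℝ)..θ, l / (l + R))
      - Om θ R t * (q - t * (θ + R)) - t * ∫ ν in θ..1, (g 1 ν - ν / (ν + R))) ?_) ?_
  · rw [← e5]; ring
  · linarith only [p2, p3, s1, s2]

end

end Vale.Agent.P369V
end
end
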