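import Vale.Agent.P369.MathlibUsed
import Vale.Agent.P369.Bd3.B1
import Vale.Agent.P369.NumDef

set_option linter.all false

namespace AFast14c27fx6a
@[reducible] noncomputable def a0 {x1 : ℕ} : PseudoMetricSpace (Vale.Agent.P369.Fock x1) := inferInstance
@[reducible] noncomputable def a1 {x1 : ℕ} : SeminormedAddCommGroup (Vale.Agent.P369.Fock x1) := inferInstance
theorem a2 : CovariantClass ℝ ℝ (Function.swap fun x1 x2 => x1 + x2) fun x1 x2 => x1 ≤ x2 := inferInstance
theorem a3 : AddLeftMono ℝ := inferInstance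
@[reducible] noncomputable def a4 : DistribMulAction ℝ ℂ := inferInstance
@[reducible] noncomputable def a5 {x1 : ℕ} : Module ℂ (Vale.Agent.P369.Fock x1) := inferInstance
@[reducible] noncomputable def a6 : SMulZeroClass ℝ ℂ := inferInstance
@[reducible] noncomputable def a7 : DistribSMul ℝ ℂ := inferInstance
theorem a8 : CharZero ℝ := inferInstance
theorem a9 {x1 : Type} [x2 : Fintype x1] : ContinuousConstSMul ℂ (EuclideanSpace ℂ x1) := inferInstance
theorem a10 : ContinuousSMul ℝ ℂ := inferInstance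
@[reducible] def a11 {x1 : Type} : SMulZeroClass ℂ (EuclideanSpace ℂ x1) := inferInstance
theorem a12 {x1 : Type} [x2 : Fintype x1] : UniformContinuousConstSMul ℂ (EuclideanSpace ℂ x1) := inferInstance
theorem a13 : AddRightReflectLE ℝ := inferInstance
@[reducible] def a14 {x1 : Type} : DistribSMul ℂ (EuclideanSpace ℂ x1) := inferInstance
theorem a15 {x1 : Type} [x2 : Fintype x1] : IsTopologicalAddGroup (EuclideanSpace ℂ x1) := inferInstance
@[reducible] noncomputable def a16 {x1 : ℕ} : Inner ℂ (Vale.Agent.P369.Fock x1) := inferInstance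
theorem a17 : IsRightCancelAdd ℝ := inferInstance
theorem a18 : ContinuousSMul ℝ ℝ := inferInstance
theorem a19 : AddLeftReflectLE ℝ := inferInstance
@[reducible] noncomputable def a20 {x1 : ℕ} : NormedSpace ℂ (Vale.Agent.P369.Fock x1) := inferInstance
theorem a21 : T2Space ℝ := inferInstance
@[reducible] def a22 : Monoid ℂ := inferInstance
@[reducible] noncomputable def a23 {x1 : ℕ} : PseudoMetricSpace (Vale.Agent.P369.Fock2 x1) := inferInstance
@[reducible] noncomputable def a24 {x1 : Type} [x2 : Fintype x1] : Star (EuclideanSpace ℂ x1 →L[ℂ] EuclideanSpace ℂ x1) := inferInstance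
theorem a25 : ContravariantClass ℝ ℝ (fun x1 x2 => x1 + x2) fun x1 x2 => x1 < x2 := inferInstance
@[reducible] noncomputable def a26 {x1 : ℕ} : SeminormedAddCommGroup (Vale.Agent.P369.Fock2 x1) := inferInstance
end AFast14c27fx6a
attribute [local instance] AFast14c27fx6a.a0 AFast14c27fx6a.a1 AFast14c27fx6a.a2 AFast14c27fx6a.a3
  AFast14c27fx6a.a4 AFast14c27fx6a.a5 AFast14c27fx6a.a6 AFast14c27fx6a.a7 AFast14c27fx6a.a8
  AFast14c27fx6a.a9 AFast14c27fx6a.a10 AFast14c27fx6a.a11 AFast14c27fx6a.a12 AFast14c27fx6a.a13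
  AFast14c27fx6a.a14 AFast14c27fx6a.a15 AFast14c27fx6a.a16 AFast14c27fx6a.a17 AFast14c27fx6a.a18
  AFast14c27fx6a.a19 AFast14c27fx6a.a20 AFast14c27fx6a.a21 AFast14c27fx6a.a22 AFast14c27fx6a.a23
  AFast14c27fx6a.a24 AFast14c27fx6a.a25 AFast14c27fx6a.a26
namespace AFast14c27fx6b
@[reducible] noncomputable def a0 {x1 : ℕ} : SMulZeroClass ℂ (Vale.Agent.P369.Fock x1) := inferInstance
@[reducible] noncomputable def a1 {x1 : ℕ} : DistribSMul ℂ (Vale.Agent.P369.Fock x1) := inferInstance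
@[reducible] noncomputable def a2 {x1 : ℕ} : DistribMulAction ℂ (Vale.Agent.P369.Fock x1) := inferInstance
@[reducible] noncomputable def a3 {x1 : ℕ} : SMulZeroClass ℂ (Vale.Agent.P369.Fock2 x1) := inferInstance
@[reducible] noncomputable def a4 {x1 : ℕ} : SMul ℂ (Vale.Agent.P369.Fock x1) := inferInstance
@[reducible] noncomputable def a5 {x1 : ℕ} : DistribSMul ℂ (Vale.Agent.P369.Fock2 x1) := inferInstance
@[reducible] noncomputable def a6 {x1 : ℕ} : DistribMulAction ℂ (Vale.Agent.P369.Fock2 x1) := inferInstance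
@[reducible] noncomputable def a7 {x1 : ℕ} : AddCommMonoid (Vale.Agent.P369.Fock x1) := inferInstance
@[reducible] noncomputable def a8 {x1 : ℕ} : AddZero (Vale.Agent.P369.Fock x1) := inferInstance
@[reducible] noncomputable def a9 {x1 : ℕ} : AddZeroClass (Vale.Agent.P369.Fock x1) := inferInstance
@[reducible] noncomputable def a10 {x1 : ℕ} : AddMonoid (Vale.Agent.P369.Fock x1) := inferInstance
@[reducible] noncomputable def a11 {x1 : ℕ} : TopologicalSpace (Vale.Agent.P369.Fock x1) := inferInstance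
@[reducible] noncomputable def a12 {x1 : ℕ} : UniformSpace (Vale.Agent.P369.Fock x1) := inferInstance
@[reducible] noncomputable def a13 {x1 : ℕ} : SMul ℂ (Vale.Agent.P369.Fock2 x1) := inferInstance
theorem a14 {x1 : ℕ} : ContinuousAdd (Vale.Agent.P369.Fock x1) := inferInstance
theorem a15 {x1 : Type} [x2 : Fintype x1] : ContinuousSMul ℂ (EuclideanSpace ℂ x1) := inferInstance
@[reducible] noncomputable def a16 {x1 : Type} [x2 : Fintype x1] : Algebra ℝ (EuclideanSpace ℂ x1 →L[ℂ] EuclideanSpace ℂ x1) := inferInstance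
@[reducible] noncomputable def a17 {x1 : ℕ} : MulAction ℂ (Vale.Agent.P369.Fock x1) := inferInstance
@[reducible] noncomputable def a18 {x1 : ℕ} : AddCommMonoid (Vale.Agent.P369.Fock x1 →L[ℂ] Vale.Agent.P369.Fock x1) := inferInstance
theorem a19 {x1 : ℕ} : ContinuousAdd (Vale.Agent.P369.Fock2 x1) := inferInstance
@[reducible] noncomputable def a20 {x1 : ℕ} : AddCommMonoid (Vale.Agent.P369.Fock2 x1) := inferInstance
theorem a21 {x1 : Type} [x2 : Fintype x1] : NonUnitalStarRingHomClass (Matrix x1 x1 ℂ ≃⋆ₐ[ℂ] EuclideanSpace ℂ x1 →L[ℂ] EuclideanSpace ℂ x1) (Matrix x1 x1 ℂ) (EuclideanSpace ℂ x1 →L[ℂ] EuclideanSpace ℂ x1) := inferInstance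
@[reducible] noncomputable def a22 {x1 : ℕ} : AddZero (Vale.Agent.P369.Fock2 x1) := inferInstance
@[reducible] noncomputable def a23 {x1 : ℕ} : AddZeroClass (Vale.Agent.P369.Fock2 x1) := inferInstance
@[reducible] noncomputable def a24 {x1 : ℕ} : AddMonoid (Vale.Agent.P369.Fock2 x1) := inferInstance
@[reducible] noncomputable def a25 : Module ℝ ℂ := inferInstance
@[reducible] noncomputable def a26 {x1 : ℕ} : MulAction ℂ (Vale.Agent.P369.Fock2 x1) := inferInstance
@[reducible] noncomputable def a27 {x1 : ℕ} : TopologicalSpace (Vale.Agent.P369.Fock2 x1) := inferInstance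
@[reducible] noncomputable def a28 {x1 : ℕ} : UniformSpace (Vale.Agent.P369.Fock2 x1) := inferInstance
theorem a29 {x1 : Type} [x2 : Fintype x1] : ContinuousFunctionalCalculus ℝ (EuclideanSpace ℂ x1 →L[ℂ] EuclideanSpace ℂ x1) IsSelfAdjoint := inferInstance
theorem a30 {x1 : Type} [x2 : Fintype x1] : ContinuousFunctionalCalculus ℂ (EuclideanSpace ℂ x1 →L[ℂ] EuclideanSpace ℂ x1) IsStarNormal := inferInstance
theorem a31 {x1 : ℕ} : IsTopologicalAddGroup (Vale.Agent.P369.Fock x1) := inferInstance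
@[reducible] noncomputable def a32 {x1 : ℕ} {x2 : Vale.Agent.P369.Conf x1} : SMul ((fun x => ℂ) x2) (Vale.Agent.P369.Fock x1) := inferInstance
@[reducible] noncomputable def a33 {x1 : Type} [x2 : Fintype x1] : StarAddMonoid (EuclideanSpace ℂ x1 →L[ℂ] EuclideanSpace ℂ x1) := inferInstance
theorem a34 {x1 : ℕ} : ContinuousConstSMul ℂ (Vale.Agent.P369.Fock x1) := inferInstance
theorem a35 {x1 : ℕ} : ContinuousConstSMul ℂ (Vale.Agent.P369.Fock2 x1) := inferInstance
@[reducible] noncomputable def a36 {x1 : ℕ} : TopologicalSpace (Vale.Agent.P369.Fock x1 →L[ℂ] Vale.Agent.P369.Fock x1) := inferInstance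
@[reducible] noncomputable def a37 {x1 : Type} [x2 : Fintype x1] : Algebra ℂ (EuclideanSpace ℂ x1 →L[ℂ] EuclideanSpace ℂ x1) := inferInstance
@[reducible] noncomputable def a38 {x1 : ℕ} {x2 : Vale.Agent.P369.Conf x1} : SMulZeroClass ((fun x => ℂ) x2) (Vale.Agent.P369.Fock x1) := inferInstance
@[reducible] noncomputable def a39 {x1 : ℕ} : Module ℂ (Vale.Agent.P369.Fock2 x1 →L[ℂ] Vale.Agent.P369.Fock x1) := inferInstance
@[reducible] noncomputable def a40 {x1 : ℕ} : Module ℂ (Vale.Agent.P369.Fock x1 →L[ℂ] Vale.Agent.P369.Fock2 x1) := inferInstance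
theorem a41 {x1 : Type} [x2 : Fintype x1] : ContinuousConstSMul ℝ (EuclideanSpace ℂ x1) := inferInstance
theorem a42 {x1 : Type} [x2 : Fintype x1] : ContinuousAdd (EuclideanSpace ℂ x1) := inferInstance
theorem a43 {x1 : Type} [x2 : Fintype x1] : UniformContinuousConstSMul ℝ (EuclideanSpace ℂ x1) := inferInstance
@[reducible] noncomputable def a44 {x1 : Type} [x2 : Fintype x1] : SMul ℂ (EuclideanSpace ℂ x1 →L[ℂ] EuclideanSpace ℂ x1) := inferInstance
@[reducible] noncomputable def a45 {x1 : ℕ} {x2 : Vale.Agent.P369.Conf x1} : DistribSMul ((fun x => ℂ) x2) (Vale.Agent.P369.Fock x1) := inferInstance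
theorem a46 {x1 : Type} : SMulCommClass ℂ ℝ (WithLp 2 ((i : x1) → (fun x => ℂ) i)) := inferInstance
theorem a47 {x1 : Type} : SMulCommClass ℂ ℝ (x1 → ℂ) := inferInstance
theorem a48 {x1 : ℕ} : ZeroHomClass (Vale.Agent.P369.Fock x1 →L[ℂ] Vale.Agent.P369.Fock x1) (Vale.Agent.P369.Fock x1) (Vale.Agent.P369.Fock x1) := inferInstance
theorem a49 {x1 : ℕ} : AddMonoidHomClass (Vale.Agent.P369.Fock x1 →L[ℂ] Vale.Agent.P369.Fock x1) (Vale.Agent.P369.Fock x1) (Vale.Agent.P369.Fock x1) := inferInstance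
@[reducible] noncomputable def a50 {x1 : Type} [x2 : Fintype x1] : AddCommMonoid (EuclideanSpace ℂ x1 →L[ℂ] EuclideanSpace ℂ x1) := inferInstance
theorem a51 {x1 : ℕ} : AddMonoidHomClass (Vale.Agent.P369.Fock2 x1 →L[ℂ] Vale.Agent.P369.Fock2 x1) (Vale.Agent.P369.Fock2 x1) (Vale.Agent.P369.Fock2 x1) := inferInstance
@[reducible] noncomputable def a52 {x1 : Type} [x2 : Fintype x1] : Add (EuclideanSpace ℂ x1 →L[ℂ] EuclideanSpace ℂ x1) := inferInstance
@[reducible] noncomputable def a53 {x1 : Type} [x2 : Fintype x1] : Semiring (EuclideanSpace ℂ x1 →L[ℂ] EuclideanSpace ℂ x1) := inferInstance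
theorem a54 {x1 : ℕ} : DistribMulActionSemiHomClass (Vale.Agent.P369.Fock x1 →L[ℂ] Vale.Agent.P369.Fock x1) (⇑(RingHom.id ℂ)) (Vale.Agent.P369.Fock x1) (Vale.Agent.P369.Fock x1) := inferInstance
theorem a55 {x1 : ℕ} : DistribMulActionSemiHomClass (Vale.Agent.P369.Fock2 x1 →L[ℂ] Vale.Agent.P369.Fock2 x1) (⇑(RingHom.id ℂ)) (Vale.Agent.P369.Fock2 x1) (Vale.Agent.P369.Fock2 x1) := inferInstance
@[reducible] noncomputable def a56 {x1 : ℕ} : SeminormedAddCommGroup (Vale.Agent.P369.Fock2 x1 →L[ℂ] Vale.Agent.P369.Fock x1) := inferInstance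
theorem a57 {x1 : ℕ} : CompleteSpace (Vale.Agent.P369.Fock x1 →L[ℂ] Vale.Agent.P369.Fock x1) := inferInstance
theorem a58 : SMulCommClass ℂ ℝ ℂ := inferInstance
end AFast14c27fx6b
attribute [local instance] AFast14c27fx6b.a0 AFast14c27fx6b.a1 AFast14c27fx6b.a2 AFast14c27fx6b.a3
  AFast14c27fx6b.a4 AFast14c27fx6b.a5 AFast14c27fx6b.a6 AFast14c27fx6b.a7 AFast14c27fx6b.a8
  AFast14c27fx6b.a9 AFast14c27fx6b.a10 AFast14c27fx6b.a11 AFast14c27fx6b.a12 AFast14c27fx6b.a13
  AFast14c27fx6b.a14 AFast14c27fx6b.a15 AFast14c27fx6b.a16 AFast14c27fx6b.a17 AFast14c27fx6b.a18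
  AFast14c27fx6b.a19 AFast14c27fx6b.a20 AFast14c27fx6b.a21 AFast14c27fx6b.a22 AFast14c27fx6b.a23
  AFast14c27fx6b.a24 AFast14c27fx6b.a25 AFast14c27fx6b.a26 AFast14c27fx6b.a27 AFast14c27fx6b.a28
  AFast14c27fx6b.a29 AFast14c27fx6b.a30 AFast14c27fx6b.a31 AFast14c27fx6b.a32 AFast14c27fx6b.a33
  AFast14c27fx6b.a34 AFast14c27fx6b.a35 AFast14c27fx6b.a36 AFast14c27fx6b.a37 AFast14c27fx6b.a38
  AFast14c27fx6b.a39 AFast14c27fx6b.a40 AFast14c27fx6b.a41 AFast14c27fx6b.a42 AFast14c27fx6b.a43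
  AFast14c27fx6b.a44 AFast14c27fx6b.a45 AFast14c27fx6b.a46 AFast14c27fx6b.a47 AFast14c27fx6b.a48
  AFast14c27fx6b.a49 AFast14c27fx6b.a50 AFast14c27fx6b.a51 AFast14c27fx6b.a52 AFast14c27fx6b.a53
  AFast14c27fx6b.a54 AFast14c27fx6b.a55 AFast14c27fx6b.a56 AFast14c27fx6b.a57 AFast14c27fx6b.a58
section

attribute [-instance] ProperSMul.toContinuousSMul IsTopologicalTorsor.toContinuousSMul IdemSemiring.toCanonicallyOrderedAdd IdemSemiring.toMulLeftMono IdemSemiring.toMulRightMono AddQuantale.instAddLeftMono AddQuantale.instAddRightMono Quantale.instMulLeftMono Quantale.instMulRightMono FiniteDimensional.rclike_to_real IsScalarTower.complexToReal FiniteDimensional.complexToReal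

section

/-!
P369A: the rectangular metric. For positive definite `σ : Matrix ι ι ℂ`, `ρ : Matrix κ κ ℂ` and
`V : Matrix ι κ ℂ`, the operator `V ↦ (1-ν) V ρ + ν σ V`, its inverse and its quadratic form.
-/

namespace Vale.Agent.P369A

open Matrix MeasureTheory Set
open scoped Kronecker InnerProductSpace ComplexOrder

noncomputable section

variable {ι κ : Type} [Fintype ι] [DecidableEq ι] [Fintype κ] [DecidableEq κ]

/-- `V ↦ (1-ν) V ρ + ν σ V` -/
def Kop (ν : ℝ) (σ : Matrix ι ι ℂ) (ρ : Matrix κ κ ℂ) (V : Matrix ι κ ℂ) : Matrix ι κ ℂ :=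
  ((1 - ν : ℝ) : ℂ) • (V * ρ) + (ν : ℂ) • (σ * V)

/-- the matrix of `Kop ν σ ρ` -/
def Kmat (ν : ℝ) (σ : Matrix ι ι ℂ) (ρ : Matrix κ κ ℂ) : Matrix (ι × κ) (ι × κ) ℂ :=
  ((1 - ν : ℝ) : ℂ) • ((1 : Matrix ι ι ℂ) ⊗ₖ ρᵀ) + (ν : ℂ) • (σ ⊗ₖ (1 : Matrix κ κ ℂ))

/-- a matrix as a vector -/
def mvec (V : Matrix ι κ ℂ) : ι × κ → ℂ := fun p => V p.1 p.2

/-- the inverse of `Kop ν σ ρ` -/
def Kinv (ν : ℝ) (σ : Matrix ι ι ℂ) (ρ : Matrix κ κ ℂ) (Z : Matrix ι κ ℂ) : Matrix ι κ ℂ :=
  fun i j => ((Kmat ν σ ρ)⁻¹ *ᵥ mvec Z) (i, j)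

/-- `⟨Z, K_ν⁻¹ Z⟩` -/
def Qf (ν : ℝ) (σ : Matrix ι ι ℂ) (ρ : Matrix κ κ ℂ) (Z : Matrix ι κ ℂ) : ℝ :=
  (Zᴴ * Kinv ν σ ρ Z).trace.re

/-- `pen_ν(V) = (1-ν) Tr ρ V†V + ν Tr σ V V†` -/
def pen (ν : ℝ) (σ : Matrix ι ι ℂ) (ρ : Matrix κ κ ℂ) (V : Matrix ι κ ℂ) : ℝ :=
  (1 - ν) * (ρ * (Vᴴ * V)).trace.re + ν * (σ * (V * Vᴴ)).trace.re

/-! ### the inverse -/

theorem Kmat_posDef {ν : ℝ} (hν : ν ∈ Icc (0 : ℝ) 1) {σ : Matrix ι ι ℂ} {ρ : Matrix κ κ ℂ}
    (hσ : σ.PosDef) (hρ : ρ.PosDef) : (Kmat ν σ ρ).PosDef := by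
  have h1 : ((1 : Matrix ι ι ℂ) ⊗ₖ ρᵀ).PosDef := Matrix.PosDef.one.kronecker hρ.transpose
  have h2 : (σ ⊗ₖ (1 : Matrix κ κ ℂ)).PosDef := hσ.kronecker Matrix.PosDef.one
  unfold Kmat
  rcases hν.1.eq_or_lt with h | h
  · subst h
    have h3 : (((1 - 0 : ℝ) : ℂ) • ((1 : Matrix ι ι ℂ) ⊗ₖ ρᵀ) +
        ((0 : ℝ) : ℂ) • (σ ⊗ₖ (1 : Matrix κ κ ℂ))) = (1 : Matrix ι ι ℂ) ⊗ₖ ρᵀ := by
      simp
    rw [h3]
    exact h1
  · have h3 : (0 : ℂ) ≤ ((1 - ν : ℝ) : ℂ) := by
      exact_mod_cast sub_nonneg.2 hν.2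
    have h4 : (0 : ℂ) < (ν : ℂ) := by
      exact_mod_cast h
    exact Matrix.PosDef.posSemidef_add (h1.posSemidef.smul h3) (h2.smul h4)

theorem isUnit_det_Kmat {ν : ℝ} (hν : ν ∈ Icc (0 : ℝ) 1) {σ : Matrix ι ι ℂ} {ρ : Matrix κ κ ℂ}
    (hσ : σ.PosDef) (hρ : ρ.PosDef) : IsUnit (Kmat ν σ ρ).det :=
  (Matrix.isUnit_iff_isUnit_det _).1 (Kmat_posDef hν hσ hρ).isUnit

theorem Kmat_mulVec (ν : ℝ) (σ : Matrix ι ι ℂ) (ρ : Matrix κ κ ℂ) (V : Matrix ι κ ℂ) :
    Kmat ν σ ρ *ᵥ mvec V = mvec (Kop ν σ ρ V) := by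
  ext ⟨i, j⟩
  unfold Kmat mvec Kop Matrix.mulVec dotProduct
  rw [Fintype.sum_prod_type]
  simp only [Matrix.add_apply, Matrix.smul_apply, smul_eq_mul, kroneckerMap_apply,
    Matrix.transpose_apply, Matrix.mul_apply, add_mul, Finset.sum_add_distrib, Finset.mul_sum]
  congr 1
  · rw [Finset.sum_eq_single i]
    · refine Finset.sum_congr rfl fun k _ => ?_
      rw [Matrix.one_apply_eq]
      ring
    · intro k _ hk
      refine Finset.sum_eq_zero fun l _ => ?_
      rw [Matrix.one_apply_ne hk.symm]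
      ring
    · intro h
      exact absurd (Finset.mem_univ i) h
  · refine Finset.sum_congr rfl fun k _ => ?_
    rw [Finset.sum_eq_single j]
    · rw [Matrix.one_apply_eq]
      ring
    · intro l _ hl
      rw [Matrix.one_apply_ne hl.symm]
      ring
    · intro h
      exact absurd (Finset.mem_univ j) h

theorem mvec_Kinv (ν : ℝ) (σ : Matrix ι ι ℂ) (ρ : Matrix κ κ ℂ) (Z : Matrix ι κ ℂ) :
    mvec (Kinv ν σ ρ Z) = (Kmat ν σ ρ)⁻¹ *ᵥ mvec Z := rfl

omit [Fintype ι] [DecidableEq ι] [Fintype κ] [DecidableEq κ] in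
theorem mvec_inj {V W : Matrix ι κ ℂ} (h : mvec V = mvec W) : V = W := by
  ext i j
  exact congrFun h (i, j)

theorem Kop_Kinv {ν : ℝ} (hν : ν ∈ Icc (0 : ℝ) 1) {σ : Matrix ι ι ℂ} {ρ : Matrix κ κ ℂ}
    (hσ : σ.PosDef) (hρ : ρ.PosDef) (Z : Matrix ι κ ℂ) : Kop ν σ ρ (Kinv ν σ ρ Z) = Z := by
  apply mvec_inj
  rw [← Kmat_mulVec, mvec_Kinv, Matrix.mulVec_mulVec,
    Matrix.mul_nonsing_inv _ (isUnit_det_Kmat hν hσ hρ), Matrix.one_mulVec]

theorem Kinv_Kop {ν : ℝ} (hν : ν ∈ Icc (0 : ℝ) 1) {σ : Matrix ι ι ℂ} {ρ : Matrix κ κ ℂ}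
    (hσ : σ.PosDef) (hρ : ρ.PosDef) (V : Matrix ι κ ℂ) : Kinv ν σ ρ (Kop ν σ ρ V) = V := by
  apply mvec_inj
  rw [mvec_Kinv, ← Kmat_mulVec, Matrix.mulVec_mulVec,
    Matrix.nonsing_inv_mul _ (isUnit_det_Kmat hν hσ hρ), Matrix.one_mulVec]

theorem Kinv_eq {ν : ℝ} (hν : ν ∈ Icc (0 : ℝ) 1) {σ : Matrix ι ι ℂ} {ρ : Matrix κ κ ℂ}
    (hσ : σ.PosDef) (hρ : ρ.PosDef) {Z V : Matrix ι κ ℂ} (h : Kop ν σ ρ V = Z) :
    Kinv ν σ ρ Z = V := by
  rw [← h, Kinv_Kop hν hσ hρ]

theorem Kinv_add {ν : ℝ} {σ : Matrix ι ι ℂ} {ρ : Matrix κ κ ℂ} (Z W : Matrix ι κ ℂ) :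
    Kinv ν σ ρ (Z + W) = Kinv ν σ ρ Z + Kinv ν σ ρ W := by
  apply mvec_inj
  have h : mvec (Z + W) = mvec Z + mvec W := rfl
  have h' : mvec (Kinv ν σ ρ Z + Kinv ν σ ρ W) = mvec (Kinv ν σ ρ Z) + mvec (Kinv ν σ ρ W) := rfl
  rw [mvec_Kinv, h, h', mvec_Kinv, mvec_Kinv, Matrix.mulVec_add]

theorem Kinv_smul {ν : ℝ} {σ : Matrix ι ι ℂ} {ρ : Matrix κ κ ℂ} (c : ℂ) (Z : Matrix ι κ ℂ) :
    Kinv ν σ ρ (c • Z) = c • Kinv ν σ ρ Z := by
  apply mvec_inj
  have h : mvec (c • Z) = c • mvec Z := rfl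
  have h' : mvec (c • Kinv ν σ ρ Z) = c • mvec (Kinv ν σ ρ Z) := rfl
  rw [mvec_Kinv, h, h', mvec_Kinv, Matrix.mulVec_smul]

theorem Qf_smul {ν : ℝ} {σ : Matrix ι ι ℂ} {ρ : Matrix κ κ ℂ} (c : ℝ) (Z : Matrix ι κ ℂ) :
    Qf ν σ ρ ((c : ℂ) • Z) = c ^ 2 * Qf ν σ ρ Z := by
  unfold Qf
  rw [Kinv_smul, Matrix.conjTranspose_smul, Matrix.smul_mul, Matrix.mul_smul, smul_smul,
    Matrix.trace_smul]
  have h : star (c : ℂ) * (c : ℂ) = ((c ^ 2 : ℝ) : ℂ) := by
    have h1 : star ((c : ℝ) : ℂ) = ((c : ℝ) : ℂ) := Complex.conj_ofReal _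
    rw [h1]
    push_cast
    ring
  rw [h, smul_eq_mul, Complex.re_ofReal_mul]

/-! ### the form `⟨A, Kop B⟩` -/

omit [DecidableEq ι] [DecidableEq κ] in
theorem Kop_sub (ν : ℝ) (σ : Matrix ι ι ℂ) (ρ : Matrix κ κ ℂ) (V W : Matrix ι κ ℂ) :
    Kop ν σ ρ (V - W) = Kop ν σ ρ V - Kop ν σ ρ W := by
  unfold Kop
  rw [Matrix.sub_mul, Matrix.mul_sub, smul_sub, smul_sub]
  abel

omit [DecidableEq κ] in
theorem re_trace_conjTranspose (A : Matrix κ κ ℂ) : (Aᴴ.trace).re = A.trace.re := by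
  rw [Matrix.trace_conjTranspose]
  rfl

omit [DecidableEq ι] [DecidableEq κ] in
/-- `pen ν σ ρ V = Re ⟨V, Kop V⟩` -/
theorem pen_eq (ν : ℝ) (σ : Matrix ι ι ℂ) (ρ : Matrix κ κ ℂ) (V : Matrix ι κ ℂ) :
    pen ν σ ρ V = (Vᴴ * Kop ν σ ρ V).trace.re := by
  unfold pen Kop
  rw [Matrix.mul_add, Matrix.mul_smul, Matrix.mul_smul, Matrix.trace_add, Matrix.trace_smul,
    Matrix.trace_smul, Complex.add_re, smul_eq_mul, smul_eq_mul, Complex.re_ofReal_mul,
    Complex.re_ofReal_mul]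
  congr 2
  · rw [Matrix.trace_mul_comm ρ, Matrix.mul_assoc]
  · rw [Matrix.trace_mul_comm Vᴴ, Matrix.mul_assoc]

omit [DecidableEq ι] [DecidableEq κ] in
/-- `Re ⟨V, Kop W⟩` is symmetric -/
theorem Kop_symm {ν : ℝ} {σ : Matrix ι ι ℂ} {ρ : Matrix κ κ ℂ} (hσ : σ.IsHermitian)
    (hρ : ρ.IsHermitian) (V W : Matrix ι κ ℂ) :
    (Vᴴ * Kop ν σ ρ W).trace.re = ((Kop ν σ ρ V)ᴴ * W).trace.re := by
  have h : (Vᴴ * Kop ν σ ρ W).trace = ((Kop ν σ ρ V)ᴴ * W).trace := by
    unfold Kop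
    rw [Matrix.mul_add, Matrix.mul_smul, Matrix.mul_smul, Matrix.trace_add, Matrix.trace_smul,
      Matrix.trace_smul, Matrix.conjTranspose_add, Matrix.conjTranspose_smul,
      Matrix.conjTranspose_smul, Matrix.conjTranspose_mul, Matrix.conjTranspose_mul, hρ.eq, hσ.eq,
      Matrix.add_mul, Matrix.trace_add, Matrix.smul_mul, Matrix.smul_mul, Matrix.trace_smul,
      Matrix.trace_smul]
    have h1 : star (((1 - ν : ℝ)) : ℂ) = ((1 - ν : ℝ) : ℂ) := Complex.conj_ofReal _
    have h2 : star ((ν : ℝ) : ℂ) = ((ν : ℝ) : ℂ) := Complex.conj_ofReal _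
    rw [h1, h2]
    congr 2
    · rw [← Matrix.mul_assoc, Matrix.trace_mul_comm (Vᴴ * W) ρ, Matrix.mul_assoc]
    · rw [Matrix.mul_assoc]
  rw [h]

omit [DecidableEq ι] [DecidableEq κ] in
theorem pen_nonneg {ν : ℝ} (hν : ν ∈ Icc (0 : ℝ) 1) {σ : Matrix ι ι ℂ} {ρ : Matrix κ κ ℂ}
    (hσ : σ.PosSemidef) (hρ : ρ.PosSemidef) (V : Matrix ι κ ℂ) : 0 ≤ pen ν σ ρ V := by
  unfold pen
  have h1 : 0 ≤ (ρ * (Vᴴ * V)).trace.re := by
    have h : (ρ * (Vᴴ * V)).trace = (V * ρ * Vᴴ).trace := by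
      rw [← Matrix.mul_assoc, Matrix.trace_mul_comm, ← Matrix.mul_assoc]
    rw [h]
    have h3 : (0 : ℂ) ≤ (V * ρ * Vᴴ).trace := (hρ.mul_mul_conjTranspose_same V).trace_nonneg
    exact (Complex.le_def.1 h3).1
  have h2 : 0 ≤ (σ * (V * Vᴴ)).trace.re := by
    have h : (σ * (V * Vᴴ)).trace = (Vᴴ * σ * V).trace := by
      rw [← Matrix.mul_assoc, Matrix.trace_mul_comm, ← Matrix.mul_assoc]
    rw [h]
    have h3 : (0 : ℂ) ≤ (Vᴴ * σ * V).trace := (hσ.conjTranspose_mul_mul_same V).trace_nonneg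
    exact (Complex.le_def.1 h3).1
  exact add_nonneg (mul_nonneg (sub_nonneg.2 hν.2) h1) (mul_nonneg hν.1 h2)

theorem pen_Kinv {ν : ℝ} (hν : ν ∈ Icc (0 : ℝ) 1) {σ : Matrix ι ι ℂ} {ρ : Matrix κ κ ℂ}
    (hσ : σ.PosDef) (hρ : ρ.PosDef) (Z : Matrix ι κ ℂ) :
    pen ν σ ρ (Kinv ν σ ρ Z) = Qf ν σ ρ Z := by
  rw [pen_eq, Kop_symm hσ.isHermitian hρ.isHermitian, Kop_Kinv hν hσ hρ]
  rfl

/-- variational principle -/
theorem two_re_sub_pen_le {ν : ℝ} (hν : ν ∈ Icc (0 : ℝ) 1) {σ : Matrix ι ι ℂ} {ρ : Matrix κ κ ℂ}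
    (hσ : σ.PosDef) (hρ : ρ.PosDef) (Z V : Matrix ι κ ℂ) :
    2 * (Zᴴ * V).trace.re - pen ν σ ρ V ≤ Qf ν σ ρ Z := by
  have h0 := pen_nonneg hν hσ.posSemidef hρ.posSemidef (V - Kinv ν σ ρ Z)
  rw [pen_eq, Kop_sub, Kop_Kinv hν hσ hρ, Matrix.conjTranspose_sub, Matrix.sub_mul,
    Matrix.mul_sub, Matrix.mul_sub, Matrix.trace_sub, Matrix.trace_sub, Matrix.trace_sub,
    Complex.sub_re, Complex.sub_re, Complex.sub_re, ← pen_eq,
    Kop_symm hσ.isHermitian hρ.isHermitian (Kinv ν σ ρ Z) V, Kop_Kinv hν hσ hρ] at h0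
  have h1 : (Vᴴ * Z).trace.re = (Zᴴ * V).trace.re := by
    rw [← re_trace_conjTranspose (Zᴴ * V), Matrix.conjTranspose_mul,
      Matrix.conjTranspose_conjTranspose]
  have h2 : ((Kinv ν σ ρ Z)ᴴ * Z).trace.re = Qf ν σ ρ Z := by
    unfold Qf
    rw [← re_trace_conjTranspose (Zᴴ * Kinv ν σ ρ Z), Matrix.conjTranspose_mul,
      Matrix.conjTranspose_conjTranspose]
  rw [h1, h2] at h0
  linarith only [h0]

/-- the value of the quadratic form is attained at `Kinv ν σ ρ Z` -/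
theorem Qf_attained {ν : ℝ} (hν : ν ∈ Icc (0 : ℝ) 1) {σ : Matrix ι ι ℂ} {ρ : Matrix κ κ ℂ}
    (hσ : σ.PosDef) (hρ : ρ.PosDef) (Z : Matrix ι κ ℂ) :
    2 * (Zᴴ * Kinv ν σ ρ Z).trace.re - pen ν σ ρ (Kinv ν σ ρ Z) = Qf ν σ ρ Z := by
  rw [pen_Kinv hν hσ hρ]
  unfold Qf
  ring

theorem Qf_nonneg {ν : ℝ} (hν : ν ∈ Icc (0 : ℝ) 1) {σ : Matrix ι ι ℂ} {ρ : Matrix κ κ ℂ}
    (hσ : σ.PosDef) (hρ : ρ.PosDef) (Z : Matrix ι κ ℂ) : 0 ≤ Qf ν σ ρ Z := by
  rw [← pen_Kinv hν hσ hρ]
  exact pen_nonneg hν hσ.posSemidef hρ.posSemidef _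

/-- upper bounds for the quadratic form -/
theorem Qf_le {ν : ℝ} (hν : ν ∈ Icc (0 : ℝ) 1) {σ : Matrix ι ι ℂ} {ρ : Matrix κ κ ℂ}
    (hσ : σ.PosDef) (hρ : ρ.PosDef) {Z : Matrix ι κ ℂ} {C : ℝ}
    (h : ∀ V : Matrix ι κ ℂ, 2 * (Zᴴ * V).trace.re - pen ν σ ρ V ≤ C) : Qf ν σ ρ Z ≤ C := by
  rw [← Qf_attained hν hσ hρ]
  exact h _

/-! ### continuity -/

omit [Fintype ι] [Fintype κ] in
theorem continuous_Kmat :
    Continuous (fun p : ℝ × Matrix ι ι ℂ × Matrix κ κ ℂ × Matrix ι κ ℂ => Kmat p.1 p.2.1 p.2.2.1) := by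
  refine continuous_matrix fun i j => ?_
  have h1 : Continuous (fun p : ℝ × Matrix ι ι ℂ × Matrix κ κ ℂ × Matrix ι κ ℂ =>
      p.2.2.1 j.2 i.2) :=
    (continuous_fst.comp (continuous_snd.comp continuous_snd)).matrix_elem _ _
  have h2 : Continuous (fun p : ℝ × Matrix ι ι ℂ × Matrix κ κ ℂ × Matrix ι κ ℂ =>
      p.2.1 i.1 j.1) :=
    (continuous_fst.comp continuous_snd).matrix_elem _ _
  have h3 : Continuous (fun p : ℝ × Matrix ι ι ℂ × Matrix κ κ ℂ × Matrix ι κ ℂ =>
      ((1 - p.1 : ℝ) : ℂ)) :=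
    Complex.continuous_ofReal.comp (continuous_const.sub continuous_fst)
  have h4 : Continuous (fun p : ℝ × Matrix ι ι ℂ × Matrix κ κ ℂ × Matrix ι κ ℂ =>
      ((p.1 : ℝ) : ℂ)) := Complex.continuous_ofReal.comp continuous_fst
  simp only [Kmat, Matrix.add_apply, Matrix.smul_apply, Matrix.kroneckerMap_apply,
    Matrix.transpose_apply, smul_eq_mul]
  exact (h3.mul (continuous_const.mul h1)).add (h4.mul (h2.mul continuous_const))

/-- joint continuity of the quadratic form -/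
theorem continuousOn_Qf : ContinuousOn
    (fun p : ℝ × Matrix ι ι ℂ × Matrix κ κ ℂ × Matrix ι κ ℂ => Qf p.1 p.2.1 p.2.2.1 p.2.2.2)
    (Icc (0 : ℝ) 1 ×ˢ ({σ : Matrix ι ι ℂ | σ.PosDef} ×ˢ
      ({ρ : Matrix κ κ ℂ | ρ.PosDef} ×ˢ Set.univ))) := by
  rintro p ⟨hν, hσ, hρ, -⟩
  apply ContinuousAt.continuousWithinAt
  have hd : (Kmat p.1 p.2.1 p.2.2.1).det ≠ 0 := (isUnit_det_Kmat hν hσ hρ).ne_zero
  have hK : ContinuousAt (fun p : ℝ × Matrix ι ι ℂ × Matrix κ κ ℂ × Matrix ι κ ℂ =>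
      (Kmat p.1 p.2.1 p.2.2.1)⁻¹) p := by
    have h1 : ContinuousAt (fun p : ℝ × Matrix ι ι ℂ × Matrix κ κ ℂ × Matrix ι κ ℂ =>
        (Kmat p.1 p.2.1 p.2.2.1).det⁻¹) p :=
      (continuous_Kmat.matrix_det.continuousAt).inv₀ hd
    have h2 : ContinuousAt (fun p : ℝ × Matrix ι ι ℂ × Matrix κ κ ℂ × Matrix ι κ ℂ =>
        (Kmat p.1 p.2.1 p.2.2.1).adjugate) p :=
      continuous_Kmat.matrix_adjugate.continuousAt
    have h3 := h1.smul h2
    refine h3.congr (Filter.Eventually.of_forall fun q => ?_)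
    simp only [Matrix.inv_def, Ring.inverse_eq_inv']
    rfl
  have hZ : Continuous (fun p : ℝ × Matrix ι ι ℂ × Matrix κ κ ℂ × Matrix ι κ ℂ => p.2.2.2) :=
    continuous_snd.comp (continuous_snd.comp continuous_snd)
  have hKi : ∀ i j, ContinuousAt (fun p : ℝ × Matrix ι ι ℂ × Matrix κ κ ℂ × Matrix ι κ ℂ =>
      Kinv p.1 p.2.1 p.2.2.1 p.2.2.2 i j) p := by
    intro i j
    simp only [Kinv, mulVec, dotProduct, mvec]
    refine tendsto_finsetSum _ fun k _ => ?_
    refine Filter.Tendsto.mul ?_ ?_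
    · exact ((continuous_id.matrix_elem (i, j) k).tendsto _).comp hK
    · exact (hZ.matrix_elem _ _).continuousAt
  simp only [Qf, Matrix.trace, Matrix.diag_apply, Matrix.mul_apply, Matrix.conjTranspose_apply]
  refine (Complex.continuous_re.tendsto _).comp ?_
  refine tendsto_finsetSum _ fun k _ => ?_
  refine tendsto_finsetSum _ fun l _ => ?_
  refine Filter.Tendsto.mul ?_ (hKi l k)
  exact ((hZ.matrix_elem l k).star).continuousAt

/-! ### the eigenbasis -/

theorem den_pos {ν a b : ℝ} (hν : ν ∈ Icc (0 : ℝ) 1) (ha : 0 < a) (hb : 0 < b) :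
    0 < (1 - ν) * a + ν * b := by
  rcases hν.1.eq_or_lt with h | h
  · rw [← h]
    linarith only [ha]
  · have h1 := mul_pos h hb
    have h2 := mul_nonneg (sub_nonneg.2 hν.2) ha.le
    linarith only [h1, h2]

open P369V (e2_dg e2_cj e2_cj_mul e2_cj_tr e2_cj_H e2_int)

/-- eigen-decomposition data of a positive definite matrix -/
theorem exists_eig {ρ : Matrix κ κ ℂ} (hρ : ρ.PosDef) :
    ∃ (T : Matrix κ κ ℂ) (p : κ → ℝ), star T * T = 1 ∧ T * star T = 1 ∧ (∀ i, 0 < p i) ∧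
      ρ = T * e2_dg p * star T ∧
      ∀ f : ℝ → ℝ, cfc f ρ = T * e2_dg (fun i => f (p i)) * star T := by
  refine ⟨(hρ.isHermitian.eigenvectorUnitary : Matrix κ κ ℂ), hρ.isHermitian.eigenvalues,
    Unitary.coe_star_mul_self _, Unitary.coe_mul_star_self _, fun i => hρ.eigenvalues_pos i,
    ?_, fun f => ?_⟩
  · have h := hρ.isHermitian.spectral_theorem
    rw [Unitary.conjStarAlgAut_apply] at h
    exact h
  · rw [hρ.isHermitian.cfc_eq]
    unfold Matrix.IsHermitian.cfc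
    rw [Unitary.conjStarAlgAut_apply]
    rfl

/-- the quadratic form in eigenbases of `σ` and `ρ` -/
theorem Qf_eigen {ν : ℝ} (hν : ν ∈ Icc (0 : ℝ) 1) {U : Matrix ι ι ℂ} {q : ι → ℝ}
    {T : Matrix κ κ ℂ} {p : κ → ℝ} (hU : star U * U = 1)
    (hT : star T * T = 1) (hq : ∀ i, 0 < q i) (hp : ∀ i, 0 < p i)
    (hσ : (U * e2_dg q * star U).PosDef) (hρ : (T * e2_dg p * star T).PosDef)
    (B : Matrix ι κ ℂ) :
    Qf ν (U * e2_dg q * star U) (T * e2_dg p * star T) (U * B * star T) =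
      ∑ k, ∑ l, Complex.normSq (B k l) / ((1 - ν) * p l + ν * q k) := by
  set Y : Matrix ι κ ℂ := fun k l => B k l / (((1 - ν) * p l + ν * q k : ℝ) : ℂ) with hY
  have h1 : Kop ν (U * e2_dg q * star U) (T * e2_dg p * star T) (U * Y * star T) =
      U * B * star T := by
    have e1 : U * Y * star T * (T * e2_dg p * star T) = U * (Y * e2_dg p) * star T := by
      calc U * Y * star T * (T * e2_dg p * star T)
          = U * Y * (star T * T) * e2_dg p * star T := by simp only [Matrix.mul_assoc]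
        _ = U * (Y * e2_dg p) * star T := by rw [hT, Matrix.mul_one]; simp only [Matrix.mul_assoc]
    have e2 : U * e2_dg q * star U * (U * Y * star T) = U * (e2_dg q * Y) * star T := by
      calc U * e2_dg q * star U * (U * Y * star T)
          = U * e2_dg q * (star U * U) * Y * star T := by simp only [Matrix.mul_assoc]
        _ = U * (e2_dg q * Y) * star T := by rw [hU, Matrix.mul_one]; simp only [Matrix.mul_assoc]
    unfold Kop
    rw [e1, e2]
    have e3 : ((1 - ν : ℝ) : ℂ) • (U * (Y * e2_dg p) * star T) +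
        (ν : ℂ) • (U * (e2_dg q * Y) * star T) =
        U * (((1 - ν : ℝ) : ℂ) • (Y * e2_dg p) + (ν : ℂ) • (e2_dg q * Y)) * star T := by
      rw [Matrix.mul_add, Matrix.add_mul, Matrix.mul_smul, Matrix.mul_smul, Matrix.smul_mul,
        Matrix.smul_mul]
    rw [e3]
    congr 2
    ext k l
    unfold e2_dg
    rw [Matrix.add_apply, Matrix.smul_apply, Matrix.smul_apply, mul_diagonal, diagonal_mul, hY]
    have h3 : ((((1 - ν) * p l + ν * q k : ℝ)) : ℂ) ≠ 0 := by
      exact_mod_cast (den_pos hν (hp l) (hq k)).ne'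
    simp only [smul_eq_mul]
    rw [← sub_eq_zero]
    field_simp
    push_cast
    ring
  unfold Qf
  rw [Kinv_eq hν hσ hρ h1]
  have h2 : (U * B * star T)ᴴ * (U * Y * star T) = T * (Bᴴ * Y) * star T := by
    rw [conjTranspose_mul, conjTranspose_mul, ← star_eq_conjTranspose (star T), star_star]
    calc T * (Bᴴ * Uᴴ) * (U * Y * star T)
        = T * Bᴴ * (Uᴴ * U) * Y * star T := by simp only [Matrix.mul_assoc]
      _ = T * (Bᴴ * Y) * star T := by
          rw [← star_eq_conjTranspose U, hU, Matrix.mul_one]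
          simp only [Matrix.mul_assoc]
  rw [h2, trace_mul_comm, ← Matrix.mul_assoc, hT, Matrix.one_mul, trace, Complex.re_sum,
    Finset.sum_comm]
  refine Finset.sum_congr rfl fun l _ => ?_
  rw [diag_apply, mul_apply, Complex.re_sum]
  refine Finset.sum_congr rfl fun k _ => ?_
  rw [conjTranspose_apply]
  have h : star (B k l) * Y k l = ((Complex.normSq (B k l) / ((1 - ν) * p l + ν * q k) : ℝ) : ℂ) := by
    rw [hY, Complex.ofReal_div, Complex.normSq_eq_conj_mul_self, mul_div_assoc]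
    rfl
  rw [h, Complex.ofReal_re]

/-- any rectangular matrix in eigenbases -/
theorem conj_unitary {U : Matrix ι ι ℂ} {T : Matrix κ κ ℂ} (hU' : U * star U = 1)
    (hT' : T * star T = 1) (Z : Matrix ι κ ℂ) : U * (star U * Z * T) * star T = Z := by
  calc U * (star U * Z * T) * star T = (U * star U) * Z * (T * star T) := by
        simp only [Matrix.mul_assoc]
    _ = Z := by rw [hU', hT', Matrix.one_mul, Matrix.mul_one]

/-- joint convexity -/
theorem Qf_joint_convex {σ : Matrix ι ι ℂ} {ρ : Matrix κ κ ℂ} (hσ : σ.PosDef) (hρ : ρ.PosDef)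
    (Z : Matrix ι κ ℂ) {ν₀ ν₁ w₀ w₁ s : ℝ}
    (h0 : ν₀ ∈ Icc (0 : ℝ) 1) (h1 : ν₁ ∈ Icc (0 : ℝ) 1) (hs0 : 0 ≤ s) (hs1 : s ≤ 1) :
    ((1 - s) * w₀ + s * w₁) ^ 2 * Qf ((1 - s) * ν₀ + s * ν₁) σ ρ Z ≤
      (1 - s) * (w₀ ^ 2 * Qf ν₀ σ ρ Z) + s * (w₁ ^ 2 * Qf ν₁ σ ρ Z) := by
  have hs : (1 - s) * ν₀ + s * ν₁ ∈ Icc (0 : ℝ) 1 := by
    have := (convex_Icc (0 : ℝ) 1) h0 h1 (sub_nonneg.2 hs1) hs0 (by ring)
    simpa only [mem_Icc, smul_eq_mul] using this
  obtain ⟨U, q, hU, hU', hq, hσe, -⟩ := exists_eig hσ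
  obtain ⟨T, p, hT, hT', hp, hρe, -⟩ := exists_eig hρ
  have hZ := conj_unitary hU' hT' Z
  set B : Matrix ι κ ℂ := star U * Z * T with hB
  rw [hσe] at hσ
  rw [hρe] at hρ
  rw [hσe, hρe, ← hZ, Qf_eigen hs hU hT hq hp hσ hρ,
    Qf_eigen h0 hU hT hq hp hσ hρ, Qf_eigen h1 hU hT hq hp hσ hρ]
  simp only [Finset.mul_sum]
  rw [← Finset.sum_add_distrib]
  refine Finset.sum_le_sum fun k _ => ?_
  rw [← Finset.sum_add_distrib]
  refine Finset.sum_le_sum fun l _ => ?_
  have hL0 := den_pos h0 (hp l) (hq k)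
  have hL1 := den_pos h1 (hp l) (hq k)
  have e1 : (1 - ((1 - s) * ν₀ + s * ν₁)) * p l + ((1 - s) * ν₀ + s * ν₁) * q k =
      (1 - s) * ((1 - ν₀) * p l + ν₀ * q k) + s * ((1 - ν₁) * p l + ν₁ * q k) := by ring
  rw [e1]
  have aux : ∀ {L₀ L₁ : ℝ}, 0 < L₀ → 0 < L₁ → ((1 - s) * w₀ + s * w₁) ^ 2 /
      ((1 - s) * L₀ + s * L₁) ≤ (1 - s) * (w₀ ^ 2 / L₀) + s * (w₁ ^ 2 / L₁) := by
    intro L₀ L₁ h0 h1
    have hL : 0 < (1 - s) * L₀ + s * L₁ := den_pos ⟨hs0, hs1⟩ h0 h1
    rw [div_le_iff₀ hL]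
    have h : ((1 - s) * (w₀ ^ 2 / L₀) + s * (w₁ ^ 2 / L₁)) * ((1 - s) * L₀ + s * L₁) -
        ((1 - s) * w₀ + s * w₁) ^ 2 = (1 - s) * s * ((w₀ * L₁ - w₁ * L₀) ^ 2 / (L₀ * L₁)) := by
      field_simp
      ring
    have h2 : 0 ≤ (1 - s) * s * ((w₀ * L₁ - w₁ * L₀) ^ 2 / (L₀ * L₁)) :=
      mul_nonneg (mul_nonneg (sub_nonneg.2 hs1) hs0)
        (div_nonneg (sq_nonneg _) (mul_pos h0 h1).le)
    linarith
  have h2 := mul_le_mul_of_nonneg_left (aux hL0 hL1) (Complex.normSq_nonneg (B k l))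
  refine le_trans (le_of_eq ?_) (h2.trans (le_of_eq ?_))
  · ring
  · ring

/-! ### compressions -/

/-- compressing lowers the quadratic form -/
theorem Qf_compress_le {ι' κ' : Type} [Fintype ι'] [DecidableEq ι'] [Fintype κ'] [DecidableEq κ']
    {ν : ℝ} (hν : ν ∈ Icc (0 : ℝ) 1) {σ : Matrix ι ι ℂ} {ρ : Matrix κ κ ℂ}
    {σ' : Matrix ι' ι' ℂ} {ρ' : Matrix κ' κ' ℂ} (hσ : σ.PosDef) (hρ : ρ.PosDef)
    (hσ' : σ'.PosDef) (hρ' : ρ'.PosDef) {G : Matrix ι' ι ℂ} {E : Matrix κ' κ ℂ}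
    (hG : Gᴴ * G = 1) (hE : Eᴴ * E = 1) (h1 : Gᴴ * σ' * G = σ) (h2 : Eᴴ * ρ' * E = ρ)
    (Z' : Matrix ι' κ' ℂ) : Qf ν σ ρ (Gᴴ * Z' * E) ≤ Qf ν σ' ρ' Z' := by
  refine Qf_le hν hσ hρ fun V => ?_
  refine le_trans (le_of_eq ?_) (two_re_sub_pen_le hν hσ' hρ' Z' (G * V * Eᴴ))
  have e1 : ((Gᴴ * Z' * E)ᴴ * V).trace = (Z'ᴴ * (G * V * Eᴴ)).trace := by
    rw [conjTranspose_mul, conjTranspose_mul, conjTranspose_conjTranspose]
    calc (Eᴴ * (Z'ᴴ * G) * V).trace = (Eᴴ * (Z'ᴴ * G * V)).trace := by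
          simp only [Matrix.mul_assoc]
      _ = (Z'ᴴ * G * V * Eᴴ).trace := trace_mul_comm _ _
      _ = (Z'ᴴ * (G * V * Eᴴ)).trace := by simp only [Matrix.mul_assoc]
  have e2 : (ρ' * ((G * V * Eᴴ)ᴴ * (G * V * Eᴴ))).trace = (ρ * (Vᴴ * V)).trace := by
    rw [conjTranspose_mul, conjTranspose_mul, conjTranspose_conjTranspose]
    calc (ρ' * (E * (Vᴴ * Gᴴ) * (G * V * Eᴴ))).trace
        = (ρ' * E * Vᴴ * (Gᴴ * G) * V * Eᴴ).trace := by simp only [Matrix.mul_assoc]
      _ = (ρ' * E * Vᴴ * V * Eᴴ).trace := by rw [hG, Matrix.mul_one]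
      _ = (Eᴴ * (ρ' * E * Vᴴ * V)).trace := trace_mul_comm _ _
      _ = ((Eᴴ * ρ' * E) * (Vᴴ * V)).trace := by simp only [Matrix.mul_assoc]
      _ = _ := by rw [h2]
  have e3 : (σ' * ((G * V * Eᴴ) * (G * V * Eᴴ)ᴴ)).trace = (σ * (V * Vᴴ)).trace := by
    rw [conjTranspose_mul, conjTranspose_mul, conjTranspose_conjTranspose]
    calc (σ' * (G * V * Eᴴ * (E * (Vᴴ * Gᴴ)))).trace
        = (σ' * G * V * (Eᴴ * E) * Vᴴ * Gᴴ).trace := by simp only [Matrix.mul_assoc]
      _ = (σ' * G * V * Vᴴ * Gᴴ).trace := by rw [hE, Matrix.mul_one]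
      _ = (Gᴴ * (σ' * G * V * Vᴴ)).trace := trace_mul_comm _ _
      _ = ((Gᴴ * σ' * G) * (V * Vᴴ)).trace := by simp only [Matrix.mul_assoc]
      _ = _ := by rw [h1]
  unfold pen
  rw [e1, e2, e3]

/-- the inclusion matrix of an injective map -/
def incl (e : κ → ι) : Matrix ι κ ℂ := fun i k => if i = e k then 1 else 0

omit [Fintype κ] in
theorem incl_isometry {e : κ → ι} (he : Function.Injective e) : (incl e)ᴴ * incl e = 1 := by
  ext k l
  rw [mul_apply, Finset.sum_eq_single (e k)]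
  · rw [conjTranspose_apply, incl, incl, one_apply]
    simp only [if_true, star_one, one_mul, he.eq_iff]
  · intro i _ hi
    rw [conjTranspose_apply, incl, if_neg hi, star_zero, zero_mul]
  · intro h
    exact absurd (Finset.mem_univ _) h

omit [DecidableEq κ] [Fintype κ] in
theorem incl_mul_incl {ι' κ' : Type} [Fintype κ'] [DecidableEq κ'] (g : κ → ι) (e : ι' → κ')
    (A : Matrix ι κ' ℂ) : (incl g)ᴴ * A * incl e = A.submatrix g e := by
  ext k l
  rw [mul_apply, Finset.sum_eq_single (e l)]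
  · rw [mul_apply, Finset.sum_eq_single (g k)]
    · simp [incl]
    · intro i _ hi
      rw [conjTranspose_apply, incl, if_neg hi, star_zero, zero_mul]
    · intro h
      exact absurd (Finset.mem_univ _) h
  · intro i _ hi
    rw [incl, if_neg hi, mul_zero]
  · intro h
    exact absurd (Finset.mem_univ _) h

/-- compressing lowers the quadratic form (submatrices) -/
theorem Qf_submatrix_le {ι' κ' : Type} [Fintype ι'] [DecidableEq ι'] [Fintype κ'] [DecidableEq κ']
    {ν : ℝ} (hν : ν ∈ Icc (0 : ℝ) 1) {σ' : Matrix ι' ι' ℂ} {ρ' : Matrix κ' κ' ℂ}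
    (hσ' : σ'.PosDef) (hρ' : ρ'.PosDef) {g : ι → ι'} {e : κ → κ'} (hg : Function.Injective g)
    (he : Function.Injective e) (Z' : Matrix ι' κ' ℂ) :
    Qf ν (σ'.submatrix g g) (ρ'.submatrix e e) (Z'.submatrix g e) ≤ Qf ν σ' ρ' Z' := by
  rw [← incl_mul_incl g e Z']
  exact Qf_compress_le hν (hσ'.submatrix hg) (hρ'.submatrix he) hσ' hρ' (incl_isometry hg)
    (incl_isometry he) (incl_mul_incl g g σ') (incl_mul_incl e e ρ') Z'

/-! ### the thermal shift -/

/-- the quadratic form of `(r+1) a ρ - r σ a` -/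
theorem Qf_thermal {ν : ℝ} (hν : ν ∈ Icc (0 : ℝ) 1) {σ : Matrix ι ι ℂ} {ρ : Matrix κ κ ℂ}
    (hσ : σ.PosDef) (hρ : ρ.PosDef) (a : Matrix ι κ ℂ) (r : ℝ) :
    Qf ν σ ρ (((r + 1 : ℝ) : ℂ) • (a * ρ) - ((r : ℝ) : ℂ) • (σ * a)) =
      pen ν σ ρ a + 2 * (ν + r) * ((ρ * (aᴴ * a)).trace.re - (σ * (a * aᴴ)).trace.re) +
        (ν + r) ^ 2 * Qf ν σ ρ (a * ρ - σ * a) := by
  set Z : Matrix ι κ ℂ := a * ρ - σ * a with hZ
  have h1 : ((r + 1 : ℝ) : ℂ) • (a * ρ) - ((r : ℝ) : ℂ) • (σ * a) =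
      Kop ν σ ρ a + ((ν + r : ℝ) : ℂ) • Z := by
    rw [hZ, Kop, smul_sub]
    ext i j
    simp only [Matrix.sub_apply, Matrix.smul_apply, smul_eq_mul, Matrix.add_apply]
    push_cast
    ring
  have hc : star ((ν + r : ℝ) : ℂ) = ((ν + r : ℝ) : ℂ) := Complex.conj_ofReal _
  have h2 : ((Kop ν σ ρ a)ᴴ * Kinv ν σ ρ Z).trace.re = (aᴴ * Z).trace.re := by
    rw [← Kop_symm hσ.isHermitian hρ.isHermitian, Kop_Kinv hν hσ hρ]
  have h3 : (aᴴ * Z).trace.re = (ρ * (aᴴ * a)).trace.re - (σ * (a * aᴴ)).trace.re := by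
    rw [hZ, Matrix.mul_sub, trace_sub, Complex.sub_re]
    congr 2
    · rw [← Matrix.mul_assoc, trace_mul_comm]
    · rw [trace_mul_comm, Matrix.mul_assoc]
  have h4 : (Zᴴ * a).trace.re = (aᴴ * Z).trace.re := by
    rw [← re_trace_conjTranspose (aᴴ * Z), conjTranspose_mul, conjTranspose_conjTranspose]
  rw [h1]
  unfold Qf
  rw [Kinv_add, Kinv_Kop hν hσ hρ, Kinv_smul, conjTranspose_add, conjTranspose_smul, hc,
    Matrix.add_mul, Matrix.mul_add, Matrix.mul_add, trace_add, trace_add, trace_add,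
    Complex.add_re, Complex.add_re, Complex.add_re, Matrix.mul_smul, trace_smul, Matrix.smul_mul,
    trace_smul, Matrix.smul_mul, Matrix.mul_smul, smul_smul, trace_smul, smul_eq_mul, smul_eq_mul,
    smul_eq_mul, ← Complex.ofReal_mul, Complex.re_ofReal_mul, Complex.re_ofReal_mul,
    Complex.re_ofReal_mul, h2, h4, h3]
  have h5 : ((Kop ν σ ρ a)ᴴ * a).trace.re = pen ν σ ρ a := by
    rw [pen_eq, Kop_symm hσ.isHermitian hρ.isHermitian]
  rw [h5]
  ring

/-! ### entropy production integrals -/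

/-- a weighted trace in eigenbases -/
theorem trace_eigen {U : Matrix ι ι ℂ} {T : Matrix κ κ ℂ} (hU : star U * U = 1)
    (hT : star T * T = 1) (B : Matrix ι κ ℂ) (d : ι → ℝ) (e : κ → ℝ) :
    ((U * e2_dg d * star U) * (U * B * star T) * (T * e2_dg e * star T) *
      (U * B * star T)ᴴ).trace.re = ∑ k, ∑ l, Complex.normSq (B k l) * (d k * e l) := by
  have h1 : (U * e2_dg d * star U) * (U * B * star T) * (T * e2_dg e * star T) *
      (U * B * star T)ᴴ = U * (e2_dg d * B * e2_dg e * Bᴴ) * star U := by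
    rw [conjTranspose_mul, conjTranspose_mul, ← star_eq_conjTranspose (star T), star_star,
      ← star_eq_conjTranspose U]
    calc (U * e2_dg d * star U) * (U * B * star T) * (T * e2_dg e * star T) * (T * (Bᴴ * star U))
        = U * e2_dg d * (star U * U) * B * (star T * T) * e2_dg e * (star T * T) * Bᴴ * star U := by
          simp only [Matrix.mul_assoc]
      _ = _ := by
          rw [hU, hT, Matrix.mul_one, Matrix.mul_one, Matrix.mul_one]
          simp only [Matrix.mul_assoc]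
  rw [h1, trace_mul_comm, ← Matrix.mul_assoc, hU, Matrix.one_mul, trace, Complex.re_sum]
  refine Finset.sum_congr rfl fun k _ => ?_
  unfold e2_dg
  rw [diag_apply, mul_apply, Complex.re_sum]
  refine Finset.sum_congr rfl fun l _ => ?_
  rw [mul_diagonal, diagonal_mul, conjTranspose_apply]
  have h : (d k : ℂ) * B k l * (e l : ℂ) * star (B k l) =
      ((Complex.normSq (B k l) * (d k * e l) : ℝ) : ℂ) := by
    rw [Complex.ofReal_mul, Complex.normSq_eq_conj_mul_self]
    push_cast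
    show (d k : ℂ) * B k l * (e l : ℂ) * (starRingEnd ℂ) (B k l) = _
    ring
  rw [h, Complex.ofReal_re]

/-- the two entropy production integrals of the commutator `a ρ - σ a` -/
theorem int_Qf {σ : Matrix ι ι ℂ} {ρ : Matrix κ κ ℂ} (hσ : σ.PosDef) (hρ : ρ.PosDef)
    (a : Matrix ι κ ℂ) :
    (IntervalIntegrable (fun m => Qf m σ ρ (a * ρ - σ * a)) volume 0 1) ∧
    (∫ m in (0 : ℝ)..1, (1 - m) * Qf m σ ρ (a * ρ - σ * a) =
      -(cfc Real.negMulLog σ * (a * aᴴ)).trace.re - (σ * a * cfc Real.log ρ * aᴴ).trace.re -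
        (σ * (a * aᴴ)).trace.re + (ρ * (aᴴ * a)).trace.re) ∧
    ∫ m in (0 : ℝ)..1, m * Qf m σ ρ (a * ρ - σ * a) =
      (σ * (a * aᴴ)).trace.re - (ρ * (aᴴ * a)).trace.re -
        (cfc Real.log σ * a * ρ * aᴴ).trace.re - (cfc Real.negMulLog ρ * (aᴴ * a)).trace.re := by
  obtain ⟨U, q, hU, hU', hq, hσe, hσf⟩ := exists_eig hσ
  obtain ⟨T, p, hT, hT', hp, hρe, hρf⟩ := exists_eig hρ
  have ha := conj_unitary hU' hT' a
  set B : Matrix ι κ ℂ := star U * a * T with hB
  -- traces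
  have hone : T * e2_dg (fun _ => (1 : ℝ)) * star T = 1 := by
    have h1 : (e2_dg (fun _ => (1 : ℝ)) : Matrix κ κ ℂ) = 1 := by unfold e2_dg; simp
    rw [h1, Matrix.mul_one, hT']
  have hone' : U * e2_dg (fun _ => (1 : ℝ)) * star U = 1 := by
    have h1 : (e2_dg (fun _ => (1 : ℝ)) : Matrix ι ι ℂ) = 1 := by unfold e2_dg; simp
    rw [h1, Matrix.mul_one, hU']
  have key : ∀ f g : ℝ → ℝ, (cfc f σ * a * cfc g ρ * aᴴ).trace.re =
      ∑ k, ∑ l, Complex.normSq (B k l) * (f (q k) * g (p l)) := by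
    intro f g
    rw [hσf f, hρf g, ← trace_eigen hU hT B, ha]
  have key1 : ∀ f : ℝ → ℝ, (cfc f σ * (a * aᴴ)).trace.re =
      ∑ k, ∑ l, Complex.normSq (B k l) * (f (q k) * 1) := by
    intro f
    have h := trace_eigen hU hT B (fun k => f (q k)) (fun _ => 1)
    rw [hone, Matrix.mul_one, ha, ← hσf f] at h
    rw [← h, Matrix.mul_assoc]
  have key2 : ∀ g : ℝ → ℝ, (cfc g ρ * (aᴴ * a)).trace.re =
      ∑ k, ∑ l, Complex.normSq (B k l) * (1 * g (p l)) := by
    intro g
    have h := trace_eigen hU hT B (fun _ => 1) (fun l => g (p l))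
    rw [hone', Matrix.one_mul, ha, ← hρf g] at h
    rw [← h, trace_mul_comm (a * cfc g ρ) aᴴ, ← Matrix.mul_assoc aᴴ a, trace_mul_comm (aᴴ * a)]
  have hidσ : cfc (fun x : ℝ => x) σ = σ := by
    rw [hσf, ← hσe]
  have hidρ : cfc (fun x : ℝ => x) ρ = ρ := by
    rw [hρf, ← hρe]
  have t1 := key1 Real.negMulLog
  have t2 := key (fun x => x) Real.log
  have t3 := key1 (fun x => x)
  have t4 := key2 (fun x => x)
  have t5 := key Real.log (fun x => x)
  have t6 := key2 Real.negMulLog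
  rw [hidσ] at t2 t3
  rw [hidρ] at t4 t5
  -- the quadratic form
  have hQ : ∀ m ∈ Icc (0 : ℝ) 1, Qf m σ ρ (a * ρ - σ * a) =
      ∑ k, ∑ l, Complex.normSq (B k l) * ((p l - q k) ^ 2 / (p l + m * (q k - p l))) := by
    intro m hm
    have h1 : a * ρ - σ * a = U * (B * e2_dg p - e2_dg q * B) * star T := by
      conv_lhs => rw [← ha, hρe, hσe]
      rw [Matrix.mul_sub, Matrix.sub_mul]
      congr 1
      · calc U * B * star T * (T * e2_dg p * star T)
            = U * B * (star T * T) * e2_dg p * star T := by simp only [Matrix.mul_assoc]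
          _ = U * (B * e2_dg p) * star T := by
              rw [hT, Matrix.mul_one]; simp only [Matrix.mul_assoc]
      · calc U * e2_dg q * star U * (U * B * star T)
            = U * e2_dg q * (star U * U) * B * star T := by simp only [Matrix.mul_assoc]
          _ = U * (e2_dg q * B) * star T := by
              rw [hU, Matrix.mul_one]; simp only [Matrix.mul_assoc]
    have hσ2 := hσ
    have hρ2 := hρ
    rw [hσe] at hσ2
    rw [hρe] at hρ2
    rw [h1, hσe, hρe, Qf_eigen hm hU hT hq hp hσ2 hρ2]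
    refine Finset.sum_congr rfl fun k _ => Finset.sum_congr rfl fun l _ => ?_
    have h2 : (B * e2_dg p - e2_dg q * B) k l = B k l * ((p l - q k : ℝ) : ℂ) := by
      unfold e2_dg
      rw [Matrix.sub_apply, mul_diagonal, diagonal_mul]
      push_cast
      ring
    have h3 : (1 - m) * p l + m * q k = p l + m * (q k - p l) := by ring
    rw [h2, Complex.normSq_mul, Complex.normSq_ofReal, h3]
    ring
  have hDpos : ∀ k l, ∀ m ∈ Icc (0 : ℝ) 1, 0 < p l + m * (q k - p l) := by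
    intro k l m hm
    have := den_pos hm (hp l) (hq k)
    have h3 : (1 - m) * p l + m * q k = p l + m * (q k - p l) := by ring
    rwa [h3] at this
  have hcont : ContinuousOn (fun m => Qf m σ ρ (a * ρ - σ * a)) (Icc 0 1) := by
    have h1 : ContinuousOn (fun m : ℝ => ∑ k, ∑ l, Complex.normSq (B k l) *
        ((p l - q k) ^ 2 / (p l + m * (q k - p l)))) (Icc 0 1) := by
      refine continuousOn_finsetSum _ fun k _ => continuousOn_finsetSum _ fun l _ => ?_
      refine continuousOn_const.mul (ContinuousOn.div continuousOn_const (by fun_prop)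
        fun m hm => (hDpos k l m hm).ne')
    exact h1.congr hQ
  have hint : ∀ (f : ℝ → ℝ → ℝ → ℝ) (v : ℝ → ℝ → ℝ) (w : ℝ → ℝ),
      (∀ a b : ℝ, 0 < a → 0 < b → IntervalIntegrable (fun m => f a b m) volume 0 1 ∧
        ∫ m in (0 : ℝ)..1, f a b m = v a b) →
      (∀ a b m : ℝ, m ∈ Icc (0 : ℝ) 1 → 0 < a → 0 < b → 0 < a + m * (b - a) →
        w m * ((a - b) ^ 2 / (a + m * (b - a))) = f a b m) →
      ∫ m in (0 : ℝ)..1, w m * Qf m σ ρ (a * ρ - σ * a) =
        ∑ k, ∑ l, Complex.normSq (B k l) * v (p l) (q k) := by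
    intro f v w hf hw
    have h1 : ∫ m in (0 : ℝ)..1, w m * Qf m σ ρ (a * ρ - σ * a) =
        ∫ m in (0 : ℝ)..1, ∑ k, ∑ l, Complex.normSq (B k l) * f (p l) (q k) m := by
      refine intervalIntegral.integral_congr fun m hm => ?_
      rw [uIcc_of_le zero_le_one] at hm
      rw [hQ m hm, Finset.mul_sum]
      refine Finset.sum_congr rfl fun k _ => ?_
      rw [Finset.mul_sum]
      refine Finset.sum_congr rfl fun l _ => ?_
      rw [← hw (p l) (q k) m hm (hp l) (hq k) (hDpos k l m hm)]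
      ring
    rw [h1, intervalIntegral.integral_finsetSum]
    · refine Finset.sum_congr rfl fun k _ => ?_
      rw [intervalIntegral.integral_finsetSum]
      · refine Finset.sum_congr rfl fun l _ => ?_
        rw [intervalIntegral.integral_const_mul, (hf _ _ (hp l) (hq k)).2]
      · intro l _
        exact (hf _ _ (hp l) (hq k)).1.const_mul _
    · intro k _
      have := IntervalIntegrable.sum Finset.univ
        (f := fun l m => Complex.normSq (B k l) * f (p l) (q k) m)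
        (fun l _ => (hf _ _ (hp l) (hq k)).1.const_mul _)
      simpa only [Finset.sum_fn] using this
  refine ⟨?_, ?_, ?_⟩
  · apply ContinuousOn.intervalIntegrable
    rw [uIcc_of_le zero_le_one]
    exact hcont
  · rw [hint (fun a b m => (a - b) + b * ((b - a) / (a + m * (b - a))))
      (fun a b => (a - b) + b * (Real.log b - Real.log a)) (fun m => 1 - m) ?_ ?_, t1, t2, t3, t4,
      ← Finset.sum_neg_distrib, ← Finset.sum_sub_distrib, ← Finset.sum_sub_distrib,
      ← Finset.sum_add_distrib]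
    · refine Finset.sum_congr rfl fun k _ => ?_
      rw [← Finset.sum_neg_distrib, ← Finset.sum_sub_distrib, ← Finset.sum_sub_distrib,
        ← Finset.sum_add_distrib]
      refine Finset.sum_congr rfl fun l _ => ?_
      unfold Real.negMulLog
      ring
    · intro a b ha hb
      obtain ⟨h1, h2⟩ := e2_int ha hb
      refine ⟨intervalIntegrable_const.add (h1.const_mul _), ?_⟩
      rw [intervalIntegral.integral_add intervalIntegrable_const (h1.const_mul _),
        intervalIntegral.integral_const_mul, h2]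
      simp
    · intro a b m _ _ _ hD
      field_simp
      ring
  · rw [hint (fun a b m => (b - a) - a * ((b - a) / (a + m * (b - a))))
      (fun a b => (b - a) - a * (Real.log b - Real.log a)) (fun m => m) ?_ ?_, t3, t4, t5, t6,
      ← Finset.sum_sub_distrib, ← Finset.sum_sub_distrib, ← Finset.sum_sub_distrib]
    · refine Finset.sum_congr rfl fun k _ => ?_
      rw [← Finset.sum_sub_distrib, ← Finset.sum_sub_distrib, ← Finset.sum_sub_distrib]
      refine Finset.sum_congr rfl fun l _ => ?_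
      unfold Real.negMulLog
      ring
    · intro a b ha hb
      obtain ⟨h1, h2⟩ := e2_int ha hb
      refine ⟨intervalIntegrable_const.sub (h1.const_mul _), ?_⟩
      rw [intervalIntegral.integral_sub intervalIntegrable_const (h1.const_mul _),
        intervalIntegral.integral_const_mul, h2]
      simp
    · intro a b m _ _ _ hD
      field_simp
      ring

end

end Vale.Agent.P369A
end
end

section

attribute [-instance] ProperSMul.toContinuousSMul IsTopologicalTorsor.toContinuousSMul IdemSemiring.toCanonicallyOrderedAdd IdemSemiring.toMulLeftMono IdemSemiring.toMulRightMono AddQuantale.instAddLeftMono AddQuantale.instAddRightMono Quantale.instMulLeftMono Quantale.instMulRightMono FiniteDimensional.rclike_to_real IsScalarTower.complexToReal FiniteDimensional.complexToReal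

section

/-!
P369A: common definitions for the amplifier part. Infinite matrices are functions
`Conf n → Conf n → ℂ`; the cutoff is on the total photon number.
-/

namespace Vale.Agent.P369A

open Matrix
open Vale.Agent.P369 (Conf up down)

noncomputable section

/-- configurations of `n` modes with at most `X` photons in total -/
abbrev Ct (n X : ℕ) : Type := {x : Conf n // ∑ j, x j ≤ X}

instance instFintypeCt (n X : ℕ) : Fintype (Ct n X) :=
  Fintype.ofInjective
    (fun (x : Ct n X) (j : Fin n) => (⟨x.1 j, Nat.lt_succ_of_le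
      ((Finset.single_le_sum (f := fun i => x.1 i) (fun _ _ => Nat.zero_le _)
        (Finset.mem_univ j)).trans x.2)⟩ : Fin (X + 1)))
    (fun x y h => Subtype.ext (funext fun j => by simpa using congrFun h j))

variable {n : ℕ}

/-- the compression of an infinite matrix to `|x| ≤ X'`, `|y| ≤ X` -/
def cutR (X' X : ℕ) (s : Conf n → Conf n → ℂ) : Matrix (Ct n X') (Ct n X) ℂ := fun x y => s x.1 y.1

/-- the compression of an infinite matrix to at most `X` photons -/
def cut (X : ℕ) (s : Conf n → Conf n → ℂ) : Matrix (Ct n X) (Ct n X) ℂ := fun x y => s x.1 y.1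

/-- the annihilation operator of mode `j` from at most `X+1` to at most `X` photons -/
def annR (X : ℕ) (j : Fin n) : Matrix (Ct n X) (Ct n (X + 1)) ℂ := fun k l =>
  if l.1 = up k.1 j then ((Real.sqrt (l.1 j) : ℝ) : ℂ) else 0

/-- `Z_r = (r+1) a_j s - r s a_j` between at most `X+1` and at most `X` photons -/
def Zr (r : ℝ) (s : Conf n → Conf n → ℂ) (X : ℕ) (j : Fin n) : Matrix (Ct n X) (Ct n (X + 1)) ℂ :=
  ((r + 1 : ℝ) : ℂ) • (annR X j * cut (X + 1) s) - ((r : ℝ) : ℂ) • (cut X s * annR X j)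

/-- `I_ν(s; r)` at cutoff `X` -/
def IX (ν r : ℝ) (s : Conf n → Conf n → ℂ) (X : ℕ) : ℝ :=
  ∑ j, Qf ν (cut X s) (cut (X + 1) s) (Zr r s X j)

/-- `⟨m+l, l| J_k |m⟩` for the two-mode squeezer of gain `k` with vacuum second input -/
def cc (k : ℝ) (m l : Conf n) : ℝ :=
  ∏ j, (Real.sqrt ((m j + l j).choose (l j) : ℕ) * (Real.sqrt k)⁻¹ ^ (m j + 1) *
    Real.sqrt (1 - 1 / k) ^ (l j))

/-- the amplifier channel of gain `k` -/
def ampE (k : ℝ) (s : Conf n → Conf n → ℂ) : Conf n → Conf n → ℂ := fun x y =>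
  ∑ l ∈ Finset.Iic (x ⊓ y), ((cc k (x - l) l * cc k (y - l) l : ℝ) : ℂ) * s (x - l) (y - l)

/-- the complementary channel of the amplifier of gain `k`, for the compression of `s` to at most
`Y` photons -/
def conE (k : ℝ) (Y : ℕ) (s : Conf n → Conf n → ℂ) : Conf n → Conf n → ℂ := fun l l' =>
  ∑ m : Ct n Y, ∑ m' : Ct n Y, if m.1 + l = m'.1 + l' then
    ((cc k m.1 l * cc k m'.1 l' : ℝ) : ℂ) * s m.1 m'.1 else 0

/-- `J† (1 ⊗ W) J` for a finite `W`, `J` the isometry of the amplifier of gain `k` -/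
def TW (k : ℝ) {X' X : ℕ} (W : Matrix (Ct n X') (Ct n X) ℂ) : Conf n → Conf n → ℂ := fun m' m =>
  ∑ l' : Ct n X', ∑ l : Ct n X, if m + l.1 = m' + l'.1 then
    ((cc k m l.1 * cc k m' l'.1 : ℝ) : ℂ) * W l' l else 0

/-- the isometry of the amplifier of gain `k`, cut to `|x| ≤ Γ`, `|l| ≤ L`, `|m| ≤ Y` -/
def Jw (k : ℝ) (Γ L Y : ℕ) : Matrix (Ct n Γ × Ct n L) (Ct n Y) ℂ := fun xl m =>
  if xl.1.1 = m.1 + xl.2.1 then ((cc k m.1 xl.2.1 : ℝ) : ℂ) else 0

/-- extension by zero of a finite rectangular matrix -/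
def extR (Γ : ℕ) {X' X : ℕ} (V : Matrix (Ct n X') (Ct n X) ℂ) : Matrix (Ct n Γ) (Ct n Γ) ℂ :=
  fun x y => if h : (∑ j, x.1 j ≤ X') ∧ (∑ j, y.1 j ≤ X) then V ⟨x.1, h.1⟩ ⟨y.1, h.2⟩ else 0

/-- a finite matrix (at most `M` photons in each mode) as an infinite one -/
def ext {M : ℕ} (ρ : Matrix (Fin n → Fin (M + 1)) (Fin n → Fin (M + 1)) ℂ) : Conf n → Conf n → ℂ :=
  fun x y => if h : (∀ j, x j < M + 1) ∧ (∀ j, y j < M + 1) then
    ρ (fun j => ⟨x j, h.1 j⟩) (fun j => ⟨y j, h.2 j⟩) else 0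

/-- `J† (V ⊗ 1) J` for a finite `V` -/
def EV (k : ℝ) {X' X : ℕ} (V : Matrix (Ct n X') (Ct n X) ℂ) : Conf n → Conf n → ℂ := fun m' m =>
  ∑ x' : Ct n X', ∑ x : Ct n X, if (∀ j, m' j ≤ x'.1 j) ∧ (∀ j, m j ≤ x.1 j) ∧ x.1 - m = x'.1 - m' then
    ((cc k m (x.1 - m) * cc k m' (x'.1 - m') : ℝ) : ℂ) * V x' x else 0

end

end Vale.Agent.P369A
end
end

section

attribute [-instance] ProperSMul.toContinuousSMul IsTopologicalTorsor.toContinuousSMul IdemSemiring.toCanonicallyOrderedAdd IdemSemiring.toMulLeftMono IdemSemiring.toMulRightMono AddQuantale.instAddLeftMono AddQuantale.instAddRightMono Quantale.instMulLeftMono Quantale.instMulRightMono FiniteDimensional.rclike_to_real IsScalarTower.complexToReal FiniteDimensional.complexToReal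

section

/-! Task A4: choice of `θ`. -/

namespace Vale.Agent.P369V

open MeasureTheory Set

/-- A4 (choice of `θ`, the maximiser of `∫_0^θ (g - ν/(ν+R))`) -/
theorem exists_theta {g : ℝ → ℝ} {R : ℝ} (hR : 0 < R) (hg : ContinuousOn g (Icc 0 1)) (hg0 : 0 < g 0)
    (hint : ∫ ν in (0 : ℝ)..1, g ν = ∫ ν in (0 : ℝ)..1, ν / (ν + R)) :
    ∃ θ ∈ Ioo (0 : ℝ) 1, g θ = θ / (θ + R) ∧
      ∀ l ∈ Icc θ 1, ∫ ν in θ..l, (g ν - ν / (ν + R)) ≤ 0 := by
  have hr : ContinuousOn (fun ν : ℝ => ν / (ν + R)) (Icc 0 1) := by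
    apply ContinuousOn.div continuousOn_id (by fun_prop)
    intro x hx
    have := hx.1
    (clear * - this hR; positivity)
  set f : ℝ → ℝ := fun ν => g ν - ν / (ν + R) with hf
  have hfc : ContinuousOn f (Icc 0 1) := hg.sub hr
  have hfi : ∀ {a b : ℝ}, a ∈ Icc (0 : ℝ) 1 → b ∈ Icc (0 : ℝ) 1 → IntervalIntegrable f volume a b := by
    intro a b ha hb
    apply ContinuousOn.intervalIntegrable
    apply hfc.mono
    intro x hx
    rw [uIcc, mem_Icc] at hx
    exact ⟨le_trans (le_min ha.1 hb.1) hx.1, le_trans hx.2 (max_le ha.2 hb.2)⟩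
  have h01 : (0 : ℝ) ∈ Icc (0 : ℝ) 1 := ⟨le_rfl, zero_le_one⟩
  have h11 : (1 : ℝ) ∈ Icc (0 : ℝ) 1 := ⟨zero_le_one, le_rfl⟩
  set F : ℝ → ℝ := fun θ => ∫ ν in (0 : ℝ)..θ, f ν with hF
  have hF0 : F 0 = 0 := by simp [hF]
  have hF1 : F 1 = 0 := by
    have h1 : IntervalIntegrable g volume 0 1 := by
      apply ContinuousOn.intervalIntegrable
      rwa [uIcc_of_le zero_le_one]
    have h2 : IntervalIntegrable (fun ν : ℝ => ν / (ν + R)) volume 0 1 := by
      apply ContinuousOn.intervalIntegrable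
      rwa [uIcc_of_le zero_le_one]
    show ∫ ν in (0 : ℝ)..1, (g ν - ν / (ν + R)) = 0
    rw [intervalIntegral.integral_sub h1 h2, hint, sub_self]
  have hFc : ContinuousOn F (Icc 0 1) := by
    have := intervalIntegral.continuousOn_primitive_interval (f := f) (a := 0) (b := 1) (μ := volume)
      (by
        rw [uIcc_of_le zero_le_one]
        exact hfc.integrableOn_Icc)
    rwa [uIcc_of_le zero_le_one] at this
  obtain ⟨θ, hθ, hmax⟩ := isCompact_Icc.exists_isMaxOn (nonempty_Icc.2 zero_le_one) hFc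
  -- a point where `F` is positive
  have hpos : ∃ δ ∈ Ioc (0 : ℝ) 1, 0 < F δ := by
    have h0 : 0 < f 0 := by simpa only [hf, zero_add, zero_div, sub_zero] using hg0
    have hc : ContinuousWithinAt f (Icc 0 1) 0 := hfc 0 h01
    have hev : ∀ᶠ x in nhdsWithin 0 (Icc (0 : ℝ) 1), 0 < f x := hc.eventually (lt_mem_nhds h0)
    rw [eventually_nhdsWithin_iff, Metric.eventually_nhds_iff] at hev
    obtain ⟨ε, hε, H⟩ := hev
    refine ⟨min (ε / 2) 1, ⟨by positivity, min_le_right _ _⟩, ?_⟩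
    have hd0 : 0 < min (ε / 2) 1 := by positivity
    apply intervalIntegral.intervalIntegral_pos_of_pos_on
    · exact hfi h01 ⟨hd0.le, min_le_right _ _⟩
    · intro x hx
      apply H
      · rw [Real.dist_eq, sub_zero, abs_of_pos hx.1]
        have := lt_of_lt_of_le hx.2 (min_le_left _ _)
        linarith only [hε, this]
      · exact ⟨hx.1.le, le_trans hx.2.le (min_le_right _ _)⟩
    · exact hd0
  obtain ⟨δ, hδ, hFδ⟩ := hpos
  have hFθ : 0 < F θ := lt_of_lt_of_le hFδ (hmax ⟨hδ.1.le, hδ.2⟩)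
  have hθ0 : θ ≠ 0 := by
    rintro rfl
    rw [hF0] at hFθ
    exact lt_irrefl _ hFθ
  have hθ1 : θ ≠ 1 := by
    rintro rfl
    rw [hF1] at hFθ
    exact lt_irrefl _ hFθ
  have hθI : θ ∈ Ioo (0 : ℝ) 1 := ⟨lt_of_le_of_ne hθ.1 (Ne.symm hθ0), lt_of_le_of_ne hθ.2 hθ1⟩
  have hder : HasDerivAt F (f θ) θ := by
    apply intervalIntegral.integral_hasDerivAt_right (hfi h01 hθ)
    · exact (hfc.mono Ioo_subset_Icc_self).stronglyMeasurableAtFilter isOpen_Ioo θ hθI
    · exact hfc.continuousAt (Icc_mem_nhds hθI.1 hθI.2)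
  have hloc : IsLocalMax F θ := hmax.isLocalMax (Icc_mem_nhds hθI.1 hθI.2)
  have hfθ : f θ = 0 := hloc.hasDerivAt_eq_zero hder
  refine ⟨θ, hθI, ?_, ?_⟩
  · have : g θ - θ / (θ + R) = 0 := hfθ
    linarith only [hfθ]
  · intro l hl
    have hl' : l ∈ Icc (0 : ℝ) 1 := ⟨le_trans hθ.1 hl.1, hl.2⟩
    have h1 : F θ + ∫ ν in θ..l, f ν = F l :=
      intervalIntegral.integral_add_adjacent_intervals (hfi h01 hθ) (hfi hθ hl')
    have h2 : F l ≤ F θ := hmax hl'
    show ∫ ν in θ..l, f ν ≤ 0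
    linarith only [h1, h2]

end Vale.Agent.P369V
end
end

section

section

section

/-!
Flows with two-sided bounds; entropy along a flow; the output flow; the one-mode inequality.
-/

namespace Vale.Agent.P369

open Real Filter

/-- a solution of the flow equation with two-sided thermal bounds. -/
structure IsFlow (r : ℝ) (P : ℝ → ℕ → ℝ) : Prop where
  pos : 0 < r
  prob : ∀ t, 0 ≤ t → IsProb (P t)
  deriv : ∀ t, 0 < t → ∀ k, HasDerivAt (fun t => P t k) (gen r (P t) k) t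
  cont : ∀ k, ContinuousOn (fun t => P t k) (Set.Ici 0)
  ub : ∃ M, 0 < M ∧ ∀ t, 0 ≤ t → ∀ k, P t k ≤ M * tau r k
  lb : ∃ ε, 0 < ε ∧ ∀ t, 0 < t → ∀ k, ε * tau ((1 - Real.exp (-t)) * r) k ≤ P t k
  lim : ∀ k, Tendsto (fun t => P t k) atTop (nhds (tau r k))

theorem one_sub_exp_pos {t : ℝ} (ht : 0 < t) : 0 < 1 - Real.exp (-t) := by
  have : Real.exp (-t) < 1 := by rw [Real.exp_lt_one_iff]; linarith
  linarith

theorem IsProb.apply_le_one {ι : Type} {p : ι → ℝ} (hp : IsProb p) (k : ι) : p k ≤ 1 :=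
  le_hasSum hp.2 k (fun k' _ => hp.1 k')

theorem abs_negMulLog_le {x : ℝ} (h0 : 0 ≤ x) (h1 : x ≤ 1) : |Real.negMulLog x| ≤ 2 * √x := by
  rcases h0.eq_or_lt with h | h
  · rw [← h]; simp
  · have h2 := Real.abs_log_mul_self_rpow_lt x (1 / 2) h h1 (by norm_num)
    have h3 : x ^ (1 / 2 : ℝ) = √x := by rw [Real.sqrt_eq_rpow]
    rw [h3] at h2
    have h4 : Real.negMulLog x = -(Real.log x * √x) * √x := by
      unfold Real.negMulLog
      have : √x * √x = x := Real.mul_self_sqrt h0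
      linear_combination Real.log x * this
    rw [h4, abs_mul, abs_neg, abs_of_nonneg (Real.sqrt_nonneg x)]
    have h5 : |Real.log x * √x| ≤ 2 := by
      have : (1 : ℝ) / (1 / 2) = 2 := by norm_num
      linarith only [h2]
    exact mul_le_mul_of_nonneg_right h5 (Real.sqrt_nonneg x)

theorem summable_sqrt_tau {r : ℝ} (hr : 0 < r) (M : ℝ) (hM : 0 < M) :
    Summable fun k => 2 * √(M * tau r k) := by
  have h : ∀ k, 2 * √(M * tau r k) = (2 * √(M * (1 / (r + 1)))) * (√(r / (r + 1))) ^ k := by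
    intro k
    rw [tau_eq hr, ← mul_assoc, Real.sqrt_mul (by positivity)]
    rw [Real.sqrt_eq_rpow ((r / (r + 1)) ^ k), ← Real.rpow_natCast, ← Real.rpow_mul (by positivity),
      mul_comm (k : ℝ), Real.rpow_mul (by positivity), ← Real.sqrt_eq_rpow, Real.rpow_natCast]
    ring
  simp only [h]
  apply Summable.mul_left
  apply summable_geometric_of_lt_one (Real.sqrt_nonneg _)
  rw [Real.sqrt_lt' one_pos]
  simpa only [one_pow] using ratio_lt hr

namespace IsFlow

variable {r : ℝ} {P : ℝ → ℕ → ℝ}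

theorem bound (h : IsFlow r P) {t0 : ℝ} (ht0 : 0 < t0) : ∃ ε μ M lam : ℝ, 0 < ε ∧ 0 < μ ∧
    0 ≤ lam ∧ lam < 1 ∧ ∀ t ∈ Set.Ioo (t0 - t0 / 2) (t0 + t0 / 2), ∀ k,
      ε * μ ^ k ≤ P t k ∧ P t k ≤ M * lam ^ k := by
  obtain ⟨M, hM, hub⟩ := h.ub
  obtain ⟨ε, hε, hlb⟩ := h.lb
  have hr := h.pos
  set x0 := 1 - Real.exp (-(t0 / 2)) with hx0
  have hx0pos : 0 < x0 := one_sub_exp_pos (by linarith only [ht0])
  refine ⟨ε * (1 / (r + 1)), x0 * r / (x0 * r + 1), M * (1 / (r + 1)), r / (r + 1),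
    by positivity, by positivity, by positivity, ratio_lt hr, ?_⟩
  intro t ht k
  have ht1 : t0 / 2 < t := by have := ht.1; linarith only [this]
  have htpos : 0 < t := by linarith only [ht0, ht1]
  constructor
  · refine le_trans ?_ (hlb t htpos k)
    set x := 1 - Real.exp (-t) with hx
    have hxpos : 0 < x := one_sub_exp_pos htpos
    have hx01 : x0 ≤ x := by
      have : Real.exp (-t) ≤ Real.exp (-(t0 / 2)) := Real.exp_le_exp.2 (by linarith only [ht1])
      linarith only [this]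
    have hx1 : x ≤ 1 := by have := (Real.exp_pos (-t)); linarith only [this]
    rw [tau_eq (by (clear * - hxpos hr; positivity) : 0 < x * r), mul_assoc]
    apply mul_le_mul_of_nonneg_left _ hε.le
    have e1 : 1 / (r + 1) ≤ 1 / (x * r + 1) := by
      apply one_div_le_one_div_of_le (by (clear * - hxpos hr; positivity))
      nlinarith only [hr, hx1]
    have e2 : x0 * r / (x0 * r + 1) ≤ x * r / (x * r + 1) := by
      rw [div_le_div_iff₀ (by (clear * - hx0pos hr; positivity)) (by positivity)]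
      nlinarith only [hr, hx01]
    (clear * - e1 hx0pos hr e2 hxpos; gcongr)
  · have := hub t htpos.le k
    rw [tau_eq hr] at this
    linarith only [this]

theorem P_pos (h : IsFlow r P) {t : ℝ} (ht : 0 < t) (k : ℕ) : 0 < P t k := by
  obtain ⟨ε, hε, hlb⟩ := h.lb
  have hr := h.pos
  have h1 := one_sub_exp_pos ht
  have := tau_pos (r := (1 - Real.exp (-t)) * r) (by positivity) k
  exact lt_of_lt_of_le (by positivity) (hlb t ht k)

theorem hasDerivAt_Hs (h : IsFlow r P) {t0 : ℝ} (ht0 : 0 < t0) :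
    HasDerivAt (fun t => Hs (P t)) (rate r (P t0)) t0 := by
  obtain ⟨ε, μ, M, lam, hε, hμ, hl0, hl1, hb⟩ := h.bound ht0
  refine hasDerivAt_entropy r h.pos P t0 (t0 / 2) ε μ M lam (by linarith) hε hμ hl0 hl1 hb ?_
  intro t ht k
  exact h.deriv t (by have := ht.1; linarith only [ht0, this]) k

theorem summable_rterm (h : IsFlow r P) {t0 : ℝ} (ht0 : 0 < t0) :
    Summable (rterm r (P t0)) := by
  obtain ⟨ε, μ, M, lam, hε, hμ, hl0, hl1, hb⟩ := h.bound ht0
  exact summable_rate h.pos hε hμ hl0 hl1 (hb t0 ⟨by linarith, by linarith only [ht0]⟩)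

theorem Hs_bound (h : IsFlow r P) : ∃ M, 0 < M ∧ ∀ t, 0 ≤ t → ∀ k,
    ‖Real.negMulLog (P t k)‖ ≤ 2 * √(M * tau r k) := by
  obtain ⟨M, hM, hub⟩ := h.ub
  refine ⟨M, hM, fun t ht k => ?_⟩
  rw [Real.norm_eq_abs]
  refine (abs_negMulLog_le ((h.prob t ht).1 k) ((h.prob t ht).apply_le_one k)).trans ?_
  have := Real.sqrt_le_sqrt (hub t ht k)
  linarith

theorem continuousOn_Hs (h : IsFlow r P) : ContinuousOn (fun t => Hs (P t)) (Set.Ici 0) := by
  obtain ⟨M, hM, hb⟩ := h.Hs_bound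
  unfold Hs
  exact continuousOn_tsum (fun k => Real.continuous_negMulLog.comp_continuousOn (h.cont k))
    (summable_sqrt_tau h.pos M hM) (fun k t ht => hb t ht k)

theorem tendsto_Hs (h : IsFlow r P) : Tendsto (fun t => Hs (P t)) atTop (nhds (Hs (tau r))) := by
  obtain ⟨M, hM, hb⟩ := h.Hs_bound
  unfold Hs
  refine tendsto_tsum_of_dominated_convergence (summable_sqrt_tau h.pos M hM)
    (fun k => (Real.continuous_negMulLog.tendsto _).comp (h.lim k)) ?_
  filter_upwards [eventually_ge_atTop 0] with t ht k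
  exact hb t ht k

theorem summable_weight (h : IsFlow r P) {t : ℝ} (ht : 0 ≤ t) :
    Summable fun k : ℕ => ((k : ℝ) + 1) * P t k := by
  obtain ⟨M, hM, hub⟩ := h.ub
  apply Summable.of_nonneg_of_le (fun k => ?_) (fun k => ?_)
    ((summable_weight_tau h.pos).mul_left M)
  · have := (h.prob t ht).1 k; positivity
  · have := mul_le_mul_of_nonneg_left (hub t ht k) (by positivity : (0:ℝ) ≤ (k : ℝ) + 1)
    linarith only [this]

end IsFlow

section outflow

variable {η : ℝ}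

theorem out_nonneg (η : ℝ) {p q : ℕ → ℝ} (hp : ∀ i, 0 ≤ p i) (hq : ∀ i, 0 ≤ q i) (k : ℕ) :
    0 ≤ out η p q k :=
  tsum_nonneg fun _ => mul_nonneg (ker_nonneg η k _ _) (mul_nonneg (hp _) (hq _))

theorem out_prob (h0 : 0 ≤ η) (h1 : η ≤ 1) {p q : ℕ → ℝ} (hp : IsProb p) (hq : IsProb q) :
    IsProb (out η p q) := by
  refine ⟨out_nonneg η hp.1 hq.1, ?_⟩
  have hpq : HasSum (fun x : ℕ × ℕ => p x.1 * q x.2) 1 := by
    have := hp.2.mul hq.2 (hp.2.summable.mul_of_nonneg hq.2.summable hp.1 hq.1)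
    simpa using this
  have e : ∀ x : ℕ × ℕ, HasSum (fun k => ker η k x.1 x.2 * (p x.1 * q x.2))
      (p x.1 * q x.2) := fun x => by
    simpa using (hasSum_ker h0 h1 x.1 x.2).mul_right (p x.1 * q x.2)
  have hf : Summable (Function.uncurry fun (x : ℕ × ℕ) (k : ℕ) =>
      ker η k x.1 x.2 * (p x.1 * q x.2)) := by
    refine (summable_prod_of_nonneg ?_).2 ⟨fun x => (e x).summable, ?_⟩
    · intro y
      exact mul_nonneg (ker_nonneg _ _ _ _) (mul_nonneg (hp.1 _) (hq.1 _))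
    · refine hpq.summable.congr fun x => ?_
      exact (e x).tsum_eq.symm
  have h2 : Summable (out η p q) := hf.prod_symm.prod
  have h3 : ∑' k, out η p q k = 1 := by
    have := hf.tsum_comm
    unfold out
    rw [this, ← hpq.tsum_eq]
    exact tsum_congr fun x => (e x).tsum_eq
  rw [← h3]
  exact h2.hasSum

theorem summable_abs_of_prob {p : ℕ → ℝ} (hp : IsProb p) : Summable fun i => |p i| :=
  hp.2.summable.abs

theorem out_le_out (h0 : 0 ≤ η) (h1 : η ≤ 1) {p q p' q' : ℕ → ℝ} (hp0 : ∀ i, 0 ≤ p i)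
    (hq0 : ∀ i, 0 ≤ q i) (hp : ∀ i, p i ≤ p' i) (hq : ∀ i, q i ≤ q' i)
    (sp : Summable p') (sq : Summable q') (k : ℕ) : out η p q k ≤ out η p' q' k := by
  have hp0' : ∀ i, 0 ≤ p' i := fun i => (hp0 i).trans (hp i)
  have hq0' : ∀ i, 0 ≤ q' i := fun i => (hq0 i).trans (hq i)
  have sp1 : Summable p := Summable.of_nonneg_of_le hp0 hp sp
  have sq1 : Summable q := Summable.of_nonneg_of_le hq0 hq sq
  unfold out
  refine Summable.tsum_le_tsum (fun x => ?_) (summable_ker_mul h0 h1 k sp1.abs sq1.abs)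
    (summable_ker_mul h0 h1 k sp.abs sq.abs)
  exact mul_le_mul_of_nonneg_left (mul_le_mul (hp _) (hq _) (hq0 _) (hp0' _))
    (ker_nonneg _ _ _ _)

theorem out_smul (η : ℝ) (a b : ℝ) (p q : ℕ → ℝ) (k : ℕ) :
    out η (fun i => a * p i) (fun i => b * q i) k = a * b * out η p q k := by
  unfold out
  rw [← tsum_mul_left]
  exact tsum_congr fun x => by ring

/-- bound on the generator. -/
theorem abs_gen_le_tau {r M : ℝ} (hr : 0 < r) (hM : 0 < M) {P : ℕ → ℝ} (h0 : ∀ k, 0 ≤ P k)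
    (h : ∀ k, P k ≤ M * tau r k) (k : ℕ) :
    |gen r P k| ≤ (4 * (r + 1) * M) * (((k : ℝ) + 1) * tau r k) := by
  have hk : (0 : ℝ) ≤ k := Nat.cast_nonneg k
  have t0 := tau_pos hr k
  have a1 : 0 ≤ r * k * P (k - 1) := by have := h0 (k - 1); (clear * - hr this; positivity)
  have a2 : r * k * P (k - 1) ≤ (r + 1) * M * (k * tau r k) := by
    cases k with
    | zero => simp
    | succ k =>
      simp only [Nat.add_sub_cancel]
      have h1 := h k
      have h2 := tau_succ hr k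
      have h3 : r * tau r k = (r + 1) * tau r (k + 1) := by
        rw [h2]; field_simp
      calc r * ((k + 1 : ℕ) : ℝ) * P k ≤ r * ((k + 1 : ℕ) : ℝ) * (M * tau r k) := by gcongr
        _ = ((k + 1 : ℕ) : ℝ) * M * (r * tau r k) := by ring
        _ = (r + 1) * M * (((k + 1 : ℕ) : ℝ) * tau r (k + 1)) := by rw [h3]; ring
  have a3 : 0 ≤ (r + 1) * (k + 1) * P (k + 1) := by have := h0 (k + 1); (clear * - hr this; positivity)
  have a4 : (r + 1) * (k + 1) * P (k + 1) ≤ r * M * ((k + 1) * tau r k) := by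
    have h1 := h (k + 1)
    have h3 : r * tau r k = (r + 1) * tau r (k + 1) := by
      rw [tau_succ hr k]; field_simp
    calc (r + 1) * (k + 1) * P (k + 1) ≤ (r + 1) * (k + 1) * (M * tau r (k + 1)) := by gcongr
      _ = (k + 1) * M * ((r + 1) * tau r (k + 1)) := by ring
      _ = r * M * ((k + 1) * tau r k) := by rw [← h3]; ring
  have a5 : 0 ≤ (r * (k + 1) + (r + 1) * k) * P k := by have := h0 k; positivity
  have a6 : (r * (k + 1) + (r + 1) * k) * P k ≤ (2 * (r + 1)) * M * ((k + 1) * tau r k) := by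
    have h1 := h k
    have h2 : r * (k + 1) + (r + 1) * k ≤ 2 * (r + 1) * (k + 1) := by linarith
    calc (r * (k + 1) + (r + 1) * k) * P k ≤ (2 * (r + 1) * (k + 1)) * (M * tau r k) := by
          gcongr
          exact h0 k
      _ = _ := by ring
  have a7 : (r + 1) * M * (k * tau r k) ≤ (r + 1) * M * ((k + 1) * tau r k) := by
    gcongr; linarith only []
  have a8 : 0 ≤ M * ((k + 1) * tau r k) := by positivity
  unfold gen
  rw [abs_le]
  constructor <;> linarith

/-- elementary bound for the derivative of a term. -/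
theorem der_bound {kk g1 g2 p q A B M N i j t1 t2 : ℝ} (k0 : 0 ≤ kk) (k1 : kk ≤ 1)
    (h1 : |g1| ≤ A * ((i + 1) * t1)) (h2 : |g2| ≤ B * ((j + 1) * t2)) (p0 : 0 ≤ p)
    (p1 : p ≤ M * t1) (q0 : 0 ≤ q) (q1 : q ≤ N * t2) (hA : 0 ≤ A) (hB : 0 ≤ B) (hM : 0 ≤ M)
    (hN : 0 ≤ N) (i0 : 0 ≤ i) (j0 : 0 ≤ j) (ht1 : 0 ≤ t1) (ht2 : 0 ≤ t2) :
    ‖kk * (g1 * q + p * g2)‖ ≤ (A * N + M * B) * (((i + 1) * t1) * ((j + 1) * t2)) := by
  rw [norm_mul, Real.norm_of_nonneg k0]
  have b1 : ‖g1 * q + p * g2‖ ≤ (A * ((i + 1) * t1)) * (N * t2) +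
      (M * t1) * (B * ((j + 1) * t2)) := by
    refine (norm_add_le _ _).trans ?_
    rw [norm_mul, norm_mul, Real.norm_of_nonneg p0, Real.norm_of_nonneg q0,
      Real.norm_eq_abs, Real.norm_eq_abs]
    have := mul_le_mul h1 q1 q0 (by positivity)
    have h3 := mul_le_mul p1 h2 (abs_nonneg _) (by positivity)
    linarith only [this, h3]
  have c1 : (A * ((i + 1) * t1)) * (N * t2) ≤ A * N * (((i + 1) * t1) * ((j + 1) * t2)) := by
    have : (A * ((i + 1) * t1)) * (N * t2) = A * N * (((i + 1) * t1) * (1 * t2)) := by ring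
    rw [this]
    gcongr
    linarith only [j0]
  have c2 : (M * t1) * (B * ((j + 1) * t2)) ≤ M * B * (((i + 1) * t1) * ((j + 1) * t2)) := by
    have : (M * t1) * (B * ((j + 1) * t2)) = M * B * ((1 * t1) * ((j + 1) * t2)) := by ring
    rw [this]
    gcongr
    linarith only [i0]
  calc kk * ‖g1 * q + p * g2‖ ≤ 1 * ‖g1 * q + p * g2‖ :=
        mul_le_mul_of_nonneg_right k1 (norm_nonneg _)
    _ ≤ _ := by rw [one_mul]; linarith only [b1, c1, c2]

theorem hasDerivAt_out {r s : ℝ} {P Q : ℝ → ℕ → ℝ} (h0 : 0 < η) (h1 : η < 1) (hP : IsFlow r P)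
    (hQ : IsFlow s Q) {t : ℝ} (ht : 0 < t) (k : ℕ) :
    HasDerivAt (fun t => out η (P t) (Q t) k)
      (gen (η * r + (1 - η) * s) (out η (P t) (Q t)) k) t := by
  have hr := hP.pos
  have hs := hQ.pos
  obtain ⟨M, hM, hub⟩ := hP.ub
  obtain ⟨N, hN, hubQ⟩ := hQ.ub
  have hPw : Summable fun i : ℕ => ((i : ℝ) + 1) * |P t i| := by
    refine (hP.summable_weight ht.le).congr fun i => ?_
    rw [abs_of_nonneg ((hP.prob t ht.le).1 i)]
  have hQw : Summable fun i : ℕ => ((i : ℝ) + 1) * |Q t i| := by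
    refine (hQ.summable_weight ht.le).congr fun i => ?_
    rw [abs_of_nonneg ((hQ.prob t ht.le).1 i)]
  have key := out_gen h0.le h1.le r s hPw hQw k
  rw [← key]
  have su : Summable fun x : ℕ × ℕ =>
      ((4 * (r + 1) * M) * N + M * (4 * (s + 1) * N)) *
      ((((x.1 : ℝ) + 1) * tau r x.1) * (((x.2 : ℝ) + 1) * tau s x.2)) := by
    apply Summable.mul_left
    exact Summable.mul_of_nonneg (summable_weight_tau hr) (summable_weight_tau hs)
      (fun i => by have := tau_pos hr i; (clear * - this; positivity)) (fun i => by have := tau_pos hs i; (clear * - this; positivity))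
  have hg : ∀ (x : ℕ × ℕ) (y : ℝ), y ∈ Set.Ioi (0 : ℝ) →
      HasDerivAt (fun t => ker η k x.1 x.2 * (P t x.1 * Q t x.2))
        (ker η k x.1 x.2 * (gen r (P y) x.1 * Q y x.2 + P y x.1 * gen s (Q y) x.2)) y := by
    intro x y hy
    exact ((hP.deriv y hy x.1).mul (hQ.deriv y hy x.2)).const_mul _
  have hg' : ∀ (x : ℕ × ℕ) (y : ℝ), y ∈ Set.Ioi (0 : ℝ) →
      ‖ker η k x.1 x.2 * (gen r (P y) x.1 * Q y x.2 + P y x.1 * gen s (Q y) x.2)‖ ≤
      ((4 * (r + 1) * M) * N + M * (4 * (s + 1) * N)) *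
      ((((x.1 : ℝ) + 1) * tau r x.1) * (((x.2 : ℝ) + 1) * tau s x.2)) := by
    intro x y hy
    have hy0 : (0 : ℝ) ≤ y := le_of_lt hy
    exact der_bound (ker_nonneg η k x.1 x.2) (ker_le_one h0.le h1.le k x.1 x.2)
      (abs_gen_le_tau hr hM (hP.prob y hy0).1 (hub y hy0) x.1)
      (abs_gen_le_tau hs hN (hQ.prob y hy0).1 (hubQ y hy0) x.2)
      ((hP.prob y hy0).1 x.1) (hub y hy0 x.1) ((hQ.prob y hy0).1 x.2) (hubQ y hy0 x.2)
      (by positivity) (by positivity) hM.le hN.le (Nat.cast_nonneg _) (Nat.cast_nonneg _)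
      (tau_pos hr _).le (tau_pos hs _).le
  have hsum : Summable fun x : ℕ × ℕ => ker η k x.1 x.2 * (P t x.1 * Q t x.2) :=
    summable_ker_mul h0.le h1.le k (summable_abs_of_prob (hP.prob t ht.le))
        (summable_abs_of_prob (hQ.prob t ht.le))
  exact hasDerivAt_tsum_of_isPreconnected su isOpen_Ioi
        (convex_Ioi 0).isPreconnected hg hg' (Set.mem_Ioi.2 ht) hsum (Set.mem_Ioi.2 ht)

theorem IsFlow.out {r s : ℝ} {P Q : ℝ → ℕ → ℝ} (h0 : 0 < η) (h1 : η < 1) (hP : IsFlow r P)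
    (hQ : IsFlow s Q) : IsFlow (η * r + (1 - η) * s) (fun t => out η (P t) (Q t)) := by
  have hr := hP.pos
  have hs := hQ.pos
  have h1' : 0 < 1 - η := by linarith
  obtain ⟨M, hM, hub⟩ := hP.ub
  obtain ⟨N, hN, hubQ⟩ := hQ.ub
  obtain ⟨ε, hε, hlb⟩ := hP.lb
  obtain ⟨δ, hδ, hlbQ⟩ := hQ.lb
  have bnd : ∀ t, 0 ≤ t → ∀ k, ∀ x : ℕ × ℕ, ‖ker η k x.1 x.2 * (P t x.1 * Q t x.2)‖ ≤
      (M * tau r x.1) * (N * tau s x.2) := by
    intro t ht k x
    have p0 := (hP.prob t ht).1 x.1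
    have q0 := (hQ.prob t ht).1 x.2
    have k0 := ker_nonneg η k x.1 x.2
    have k1 := ker_le_one h0.le h1.le k x.1 x.2
    rw [Real.norm_of_nonneg (by (clear * - k0 p0 q0; positivity))]
    calc ker η k x.1 x.2 * (P t x.1 * Q t x.2) ≤ 1 * (P t x.1 * Q t x.2) := by (clear * - k1 p0 q0; gcongr)
      _ = P t x.1 * Q t x.2 := one_mul _
      _ ≤ (M * tau r x.1) * (N * tau s x.2) :=
        mul_le_mul (hub t ht _) (hubQ t ht _) q0 (by have := tau_pos hr x.1; positivity)
  have sbnd : Summable fun x : ℕ × ℕ => (M * tau r x.1) * (N * tau s x.2) :=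
    Summable.mul_of_nonneg ((hasSum_tau hr).summable.mul_left M)
      ((hasSum_tau hs).summable.mul_left N) (fun i => by have := tau_pos hr i; positivity)
      (fun i => by have := tau_pos hs i; positivity)
  refine ⟨by positivity, ?_, ?_, ?_, ?_, ?_, ?_⟩
  · intro t ht
    exact out_prob h0.le h1.le (hP.prob t ht) (hQ.prob t ht)
  · intro t ht k
    exact hasDerivAt_out h0 h1 hP hQ ht k
  · intro k
    unfold Vale.Agent.P369.out
    refine continuousOn_tsum (fun x => ?_) sbnd (fun x t ht => bnd t ht k x)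
    exact continuousOn_const.mul ((hP.cont x.1).mul (hQ.cont x.2))
  · refine ⟨M * N, by positivity, fun t ht k => ?_⟩
    rw [← out_tau h0.le h1.le hr hs, ← out_smul]
    exact out_le_out h0.le h1.le (hP.prob t ht).1 (hQ.prob t ht).1 (hub t ht) (hubQ t ht)
      ((hasSum_tau hr).summable.mul_left M) ((hasSum_tau hs).summable.mul_left N) k
  · refine ⟨ε * δ, by positivity, fun t ht k => ?_⟩
    have hx := one_sub_exp_pos ht
    set x := 1 - Real.exp (-t) with hxd
    have e : x * (η * r + (1 - η) * s) = η * (x * r) + (1 - η) * (x * s) := by ring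
    rw [e, ← out_tau h0.le h1.le (by (clear * - hx hr; positivity)) (by (clear * - hx hs; positivity)), ← out_smul]
    refine out_le_out h0.le h1.le ?_ ?_ (hlb t ht) (hlbQ t ht)
      (hP.prob t ht.le).2.summable (hQ.prob t ht.le).2.summable k
    · intro i
      have := tau_pos (r := x * r) (by (clear * - hx hr; positivity)) i
      positivity
    · intro i
      have := tau_pos (r := x * s) (by (clear * - hx hs; positivity)) i
      positivity
  · intro k
    rw [← out_tau h0.le h1.le hr hs]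
    unfold Vale.Agent.P369.out
    refine tendsto_tsum_of_dominated_convergence sbnd (fun x => ?_) ?_
    · exact ((hP.lim x.1).mul (hQ.lim x.2)).const_mul _
    · filter_upwards [eventually_ge_atTop 0] with t ht x
      exact bnd t ht k x

end outflow

section lin

variable {η : ℝ}

theorem isFlow_of_exists {r : ℝ} (hr : 0 < r) {p : ℕ → ℝ} (hp : IsProb p)
    (fp : (Function.support p).Finite) (ap : Antitone p) :
    ∃ P : ℝ → ℕ → ℝ, P 0 = p ∧ IsFlow r P ∧ ∀ t, 0 ≤ t → Antitone (P t) := by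
  obtain ⟨n, hn⟩ : ∃ n, ∀ k, n ≤ k → p k = 0 := by
    obtain ⟨n, hn⟩ := fp.bddAbove
    refine ⟨n + 1, fun k hk => ?_⟩
    by_contra h
    have := hn (Function.mem_support.2 h)
    omega
  obtain ⟨P, hP0, hPp, hd, hc, hub, hlb, hlim⟩ := exists_flow r hr p n hn hp ap
  have hp0 : 0 < p 0 := by
    rcases (hp.1 0).eq_or_lt with h | h
    · exfalso
      have hz : ∀ k, p k = 0 := fun k => le_antisymm (h ▸ ap (Nat.zero_le k)) (hp.1 k)
      have := hp.2.tsum_eq
      simp [hz] at this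
    · exact h
  exact ⟨P, hP0, ⟨hr, fun t ht => (hPp t ht).1, hd, hc, hub,
    ⟨p 0, hp0, fun t ht k => hlb t ht.le k⟩, hlim⟩, fun t ht => (hPp t ht).2⟩

/-- the linearized one-mode inequality. -/
theorem lin_one (h0 : 0 < η) (h1 : η < 1) {r s : ℝ} (hr : 0 < r) (hs : 0 < s) {p q : ℕ → ℝ}
    (hp : IsProb p) (hq : IsProb q) (fp : (Function.support p).Finite)
    (fq : (Function.support q).Finite) (ap : Antitone p) (aq : Antitone q) :
    η * (theta r * (Hs p - Real.log (1 + r))) + (1 - η) * (theta s * (Hs q - Real.log (1 + s))) ≤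
      theta (η * r + (1 - η) * s) *
        (Hs (out η p q) - Real.log (1 + (η * r + (1 - η) * s))) := by
  obtain ⟨P, hP0, hP, hPa⟩ := isFlow_of_exists hr hp fp ap
  obtain ⟨Q, hQ0, hQ, hQa⟩ := isFlow_of_exists hs hq fq aq
  have hC := IsFlow.out h0 h1 hP hQ
  set c := η * r + (1 - η) * s with hc
  set L : ℝ → ℝ := fun t => theta c * (Hs (out η (P t) (Q t)) - Real.log (1 + c)) -
    η * (theta r * (Hs (P t) - Real.log (1 + r))) -
    (1 - η) * (theta s * (Hs (Q t) - Real.log (1 + s))) with hL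
  have cont : ContinuousOn L (Set.Ici 0) := by
    have c1 := hC.continuousOn_Hs
    have c2 := hP.continuousOn_Hs
    have c3 := hQ.continuousOn_Hs
    simp only [hL]
    fun_prop
  have der : ∀ t, 0 < t → HasDerivAt L (theta c * rate c (out η (P t) (Q t)) -
      η * (theta r * rate r (P t)) - (1 - η) * (theta s * rate s (Q t))) t := by
    intro t ht
    have d1 := ((hC.hasDerivAt_Hs ht).sub_const (Real.log (1 + c))).const_mul (theta c)
    have d2 := (((hP.hasDerivAt_Hs ht).sub_const (Real.log (1 + r))).const_mul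
      (theta r)).const_mul η
    have d3 := (((hQ.hasDerivAt_Hs ht).sub_const (Real.log (1 + s))).const_mul
      (theta s)).const_mul (1 - η)
    exact (d1.sub d2).sub d3
  have anti : AntitoneOn L (Set.Ici 0) := by
    apply antitoneOn_of_deriv_nonpos (convex_Ici 0) cont
    · intro t ht
      rw [interior_Ici] at ht
      exact (der t ht).differentiableAt.differentiableWithinAt
    · intro t ht
      rw [interior_Ici] at ht
      have ht' : (0 : ℝ) < t := ht
      rw [(der t ht').deriv]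
      have := rate_ineq h0 h1 hr hs (hP.prob t ht'.le).2 (hQ.prob t ht'.le).2 (hP.P_pos ht')
        (hQ.P_pos ht') (hPa t ht'.le) (hQa t ht'.le) (hP.summable_weight ht'.le)
        (hQ.summable_weight ht'.le) (hP.summable_rterm ht') (hQ.summable_rterm ht')
        (hC.summable_rterm ht') (hC.P_pos ht')
      linarith only [this]
  have lim : Tendsto L atTop (nhds (theta c * (Hs (tau c) - Real.log (1 + c)) -
      η * (theta r * (Hs (tau r) - Real.log (1 + r))) -
      (1 - η) * (theta s * (Hs (tau s) - Real.log (1 + s))))) := by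
    have d1 := (hC.tendsto_Hs.sub_const (Real.log (1 + c))).const_mul (theta c)
    have d2 := ((hP.tendsto_Hs.sub_const (Real.log (1 + r))).const_mul (theta r)).const_mul η
    have d3 := ((hQ.tendsto_Hs.sub_const (Real.log (1 + s))).const_mul
      (theta s)).const_mul (1 - η)
    exact (d1.sub d2).sub d3
  rw [theta_Hs_tau hC.pos, theta_Hs_tau hr, theta_Hs_tau hs] at lim
  have lim0 : Tendsto L atTop (nhds 0) := by
    have : c - η * r - (1 - η) * s = 0 := by rw [hc]; ring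
    rwa [this] at lim
  have key : 0 ≤ L 0 := by
    refine le_of_tendsto lim0 ?_
    filter_upwards [eventually_ge_atTop 0] with t ht
    exact anti (Set.mem_Ici.2 le_rfl) (Set.mem_Ici.2 ht) ht
  simp only [hL, hP0, hQ0] at key
  linarith only [key]

end lin

end Vale.Agent.P369
end
end
end

section

section

/-!
P369T, part 1: one mode. The thermal attenuator is an amplifier after a pure loss channel.
-/

namespace Vale.Agent.P369T

open Vale.Agent.P369

noncomputable section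

/-- thermal distribution with mean `r` -/
def th (r : ℝ) (k : ℕ) : ℝ := r ^ k / (r + 1) ^ (k + 1)

theorem th_nonneg {r : ℝ} (hr : 0 ≤ r) (k : ℕ) : 0 ≤ th r k := by
  unfold th; positivity

theorem th_eq {r : ℝ} (hr : 0 ≤ r) (k : ℕ) : th r k = (r / (r + 1)) ^ k * (r + 1)⁻¹ := by
  unfold th
  rw [div_pow, pow_succ]
  field_simp

theorem th_succ {r : ℝ} (hr : 0 ≤ r) (k : ℕ) : th r (k + 1) = r / (r + 1) * th r k := by
  rw [th_eq hr, th_eq hr, pow_succ]
  ring

theorem th_ratio_lt {r : ℝ} (hr : 0 ≤ r) : r / (r + 1) < 1 := by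
  rw [div_lt_one (by linarith)]; linarith

theorem hasSum_th {r : ℝ} (hr : 0 ≤ r) : HasSum (th r) 1 := by
  have h := (hasSum_geometric_of_lt_one (by positivity) (th_ratio_lt hr)).mul_right (r + 1)⁻¹
  have e : (1 - r / (r + 1))⁻¹ * (r + 1)⁻¹ = 1 := by field_simp; ring
  rw [e] at h
  exact h.congr_fun fun k => th_eq hr k

theorem summable_mul_th {r : ℝ} (hr : 0 ≤ r) : Summable fun k : ℕ => (k : ℝ) * th r k := by
  have h := (summable_pow_mul_geometric_of_norm_lt_one (R := ℝ) 1 (r := r / (r + 1)) (by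
    rw [Real.norm_of_nonneg (by positivity)]; exact th_ratio_lt hr)).mul_right (r + 1)⁻¹
  refine h.congr fun k => ?_
  rw [th_eq hr]
  simp only [pow_one]
  ring

variable {s c : ℝ}

theorem abs_amp_le {η : ℝ} (h0 : 0 ≤ η) (h1 : η ≤ 1) (k l i j : ℕ) :
    |amp (Real.sqrt η) (Real.sqrt (1 - η)) k l i j| ≤ 1 := by
  by_cases h : k + l = i + j
  · have h2 := ker_le_one h0 h1 k i j
    rw [ker_eq h] at h2
    exact (sq_le_one_iff_abs_le_one _).mp h2
  · rw [amp_hom _ _ _ _ _ _ h]; simp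

/-- the one-mode thermal attenuator, in matrix elements: `⟨m| Φ(|k⟩⟨k'|) |m'⟩` -/
def T1 (η r : ℝ) (m m' k k' : ℕ) : ℝ :=
  ∑' b, th r b * (amp (Real.sqrt η) (Real.sqrt (1 - η)) m (k + b - m) k b *
    amp (Real.sqrt η) (Real.sqrt (1 - η)) m' (k + b - m) k' b)

section

variable {η r : ℝ} (h0 : 0 ≤ η) (h1 : η ≤ 1) (hr : 0 ≤ r)
include h0 h1 hr

omit h0 h1 in
theorem T1_summable' (f g : ℕ → ℝ) (hf : ∀ b, |f b| ≤ 1) (hg : ∀ b, |g b| ≤ 1) :
    Summable fun b => th r b * (f b * g b) := by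
  refine Summable.of_norm_bounded (hasSum_th hr).summable fun b => ?_
  rw [norm_mul, norm_mul, Real.norm_of_nonneg (th_nonneg hr b)]
  have : ‖f b‖ * ‖g b‖ ≤ 1 * 1 := mul_le_mul (hf b) (hg b) (norm_nonneg _) zero_le_one
  calc th r b * (‖f b‖ * ‖g b‖) ≤ th r b * (1 * 1) :=
        mul_le_mul_of_nonneg_left this (th_nonneg hr b)
    _ = th r b := by ring

omit h0 h1 in
theorem T1_summable_sqrt (f g : ℕ → ℝ) (hf : ∀ b, |f b| ≤ 1) (hg : ∀ b, |g b| ≤ 1) :
    Summable fun b : ℕ => th r b * (Real.sqrt b * (f b * g b)) := by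
  refine Summable.of_norm_bounded (summable_mul_th hr) fun b => ?_
  rw [norm_mul, norm_mul, norm_mul, Real.norm_of_nonneg (th_nonneg hr b),
    Real.norm_of_nonneg (Real.sqrt_nonneg _)]
  have h2 : ‖f b‖ * ‖g b‖ ≤ 1 * 1 := mul_le_mul (hf b) (hg b) (norm_nonneg _) zero_le_one
  have h3 : Real.sqrt b ≤ b := by
    rcases Nat.eq_zero_or_pos b with h | h
    · subst h; simp
    · have : (1 : ℝ) ≤ b := by exact_mod_cast h
      rw [Real.sqrt_le_left (by linarith only [])]
      nlinarith only [this]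
  calc th r b * (Real.sqrt b * (‖f b‖ * ‖g b‖)) ≤ th r b * (b * (1 * 1)) := by
        apply mul_le_mul_of_nonneg_left _ (th_nonneg hr b)
        exact mul_le_mul h3 h2 (by positivity) (by positivity)
    _ = b * th r b := by ring

theorem T1_hasSum (m m' k k' : ℕ) :
    HasSum (fun b => th r b * (amp (Real.sqrt η) (Real.sqrt (1 - η)) m (k + b - m) k b *
      amp (Real.sqrt η) (Real.sqrt (1 - η)) m' (k + b - m) k' b)) (T1 η r m m' k k') :=
  (T1_summable' hr _ _ (fun _ => abs_amp_le h0 h1 _ _ _ _)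
    (fun _ => abs_amp_le h0 h1 _ _ _ _)).hasSum

omit h0 h1 hr in
theorem T1_symm (m m' k k' : ℕ) : T1 η r m m' k k' = T1 η r m' m k' k := by
  unfold T1
  apply tsum_congr
  intro b
  congr 1
  by_cases h : m + (k + b - m) = k + b
  · by_cases h' : m' + (k + b - m) = k' + b
    · have e : k' + b - m' = k + b - m := by omega
      rw [e, mul_comm]
    · rw [amp_hom _ _ _ _ _ _ h', mul_zero]
      by_cases h2 : m' + (k' + b - m') = k' + b
      · by_cases h3 : m + (k' + b - m') = k + b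
        · exfalso; omega
        · rw [amp_hom _ _ _ _ _ _ h3, mul_zero]
      · rw [amp_hom _ _ _ _ _ _ h2, zero_mul]
  · rw [amp_hom _ _ _ _ _ _ h, zero_mul]
    by_cases h2 : m' + (k' + b - m') = k' + b
    · by_cases h3 : m + (k' + b - m') = k + b
      · exfalso; omega
      · rw [amp_hom _ _ _ _ _ _ h3, mul_zero]
    · rw [amp_hom _ _ _ _ _ _ h2, zero_mul]

/-- the auxiliary sum -/
def G1 (η r : ℝ) (m m' k k' : ℕ) : ℝ :=
  ∑' b : ℕ, th r b * (Real.sqrt b * (amp (Real.sqrt η) (Real.sqrt (1 - η)) m (k + b - 1 - m) k (b - 1) *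
    amp (Real.sqrt η) (Real.sqrt (1 - η)) m' (k + b - 1 - m) k' b))

theorem G1_hasSum (m m' k k' : ℕ) :
    HasSum (fun b : ℕ => th r b * (Real.sqrt b *
      (amp (Real.sqrt η) (Real.sqrt (1 - η)) m (k + b - 1 - m) k (b - 1) *
      amp (Real.sqrt η) (Real.sqrt (1 - η)) m' (k + b - 1 - m) k' b))) (G1 η r m m' k k') :=
  (T1_summable_sqrt hr _ _ (fun _ => abs_amp_le h0 h1 _ _ _ _)
    (fun _ => abs_amp_le h0 h1 _ _ _ _)).hasSum

theorem T1_rec1 (m m' k k' : ℕ) :
    Real.sqrt (m + 1) * T1 η r (m + 1) m' k k' =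
      Real.sqrt η * (Real.sqrt k * T1 η r m m' (k - 1) k') + Real.sqrt (1 - η) * G1 η r m m' k k' := by
  have e1 := (T1_hasSum h0 h1 hr (m + 1) m' k k').mul_left (Real.sqrt (m + 1))
  have e2 := ((T1_hasSum h0 h1 hr m m' (k - 1) k').mul_left
    (Real.sqrt η * Real.sqrt k)).add ((G1_hasSum h0 h1 hr m m' k k').mul_left (Real.sqrt (1 - η)))
  rw [← mul_assoc]
  refine e1.unique (e2.congr_fun fun b => ?_)
  have h := amp_A1 (Real.sqrt η) (Real.sqrt (1 - η)) m (k + b - (m + 1)) k b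
  have f1 : k + b - (m + 1) = k + b - 1 - m := by omega
  rw [f1] at h ⊢
  have h2 : Real.sqrt (m + 1) * (th r b * (amp (Real.sqrt η) (Real.sqrt (1 - η)) (m + 1)
      (k + b - 1 - m) k b * amp (Real.sqrt η) (Real.sqrt (1 - η)) m' (k + b - 1 - m) k' b)) =
      th r b * ((Real.sqrt (m + 1) * amp (Real.sqrt η) (Real.sqrt (1 - η)) (m + 1)
      (k + b - 1 - m) k b) * amp (Real.sqrt η) (Real.sqrt (1 - η)) m' (k + b - 1 - m) k' b) := by ring
  rw [h2, h]
  rcases Nat.eq_zero_or_pos k with hk | hk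
  · subst hk
    simp only [Nat.cast_zero, Real.sqrt_zero, mul_zero, zero_mul]
    ring
  · have f2 : k - 1 + b - m = k + b - 1 - m := by omega
    rw [f2]
    ring

/-- the sum with the photon removed on the other side -/
theorem G1_rec (m m' k k' : ℕ) :
    G1 η r m m' k k' = r / (r + 1) *
      (Real.sqrt (1 - η) * (Real.sqrt m' * T1 η r m (m' - 1) k k') +
       Real.sqrt η * (- Real.sqrt (1 - η) * (Real.sqrt k * T1 η r m m' (k - 1) k') +
         Real.sqrt η * G1 η r m m' k k')) := by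
  -- shift
  have e1 := G1_hasSum h0 h1 hr m m' k k'
  rw [← hasSum_nat_add_iff' 1] at e1
  simp only [Finset.range_one, Finset.sum_singleton, Nat.cast_zero, Real.sqrt_zero, zero_mul,
    mul_zero, sub_zero] at e1
  have e2 := (((T1_hasSum h0 h1 hr m (m' - 1) k k').mul_left
    (Real.sqrt (1 - η) * Real.sqrt m')).add
    ((((T1_hasSum h0 h1 hr m m' (k - 1) k').mul_left (- Real.sqrt (1 - η) * Real.sqrt k)).add
      ((G1_hasSum h0 h1 hr m m' k k').mul_left (Real.sqrt η))).mul_left (Real.sqrt η))).mul_left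
      (r / (r + 1))
  have e3 : r / (r + 1) *
      (Real.sqrt (1 - η) * (Real.sqrt m' * T1 η r m (m' - 1) k k') +
       Real.sqrt η * (- Real.sqrt (1 - η) * (Real.sqrt k * T1 η r m m' (k - 1) k') +
         Real.sqrt η * G1 η r m m' k k')) = r / (r + 1) *
      (Real.sqrt (1 - η) * Real.sqrt m' * T1 η r m (m' - 1) k k' +
       Real.sqrt η * (- Real.sqrt (1 - η) * Real.sqrt k * T1 η r m m' (k - 1) k' +
         Real.sqrt η * G1 η r m m' k k')) := by ring
  rw [e3]
  refine e1.unique (e2.congr_fun fun b => ?_)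
  have f1 : k + (b + 1) - 1 - m = k + b - m := by omega
  have f0 : b + 1 - 1 = b := by omega
  rw [f1, f0, th_succ hr]
  have h4 := amp_A4 (Real.sqrt η) (Real.sqrt (1 - η)) m' (k + b - m) k' b
  push_cast
  have g1 : r / (r + 1) * th r b * (Real.sqrt ((b : ℝ) + 1) *
      (amp (Real.sqrt η) (Real.sqrt (1 - η)) m (k + b - m) k b *
      amp (Real.sqrt η) (Real.sqrt (1 - η)) m' (k + b - m) k' (b + 1))) =
      r / (r + 1) * th r b * (amp (Real.sqrt η) (Real.sqrt (1 - η)) m (k + b - m) k b *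
      (Real.sqrt ((b : ℝ) + 1) * amp (Real.sqrt η) (Real.sqrt (1 - η)) m' (k + b - m) k' (b + 1))) := by
    ring
  rw [g1, h4]
  -- the term with `√l`
  have key : Real.sqrt ((k + b - m : ℕ) : ℝ) * (amp (Real.sqrt η) (Real.sqrt (1 - η)) m (k + b - m) k b *
      amp (Real.sqrt η) (Real.sqrt (1 - η)) m' (k + b - m - 1) k' b) =
      - Real.sqrt (1 - η) * (Real.sqrt k * (amp (Real.sqrt η) (Real.sqrt (1 - η)) m (k - 1 + b - m) (k - 1) b *
        amp (Real.sqrt η) (Real.sqrt (1 - η)) m' (k - 1 + b - m) k' b)) +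
      Real.sqrt η * (Real.sqrt b * (amp (Real.sqrt η) (Real.sqrt (1 - η)) m (k + b - 1 - m) k (b - 1) *
        amp (Real.sqrt η) (Real.sqrt (1 - η)) m' (k + b - 1 - m) k' b)) := by
    by_cases hl : k + b ≤ m
    · have z1 : k + b - m = 0 := by omega
      rw [z1]
      simp only [Nat.cast_zero, Real.sqrt_zero, zero_mul]
      have z2 : Real.sqrt (k : ℝ) * (amp (Real.sqrt η) (Real.sqrt (1 - η)) m (k - 1 + b - m) (k - 1) b *
        amp (Real.sqrt η) (Real.sqrt (1 - η)) m' (k - 1 + b - m) k' b) = 0 := by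
        rcases Nat.eq_zero_or_pos k with hk | hk
        · subst hk; simp only [CharP.cast_eq_zero, Real.sqrt_zero, zero_tsub, zero_add, zero_mul]
        · rw [amp_hom _ _ m (k - 1 + b - m) (k - 1) b (by omega)]; ring
      have z3 : Real.sqrt (b : ℝ) * (amp (Real.sqrt η) (Real.sqrt (1 - η)) m (k + b - 1 - m) k (b - 1) *
        amp (Real.sqrt η) (Real.sqrt (1 - η)) m' (k + b - 1 - m) k' b) = 0 := by
        rcases Nat.eq_zero_or_pos b with hk | hk
        · subst hk; simp only [CharP.cast_eq_zero, Real.sqrt_zero, add_zero, zero_tsub, zero_mul]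
        · rw [amp_hom _ _ m (k + b - 1 - m) k (b - 1) (by omega)]; ring
      rw [z2, z3]; ring
    · obtain ⟨l, hl2⟩ : ∃ l, k + b - m = l + 1 := ⟨k + b - m - 1, by omega⟩
      have h2 := amp_A2 (Real.sqrt η) (Real.sqrt (1 - η)) m l k b
      have z1 : k + b - 1 - m = l := by omega
      have z2 : k + b - m - 1 = l := by omega
      rw [z2, hl2, z1]
      have g2 : Real.sqrt ((l + 1 : ℕ) : ℝ) * (amp (Real.sqrt η) (Real.sqrt (1 - η)) m (l + 1) k b *
        amp (Real.sqrt η) (Real.sqrt (1 - η)) m' l k' b) =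
        (Real.sqrt ((l : ℝ) + 1) * amp (Real.sqrt η) (Real.sqrt (1 - η)) m (l + 1) k b) *
        amp (Real.sqrt η) (Real.sqrt (1 - η)) m' l k' b := by push_cast; ring
      rw [g2, h2]
      rcases Nat.eq_zero_or_pos k with hk | hk
      · subst hk
        simp only [Nat.cast_zero, Real.sqrt_zero, mul_zero, zero_mul]
        ring
      · have z3 : k - 1 + b - m = l := by omega
        rw [z3]
        ring
  linear_combination (r / (r + 1) * th r b * Real.sqrt η) * key

/-- gain of the amplifier -/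
def kap (η r : ℝ) : ℝ := 1 + (1 - η) * r

omit h0 in
theorem kap_pos : 0 < kap η r := by
  unfold kap
  have : 0 ≤ (1 - η) * r := mul_nonneg (by linarith) hr
  linarith

theorem T1_rec (m m' k k' : ℕ) :
    Real.sqrt (m + 1) * T1 η r (m + 1) m' k k' =
      Real.sqrt η / kap η r * (Real.sqrt k * T1 η r m m' (k - 1) k') +
      (kap η r - 1) / kap η r * (Real.sqrt m' * T1 η r m (m' - 1) k k') := by
  have e1 := T1_rec1 h0 h1 hr m m' k k'
  have e2 := G1_rec h0 h1 hr m m' k k'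
  have hκ := kap_pos h1 hr
  have hr1 : (0 : ℝ) < r + 1 := by linarith only [hr]
  have hs : Real.sqrt η * Real.sqrt η = η := Real.mul_self_sqrt h0
  have hc : Real.sqrt (1 - η) * Real.sqrt (1 - η) = 1 - η := Real.mul_self_sqrt (by linarith only [h1])
  rw [e1]
  set G := G1 η r m m' k k'
  set X := Real.sqrt m' * T1 η r m (m' - 1) k k'
  set Y := Real.sqrt k * T1 η r m m' (k - 1) k'
  set s := Real.sqrt η
  set c := Real.sqrt (1 - η)
  -- `κ G = r c X - r s c Y`
  have e3 : kap η r * G = r * (c * X) - r * (s * c * Y) := by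
    have h5 : (r + 1) * G = r * (c * X + s * (-c * Y + s * G)) := by
      conv_lhs => rw [e2]
      (clear * - hr; field_simp)
    unfold kap
    linear_combination h5 + r * G * hs
  have e4 : G = (r * (c * X) - r * (s * c * Y)) / kap η r := by
    rw [eq_div_iff hκ.ne', mul_comm, e3]
  rw [e4]
  have hk : kap η r = 1 + (1 - η) * r := rfl
  field_simp
  rw [hk]
  linear_combination (r * X - r * s * Y) * hc

theorem T1_rec' (m m' k k' : ℕ) :
    Real.sqrt (m' + 1) * T1 η r m (m' + 1) k k' =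
      Real.sqrt η / kap η r * (Real.sqrt k' * T1 η r m m' k (k' - 1)) +
      (kap η r - 1) / kap η r * (Real.sqrt m * T1 η r (m - 1) m' k k') := by
  rw [T1_symm m (m' + 1), T1_rec h0 h1 hr m' m k' k, T1_symm m' m, T1_symm m' (m - 1)]

omit h0 h1 hr in
theorem amp_zero_left (s c : ℝ) (k b : ℕ) : amp s c 0 (k + b) k b =
    Real.sqrt (((k + b).choose k : ℕ) : ℝ) * (-c) ^ k * s ^ b := by
  induction k with
  | zero =>
    induction b with
    | zero => simp [amp_zero_zero]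
    | succ b ih =>
      have h := amp_A4 s c 0 (0 + (b + 1)) 0 b
      simp only [Nat.cast_zero, Real.sqrt_zero, mul_zero, zero_mul, zero_add,
        Nat.add_sub_cancel, Nat.choose_zero_right, Nat.cast_one, Real.sqrt_one, one_mul,
        pow_zero] at h ih ⊢
      have hp : (0 : ℝ) < Real.sqrt ((b : ℝ) + 1) := Real.sqrt_pos.mpr (by positivity)
      push_cast at h
      rw [ih] at h
      apply mul_left_cancel₀ hp.ne'
      rw [h]
      ring
  | succ k ih =>
    have h := amp_A3 s c 0 (k + 1 + b) k b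
    have e : k + 1 + b - 1 = k + b := by omega
    simp only [Nat.cast_zero, Real.sqrt_zero, mul_zero, zero_mul, zero_sub, e] at h
    rw [ih] at h
    have hp : (0 : ℝ) < Real.sqrt ((k : ℝ) + 1) := Real.sqrt_pos.mpr (by positivity)
    apply mul_left_cancel₀ hp.ne'
    rw [h]
    have e2 : Real.sqrt ((k + 1 + b : ℕ) : ℝ) * Real.sqrt (((k + b).choose k : ℕ) : ℝ) =
        Real.sqrt ((k : ℝ) + 1) * Real.sqrt (((k + 1 + b).choose (k + 1) : ℕ) : ℝ) := by
      rw [← Real.sqrt_mul (by positivity), ← Real.sqrt_mul (by positivity)]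
      congr 1
      have h3 := Nat.add_one_mul_choose_eq (k + b) k
      have h4 : k + b + 1 = k + 1 + b := by omega
      rw [h4] at h3
      have h5 : ((k + 1 + b : ℕ) : ℝ) * (((k + b).choose k : ℕ) : ℝ) =
          (((k + 1 + b).choose (k + 1) : ℕ) : ℝ) * ((k + 1 : ℕ) : ℝ) := by
        exact_mod_cast h3
      rw [h5]
      push_cast
      ring
    rw [pow_succ]
    linear_combination (-c * (-c) ^ k * s ^ b) * e2

theorem T1_zero (k k' : ℕ) :
    T1 η r 0 0 k k' = if k = k' then (kap η r)⁻¹ * (1 - η / kap η r) ^ k else 0 := by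
  split_ifs with h
  · subst h
    have hκ := kap_pos h1 hr
    have hr1 : (0 : ℝ) < r + 1 := by linarith
    have e1 := T1_hasSum h0 h1 hr 0 0 k k
    have hq : ‖η * (r / (r + 1))‖ < 1 := by
      rw [Real.norm_of_nonneg (by positivity)]
      have := th_ratio_lt hr
      calc η * (r / (r + 1)) ≤ 1 * (r / (r + 1)) := mul_le_mul_of_nonneg_right h1 (by positivity)
        _ < 1 := by linarith only [this]
    have e2 := (hasSum_choose_mul_geometric_of_norm_lt_one k hq).mul_left ((1 - η) ^ k * (r + 1)⁻¹)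
    have e3 : (1 - η) ^ k * (r + 1)⁻¹ * (1 / (1 - η * (r / (r + 1))) ^ (k + 1)) =
        (kap η r)⁻¹ * (1 - η / kap η r) ^ k := by
      have f1 : 1 - η * (r / (r + 1)) = kap η r / (r + 1) := by
        unfold kap; field_simp; ring
      have f2 : 1 - η / kap η r = (1 - η) * (r + 1) / kap η r := by
        have : kap η r = 1 + (1 - η) * r := rfl
        field_simp
        rw [this]; ring
      rw [f1, f2, div_pow, div_pow, mul_pow]
      field_simp
      ring
    rw [← e3]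
    refine e1.unique (e2.congr_fun fun b => ?_)
    have h2 : amp (Real.sqrt η) (Real.sqrt (1 - η)) 0 (k + b - 0) k b =
        Real.sqrt (((k + b).choose k : ℕ) : ℝ) * (-Real.sqrt (1 - η)) ^ k * Real.sqrt η ^ b :=
      amp_zero_left _ _ k b
    rw [h2, th_eq hr]
    have h3 : (Real.sqrt (((k + b).choose k : ℕ) : ℝ) * (-Real.sqrt (1 - η)) ^ k * Real.sqrt η ^ b) *
        (Real.sqrt (((k + b).choose k : ℕ) : ℝ) * (-Real.sqrt (1 - η)) ^ k * Real.sqrt η ^ b) =
        (((k + b).choose k : ℕ) : ℝ) * (1 - η) ^ k * η ^ b := by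
      have a1 : Real.sqrt (((k + b).choose k : ℕ) : ℝ) * Real.sqrt (((k + b).choose k : ℕ) : ℝ) =
        (((k + b).choose k : ℕ) : ℝ) := Real.mul_self_sqrt (by positivity)
      have a2 : (-Real.sqrt (1 - η)) ^ k * (-Real.sqrt (1 - η)) ^ k = (1 - η) ^ k := by
        rw [← mul_pow, neg_mul_neg, Real.mul_self_sqrt (by linarith only [h1])]
      have a3 : Real.sqrt η ^ b * Real.sqrt η ^ b = η ^ b := by
        rw [← mul_pow, Real.mul_self_sqrt h0]
      calc _ = (Real.sqrt (((k + b).choose k : ℕ) : ℝ) * Real.sqrt (((k + b).choose k : ℕ) : ℝ)) *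
          ((-Real.sqrt (1 - η)) ^ k * (-Real.sqrt (1 - η)) ^ k) * (Real.sqrt η ^ b * Real.sqrt η ^ b) := by
            ring
        _ = _ := by rw [a1, a2, a3]
    rw [h3, mul_pow, add_comm k b]
    ring
  · unfold T1
    rw [tsum_congr (g := fun _ => (0 : ℝ)), tsum_zero]
    intro b
    by_cases h2 : 0 + (k + b - 0) = k' + b
    · exfalso; omega
    · rw [amp_hom _ _ _ _ _ _ h2]; ring

end

end

end Vale.Agent.P369T
end
end

section

section

/-! Entropy of a matrix and of one of its blocks; continuity of the entropy along sequences;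
scaling. -/

namespace Vale.Agent.P369V

open scoped InnerProductSpace ComplexOrder
open Matrix Filter Topology

noncomputable section

variable {ι : Type} [Fintype ι] [DecidableEq ι]

theorem g4_clm_inner (C : Matrix ι ι ℂ) (i j : ι) :
    ⟪EuclideanSpace.single i (1 : ℂ), toEuclideanCLM (𝕜 := ℂ) C (EuclideanSpace.single j 1)⟫_ℂ
      = C i j := by
  rw [EuclideanSpace.inner_single_left, map_one, one_mul, Matrix.ofLp_toEuclideanCLM]
  simp

theorem g4_cont : Continuous (toEuclideanCLM (n := ι) (𝕜 := ℂ)) :=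
  ((toEuclideanCLM (n := ι) (𝕜 := ℂ)).toAlgEquiv.toLinearEquiv.toLinearMap).continuous_of_finiteDimensional

theorem g4_clm_cfc (C : Matrix ι ι ℂ) (hC : C.IsHermitian) (f : ℝ → ℝ) (hf : Continuous f) :
    cfc f (toEuclideanCLM (𝕜 := ℂ) C) = toEuclideanCLM (𝕜 := ℂ) (cfc f C) := by
  have hsa : IsSelfAdjoint C := hC
  have h := StarAlgHomClass.map_cfc (S := ℂ) (toEuclideanCLM (n := ι) (𝕜 := ℂ)) f C
    hf.continuousOn g4_cont hsa (hsa.map _)
  exact h.symm

theorem g4_clm_nonneg {C : Matrix ι ι ℂ} (hC : C.PosSemidef) :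
    0 ≤ toEuclideanCLM (n := ι) (𝕜 := ℂ) C := by
  rw [ContinuousLinearMap.nonneg_iff_isPositive]
  exact (Matrix.isPositive_toEuclideanLin_iff).2 hC

theorem g4_ent_eq_clm {C : Matrix ι ι ℂ} (hC : C.IsHermitian) :
    ent C = ∑ i, (⟪EuclideanSpace.single i (1 : ℂ),
      cfc Real.negMulLog (toEuclideanCLM (n := ι) (𝕜 := ℂ) C) (EuclideanSpace.single i 1)⟫_ℂ).re := by
  unfold ent
  rw [g4_clm_cfc C hC _ Real.continuous_negMulLog]
  simp only [g4_clm_inner, Matrix.trace, Matrix.diag_apply, Complex.re_sum]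

open Classical in
/-- G4, for an injective family of indices -/
theorem ent_le_block_emb {ι κ : Type} [Fintype ι] [DecidableEq ι] [Fintype κ] [DecidableEq κ]
    {A : Matrix ι ι ℂ} (hA : A.PosSemidef) (emb : κ → ι) (hemb : Function.Injective emb) :
    ent A ≤ ent (A.submatrix emb emb) +
      ∑ i : ι, if i ∈ Set.range emb then 0 else Real.negMulLog (A i i).re := by
  rw [g4_ent_eq_clm hA.1]
  set x : ι → ℝ := fun i => (⟪EuclideanSpace.single i (1 : ℂ),
      cfc Real.negMulLog (toEuclideanCLM (n := ι) (𝕜 := ℂ) A) (EuclideanSpace.single i 1)⟫_ℂ).re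
    with hx
  have ho : Orthonormal ℂ (fun k : κ => EuclideanSpace.single (emb k) (1 : ℂ)) :=
    EuclideanSpace.orthonormal_single.comp _ hemb
  have h1 := ga_T1 ho (g4_clm_nonneg hA)
  have h2 : gaC (fun k : κ => EuclideanSpace.single (emb k) (1 : ℂ))
      (toEuclideanCLM (n := ι) (𝕜 := ℂ) A) = A.submatrix emb emb := by
    ext i j
    simp only [gaC, Matrix.of_apply, g4_clm_inner, Matrix.submatrix_apply]
  rw [h2] at h1
  have h4 : ∑ i, x i = ∑ k, x (emb k) + ∑ i, if i ∈ Set.range emb then 0 else x i := by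
    have h5 : ∑ k, x (emb k) = ∑ i, if i ∈ Set.range emb then x i else 0 := by
      rw [← Finset.sum_filter]
      have h6 : (Finset.univ.filter fun i => i ∈ Set.range emb)
          = Finset.univ.map ⟨emb, hemb⟩ := by
        ext i
        simp only [Set.mem_range, Finset.univ_filter_exists, Finset.mem_image, Finset.mem_univ, true_and, Finset.mem_map, Function.Embedding.coeFn_mk]
      rw [h6, Finset.sum_map]
      rfl
    rw [h5, ← Finset.sum_add_distrib]
    refine Finset.sum_congr rfl fun i _ => ?_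
    split_ifs <;> simp
  rw [h4]
  refine add_le_add h1 (Finset.sum_le_sum fun i _ => ?_)
  split_ifs with h
  · exact le_rfl
  · have h3 := ga_jensen (g4_clm_nonneg hA) (u := EuclideanSpace.single (i : ι) (1 : ℂ)) (by simp)
    rwa [g4_clm_inner] at h3

/-- continuity of the entropy along sequences of positive semidefinite matrices. -/
theorem g4_tendsto_ent {A : ℕ → Matrix ι ι ℂ} {B : Matrix ι ι ℂ} (hA : ∀ k, (A k).PosSemidef)
    (hB : B.PosSemidef) (h : Tendsto A atTop (𝓝 B)) :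
    Tendsto (fun k => ent (A k)) atTop (𝓝 (ent B)) := by
  have hT : Tendsto (fun k => toEuclideanCLM (n := ι) (𝕜 := ℂ) (A k)) atTop
      (𝓝 (toEuclideanCLM (n := ι) (𝕜 := ℂ) B)) := (g4_cont.tendsto B).comp h
  set TB := toEuclideanCLM (n := ι) (𝕜 := ℂ) B with hTB
  have hspec : ∀ T : EuclideanSpace ℂ ι →L[ℂ] EuclideanSpace ℂ ι, 0 ≤ T → ‖T‖ ≤ ‖TB‖ + 1 →
      spectrum ℝ T ⊆ Set.Icc 0 (‖TB‖ + 1) := by
    intro T hT0 hTn x hx
    refine ⟨ga_spec hT0 x hx, ?_⟩
    by_cases hm : Nonempty ι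
    · have h1 := spectrum.norm_le_norm_mul_of_mem hx
      have h2 : ‖x‖ ≤ ‖T‖ * ‖(1 : EuclideanSpace ℂ ι →L[ℂ] EuclideanSpace ℂ ι)‖ := h1
      have h3 : ‖(1 : EuclideanSpace ℂ ι →L[ℂ] EuclideanSpace ℂ ι)‖ ≤ 1 :=
        ContinuousLinearMap.norm_id_le
      have h4 : x ≤ ‖x‖ := le_abs_self x
      nlinarith only [hTn, h1, h4, h3, norm_nonneg T]
    · exfalso
      have : Subsingleton (EuclideanSpace ℂ ι →L[ℂ] EuclideanSpace ℂ ι) := by
        rw [not_nonempty_iff] at hm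
        infer_instance
      rw [spectrum.of_subsingleton] at hx
      exact hx
  have hev : ∀ᶠ k in atTop, ‖toEuclideanCLM (n := ι) (𝕜 := ℂ) (A k)‖ ≤ ‖TB‖ + 1 := by
    have h1 := hT.norm
    exact (h1.eventually (gt_mem_nhds (lt_add_one ‖TB‖))).mono fun k hk => hk.le
  have hcfc : Tendsto (fun k => cfc Real.negMulLog (toEuclideanCLM (n := ι) (𝕜 := ℂ) (A k))) atTop
      (𝓝 (cfc Real.negMulLog TB)) := by
    refine hT.cfc (s := Set.Icc 0 (‖TB‖ + 1)) isCompact_Icc Real.negMulLog ?_ ?_ ?_ ?_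
      (ga_cont _)
    · exact hev.mono fun k hk => hspec _ (g4_clm_nonneg (hA k)) hk
    · exact Eventually.of_forall fun k => IsSelfAdjoint.of_nonneg (g4_clm_nonneg (hA k))
    · exact hspec _ (g4_clm_nonneg hB) (by linarith only [])
    · exact IsSelfAdjoint.of_nonneg (g4_clm_nonneg hB)
  have e1 : (fun k => ent (A k)) = fun k => ∑ i, (⟪EuclideanSpace.single i (1 : ℂ),
      cfc Real.negMulLog (toEuclideanCLM (n := ι) (𝕜 := ℂ) (A k))
        (EuclideanSpace.single i 1)⟫_ℂ).re := by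
    funext k
    exact g4_ent_eq_clm (hA k).1
  rw [e1, g4_ent_eq_clm hB.1]
  refine tendsto_finsetSum _ fun i _ => ?_
  have h1 : Continuous fun T : EuclideanSpace ℂ ι →L[ℂ] EuclideanSpace ℂ ι =>
      (⟪EuclideanSpace.single i (1 : ℂ), T (EuclideanSpace.single i 1)⟫_ℂ).re := by
    fun_prop
  exact (h1.tendsto _).comp hcfc

/-- scaling. -/
theorem g4_ent_smul {A : Matrix ι ι ℂ} (hA : A.PosSemidef) {t : ℝ} (ht : 0 < t) :
    ent ((t⁻¹ : ℝ) • A) = t⁻¹ * ent A + Real.log t / t * A.trace.re := by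
  have hsa : IsSelfAdjoint A := hA.1
  have h1 : cfc Real.negMulLog ((t⁻¹ : ℝ) • A)
      = (t⁻¹ : ℝ) • cfc Real.negMulLog A + (Real.log t / t : ℝ) • A := by
    rw [← cfc_comp_smul (t⁻¹ : ℝ) Real.negMulLog A (Real.continuous_negMulLog.continuousOn) hsa]
    have h2 : (fun x : ℝ => Real.negMulLog ((t⁻¹ : ℝ) • x))
        = fun x : ℝ => (t⁻¹ : ℝ) * Real.negMulLog x + (Real.log t / t) * x := by
      funext x
      rw [smul_eq_mul]
      unfold Real.negMulLog
      by_cases hx : x = 0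
      · subst hx; simp
      · rw [Real.log_mul (inv_ne_zero ht.ne') hx, Real.log_inv]
        field_simp
        ring
    rw [h2, cfc_add (a := A) (fun x : ℝ => (t⁻¹ : ℝ) * Real.negMulLog x)
      (fun x => (Real.log t / t) * x) ((Real.continuous_negMulLog.const_mul _).continuousOn)
      (by fun_prop), cfc_const_mul _ Real.negMulLog A (Real.continuous_negMulLog.continuousOn),
      cfc_const_mul_id _ A hsa]
  unfold ent
  rw [h1, Matrix.trace_add, Matrix.trace_smul, Matrix.trace_smul, Complex.add_re,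
    Complex.smul_re, Complex.smul_re, smul_eq_mul, smul_eq_mul]

end

end Vale.Agent.P369V
end
end

section

section

namespace Vale.Agent.P369V

open Matrix Set Filter Topology
open scoped InnerProductSpace ComplexOrder
open Vale.Agent.P369 (Conf box mem_box tendsto_box tot)
open Vale.Agent.P369.Sys

noncomputable section

theorem g8_loss_smul {n M : ℕ} (x : ℝ) (c : ℝ) (ρ : Matrix (Cf n M) (Cf n M) ℂ) :
    loss n M x (c • ρ) = c • loss n M x ρ := by
  ext k k'
  have h : loss n M x (c • ρ) k k' =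
    ∑ l, (bsJ n M x * (c • ρ) * (bsJ n M x)ᴴ) (k, l) (k', l) := rfl
  have h' : (c • loss n M x ρ) k k' =
    c • ∑ l, (bsJ n M x * ρ * (bsJ n M x)ᴴ) (k, l) (k', l) := rfl
  rw [h, h', Finset.smul_sum]
  refine Finset.sum_congr rfl fun l _ => ?_
  rw [Matrix.mul_smul, Matrix.smul_mul, Matrix.smul_apply]

variable {n : ℕ} {H : Type} [NormedAddCommGroup H] [InnerProductSpace ℂ H] [CompleteSpace H]

omit [CompleteSpace H] in
theorem g8_cutm_posSemidef (e : Conf n → H) (M : ℕ) {T : H →L[ℂ] H} (hT : T.IsPositive) :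
    (cutm e M T).PosSemidef := by
  rw [Matrix.posSemidef_iff_dotProduct_mulVec]
  constructor
  · ext k l
    rw [Matrix.conjTranspose_apply]
    unfold cutm
    rw [Complex.star_def, inner_conj_symm]
    exact hT.isSymmetric _ _
  · intro x
    have h2 : star x ⬝ᵥ (cutm e M T *ᵥ x) =
        ⟪∑ k : Cf n M, x k • e (cv k), T (∑ k : Cf n M, x k • e (cv k))⟫_ℂ := by
      rw [map_sum, sum_inner]
      unfold dotProduct
      refine Finset.sum_congr rfl fun k _ => ?_
      rw [inner_sum, Matrix.mulVec, dotProduct, Finset.mul_sum]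
      refine Finset.sum_congr rfl fun l _ => ?_
      rw [map_smul, inner_smul_left, inner_smul_right, Pi.star_apply]
      unfold cutm
      rw [Complex.star_def]
      ring
    rw [h2]
    exact hT.inner_nonneg_right _

omit [CompleteSpace H] in
theorem g8_trace (e : Conf n → H) (M : ℕ) (T : H →L[ℂ] H) :
    (cutm e M T).trace = ∑ k ∈ box n M, ⟪e k, T (e k)⟫_ℂ := by
  rw [← sum_cv (M := M) (fun k => ⟪e k, T (e k)⟫_ℂ)]
  rfl

theorem g8_trace_tendsto {e : Conf n → H} {T : H →L[ℂ] H} (hT : IsState e T) :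
    Tendsto (fun M => (cutm e M T).trace.re) atTop (𝓝 1) := by
  have h1 := (show Tendsto (fun s : Finset (Conf n) => ∑ k ∈ s, (⟪e k, T (e k)⟫_ℂ).re) atTop (𝓝 1)
    from g3_hasSum hT).comp (tendsto_box n)
  refine h1.congr fun M => ?_
  rw [g8_trace, Complex.re_sum]
  rfl

theorem g8_trace_le {e : Conf n → H} {T : H →L[ℂ] H} (hT : IsState e T) (M : ℕ) :
    (cutm e M T).trace.re ≤ 1 := by
  rw [g8_trace, Complex.re_sum]
  exact sum_le_hasSum _ (fun k _ => g3_nonneg hT k) (g3_hasSum hT)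

theorem g8_trace_im {e : Conf n → H} {T : H →L[ℂ] H} (hT : IsState e T) (M : ℕ) :
    (cutm e M T).trace = (((cutm e M T).trace.re : ℝ) : ℂ) := by
  rw [g8_trace, Complex.re_sum, Complex.ofReal_sum]
  refine Finset.sum_congr rfl fun k _ => ?_
  have h := hT.1.inner_nonneg_right (e k)
  rw [Complex.nonneg_iff] at h
  apply Complex.ext
  · simp
  · simp [← h.2]

/-- the tail bound of the entropy of the output -/
def g8W (D : Conf n → ℝ) (k : Conf n) : ℝ := tot k * D k + Real.exp (-tot k)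

theorem g8_tail {D : Conf n → ℝ} (hD : ∀ k, 0 ≤ D k) (hs : Summable (g8W D)) {L M : ℕ} (hLM : L ≤ M)
    {B : Matrix (Cf n M) (Cf n M) ℂ} (hB : B.PosSemidef) (hle : ∀ i, (B i i).re ≤ D (cv i)) :
    ent B ≤ ent (B.submatrix (g8_emb hLM) (g8_emb hLM)) +
      (∑' k, g8W D k - ∑ k ∈ box n L, g8W D k) := by
  classical
  have hW : ∀ k, 0 ≤ g8W D k := fun k =>
    add_nonneg (mul_nonneg (P369.tot_nonneg k) (hD k)) (Real.exp_pos _).le
  refine (ent_le_block_emb hB (g8_emb hLM) (g8_emb_injective hLM)).trans (add_le_add le_rfl ?_)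
  have h1 : ∀ i : Cf n M, (if i ∈ Set.range (g8_emb hLM : Cf n L → Cf n M) then 0 else
      Real.negMulLog (B i i).re) ≤ (if cv i ∈ box n L then 0 else g8W D (cv i)) := by
    intro i
    by_cases hi : i ∈ Set.range (g8_emb hLM : Cf n L → Cf n M)
    · rw [if_pos hi, if_pos]
      obtain ⟨k, rfl⟩ := hi
      rw [cv_g8_emb, mem_box]
      exact cv_le k
    · rw [if_neg hi, if_neg]
      · have h0 : 0 ≤ (B i i).re := by
          have := hB.diag_nonneg (i := i)
          rw [Complex.nonneg_iff] at this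
          exact this.1
        refine (P369.negMulLog_le (E := tot (cv i)) h0).trans ?_
        unfold g8W
        gcongr
        · exact P369.tot_nonneg _
        · exact hle i
      · intro h
        rw [mem_box] at h
        exact hi ⟨g8_tr (cv i) h, cv_injective rfl⟩
  have h2 : (∑ i : Cf n M, if i ∈ Set.range (g8_emb hLM : Cf n L → Cf n M) then 0 else
      Real.negMulLog (B i i).re) ≤ ∑ i : Cf n M, (if cv i ∈ box n L then 0 else g8W D (cv i)) :=
    Finset.sum_le_sum fun i _ => h1 i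
  have h3 : ∑ i : Cf n M, (if cv i ∈ box n L then 0 else g8W D (cv i)) =
      ∑ k ∈ box n M, (if k ∈ box n L then 0 else g8W D k) :=
    sum_cv (M := M) (fun k => if k ∈ box n L then 0 else g8W D k)
  have hsub : box n L ⊆ box n M := by
    intro k hk
    rw [mem_box] at hk ⊢
    exact fun j => (hk j).trans hLM
  have h4 : ∑ k ∈ box n M, (if k ∈ box n L then 0 else g8W D k) =
      ∑ k ∈ box n M, g8W D k - ∑ k ∈ box n L, g8W D k := by
    rw [← Finset.sum_sdiff hsub, ← Finset.sum_sdiff (s₁ := box n L) (s₂ := box n M)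
      (f := fun k => g8W D k) hsub, add_sub_cancel_right]
    rw [Finset.sum_congr rfl (g := fun k => g8W D k)
      (fun k hk => if_neg (Finset.mem_sdiff.mp hk).2)]
    rw [Finset.sum_congr (s₁ := box n L) rfl (g := fun _ => (0 : ℝ)) (fun k hk => if_pos hk)]
    simp only [Finset.sum_const_zero, add_zero]
  have h5 : ∑ k ∈ box n M, g8W D k ≤ ∑' k, g8W D k :=
    hs.sum_le_tsum _ fun k _ => hW k
  have h6 : (∑ i : Cf n M, if i ∈ Set.range (g8_emb hLM : Cf n L → Cf n M) then 0 else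
      Real.negMulLog (B i i).re) ≤ ∑' k, g8W D k - ∑ k ∈ box n L, g8W D k := by
    rw [h3, h4] at h2
    linarith only [h2, h5]
  convert h6

end

end Vale.Agent.P369V
end
end

section

section

/-!
P369A, Z3: real-analysis part of the isoperimetric inequality for the amplifier, continued.
-/

namespace Vale.Agent.P369A

open MeasureTheory Set Filter
open scoped Topology

noncomputable section

theorem z3_core {n R e B : ℝ} (hR : 0 < R) {yC yD : ℝ → ℝ} {iC iD : ℕ → ℝ → ℝ → ℝ}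
    {I : ℕ → ℝ → ℝ} (hyD : ∀ t, 1 < t → 0 ≤ yD t) (hCD : ∀ t, 1 < t → yD t ≤ yC t)
    (hIc : ∀ Y, ContinuousOn (I Y) (Icc 0 1)) (hIv : ∀ Y, ConvexOn ℝ (Icc 0 1) (I Y))
    (hI0 : ∀ Y, ∀ m ∈ Icc (0 : ℝ) 1, 0 ≤ I Y m)
    (hiC : ∀ X T, ContinuousOn (Function.uncurry (iC X)) (Icc 1 T ×ˢ Icc (0 : ℝ) 1))
    (hA : ∀ T, 1 ≤ T → ∀ ε > 0, ∀ᶠ X in atTop,
      (PhiC n R e 1 - yC 1) - (PhiC n R e T - yC T) ≤ (∫ t in (1 : ℝ)..T, ∫ m in (0 : ℝ)..1,
        (1 - m) * (iC X t m / t) / (t * (R + 1) - 1 + m) ^ 2) + ε)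
    (hAD : ∀ t₁ T, 1 < t₁ → t₁ ≤ T → ∀ ε > 0, ∀ᶠ X in atTop,
      (PsiD n R e T - yD T) - (PsiD n R e t₁ - yD t₁) ≤ (∫ t in t₁..T, ∫ m in (0 : ℝ)..1,
        m * (iD (2 * X) t m / (t - 1)) / ((t - 1) * (R + 1) + m) ^ 2) + ε)
    (hQ : ∀ X, ∃ idY : ℕ → ℝ → ℝ → ℝ,
      (∀ᶠ Y in atTop,
        (∀ t₁ T, 1 < t₁ → ContinuousOn (Function.uncurry (idY Y)) (Icc t₁ T ×ˢ Icc 0 1)) ∧
        (∀ t, 1 < t → ∀ μ ∈ Icc (0 : ℝ) 1, 0 ≤ idY Y t μ) ∧
        (∀ t, 1 < t → ∀ l ν : ℝ, 0 ≤ l → l ≤ ν → ν ≤ 1 →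
          (1 - ν) * (iC X t ν / t) + (ν - l) * idY Y t (ν - l) ≤ (1 - l) * I Y l) ∧
        (∀ t, 1 ≤ t → ∀ ν ∈ Icc (0 : ℝ) 1, iC X t ν / t ≤ I Y ν) ∧
        (∀ t, 1 < t → ∀ l ∈ Icc (0 : ℝ) 1, ∀ μ ∈ Icc (0 : ℝ) 1, idY Y t μ ≤ I Y l)) ∧
      (∀ t, 1 < t → ∀ μ ∈ Icc (0 : ℝ) 1, Tendsto (fun Y => idY Y t μ) atTop
        (𝓝 (iD (2 * X) t μ / (t - 1)))))
    (hB : ∀ Y, ∫ m in (0 : ℝ)..1, (1 - m) / (R + m) ^ 2 * I Y m ≤ B) :
    PhiC n R e 1 - yC 1 ≤
      Real.log (1 + 1 / R) / (1 / R - Real.log (1 + 1 / R)) * B := by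
  have z01 : (0 : ℝ) ≤ 1 := zero_le_one
  have ha := scal_den_pos hR
  set c : ℝ := Real.log (1 + 1 / R) / (1 / R - Real.log (1 + 1 / R)) with hc
  have hL0 : 0 ≤ Real.log (1 + 1 / R) := Real.log_nonneg (by
    have : 0 ≤ 1 / R := by positivity
    linarith only [this])
  have hc0 : 0 ≤ c := div_nonneg hL0 ha.le
  have hR1 : 0 < R + 1 := by linarith only [hR]
  have ii : ∀ {a b : ℝ} {f : ℝ → ℝ}, a ≤ b → ContinuousOn f (Icc a b) →
      IntervalIntegrable f volume a b := by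
    intro a b f hab hf
    apply ContinuousOn.intervalIntegrable
    rwa [uIcc_of_le hab]
  have cw : ContinuousOn (fun m : ℝ => (1 - m) / (R + m) ^ 2) (Icc 0 1) :=
    ContinuousOn.div (by fun_prop) (by (clear * -; fun_prop)) fun m hm => by
      have : 0 < R + m := by linarith only [hR, hm.1]
      (clear * - this; positivity)
  have hB0 : 0 ≤ B := by
    refine le_trans ?_ (hB 0)
    refine intervalIntegral.integral_nonneg z01 fun m hm => mul_nonneg ?_ (hI0 0 m hm)
    exact div_nonneg (by linarith only [hm.2]) (sq_nonneg _)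
  have cC : ∀ X a T, 1 ≤ a → ContinuousOn (Function.uncurry fun t m =>
      (1 - m) * (iC X t m / t) / (t * (R + 1) - 1 + m) ^ 2) (Icc a T ×ˢ Icc (0 : ℝ) 1) := by
    intro X a T ha1
    have e : (Function.uncurry fun t m => (1 - m) * (iC X t m / t) / (t * (R + 1) - 1 + m) ^ 2) =
        fun p : ℝ × ℝ => (1 - p.2) * (Function.uncurry (iC X) p / p.1) /
          (p.1 * (R + 1) - 1 + p.2) ^ 2 := rfl
    rw [e]
    refine ContinuousOn.div (ContinuousOn.mul (by fun_prop) (((hiC X T).mono ?_).div (by fun_prop)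
      fun p hp => ?_)) (by (clear * -; fun_prop)) fun p hp => ?_
    · exact prod_mono (Icc_subset_Icc_left ha1) le_rfl
    · have := ha1.trans hp.1.1
      linarith only [this]
    · have h1 := z3_rC hR (ha1.trans hp.1.1)
      have h2 := hp.2.1
      have : 0 < p.1 * (R + 1) - 1 + p.2 := by linarith only [hR, h1, h2]
      (clear * - this; positivity)
  have cD : ∀ (f : ℝ → ℝ → ℝ) (t₁ T : ℝ), 1 < t₁ →
      ContinuousOn (Function.uncurry f) (Icc t₁ T ×ˢ Icc (0 : ℝ) 1) →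
      ContinuousOn (Function.uncurry fun t m => m * f t m / ((t - 1) * (R + 1) + m) ^ 2)
        (Icc t₁ T ×ˢ Icc (0 : ℝ) 1) := by
    intro f t₁ T ht₁ hf
    have e : (Function.uncurry fun t m => m * f t m / ((t - 1) * (R + 1) + m) ^ 2) =
        fun p : ℝ × ℝ => p.2 * Function.uncurry f p / ((p.1 - 1) * (R + 1) + p.2) ^ 2 := rfl
    rw [e]
    refine ContinuousOn.div (ContinuousOn.mul (by fun_prop) hf) (by fun_prop) fun p hp => ?_
    have h1 := z3_rD hR (ht₁.trans_le hp.1.1)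
    have h2 := hp.2.1
    have : 0 < (p.1 - 1) * (R + 1) + p.2 := by linarith only [h1, h2]
    (clear * - h1 h2; positivity)
  -- the main step
  have main : ∀ t₁ T, 1 < t₁ → t₁ ≤ T → PhiC n R e 1 - yC 1 ≤
      (PhiC n R e T - PsiD n R e T) + PsiD n R e t₁ + (t₁ - 1) * B + c * B := by
    intro t₁ T ht₁ hT
    have h1T : 1 ≤ T := ht₁.le.trans hT
    refine le_of_forall_pos_le_add fun ε hε => ?_
    obtain ⟨X, hX1, hX2⟩ := ((hA T h1T (ε / 2) (by linarith only [hε])).and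
      (hAD t₁ T ht₁ hT (ε / 2) (by linarith only [hε]))).exists
    obtain ⟨idY, hY, hlim⟩ := hQ X
    -- split the first integral
    have hsplit : (∫ t in (1 : ℝ)..T, ∫ m in (0 : ℝ)..1,
        (1 - m) * (iC X t m / t) / (t * (R + 1) - 1 + m) ^ 2) =
        (∫ t in (1 : ℝ)..t₁, ∫ m in (0 : ℝ)..1,
          (1 - m) * (iC X t m / t) / (t * (R + 1) - 1 + m) ^ 2) +
        ∫ t in t₁..T, ∫ m in (0 : ℝ)..1,
          (1 - m) * (iC X t m / t) / (t * (R + 1) - 1 + m) ^ 2 :=
      (intervalIntegral.integral_add_adjacent_intervals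
        (ii ht₁.le (z3_cont_inner (cC X 1 t₁ le_rfl)))
        (ii hT (z3_cont_inner (cC X t₁ T ht₁.le)))).symm
    -- the initial part
    have hinit : (∫ t in (1 : ℝ)..t₁, ∫ m in (0 : ℝ)..1,
          (1 - m) * (iC X t m / t) / (t * (R + 1) - 1 + m) ^ 2) ≤ (t₁ - 1) * B := by
      obtain ⟨Y, hY'⟩ := hY.exists
      have h1 : ∫ t in (1 : ℝ)..t₁, B = (t₁ - 1) * B := by
        rw [intervalIntegral.integral_const, smul_eq_mul]
      rw [← h1]
      refine intervalIntegral.integral_mono_on ht₁.le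
        (ii ht₁.le (z3_cont_inner (cC X 1 t₁ le_rfl))) intervalIntegrable_const fun t ht => ?_
      refine le_trans ?_ (hB Y)
      have hsl : ContinuousOn (fun m => (1 - m) * (iC X t m / t) / (t * (R + 1) - 1 + m) ^ 2)
          (Icc 0 1) := by
        have : ContinuousOn (fun m : ℝ => (t, m)) (Icc (0 : ℝ) 1) := by fun_prop
        exact (cC X 1 t₁ le_rfl).comp this fun m hm => ⟨ht, hm⟩
      refine intervalIntegral.integral_mono_on z01 (ii z01 hsl) (ii z01 (cw.mul (hIc Y)))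
        fun m hm => ?_
      have h2 := hY'.2.2.2.1 t ht.1 m hm
      have h3 := z3_rC hR ht.1
      have h4 : 0 < R + m := by linarith only [hR, hm.1]
      have h5 : 0 ≤ 1 - m := by linarith only [hm.2]
      have h6 : (R + m) ^ 2 ≤ (t * (R + 1) - 1 + m) ^ 2 :=
        pow_le_pow_left₀ h4.le (by linarith only [h3]) 2
      calc (1 - m) * (iC X t m / t) / (t * (R + 1) - 1 + m) ^ 2
          ≤ (1 - m) * I Y m / (t * (R + 1) - 1 + m) ^ 2 :=
            div_le_div_of_nonneg_right (mul_le_mul_of_nonneg_left h2 h5) (sq_nonneg _)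
        _ ≤ (1 - m) * I Y m / (R + m) ^ 2 :=
            div_le_div_of_nonneg_left (mul_nonneg h5 (hI0 Y m hm)) (by (clear * - h4; positivity)) h6
        _ = (1 - m) / (R + m) ^ 2 * I Y m := by ring
    -- the main part
    have hmain : (∫ t in t₁..T, ∫ m in (0 : ℝ)..1,
          (1 - m) * (iC X t m / t) / (t * (R + 1) - 1 + m) ^ 2) +
        (∫ t in t₁..T, ∫ m in (0 : ℝ)..1,
          m * (iD (2 * X) t m / (t - 1)) / ((t - 1) * (R + 1) + m) ^ 2) ≤ c * B := by
      have hid : Tendsto (fun Y => ∫ t in t₁..T, ∫ m in (0 : ℝ)..1,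
          m * idY Y t m / ((t - 1) * (R + 1) + m) ^ 2) atTop
          (𝓝 (∫ t in t₁..T, ∫ m in (0 : ℝ)..1,
            m * (iD (2 * X) t m / (t - 1)) / ((t - 1) * (R + 1) + m) ^ 2)) := by
        refine z3_dct2 hT (M := B / (1 / R - Real.log (1 + 1 / R)) / ((t₁ - 1) * (R + 1)) ^ 2)
          ?_ ?_ ?_
        · filter_upwards [hY] with Y hY'
          exact cD _ _ _ ht₁ (hY'.1 t₁ T ht₁)
        · filter_upwards [hY] with Y hY' t ht m hm
          have h1t : 1 < t := ht₁.trans_le ht.1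
          have h1 := hY'.2.1 t h1t m hm
          have h2 : idY Y t m ≤ B / (1 / R - Real.log (1 + 1 / R)) := by
            rw [le_div_iff₀ ha, ← scal_int1 hR, ← intervalIntegral.integral_const_mul]
            refine le_trans ?_ (hB Y)
            refine intervalIntegral.integral_mono_on z01
              (ii z01 (continuousOn_const.mul cw)) (ii z01 (cw.mul (hIc Y))) fun l hl => ?_
            rw [mul_comm]
            exact mul_le_mul_of_nonneg_left (hY'.2.2.2.2 t h1t l hl m hm)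
              (div_nonneg (by linarith only [hl.2]) (sq_nonneg _))
          have h3 : 0 < (t₁ - 1) * (R + 1) := z3_rD hR ht₁
          have h4 : (t₁ - 1) * (R + 1) ≤ (t - 1) * (R + 1) + m := by
            have : (t₁ - 1) * (R + 1) ≤ (t - 1) * (R + 1) :=
              mul_le_mul_of_nonneg_right (by linarith only [ht.1]) hR1.le
            linarith only [this, hm.1]
          rw [abs_of_nonneg (div_nonneg (mul_nonneg hm.1 h1) (sq_nonneg _))]
          refine div_le_div₀ (h1.trans h2) ?_ (by positivity) (pow_le_pow_left₀ h3.le h4 2)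
          exact (mul_le_of_le_one_left h1 hm.2).trans h2
        · intro t ht m hm
          exact ((hlim t (ht₁.trans_le ht.1) m hm).const_mul m).div_const _
      have hlim2 := hid.const_add (∫ t in t₁..T, ∫ m in (0 : ℝ)..1,
          (1 - m) * (iC X t m / t) / (t * (R + 1) - 1 + m) ^ 2)
      refine le_of_tendsto hlim2 ?_
      filter_upwards [hY] with Y hY'
      rw [← z3_add2 hT (cC X t₁ T ht₁.le) (cD _ _ _ ht₁ (hY'.1 t₁ T ht₁))]
      refine le_trans ?_ (mul_le_mul_of_nonneg_left (hB Y) hc0)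
      have hicc : ContinuousOn (Function.uncurry fun t m => iC X t m / t)
          (Icc t₁ T ×ˢ Icc (0 : ℝ) 1) := by
        have e : (Function.uncurry fun t m => iC X t m / t) =
          fun p : ℝ × ℝ => Function.uncurry (iC X) p / p.1 := rfl
        rw [e]
        refine ((hiC X T).mono (prod_mono (Icc_subset_Icc_left ht₁.le) le_rfl)).div (by fun_prop)
          fun p hp => ?_
        have := ht₁.trans_le hp.1.1
        linarith only [this]
      exact amp_scalar hR (hIv Y) (hIc Y) (hI0 Y) ht₁ hT hicc (hY'.1 t₁ T ht₁)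
        (fun k hk ν hν => hY'.2.2.2.1 k (ht₁.le.trans hk.1) ν hν)
        (fun k hk l ν h0 hlν h1 => hY'.2.2.1 k (ht₁.trans_le hk.1) l ν h0 hlν h1)
        (fun k hk l hl μ hμ => hY'.2.2.2.2 k (ht₁.trans_le hk.1) l hl μ hμ)
    rw [hsplit] at hX1
    have h1 := hyD t₁ ht₁
    have h2 := hCD T (ht₁.trans_le hT)
    linarith
  -- limits
  refine le_of_forall_pos_le_add fun ε hε => ?_
  have l1 : Tendsto (fun t₁ : ℝ => PsiD n R e t₁ + (t₁ - 1) * B) (𝓝[>] 1) (𝓝 (0 + (1 - 1) * B)) :=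
    (z3_Psi_zero hR).add ((((continuous_id.sub continuous_const).mul
      continuous_const).tendsto (1 : ℝ)).mono_left nhdsWithin_le_nhds)
  have e1 : (0 : ℝ) + (1 - 1) * B = 0 := by ring
  rw [e1] at l1
  obtain ⟨t₁, ht1, ht2⟩ := ((l1.eventually (eventually_lt_nhds (show (0 : ℝ) < ε / 2 by
    linarith only [hε]))).and self_mem_nhdsWithin).exists
  have ht2 : 1 < t₁ := ht2
  have l2 := (z3_top (n := n) (e := e) hR).eventually (eventually_lt_nhds (show (0 : ℝ) < ε / 2 by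
    linarith only [hε]))
  obtain ⟨T, hT1, hT2⟩ := (l2.and (eventually_ge_atTop t₁)).exists
  have := main t₁ T ht2 hT2
  linarith only [ht1, hT1, this]

/-- from the potential inequality to the isoperimetric inequality -/
theorem z3_final {n R e y : ℝ} (hR : 0 < R) {P G tr en : ℕ → ℝ}
    (hy : y = n * P369.g R) (hG : Monotone G) (htr : Tendsto tr atTop (𝓝 1))
    (hen : Tendsto en atTop (𝓝 (e - n)))
    (hP : ∀ Y, P Y = n * tr (Y + 1) + G Y - 1 / R * en (Y + 1) +
      Real.log (1 + 1 / R) * (en Y + n * tr Y))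
    (hcore : ∀ B, (∀ Y, G Y ≤ B) → PhiC n R e 1 - y ≤
      Real.log (1 + 1 / R) / (1 / R - Real.log (1 + 1 / R)) * B) :
    ∀ ε > 0, ∀ᶠ Y in atTop, n * hamp R - ε ≤ P Y := by
  intro ε hε
  have ha := scal_den_pos hR
  have hL : 0 < Real.log (1 + 1 / R) := Real.log_pos (by
    have : 0 < 1 / R := by positivity
    linarith)
  have l1 : Tendsto (fun Y => n * tr (Y + 1) - 1 / R * en (Y + 1) +
      Real.log (1 + 1 / R) * (en Y + n * tr Y)) atTop (𝓝 (n * 1 - 1 / R * (e - n) +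
      Real.log (1 + 1 / R) * (e - n + n * 1))) :=
    ((((tendsto_add_atTop_iff_nat 1).2 htr).const_mul n).sub
      (((tendsto_add_atTop_iff_nat 1).2 hen).const_mul _)).add
      ((hen.add (htr.const_mul n)).const_mul _)
  have hP' : P = fun Y => G Y + (n * tr (Y + 1) - 1 / R * en (Y + 1) +
      Real.log (1 + 1 / R) * (en Y + n * tr Y)) := by
    funext Y
    rw [hP Y]
    ring
  rcases tendsto_atTop_of_monotone hG with h | ⟨B, h⟩
  · have h2 : Tendsto P atTop atTop := by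
      rw [hP']
      exact h.atTop_add l1
    exact h2.eventually_ge_atTop _
  · have h2 : Tendsto P atTop (𝓝 (B + (n * 1 - 1 / R * (e - n) +
        Real.log (1 + 1 / R) * (e - n + n * 1)))) := by
      rw [hP']
      exact h.add l1
    have h3 := hcore B (hG.ge_of_tendsto h)
    have h4 : PhiC n R e 1 - y = Real.log (1 + 1 / R) * (e - n * (R + 1)) := by
      have e1 : Real.log (1 + 1 / R) = Real.log (R + 1) - Real.log R := by
        rw [← Real.log_div (by positivity) hR.ne']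
        congr 1
        field_simp
      rw [hy]
      unfold PhiC P369.g
      simp only [one_mul, add_sub_cancel_right]
      rw [e1]
      ring
    rw [h4] at h3
    have h5 : e - n * (R + 1) ≤ 1 / (1 / R - Real.log (1 + 1 / R)) * B := by
      have e2 : Real.log (1 + 1 / R) / (1 / R - Real.log (1 + 1 / R)) * B =
          Real.log (1 + 1 / R) * (1 / (1 / R - Real.log (1 + 1 / R)) * B) := by ring
      rw [e2] at h3
      exact le_of_mul_le_mul_left h3 hL
    have h6 : (1 / R - Real.log (1 + 1 / R)) * (e - n * (R + 1)) ≤ B := by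
      have := mul_le_mul_of_nonneg_left h5 ha.le
      have e3 : (1 / R - Real.log (1 + 1 / R)) * (1 / (1 / R - Real.log (1 + 1 / R)) * B) = B := by
        rw [← mul_assoc, mul_one_div_cancel ha.ne', one_mul]
      rwa [e3] at this
    have h7 : n * hamp R ≤ B + (n * 1 - 1 / R * (e - n) +
        Real.log (1 + 1 / R) * (e - n + n * 1)) := by
      refine le_trans (le_of_eq ?_) (add_le_add_left h6 _)
      unfold hamp
      field_simp
      ring
    have h8 := h2.eventually (eventually_gt_nhds (show n * hamp R - ε < B + (n * 1 - 1 / R * (e - n) +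
        Real.log (1 + 1 / R) * (e - n + n * 1)) by linarith only [hε, h7]))
    filter_upwards [h8] with Y hY using hY.le

end

end Vale.Agent.P369A
end
end

section

section

/-!
P369V, G5-G7, part b: the output with vacuum second input, in the sequence model.
-/

namespace Vale.Agent.P369V

open scoped InnerProductSpace
open Vale.Agent.P369

noncomputable section

variable {n : ℕ} {η : ℝ}

/-- a state with `ρ |0⟩ = |0⟩` is the vacuum -/
theorem g5_vac_apply {ρ : Fock n →L[ℂ] Fock n} (hρ : P369.IsState ρ) (h0 : ρ (ket 0) = ket 0)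
    {l : Conf n} (hl : l ≠ 0) : ρ (ket l) = 0 := by
  apply g5_apply_eq_zero hρ.1
  have hs := Complex.hasSum_re hρ.2
  have hnn : ∀ k : Conf n, 0 ≤ (⟪ket k, ρ (ket k)⟫_ℂ).re := fun k =>
    hρ.1.re_inner_nonneg_right (ket k)
  have h00 : (⟪ket (0 : Conf n), ρ (ket 0)⟫_ℂ).re = 1 := by
    rw [h0, inner_ket, ket_apply, if_pos rfl]; simp
  have h2 : ∑ k ∈ ({0, l} : Finset (Conf n)), (⟪ket k, ρ (ket k)⟫_ℂ).re ≤ 1 := by
    have := sum_le_hasSum ({0, l} : Finset (Conf n)) (fun k _ => hnn k) hs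
    simpa only [ge_iff_le, Complex.one_re] using this
  rw [Finset.sum_pair hl.symm, h00] at h2
  have h3 : (⟪ket l, ρ (ket l)⟫_ℂ).re = 0 := le_antisymm (by linarith) (hnn l)
  have h4 := hρ.1.inner_nonneg_right (ket l)
  apply Complex.ext
  · exact h3
  · exact (Complex.le_def.mp h4).2.symm

theorem g5_vac_inner {ρ : Fock n →L[ℂ] Fock n} (hρ : P369.IsState ρ) (h0 : ρ (ket 0) = ket 0)
    (k l : Conf n) : ⟪ket k, ρ (ket l)⟫_ℂ = if k = 0 ∧ l = 0 then 1 else 0 := by
  by_cases hl : l = 0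
  · subst hl
    rw [h0, inner_ket, ket_apply]
    by_cases hk : k = 0 <;> simp [hk]
  · rw [g5_vac_apply hρ h0 hl, inner_zero_right, if_neg (fun h => hl h.2)]

theorem g5_prod_zero {ρA ρB : Fock n →L[ℂ] Fock n} {ρAB : Fock2 n →L[ℂ] Fock2 n}
    (hB : P369.IsState ρB) (hB0 : ρB (ket 0) = ket 0)
    (h : P369.IsProduct ρA ρB ρAB) (k l : Conf n) (hl : l ≠ 0) : ρAB (ket2 k l) = 0 := by
  apply fock2_ext
  intro a b
  rw [← inner_ket2, h, g5_vac_inner hB hB0, if_neg (fun h => hl h.2), mul_zero]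
  rfl

theorem g5_levelVec {ρAB : Fock2 n →L[ℂ] Fock2 n}
    (h0 : ∀ k l : Conf n, l ≠ 0 → ρAB (ket2 k l) = 0) (F : Conf n → Conf n → ℝ) (T : Conf n) :
    ρAB (levelVec F T) = ((F T 0 : ℝ) : ℂ) • ρAB (ket2 T 0) := by
  unfold levelVec
  rw [map_sum]
  have hT : T ∈ below T := mem_below.mpr fun j => le_rfl
  rw [Finset.sum_eq_single_of_mem T hT]
  · rw [map_smul]
    have : T - T = 0 := by funext j; simp
    rw [this]
  · intro m hm hmT
    rw [map_smul, h0, smul_zero]
    intro h'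
    apply hmT
    have h2 := sub_add_of_mem hm
    rw [h', add_zero] at h2
    exact h2

theorem g5_element {U : Fock2 n ≃ₗᵢ[ℂ] Fock2 n} (hU : P369.IsBeamSplitter η U)
    {ρA ρB : Fock n →L[ℂ] Fock n} {ρAB : Fock2 n →L[ℂ] Fock2 n}
    (hB : P369.IsState ρB) (hB0 : ρB (ket 0) = ket 0)
    (h : P369.IsProduct ρA ρB ρAB) (k k' l : Conf n) :
    ⟪ket2 k l, U (ρAB (U.symm (ket2 k' l)))⟫_ℂ =
      ((ampn (Real.sqrt η) (Real.sqrt (1 - η)) k l (k + l) 0 *
        ampn (Real.sqrt η) (Real.sqrt (1 - η)) k' l (k' + l) 0 : ℝ) : ℂ) *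
        ⟪ket (k + l), ρA (ket (k' + l))⟫_ℂ := by
  have hz := g5_prod_zero hB hB0 h
  rw [symm_apply hU, g5_levelVec hz, map_smul, inner_smul_right]
  have h1 : ⟪ket2 k l, U (ρAB (ket2 (k' + l) 0))⟫_ℂ =
      ⟪U.symm (ket2 k l), ρAB (ket2 (k' + l) 0)⟫_ℂ := by
    rw [← LinearIsometryEquiv.inner_map_map U (U.symm (ket2 k l)),
      LinearIsometryEquiv.apply_symm_apply]
  rw [h1, symm_apply hU, inner_levelVec]
  have hT : k + l ∈ below (k + l) := mem_below.mpr fun j => le_rfl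
  rw [Finset.sum_eq_single_of_mem (k + l) hT]
  · have e0 : k + l - (k + l) = 0 := by funext j; simp
    rw [e0, ← inner_ket2, h, g5_vac_inner hB hB0, if_pos ⟨rfl, rfl⟩]
    push_cast
    ring
  · intro m hm hmT
    rw [← inner_ket2, h, g5_vac_inner hB hB0, if_neg, mul_zero, mul_zero]
    intro h'
    apply hmT
    have h2 := sub_add_of_mem hm
    rw [h'.1, add_zero] at h2
    exact h2

/-- G5 in the sequence model -/
theorem g5_output {ρA ρB ρC : Fock n →L[ℂ] Fock n}
    (hB : P369.IsState ρB) (hB0 : ρB (ket 0) = ket 0)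
    (hO : P369.IsOutput η ρA ρB ρC) (k k' : Conf n) :
    HasSum (fun l : Conf n =>
      ((ampn (Real.sqrt η) (Real.sqrt (1 - η)) k l (k + l) 0 *
        ampn (Real.sqrt η) (Real.sqrt (1 - η)) k' l (k' + l) 0 : ℝ) : ℂ) *
        ⟪ket (k + l), ρA (ket (k' + l))⟫_ℂ) ⟪ket k, ρC (ket k')⟫_ℂ := by
  obtain ⟨U, ρAB, hU, hP, hM⟩ := hO
  refine (hM k k').congr_fun fun l => ?_
  exact (g5_element hU hB hB0 hP k k' l).symm

/-- the vacuum distribution -/
def g5_del (n : ℕ) : Conf n → ℝ := fun k => if k = 0 then 1 else 0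

theorem g5_del_isProb : IsProb (g5_del n) := by
  constructor
  · intro k; unfold g5_del; split_ifs <;> norm_num
  · unfold g5_del; exact hasSum_ite_eq 0 1

/-- the diagonal elements of the output -/
theorem g5_diag_sum (h0 : 0 ≤ η) (h1 : η ≤ 1) {p : Conf n → ℝ} (hp : IsProb p) (m : Conf n) :
    HasSum (fun l : Conf n => ampn (Real.sqrt η) (Real.sqrt (1 - η)) m l (m + l) 0 ^ 2 * p (m + l))
      (outn η p (g5_del n) m) := by
  refine (hasSum_fiber h0 h1 hp g5_del_isProb m).congr_fun fun l => ?_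
  have hT : m + l ∈ below (m + l) := mem_below.mpr fun j => le_rfl
  rw [Finset.sum_eq_single_of_mem (m + l) hT]
  · have e0 : m + l - (m + l) = 0 := by funext j; simp
    rw [e0, kern_eq_sq (l := l) (by rw [add_zero])]
    unfold g5_del
    rw [if_pos rfl]
    ring
  · intro k hk hkT
    unfold g5_del
    rw [if_neg, mul_zero, mul_zero]
    intro h'
    apply hkT
    have h2 := sub_add_of_mem hk
    rw [h', add_zero] at h2
    exact h2

/-- the diagonal of a state -/
def g5_dg (ρ : Fock n →L[ℂ] Fock n) : Conf n → ℝ := fun k => (⟪ket k, ρ (ket k)⟫_ℂ).re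

theorem g5_dg_eq {ρ : Fock n →L[ℂ] Fock n} (hρ : ρ.IsPositive) (k : Conf n) :
    ⟪ket k, ρ (ket k)⟫_ℂ = ((g5_dg ρ k : ℝ) : ℂ) := by
  have h4 := hρ.inner_nonneg_right (ket k)
  apply Complex.ext
  · simp only [g5_dg, Complex.ofReal_re]
  · rw [Complex.ofReal_im]; exact (Complex.le_def.mp h4).2.symm

theorem g5_dg_isProb {ρ : Fock n →L[ℂ] Fock n} (hρ : P369.IsState ρ) : IsProb (g5_dg ρ) := by
  constructor
  · intro k; exact hρ.1.re_inner_nonneg_right (ket k)
  · have h : HasSum (fun k : Conf n => (⟪ket k, ρ (ket k)⟫_ℂ).re) 1 := by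
      simpa using Complex.hasSum_re hρ.2
    exact h

end

end Vale.Agent.P369V
end
end

section

section

/-!
P369V, E3: superadditivity of `t ↦ HH (t l) (loss t ρ)`, one step.
-/

namespace Vale.Agent.P369V

open Matrix MeasureTheory Set
open scoped Kronecker InnerProductSpace ComplexOrder

noncomputable section

section e3

variable {ι : Type} [Fintype ι] [DecidableEq ι]

lemma e3_tr1 (T : Matrix (ι × ι) (ι × ι) ℂ) (B : Matrix ι ι ℂ) :
    (ptr₁ T * B).trace = (T * (B ⊗ₖ (1 : Matrix ι ι ℂ))).trace := by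
  simp only [Matrix.trace, Matrix.diag, Matrix.mul_apply, ptr₁, Fintype.sum_prod_type,
    Matrix.kroneckerMap_apply, Matrix.one_apply, mul_ite, mul_one, mul_zero, Finset.sum_ite_eq',
    Finset.mem_univ, if_true, Finset.sum_mul]
  refine Finset.sum_congr rfl fun k _ => ?_
  rw [Finset.sum_comm]

lemma e3_tr2 (T : Matrix (ι × ι) (ι × ι) ℂ) (B : Matrix ι ι ℂ) :
    (ptr₂ T * B).trace = (T * ((1 : Matrix ι ι ℂ) ⊗ₖ B)).trace := by
  have h : ∀ k l : ι, ∑ k', ∑ l', T (k, l) (k', l') *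
      ((1 : Matrix ι ι ℂ) k' k * B l' l) = ∑ l', T (k, l) (k, l') * B l' l := by
    intro k l
    rw [Finset.sum_eq_single k]
    · simp only [one_apply_eq, one_mul]
    · intro b _ hb
      simp only [ne_eq, hb, not_false_eq_true, one_apply_ne, zero_mul, mul_zero, Finset.sum_const_zero]
    · simp only [Finset.mem_univ, not_true_eq_false, one_apply_eq, one_mul, IsEmpty.forall_iff]
  simp only [Matrix.trace, Matrix.diag, Matrix.mul_apply, ptr₂, Fintype.sum_prod_type,
    Matrix.kroneckerMap_apply, Finset.sum_mul]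
  simp only [h]
  symm
  rw [Finset.sum_comm]
  refine Finset.sum_congr rfl fun l _ => ?_
  rw [Finset.sum_comm]

variable {κ : Type} [Fintype κ] [DecidableEq κ]

/-- trace of `ρ G†G` is nonnegative -/
lemma e3_trace_nonneg {ρ : Matrix ι ι ℂ} (hρ : ρ.PosSemidef) (G : Matrix κ ι ℂ) :
    0 ≤ (ρ * (Gᴴ * G)).trace.re := by
  have h1 : (ρ * (Gᴴ * G)).trace = (G * ρ * Gᴴ).trace := by
    rw [← Matrix.mul_assoc, Matrix.trace_mul_comm, ← Matrix.mul_assoc]
  rw [h1]
  have h2 := (hρ.mul_mul_conjTranspose_same G).trace_nonneg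
  exact (Complex.le_def.1 h2).1

/-- compression by an isometry -/
lemma e3_compress {J : Matrix κ ι ℂ} (hJ : Jᴴ * J = 1) {ρ : Matrix ι ι ℂ} (hρ : ρ.PosSemidef)
    (A : Matrix κ κ ℂ) :
    (ρ * ((Jᴴ * A * J)ᴴ * (Jᴴ * A * J))).trace.re ≤ ((J * ρ * Jᴴ) * (Aᴴ * A)).trace.re := by
  have h1 : ((J * ρ * Jᴴ) * (Aᴴ * A)).trace = (ρ * (Jᴴ * Aᴴ * A * J)).trace := by
    rw [Matrix.mul_assoc J, Matrix.mul_assoc J, Matrix.trace_mul_comm]
    simp only [Matrix.mul_assoc]
  have h2 := e3_trace_nonneg hρ (A * J - J * (Jᴴ * A * J))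
  have h3 : (A * J - J * (Jᴴ * A * J))ᴴ * (A * J - J * (Jᴴ * A * J)) =
      Jᴴ * Aᴴ * A * J - (Jᴴ * A * J)ᴴ * (Jᴴ * A * J) := by
    simp only [conjTranspose_sub, conjTranspose_mul, conjTranspose_conjTranspose, Matrix.sub_mul,
      Matrix.mul_sub, Matrix.mul_assoc]
    have e1 : ∀ B : Matrix ι ι ℂ, Jᴴ * (J * B) = B := fun B => by
      rw [← Matrix.mul_assoc, hJ, Matrix.one_mul]
    simp only [e1]
    abel
  rw [h3, Matrix.mul_sub, trace_sub, Complex.sub_re] at h2
  rw [h1]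
  linarith

lemma e3_trace_TYY {J : Matrix κ ι ℂ} {ρ : Matrix ι ι ℂ} (hρ : ρ.PosSemidef)
    (Y : Matrix κ κ ℂ) : 0 ≤ ((J * ρ * Jᴴ) * (Yᴴ * Y)).trace.re :=
  e3_trace_nonneg (hρ.mul_mul_conjTranspose_same J) Y

/-- the abstract inequality for one mode -/
theorem e3_abs {J : Matrix (ι × ι) ι ℂ} (hJ : Jᴴ * J = 1) {ρ a : Matrix ι ι ℂ} (hρ : ρ.PosDef)
    {x y l : ℝ} (hx : 0 ≤ x) (hy : 0 ≤ y) (hxy : x + y = 1) (hl : l ∈ Icc (0 : ℝ) 1)
    (h1 : (a ⊗ₖ (1 : Matrix ι ι ℂ)) * J = (Real.sqrt x : ℂ) • (J * a))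
    (h2 : ((1 : Matrix ι ι ℂ) ⊗ₖ a) * J = (Real.sqrt y : ℂ) • (J * a))
    {C D : Matrix ι ι ℂ} (hC : C = ptr₁ (J * ρ * Jᴴ)) (hD : D = ptr₂ (J * ρ * Jᴴ))
    (hCp : C.PosDef) (hDp : D.PosDef) :
    Qf (x * l) C (a * C) + Qf (y * l) D (a * D) ≤ Qf l ρ (a * ρ) := by
  have hx1 : x ≤ 1 := by linarith
  have hy1 : y ≤ 1 := by linarith only [hx, hxy]
  have hxl : x * l ∈ Icc (0 : ℝ) 1 := ⟨mul_nonneg hx hl.1, mul_le_one₀ hx1 hl.1 hl.2⟩
  have hyl : y * l ∈ Icc (0 : ℝ) 1 := ⟨mul_nonneg hy hl.1, mul_le_one₀ hy1 hl.1 hl.2⟩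
  set V := Kinv (x * l) C (a * C) with hV
  set W := Kinv (y * l) D (a * D) with hW
  set T := J * ρ * Jᴴ with hT
  set v : Matrix (ι × ι) (ι × ι) ℂ := V ⊗ₖ (1 : Matrix ι ι ℂ) with hv
  set w : Matrix (ι × ι) (ι × ι) ℂ := (1 : Matrix ι ι ℂ) ⊗ₖ W with hw
  set c : ℂ := (Real.sqrt x : ℂ) with hc
  set s : ℂ := (Real.sqrt y : ℂ) with hs
  have hcc : c * c = (x : ℂ) := by
    rw [hc, ← Complex.ofReal_mul, Real.mul_self_sqrt hx]
  have hss : s * s = (y : ℂ) := by
    rw [hs, ← Complex.ofReal_mul, Real.mul_self_sqrt hy]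
  have hcs : star c = c := by simp [hc]
  have hsst : star s = s := by simp [hs]
  have hxyc : (x : ℂ) + (y : ℂ) = 1 := by exact_mod_cast hxy
  have hvH : vᴴ = Vᴴ ⊗ₖ (1 : Matrix ι ι ℂ) := by rw [hv, conjTranspose_kronecker, conjTranspose_one]
  have hwH : wᴴ = (1 : Matrix ι ι ℂ) ⊗ₖ Wᴴ := by rw [hw, conjTranspose_kronecker, conjTranspose_one]
  -- commutation relations
  have k1 : v * w = w * v := by
    rw [hv, hw, ← mul_kronecker_mul, ← mul_kronecker_mul]; simp
  have k2 : vᴴ * w = w * vᴴ := by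
    rw [hvH, hw, ← mul_kronecker_mul, ← mul_kronecker_mul]; simp
  have k3 : v * wᴴ = wᴴ * v := by
    rw [hv, hwH, ← mul_kronecker_mul, ← mul_kronecker_mul]; simp
  set X := c • v + s • w with hX
  set Y := s • v - c • w with hY
  have hXH : Xᴴ = c • vᴴ + s • wᴴ := by
    rw [hX, conjTranspose_add, conjTranspose_smul, conjTranspose_smul, hcs, hsst]
  have hYH : Yᴴ = s • vᴴ - c • wᴴ := by
    rw [hY, conjTranspose_sub, conjTranspose_smul, conjTranspose_smul, hcs, hsst]
  have I1 : Xᴴ * X + Yᴴ * Y = vᴴ * v + wᴴ * w := by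
    have e1 : Xᴴ * X = (c * c) • (vᴴ * v) + (c * s) • (vᴴ * w) + (s * c) • (wᴴ * v) +
        (s * s) • (wᴴ * w) := by
      rw [hXH, hX]
      simp only [add_mul, mul_add, smul_mul_assoc, mul_smul_comm, smul_smul]
      module
    have e2 : Yᴴ * Y = (s * s) • (vᴴ * v) - (s * c) • (vᴴ * w) - (c * s) • (wᴴ * v) +
        (c * c) • (wᴴ * w) := by
      rw [hYH, hY]
      simp only [mul_sub, mul_smul_comm, sub_mul, smul_mul_assoc]
      module
    rw [e1, e2, hcc, hss]
    have e3 : vᴴ * v + wᴴ * w = ((x : ℂ) + (y : ℂ)) • (vᴴ * v) + ((x : ℂ) + (y : ℂ)) • (wᴴ * w) := by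
      rw [hxyc, one_smul, one_smul]
    rw [e3]
    module
  have I2 : X * Xᴴ - Xᴴ * X = (x : ℂ) • (v * vᴴ - vᴴ * v) + (y : ℂ) • (w * wᴴ - wᴴ * w) := by
    have e1 : Xᴴ * X = (c * c) • (vᴴ * v) + (c * s) • (vᴴ * w) + (s * c) • (wᴴ * v) +
        (s * s) • (wᴴ * w) := by
      rw [hXH, hX]
      simp only [mul_add, mul_smul_comm, add_mul, smul_mul_assoc]
      module
    have e2 : X * Xᴴ = (c * c) • (v * vᴴ) + (c * s) • (v * wᴴ) + (s * c) • (w * vᴴ) +
        (s * s) • (w * wᴴ) := by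
      rw [hXH, hX]
      simp only [add_mul, mul_add, smul_mul_assoc, mul_smul_comm, smul_smul]
      module
    rw [e1, e2, hcc, hss, k3, ← k2]
    module
  -- traces
  have hTp : ρ.PosSemidef := hρ.posSemidef
  have t1 : ∀ B : Matrix ι ι ℂ, (C * B).trace = (T * (B ⊗ₖ (1 : Matrix ι ι ℂ))).trace := by
    intro B; rw [hC]; exact e3_tr1 _ _
  have t2 : ∀ B : Matrix ι ι ℂ, (D * B).trace = (T * ((1 : Matrix ι ι ℂ) ⊗ₖ B)).trace := by
    intro B; rw [hD]; exact e3_tr2 _ _
  have p1 : pen (x * l) C V = (1 - x * l) * (T * (vᴴ * v)).trace.re +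
      (x * l) * (T * (v * vᴴ)).trace.re := by
    unfold pen
    rw [t1, t1, hvH, hv, ← mul_kronecker_mul, ← mul_kronecker_mul]
    simp only [mul_one]
  have p2 : pen (y * l) D W = (1 - y * l) * (T * (wᴴ * w)).trace.re +
      (y * l) * (T * (w * wᴴ)).trace.re := by
    unfold pen
    rw [t2, t2, hwH, hw, ← mul_kronecker_mul, ← mul_kronecker_mul]
    simp only [mul_one]
  have J1 : (T * (Xᴴ * X)).trace.re + (T * (Yᴴ * Y)).trace.re =
      (T * (vᴴ * v)).trace.re + (T * (wᴴ * w)).trace.re := by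
    have := congrArg (fun B => (T * B).trace.re) I1
    simpa only [Matrix.mul_add, trace_add, Complex.add_re] using this
  have J2 : (T * (X * Xᴴ)).trace.re - (T * (Xᴴ * X)).trace.re =
      x * ((T * (v * vᴴ)).trace.re - (T * (vᴴ * v)).trace.re) +
      y * ((T * (w * wᴴ)).trace.re - (T * (wᴴ * w)).trace.re) := by
    have := congrArg (fun B => (T * B).trace.re) I2
    simp only [Matrix.mul_sub, trace_sub, Complex.sub_re, Matrix.mul_add, mul_smul_comm, trace_add, trace_smul, smul_eq_mul, Complex.add_re, Complex.re_ofReal_mul] at this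
    exact this
  have hY0 : 0 ≤ (T * (Yᴴ * Y)).trace.re := e3_trace_TYY hTp Y
  set Z := Jᴴ * X * J with hZ
  have c1 : (ρ * (Zᴴ * Z)).trace.re ≤ (T * (Xᴴ * X)).trace.re := e3_compress hJ hTp X
  have c2 : (ρ * (Z * Zᴴ)).trace.re ≤ (T * (X * Xᴴ)).trace.re := by
    have h := e3_compress hJ hTp Xᴴ
    have e : Jᴴ * Xᴴ * J = Zᴴ := by
      rw [hZ]; simp only [conjTranspose_mul, conjTranspose_conjTranspose, Matrix.mul_assoc]
    rw [e, conjTranspose_conjTranspose, conjTranspose_conjTranspose] at h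
    exact h
  have hpen : pen l ρ Z ≤ pen (x * l) C V + pen (y * l) D W := by
    rw [p1, p2]
    unfold pen
    have d1 := mul_le_mul_of_nonneg_left c1 (sub_nonneg.2 hl.2)
    have d2 := mul_le_mul_of_nonneg_left c2 hl.1
    have d3 : (1 - x * l) * (T * (vᴴ * v)).trace.re + (x * l) * (T * (v * vᴴ)).trace.re +
        ((1 - y * l) * (T * (wᴴ * w)).trace.re + (y * l) * (T * (w * wᴴ)).trace.re) =
        (1 - l) * (T * (Xᴴ * X)).trace.re + l * (T * (X * Xᴴ)).trace.re +
          (T * (Yᴴ * Y)).trace.re := by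
      linear_combination -l * J2 - J1
    rw [d3]
    linarith only [hY0, d1, d2]
  -- linear terms
  have l1 : ((a * C)ᴴ * V).trace = c * (ρ * (aᴴ * (Jᴴ * v * J))).trace := by
    have e1 : (a * C)ᴴ * V = C * (aᴴ * V) := by
      rw [conjTranspose_mul, hCp.isHermitian.eq, Matrix.mul_assoc]
    have e2 : (aᴴ * V) ⊗ₖ (1 : Matrix ι ι ℂ) = (a ⊗ₖ (1 : Matrix ι ι ℂ))ᴴ * v := by
      rw [conjTranspose_kronecker, conjTranspose_one, hv, ← mul_kronecker_mul, Matrix.one_mul]
    have e3 : Jᴴ * (a ⊗ₖ (1 : Matrix ι ι ℂ))ᴴ = c • (aᴴ * Jᴴ) := by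
      rw [← conjTranspose_mul, h1, conjTranspose_smul, conjTranspose_mul, hcs]
    rw [e1, t1, e2, hT]
    calc (J * ρ * Jᴴ * ((a ⊗ₖ (1 : Matrix ι ι ℂ))ᴴ * v)).trace
        = (ρ * ((Jᴴ * (a ⊗ₖ (1 : Matrix ι ι ℂ))ᴴ) * v * J)).trace := by
          rw [Matrix.mul_assoc J, Matrix.mul_assoc J, Matrix.trace_mul_comm]
          simp only [Matrix.mul_assoc]
      _ = c * (ρ * (aᴴ * (Jᴴ * v * J))).trace := by
          rw [e3]
          simp only [smul_mul, Matrix.mul_assoc, Matrix.mul_smul, trace_smul, smul_eq_mul]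
  have l2 : ((a * D)ᴴ * W).trace = s * (ρ * (aᴴ * (Jᴴ * w * J))).trace := by
    have e1 : (a * D)ᴴ * W = D * (aᴴ * W) := by
      rw [conjTranspose_mul, hDp.isHermitian.eq, Matrix.mul_assoc]
    have e2 : (1 : Matrix ι ι ℂ) ⊗ₖ (aᴴ * W) = ((1 : Matrix ι ι ℂ) ⊗ₖ a)ᴴ * w := by
      rw [conjTranspose_kronecker, conjTranspose_one, hw, ← mul_kronecker_mul, Matrix.one_mul]
    have e3 : Jᴴ * ((1 : Matrix ι ι ℂ) ⊗ₖ a)ᴴ = s • (aᴴ * Jᴴ) := by
      rw [← conjTranspose_mul, h2, conjTranspose_smul, conjTranspose_mul, hsst]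
    rw [e1, t2, e2, hT]
    calc (J * ρ * Jᴴ * (((1 : Matrix ι ι ℂ) ⊗ₖ a)ᴴ * w)).trace
        = (ρ * ((Jᴴ * ((1 : Matrix ι ι ℂ) ⊗ₖ a)ᴴ) * w * J)).trace := by
          rw [Matrix.mul_assoc J, Matrix.mul_assoc J, Matrix.trace_mul_comm]
          simp only [Matrix.mul_assoc]
      _ = s * (ρ * (aᴴ * (Jᴴ * w * J))).trace := by
          rw [e3]
          simp only [smul_mul, Matrix.mul_assoc, Matrix.mul_smul, trace_smul, smul_eq_mul]
  have l3 : ((a * ρ)ᴴ * Z).trace = ((a * C)ᴴ * V).trace + ((a * D)ᴴ * W).trace := by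
    rw [l1, l2, conjTranspose_mul, hρ.isHermitian.eq, hZ, hX]
    simp only [Matrix.mul_add, Matrix.add_mul, Matrix.smul_mul, Matrix.mul_smul, trace_add,
      trace_smul, smul_eq_mul, Matrix.mul_assoc]
  have q1 := pen_Kinv hxl hCp (a * C)
  have q2 := pen_Kinv hyl hDp (a * D)
  have q3 := two_re_sub_pen_le hl hρ (a * ρ) Z
  rw [← hV] at q1
  rw [← hW] at q2
  have r1 : Qf (x * l) C (a * C) = ((a * C)ᴴ * V).trace.re := by rw [hV]; rfl
  have r2 : Qf (y * l) D (a * D) = ((a * D)ᴴ * W).trace.re := by rw [hW]; rfl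
  have r3 : ((a * ρ)ᴴ * Z).trace.re = ((a * C)ᴴ * V).trace.re + ((a * D)ᴴ * W).trace.re := by
    rw [l3, Complex.add_re]
  linarith only [hpen, q1, q2, q3, r1, r2, r3]

end e3

variable {n M : ℕ}

/-- E3: superadditivity, one step -/
theorem HH_step {x l : ℝ} (h0 : 0 ≤ x) (h1 : x ≤ 1) (hl : l ∈ Icc (0 : ℝ) 1)
    {ρ : Matrix (Cf n M) (Cf n M) ℂ} (hρ : ρ.PosDef) (hx0 : 0 < x) (hx1 : x < 1) :
    HH n M (x * l) (loss n M x ρ) + HH n M ((1 - x) * l) (loss n M (1 - x) ρ) ≤ HH n M l ρ := by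
  unfold HH
  rw [← Finset.sum_add_distrib]
  refine Finset.sum_le_sum fun j _ => ?_
  exact e3_abs (bsJ_isometry h0 h1) hρ h0 (by linarith only [hx1]) (by ring) hl (ann_bsJ h0 h1 j)
    (ann_bsJ' h0 h1 j) rfl (ptr₂_loss h0 h1 ρ).symm (loss_posDef hx0 h1 hρ)
    (loss_posDef (by linarith) (by linarith) hρ)

end

end Vale.Agent.P369V
end
end

section

section

/-!
P369V, E4: data processing with a common index for the loss channel.
-/

namespace Vale.Agent.P369V

open Matrix MeasureTheory Set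
open scoped Kronecker InnerProductSpace ComplexOrder

noncomputable section

section e4

variable {ι κ : Type} [Fintype ι] [DecidableEq ι] [Fintype κ] [DecidableEq κ]

/-- `Tr σ (a†V)` -/
def e4l (σ a V : Matrix κ κ ℂ) : ℝ := (σ * (aᴴ * V)).trace.re

/-- `Tr σ (V a†)` -/
def e4r (σ a V : Matrix κ κ ℂ) : ℝ := (σ * (V * aᴴ)).trace.re

/-- the linear functional: `Re (Tr σ a†V + r Tr σ [a†,V])` -/
def e4lin (r : ℝ) (σ a V : Matrix κ κ ℂ) : ℝ := e4l σ a V + r * (e4l σ a V - e4r σ a V)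

/-- the corner `Q a† I`, `Q = 1 - I I†` -/
def e4G (I : Matrix κ ι ℂ) (a : Matrix κ κ ℂ) : Matrix κ ι ℂ := (1 - I * Iᴴ) * aᴴ * I

lemma e4_G_sq {I : Matrix κ ι ℂ} {a : Matrix κ κ ℂ} {b : Matrix ι ι ℂ} (hI : Iᴴ * I = 1)
    (hab : a * I = I * b) (hccr : (a * aᴴ) * I = (aᴴ * a) * I + I) :
    (e4G I a)ᴴ * e4G I a = bᴴ * b + 1 - b * bᴴ := by
  have hba : Iᴴ * aᴴ = bᴴ * Iᴴ := by
    rw [← conjTranspose_mul, hab, conjTranspose_mul]
  have e1 : ∀ B : Matrix ι ι ℂ, Iᴴ * (I * B) = B := fun B => by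
    rw [← Matrix.mul_assoc, hI, Matrix.one_mul]
  have h1 : (e4G I a)ᴴ * e4G I a = Iᴴ * (a * aᴴ * I) - (Iᴴ * (a * I)) * (Iᴴ * (aᴴ * I)) := by
    unfold e4G
    simp only [conjTranspose_mul, conjTranspose_sub, conjTranspose_one, conjTranspose_conjTranspose,
      Matrix.sub_mul, Matrix.mul_sub, Matrix.one_mul, Matrix.mul_one, Matrix.mul_assoc, e1]
    abel
  have h2 : Iᴴ * (aᴴ * I) = bᴴ := by
    rw [← Matrix.mul_assoc, hba, Matrix.mul_assoc, hI, Matrix.mul_one]
  rw [h1, hccr, hab, h2, e1, Matrix.mul_add, hI, ← Matrix.mul_assoc, ← Matrix.mul_assoc, hba]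
  rw [Matrix.mul_assoc (bᴴ), Matrix.mul_assoc, Matrix.mul_assoc, hab, e1]

/-- the linear functional in blocks -/
lemma e4_lin_eq {I : Matrix κ ι ℂ} {a : Matrix κ κ ℂ} {b : Matrix ι ι ℂ} (hI : Iᴴ * I = 1)
    (hab : a * I = I * b) {ρ : Matrix ι ι ℂ} (hρ : ρ.IsHermitian) (r : ℝ) (V : Matrix κ κ ℂ) :
    e4lin r (I * ρ * Iᴴ) a V =
      ((b * ρ + (r : ℂ) • (b * ρ - ρ * b))ᴴ * (Iᴴ * V * I)).trace.re -
        r * (ρ * ((Iᴴ * V * (1 - I * Iᴴ)) * e4G I a)).trace.re := by
  have hba : Iᴴ * aᴴ = bᴴ * Iᴴ := by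
    rw [← conjTranspose_mul, hab, conjTranspose_mul]
  set V₁ := Iᴴ * V * I with hV₁
  set B := Iᴴ * V * (1 - I * Iᴴ) with hB
  set G := e4G I a with hG
  have l1 : e4l (I * ρ * Iᴴ) a V = (ρ * (bᴴ * V₁)).trace.re := by
    unfold e4l
    congr 1
    rw [Matrix.mul_assoc I, Matrix.mul_assoc I, Matrix.trace_mul_comm, hV₁]
    congr 1
    simp only [Matrix.mul_assoc]
    rw [← Matrix.mul_assoc Iᴴ aᴴ, hba]
    simp only [Matrix.mul_assoc]
  have hGB : B * G = B * (aᴴ * I) := by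
    rw [hB, hG]
    unfold e4G
    simp only [Matrix.mul_sub, Matrix.mul_one, Matrix.mul_assoc, Matrix.sub_mul, Matrix.one_mul]
    have e2 : ∀ (X : Matrix ι ι ℂ), Iᴴ * (I * X) = X := fun X => by
      rw [← Matrix.mul_assoc, hI, Matrix.one_mul]
    simp only [e2]
    abel
  have l2 : e4r (I * ρ * Iᴴ) a V = (ρ * (V₁ * bᴴ)).trace.re + (ρ * (B * G)).trace.re := by
    unfold e4r
    rw [hGB, ← Complex.add_re, ← trace_add, ← Matrix.mul_add]
    congr 1
    rw [Matrix.mul_assoc I, Matrix.mul_assoc I, Matrix.trace_mul_comm]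
    congr 1
    rw [Matrix.mul_assoc, Matrix.mul_assoc]
    congr 1
    rw [hB, hV₁]
    have e3 : bᴴ = Iᴴ * (aᴴ * I) := by
      rw [← Matrix.mul_assoc, hba, Matrix.mul_assoc, hI, Matrix.mul_one]
    rw [e3]
    simp only [Matrix.mul_assoc, Matrix.sub_mul, Matrix.mul_sub, Matrix.one_mul, Matrix.mul_one]
    abel
  have m2 : ((b * ρ + (r : ℂ) • (b * ρ - ρ * b))ᴴ * V₁).trace.re =
      (ρ * (bᴴ * V₁)).trace.re + r * ((ρ * (bᴴ * V₁)).trace.re - (ρ * (V₁ * bᴴ)).trace.re) := by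
    have e4 : (b * ρ + (r : ℂ) • (b * ρ - ρ * b))ᴴ = ρ * bᴴ + (r : ℂ) • (ρ * bᴴ - bᴴ * ρ) := by
      simp only [conjTranspose_add, conjTranspose_mul, hρ.eq, conjTranspose_smul, conjTranspose_sub]
      simp
    have e5 : (bᴴ * ρ * V₁).trace = (ρ * (V₁ * bᴴ)).trace := by
      rw [Matrix.mul_assoc, Matrix.trace_mul_comm, Matrix.mul_assoc]
    rw [e4, Matrix.add_mul, Matrix.smul_mul, Matrix.sub_mul, trace_add, trace_smul, trace_sub, e5,
      smul_eq_mul, Complex.add_re, Complex.re_ofReal_mul, Complex.sub_re, Matrix.mul_assoc]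
  unfold e4lin
  rw [l1, l2, m2]
  ring

/-- the second part of the penalty in blocks -/
lemma e4_pen_eq {I : Matrix κ ι ℂ} (hI : Iᴴ * I = 1) {ρ : Matrix ι ι ℂ} (V : Matrix κ κ ℂ) :
    ((I * ρ * Iᴴ) * (V * Vᴴ)).trace.re =
      (ρ * ((Iᴴ * V * I) * (Iᴴ * V * I)ᴴ)).trace.re +
        (ρ * ((Iᴴ * V * (1 - I * Iᴴ)) * (Iᴴ * V * (1 - I * Iᴴ))ᴴ)).trace.re := by
  have e1 : ∀ (X : Matrix ι κ ℂ), Iᴴ * (I * X) = X := fun X => by
    rw [← Matrix.mul_assoc, hI, Matrix.one_mul]
  rw [← Complex.add_re, ← trace_add, ← Matrix.mul_add]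
  congr 1
  rw [Matrix.mul_assoc I, Matrix.mul_assoc I, Matrix.trace_mul_comm]
  congr 1
  rw [Matrix.mul_assoc, Matrix.mul_assoc]
  congr 1
  simp only [conjTranspose_mul, conjTranspose_sub, conjTranspose_one, conjTranspose_conjTranspose,
    Matrix.mul_assoc, Matrix.sub_mul, Matrix.mul_sub, Matrix.one_mul, Matrix.mul_one, e1]
  have e2 : ∀ (X : Matrix ι ι ℂ), Iᴴ * (I * X) = X := fun X => by
    rw [← Matrix.mul_assoc, hI, Matrix.one_mul]
  simp only [e2]
  abel

lemma e4_tr_GB {ρ : Matrix ι ι ℂ} (hρ : ρ.IsHermitian) (B : Matrix ι κ ℂ) (G : Matrix κ ι ℂ) :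
    (ρ * (Gᴴ * Bᴴ)).trace.re = (ρ * (B * G)).trace.re := by
  have : (ρ * (Gᴴ * Bᴴ)).trace = star ((ρ * (B * G)).trace) := by
    rw [← trace_conjTranspose]
    simp only [conjTranspose_mul, hρ.eq]
    rw [Matrix.trace_mul_comm]
  rw [this]
  simp only [RCLike.star_def, Complex.conj_re]

/-- the upper bound for all `V` -/
lemma e4_upper {I : Matrix κ ι ℂ} {a : Matrix κ κ ℂ} {b : Matrix ι ι ℂ} (hI : Iᴴ * I = 1)
    (hab : a * I = I * b) {ρ : Matrix ι ι ℂ} (hρ : ρ.PosDef) {ν r : ℝ} (hν : ν ∈ Ioc (0 : ℝ) 1)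
    (V : Matrix κ κ ℂ) :
    2 * e4lin r (I * ρ * Iᴴ) a V - pen ν (I * ρ * Iᴴ) V ≤
      Qf ν ρ (b * ρ + (r : ℂ) • (b * ρ - ρ * b)) +
        r ^ 2 / ν * (ρ * ((e4G I a)ᴴ * e4G I a)).trace.re := by
  have hν' : ν ∈ Icc (0 : ℝ) 1 := ⟨hν.1.le, hν.2⟩
  have hlin := e4_lin_eq hI hab hρ.isHermitian r V
  have p2 := e4_pen_eq (ρ := ρ) hI V
  have p1 : (ρ * ((Iᴴ * V * I)ᴴ * (Iᴴ * V * I))).trace.re ≤ ((I * ρ * Iᴴ) * (Vᴴ * V)).trace.re :=
    e3_compress hI hρ.posSemidef V
  set V₁ := Iᴴ * V * I with hV₁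
  set B := Iᴴ * V * (1 - I * Iᴴ) with hB
  set G := e4G I a with hG
  -- the main block
  have m1 := two_re_sub_pen_le hν' hρ (b * ρ + (r : ℂ) • (b * ρ - ρ * b)) V₁
  -- the boundary block
  have b1 : 0 ≤ (ρ * ((B + ((r / ν : ℝ) : ℂ) • Gᴴ) * (B + ((r / ν : ℝ) : ℂ) • Gᴴ)ᴴ)).trace.re := by
    have := e3_trace_nonneg hρ.posSemidef (B + ((r / ν : ℝ) : ℂ) • Gᴴ)ᴴ
    rwa [conjTranspose_conjTranspose] at this
  have b2 : (ρ * ((B + ((r / ν : ℝ) : ℂ) • Gᴴ) * (B + ((r / ν : ℝ) : ℂ) • Gᴴ)ᴴ)).trace.re =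
      (ρ * (B * Bᴴ)).trace.re + 2 * (r / ν) * (ρ * (B * G)).trace.re +
        (r / ν) ^ 2 * (ρ * (Gᴴ * G)).trace.re := by
    have e6 : (B + ((r / ν : ℝ) : ℂ) • Gᴴ)ᴴ = Bᴴ + ((r / ν : ℝ) : ℂ) • G := by
      simp only [conjTranspose_add, conjTranspose_smul, conjTranspose_conjTranspose]
      simp only [Complex.ofReal_div, star_div₀, RCLike.star_def, Complex.conj_ofReal]
    have e7 := e4_tr_GB hρ.isHermitian B G
    rw [e6]
    simp only [Matrix.add_mul, Matrix.mul_add, Matrix.smul_mul, Matrix.mul_smul, trace_add,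
      trace_smul, smul_eq_mul, Complex.add_re, Complex.re_ofReal_mul, e7]
    ring
  have hν0 := hν.1
  have b3 : -(2 * r * (ρ * (B * G)).trace.re) - ν * (ρ * (B * Bᴴ)).trace.re ≤
      r ^ 2 / ν * (ρ * (Gᴴ * G)).trace.re := by
    rw [b2] at b1
    have := mul_nonneg hν0.le b1
    have e8 : ν * ((ρ * (B * Bᴴ)).trace.re + 2 * (r / ν) * (ρ * (B * G)).trace.re +
        (r / ν) ^ 2 * (ρ * (Gᴴ * G)).trace.re) = ν * (ρ * (B * Bᴴ)).trace.re +
        2 * r * (ρ * (B * G)).trace.re + r ^ 2 / ν * (ρ * (Gᴴ * G)).trace.re := by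
      (clear * - hν0; field_simp)
    rw [e8] at this
    linarith only [this]
  have hp : pen ν (I * ρ * Iᴴ) V ≥ pen ν ρ V₁ + ν * (ρ * (B * Bᴴ)).trace.re := by
    unfold pen
    rw [p2]
    have := mul_le_mul_of_nonneg_left p1 (sub_nonneg.2 hν.2)
    linarith only [this]
  rw [hlin]
  linarith only [m1, b3, hp]

/-- the upper bound is attained -/
lemma e4_attain {I : Matrix κ ι ℂ} {a : Matrix κ κ ℂ} {b : Matrix ι ι ℂ} (hI : Iᴴ * I = 1)
    (hab : a * I = I * b) {ρ : Matrix ι ι ℂ} (hρ : ρ.PosDef) {ν r : ℝ} (hν : ν ∈ Ioc (0 : ℝ) 1) :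
    ∃ V : Matrix κ κ ℂ, Qf ν ρ (b * ρ + (r : ℂ) • (b * ρ - ρ * b)) +
        r ^ 2 / ν * (ρ * ((e4G I a)ᴴ * e4G I a)).trace.re =
      2 * e4lin r (I * ρ * Iᴴ) a V - pen ν (I * ρ * Iᴴ) V := by
  have hν' : ν ∈ Icc (0 : ℝ) 1 := ⟨hν.1.le, hν.2⟩
  have hν0 := hν.1
  set Z := b * ρ + (r : ℂ) • (b * ρ - ρ * b) with hZ
  set Y := Kinv ν ρ Z with hY
  set G := e4G I a with hG
  set c : ℂ := ((r / ν : ℝ) : ℂ) with hc
  set W : Matrix ι κ ℂ := Y * Iᴴ - c • Gᴴ with hW
  have e1 : ∀ (X : Matrix ι ι ℂ), Iᴴ * (I * X) = X := fun X => by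
    rw [← Matrix.mul_assoc, hI, Matrix.one_mul]
  have e1' : ∀ (X : Matrix ι κ ℂ), Iᴴ * (I * X) = X := fun X => by
    rw [← Matrix.mul_assoc, hI, Matrix.one_mul]
  have hGI : Gᴴ * I = 0 := by
    rw [hG]
    unfold e4G
    simp only [conjTranspose_mul, conjTranspose_sub, conjTranspose_one, conjTranspose_conjTranspose,
      Matrix.mul_assoc, Matrix.sub_mul, Matrix.one_mul]
    have : Iᴴ * I = 1 := hI
    simp [this]
  have hWI : W * I = Y := by
    rw [hW, Matrix.sub_mul, Matrix.smul_mul, hGI, smul_zero, sub_zero, Matrix.mul_assoc, hI,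
      Matrix.mul_one]
  have hWQ : W * (1 - I * Iᴴ) = -(c • Gᴴ) := by
    rw [Matrix.mul_sub, Matrix.mul_one, ← Matrix.mul_assoc, hWI, hW]
    abel
  refine ⟨I * W, ?_⟩
  have hV₁ : Iᴴ * (I * W) * I = Y := by rw [e1', hWI]
  have hB : Iᴴ * (I * W) * (1 - I * Iᴴ) = -(c • Gᴴ) := by rw [e1', hWQ]
  rw [e4_lin_eq hI hab hρ.isHermitian r (I * W)]
  unfold pen
  rw [e4_pen_eq (ρ := ρ) hI (I * W), hV₁, hB]
  have q1 : ((I * ρ * Iᴴ) * ((I * W)ᴴ * (I * W))).trace.re = (ρ * (Yᴴ * Y)).trace.re := by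
    congr 1
    rw [Matrix.mul_assoc I, Matrix.mul_assoc I, Matrix.trace_mul_comm]
    congr 1
    rw [Matrix.mul_assoc, Matrix.mul_assoc]
    congr 1
    rw [conjTranspose_mul, Matrix.mul_assoc Wᴴ, e1', ← hWI]
    simp only [conjTranspose_mul, Matrix.mul_assoc]
  have q2 : (ρ * (-(c • Gᴴ) * (-(c • Gᴴ))ᴴ)).trace.re =
      (r / ν) ^ 2 * (ρ * (Gᴴ * G)).trace.re := by
    have e6 : (-(c • Gᴴ))ᴴ = -(c • G) := by
      rw [conjTranspose_neg, conjTranspose_smul, conjTranspose_conjTranspose]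
      congr 2
      simp only [hc, Complex.ofReal_div, star_div₀, RCLike.star_def, Complex.conj_ofReal]
    rw [e6]
    simp only [hc, Matrix.mul_neg, Matrix.mul_smul, Matrix.neg_mul, smul_mul, smul_neg, smul_smul, ← Complex.ofReal_mul, neg_neg, trace_smul, smul_eq_mul, Complex.re_ofReal_mul]
    ring
  have q3 : (ρ * (-(c • Gᴴ) * G)).trace.re = -((r / ν) * (ρ * (Gᴴ * G)).trace.re) := by
    rw [Matrix.neg_mul, Matrix.smul_mul, Matrix.mul_neg, Matrix.mul_smul, trace_neg, trace_smul,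
      smul_eq_mul, hc, Complex.neg_re, Complex.re_ofReal_mul]
  have q4 := pen_Kinv hν' hρ Z
  rw [← hY] at q4
  have q5 : Qf ν ρ Z = (Zᴴ * Y).trace.re := rfl
  rw [q1, q2, q3]
  unfold pen at q4
  rw [← q5]
  have e8 : r ^ 2 / ν * (ρ * (Gᴴ * G)).trace.re =
      2 * (r * ((r / ν) * (ρ * (Gᴴ * G)).trace.re)) -
        ν * ((r / ν) ^ 2 * (ρ * (Gᴴ * G)).trace.re) := by
    field_simp
    ring
  rw [e8]
  linear_combination q4

lemma e4_trC {I : Matrix κ ι ℂ} (hI : Iᴴ * I = 1) {J : Matrix (κ × κ) κ ℂ}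
    {JM : Matrix (ι × ι) ι ℂ} (hJI : J * I = (I ⊗ₖ I) * JM) (ρ : Matrix ι ι ℂ)
    (X : Matrix κ κ ℂ) :
    ((I * ptr₁ (JM * ρ * JMᴴ) * Iᴴ) * X).trace =
      ((J * (I * ρ * Iᴴ) * Jᴴ) * (X ⊗ₖ (1 : Matrix κ κ ℂ))).trace := by
  have h1 : ((I * ptr₁ (JM * ρ * JMᴴ) * Iᴴ) * X).trace =
      (ptr₁ (JM * ρ * JMᴴ) * (Iᴴ * X * I)).trace := by
    rw [Matrix.mul_assoc I, Matrix.mul_assoc I, Matrix.trace_mul_comm]
    simp only [Matrix.mul_assoc]
  have h2 : (Iᴴ * X * I) ⊗ₖ (1 : Matrix ι ι ℂ) =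
      (I ⊗ₖ I)ᴴ * (X ⊗ₖ (1 : Matrix κ κ ℂ)) * (I ⊗ₖ I) := by
    rw [conjTranspose_kronecker, ← mul_kronecker_mul, ← mul_kronecker_mul, Matrix.mul_one, hI]
  have h3 : J * (I * ρ * Iᴴ) * Jᴴ = (J * I) * ρ * (J * I)ᴴ := by
    rw [conjTranspose_mul]
    simp only [Matrix.mul_assoc]
  rw [h1, e3_tr1, h2, h3, hJI, conjTranspose_mul]
  have h4 : (JM * ρ * JMᴴ * ((I ⊗ₖ I)ᴴ * (X ⊗ₖ (1 : Matrix κ κ ℂ)) * (I ⊗ₖ I))).trace =
      ((I ⊗ₖ I) * (JM * ρ * JMᴴ * ((I ⊗ₖ I)ᴴ * (X ⊗ₖ (1 : Matrix κ κ ℂ))))).trace := by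
    rw [← Matrix.mul_assoc (JM * ρ * JMᴴ), Matrix.trace_mul_comm]
  rw [h4]
  simp only [Matrix.mul_assoc]

lemma e4_step {I : Matrix κ ι ℂ} {a : Matrix κ κ ℂ} {b : Matrix ι ι ℂ} (hI : Iᴴ * I = 1)
    (hab : a * I = I * b) {J : Matrix (κ × κ) κ ℂ} {JM : Matrix (ι × ι) ι ℂ}
    (hJ : Jᴴ * J = 1) (hJI : J * I = (I ⊗ₖ I) * JM) {t : ℝ} (ht : 0 < t) (ht1 : t ≤ 1)
    (h1 : (a ⊗ₖ (1 : Matrix κ κ ℂ)) * J = (Real.sqrt t : ℂ) • (J * a))
    (h2 : ((1 : Matrix κ κ ℂ) ⊗ₖ a) * J = (Real.sqrt (1 - t) : ℂ) • (J * a))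
    (h3 : ((Real.sqrt t : ℂ) • (aᴴ ⊗ₖ (1 : Matrix κ κ ℂ)) +
      (Real.sqrt (1 - t) : ℂ) • ((1 : Matrix κ κ ℂ) ⊗ₖ aᴴ)) * (J * I) = J * (aᴴ * I))
    {ρ C : Matrix ι ι ℂ} (hρ : ρ.PosDef) (hC : C = ptr₁ (JM * ρ * JMᴴ)) (hCp : C.PosDef)
    {ν r : ℝ} (hν : ν ∈ Ioc (0 : ℝ) 1) :
    Qf ν C (b * C + ((t * r : ℝ) : ℂ) • (b * C - C * b)) +
        (t * r) ^ 2 / ν * (C * ((e4G I a)ᴴ * e4G I a)).trace.re ≤
      t * (Qf ν ρ (b * ρ + (r : ℂ) • (b * ρ - ρ * b)) +
        r ^ 2 / ν * (ρ * ((e4G I a)ᴴ * e4G I a)).trace.re) := by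
  obtain ⟨V, hV⟩ := e4_attain (r := t * r) hI hab hCp hν
  rw [hV]
  set σ := I * ρ * Iᴴ with hσ
  have hσp : σ.PosSemidef := hρ.posSemidef.mul_mul_conjTranspose_same I
  set V' := Jᴴ * (V ⊗ₖ (1 : Matrix κ κ ℂ)) * J with hV'
  set c := Real.sqrt t with hc
  have hc0 : 0 < c := Real.sqrt_pos.2 ht
  have hcc : c * c = t := Real.mul_self_sqrt ht.le
  have trC : ∀ X : Matrix κ κ ℂ, ((I * C * Iᴴ) * X).trace =
      ((J * σ * Jᴴ) * (X ⊗ₖ (1 : Matrix κ κ ℂ))).trace := fun X => by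
    rw [hC]; exact e4_trC hI hJI ρ X
  have hcs : star (c : ℂ) = c := by simp
  have hss : star ((Real.sqrt (1 - t) : ℝ) : ℂ) = (Real.sqrt (1 - t) : ℂ) := by simp
  -- linear terms
  have L : e4l (I * C * Iᴴ) a V = c * e4l σ a V' := by
    unfold e4l
    rw [trC]
    have e2 : (aᴴ * V) ⊗ₖ (1 : Matrix κ κ ℂ) =
        (a ⊗ₖ (1 : Matrix κ κ ℂ))ᴴ * (V ⊗ₖ (1 : Matrix κ κ ℂ)) := by
      rw [conjTranspose_kronecker, conjTranspose_one, ← mul_kronecker_mul, Matrix.one_mul]
    have e3 : Jᴴ * (a ⊗ₖ (1 : Matrix κ κ ℂ))ᴴ = (c : ℂ) • (aᴴ * Jᴴ) := by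
      rw [← conjTranspose_mul, h1, conjTranspose_smul, conjTranspose_mul, hcs]
    have e4 : (J * σ * Jᴴ * ((a ⊗ₖ (1 : Matrix κ κ ℂ))ᴴ * (V ⊗ₖ (1 : Matrix κ κ ℂ)))).trace =
        (σ * ((Jᴴ * (a ⊗ₖ (1 : Matrix κ κ ℂ))ᴴ) * (V ⊗ₖ (1 : Matrix κ κ ℂ)) * J)).trace := by
      rw [Matrix.mul_assoc J, Matrix.mul_assoc J, Matrix.trace_mul_comm]
      simp only [Matrix.mul_assoc]
    rw [e2, e4, e3, hV']
    simp only [smul_mul, Matrix.mul_assoc, Matrix.mul_smul, trace_smul, smul_eq_mul, Complex.re_ofReal_mul]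
  have R : e4r σ a V' = c * e4r (I * C * Iᴴ) a V + (1 - t) * e4l σ a V' := by
    unfold e4r e4l
    rw [trC]
    have e1 : (σ * (V' * aᴴ)).trace = (ρ * ((J * I)ᴴ * (V ⊗ₖ (1 : Matrix κ κ ℂ)) *
        (J * (aᴴ * I)))).trace := by
      rw [hσ, hV', conjTranspose_mul, Matrix.mul_assoc I, Matrix.mul_assoc I, Matrix.trace_mul_comm]
      simp only [Matrix.mul_assoc]
    have e2 : (V ⊗ₖ (1 : Matrix κ κ ℂ)) * ((c : ℂ) • (aᴴ ⊗ₖ (1 : Matrix κ κ ℂ)) +
        (Real.sqrt (1 - t) : ℂ) • ((1 : Matrix κ κ ℂ) ⊗ₖ aᴴ)) =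
        (c : ℂ) • ((V * aᴴ) ⊗ₖ (1 : Matrix κ κ ℂ)) + (Real.sqrt (1 - t) : ℂ) •
          (((1 : Matrix κ κ ℂ) ⊗ₖ a)ᴴ * (V ⊗ₖ (1 : Matrix κ κ ℂ))) := by
      rw [Matrix.mul_add, Matrix.mul_smul, Matrix.mul_smul, conjTranspose_kronecker,
        conjTranspose_one, ← mul_kronecker_mul, ← mul_kronecker_mul, ← mul_kronecker_mul]
      simp
    have e3 : (J * I)ᴴ * ((1 : Matrix κ κ ℂ) ⊗ₖ a)ᴴ =
        (Real.sqrt (1 - t) : ℂ) • (Iᴴ * aᴴ * Jᴴ) := by
      rw [← conjTranspose_mul, ← Matrix.mul_assoc, h2, Matrix.smul_mul, conjTranspose_smul, hss]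
      simp only [conjTranspose_mul, Matrix.mul_assoc]
    have e4 : (ρ * ((J * I)ᴴ * (V ⊗ₖ (1 : Matrix κ κ ℂ)) * (J * (aᴴ * I)))).trace =
        (c : ℂ) * ((J * σ * Jᴴ) * ((V * aᴴ) ⊗ₖ (1 : Matrix κ κ ℂ))).trace +
          ((Real.sqrt (1 - t) : ℂ) * (Real.sqrt (1 - t) : ℂ)) * (σ * (aᴴ * V')).trace := by
      rw [← h3]
      have e5 : (J * I)ᴴ * (V ⊗ₖ (1 : Matrix κ κ ℂ)) * (((c : ℂ) • (aᴴ ⊗ₖ (1 : Matrix κ κ ℂ)) +
          (Real.sqrt (1 - t) : ℂ) • ((1 : Matrix κ κ ℂ) ⊗ₖ aᴴ)) * (J * I)) =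
          (J * I)ᴴ * ((V ⊗ₖ (1 : Matrix κ κ ℂ)) * ((c : ℂ) • (aᴴ ⊗ₖ (1 : Matrix κ κ ℂ)) +
          (Real.sqrt (1 - t) : ℂ) • ((1 : Matrix κ κ ℂ) ⊗ₖ aᴴ))) * (J * I) := by
        simp only [Matrix.mul_assoc]
      rw [e5, e2, Matrix.mul_add, Matrix.mul_smul, Matrix.mul_smul, ← Matrix.mul_assoc ((J * I)ᴴ)
        (((1 : Matrix κ κ ℂ) ⊗ₖ a)ᴴ), e3]
      simp only [smul_mul, Matrix.add_mul, Matrix.mul_add, Matrix.mul_smul, trace_add, trace_smul, smul_eq_mul]
      rw [mul_assoc]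
      congr 2
      · rw [hσ, conjTranspose_mul]
        have : (J * (I * ρ * Iᴴ) * Jᴴ * ((V * aᴴ) ⊗ₖ (1 : Matrix κ κ ℂ))).trace =
            ((J * I) * (ρ * (Iᴴ * (Jᴴ * ((V * aᴴ) ⊗ₖ (1 : Matrix κ κ ℂ)))))).trace := by
          simp only [Matrix.mul_assoc]
        rw [this, Matrix.trace_mul_comm (J * I)]
        simp only [Matrix.mul_assoc]
      · congr 1
        rw [hσ, hV']
        have : (I * ρ * Iᴴ * (aᴴ * (Jᴴ * (V ⊗ₖ (1 : Matrix κ κ ℂ)) * J))).trace =
            (I * (ρ * (Iᴴ * (aᴴ * (Jᴴ * (V ⊗ₖ (1 : Matrix κ κ ℂ)) * J))))).trace := by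
          simp only [Matrix.mul_assoc]
        rw [this, Matrix.trace_mul_comm I]
        simp only [Matrix.mul_assoc]
    rw [e1, e4, ← Complex.ofReal_mul, Real.mul_self_sqrt (by linarith only [ht1] : (0:ℝ) ≤ 1 - t),
      Complex.add_re, Complex.re_ofReal_mul, Complex.re_ofReal_mul]
  -- penalty
  have P : pen ν σ V' ≤ pen ν (I * C * Iᴴ) V := by
    unfold pen
    have c1 := e3_compress hJ hσp (V ⊗ₖ (1 : Matrix κ κ ℂ))
    have c2 := e3_compress hJ hσp (V ⊗ₖ (1 : Matrix κ κ ℂ))ᴴ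
    have e : Jᴴ * (V ⊗ₖ (1 : Matrix κ κ ℂ))ᴴ * J = V'ᴴ := by
      rw [hV']; simp only [conjTranspose_mul, conjTranspose_conjTranspose, Matrix.mul_assoc]
    rw [e, conjTranspose_conjTranspose, conjTranspose_conjTranspose] at c2
    rw [← hV'] at c1
    have d1 : ((I * C * Iᴴ) * (Vᴴ * V)).trace = ((J * σ * Jᴴ) *
        ((V ⊗ₖ (1 : Matrix κ κ ℂ))ᴴ * (V ⊗ₖ (1 : Matrix κ κ ℂ)))).trace := by
      rw [trC, conjTranspose_kronecker, conjTranspose_one, ← mul_kronecker_mul, Matrix.one_mul]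
    have d2 : ((I * C * Iᴴ) * (V * Vᴴ)).trace = ((J * σ * Jᴴ) *
        ((V ⊗ₖ (1 : Matrix κ κ ℂ)) * (V ⊗ₖ (1 : Matrix κ κ ℂ))ᴴ)).trace := by
      rw [trC, conjTranspose_kronecker, conjTranspose_one, ← mul_kronecker_mul, Matrix.one_mul]
    rw [d1, d2]
    have := mul_le_mul_of_nonneg_left c1 (sub_nonneg.2 hν.2)
    have := mul_le_mul_of_nonneg_left c2 hν.1.le
    (clear a b hI hab JM hJ hJI t ht ht1 h2 C hρ hC hCp r hV hσ hσp hV' c h1 h3 hc hc0 hcc trC hcs hss L R e d1 d2; linarith)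
  -- scaling
  have U := e4_upper (r := r) hI hab hρ hν (((c⁻¹ : ℝ) : ℂ) • V')
  have u1 : e4l σ a (((c⁻¹ : ℝ) : ℂ) • V') = c⁻¹ * e4l σ a V' := by
    unfold e4l
    simp only [Matrix.mul_smul, trace_smul, smul_eq_mul, Complex.re_ofReal_mul]
  have u2 : e4r σ a (((c⁻¹ : ℝ) : ℂ) • V') = c⁻¹ * e4r σ a V' := by
    unfold e4r
    simp only [Matrix.smul_mul, Matrix.mul_smul, trace_smul, smul_eq_mul, Complex.re_ofReal_mul]
  have u3 : pen ν σ (((c⁻¹ : ℝ) : ℂ) • V') = c⁻¹ ^ 2 * pen ν σ V' := by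
    unfold pen
    have e6 : (((c⁻¹ : ℝ) : ℂ) • V')ᴴ = ((c⁻¹ : ℝ) : ℂ) • V'ᴴ := by
      rw [conjTranspose_smul]
      congr 1
      simp only [Complex.ofReal_inv, star_inv₀, RCLike.star_def, Complex.conj_ofReal]
    rw [e6]
    simp only [Matrix.smul_mul, Matrix.mul_smul, trace_smul, smul_eq_mul, Complex.re_ofReal_mul]
    ring
  rw [← hσ] at U
  rw [u3] at U
  unfold e4lin at U ⊢
  rw [u1, u2, R] at U
  rw [L]
  have hcne : c ≠ 0 := hc0.ne'
  have key := mul_le_mul_of_nonneg_left U ht.le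
  refine le_trans ?_ key
  have e7 : t * (2 * (c⁻¹ * e4l σ a V' + r * (c⁻¹ * e4l σ a V' -
      c⁻¹ * (c * e4r (I * C * Iᴴ) a V + (1 - t) * e4l σ a V'))) - c⁻¹ ^ 2 * pen ν σ V') =
      2 * (c * e4l σ a V' + t * r * (c * e4l σ a V' - e4r (I * C * Iᴴ) a V)) - pen ν σ V' := by
    rw [← hcc]
    field_simp
    ring
  rw [e7]
  linarith only [P]

/-- expansion of the quadratic form of the score -/
lemma e4_expand {ρ b : Matrix ι ι ℂ} (hρ : ρ.PosDef) (htr : ρ.trace = 1) {ν : ℝ}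
    (hν : ν ∈ Ioc (0 : ℝ) 1) (r : ℝ) :
    Qf ν ρ (b * ρ + (r : ℂ) • (b * ρ - ρ * b)) =
      (ρ * (bᴴ * b)).trace.re -
        (ν + 2 * r) * (1 - (ρ * (bᴴ * b + 1 - b * bᴴ)).trace.re) +
        (ν + r) ^ 2 * Qf ν ρ (b * ρ - ρ * b) := by
  have hν' : ν ∈ Icc (0 : ℝ) 1 := ⟨hν.1.le, hν.2⟩
  set D := b * ρ - ρ * b with hD
  have hZ : b * ρ + (r : ℂ) • D = Kop ν ρ b + ((ν + r : ℝ) : ℂ) • D := by
    unfold Kop
    rw [hD]
    push_cast
    module
  have hK : Kinv ν ρ (Kop ν ρ b + ((ν + r : ℝ) : ℂ) • D) = b + ((ν + r : ℝ) : ℂ) • Kinv ν ρ D := by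
    rw [Kinv_add, Kinv_smul, Kinv_Kop hν' hρ]
  have hself : ∀ W : Matrix ι ι ℂ, ((Kop ν ρ b)ᴴ * W).trace = (bᴴ * Kop ν ρ W).trace := by
    intro W
    unfold Kop
    simp only [conjTranspose_add, conjTranspose_smul, conjTranspose_mul, hρ.isHermitian.eq,
      Matrix.add_mul, Matrix.smul_mul, Matrix.mul_add, Matrix.mul_smul, trace_add, trace_smul]
    have s1 : star ((1 - ν : ℝ) : ℂ) = ((1 - ν : ℝ) : ℂ) := by simp only [Complex.ofReal_sub, Complex.ofReal_one, star_sub, star_one, RCLike.star_def, Complex.conj_ofReal]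
    have s2 : star (ν : ℂ) = (ν : ℂ) := by simp
    rw [s1, s2, Matrix.mul_assoc ρ, Matrix.trace_mul_comm ρ, Matrix.mul_assoc bᴴ W,
      Matrix.mul_assoc bᴴ ρ]
  have hbD : (bᴴ * D).trace.re = (Dᴴ * b).trace.re := by
    have : (bᴴ * D).trace = star ((Dᴴ * b).trace) := by
      rw [← trace_conjTranspose]
      simp only [conjTranspose_mul, conjTranspose_conjTranspose]
    rw [this]; simp only [RCLike.star_def, Complex.conj_re]
  have hDb : (Dᴴ * b).trace.re = (ρ * (bᴴ * b + 1 - b * bᴴ)).trace.re - 1 := by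
    have e1 : (Dᴴ * b).trace = (ρ * (bᴴ * b)).trace - (ρ * (b * bᴴ)).trace := by
      rw [hD]
      simp only [conjTranspose_sub, conjTranspose_mul, hρ.isHermitian.eq, Matrix.sub_mul,
        trace_sub]
      rw [Matrix.mul_assoc, Matrix.mul_assoc bᴴ, Matrix.trace_mul_comm bᴴ, Matrix.mul_assoc]
    rw [e1]
    simp only [Complex.sub_re, Matrix.mul_sub, Matrix.mul_add, Matrix.mul_one, trace_sub, trace_add, htr, Complex.add_re, Complex.one_re]
    ring
  have hbb : ((Kop ν ρ b)ᴴ * b).trace.re = (ρ * (bᴴ * b)).trace.re +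
      ν * (1 - (ρ * (bᴴ * b + 1 - b * bᴴ)).trace.re) := by
    rw [hself]
    unfold Kop
    simp only [Matrix.mul_add, Matrix.mul_smul, trace_add, trace_smul, smul_eq_mul, Complex.add_re, Complex.re_ofReal_mul, Matrix.mul_sub, Matrix.mul_one, trace_sub, htr, Complex.sub_re, Complex.one_re]
    have e2 : (bᴴ * (b * ρ)).trace = (ρ * (bᴴ * b)).trace := by
      rw [← Matrix.mul_assoc, Matrix.trace_mul_comm]
    have e3 : (bᴴ * (ρ * b)).trace = (ρ * (b * bᴴ)).trace := by
      rw [Matrix.trace_mul_comm, Matrix.mul_assoc]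
    rw [e2, e3]
    ring
  unfold Qf
  rw [hZ, hK]
  simp only [conjTranspose_add, conjTranspose_smul, Matrix.mul_add, Matrix.add_mul, smul_mul, Matrix.mul_smul, trace_add, trace_smul, smul_eq_mul, Complex.add_re]
  have s3 : star ((ν + r : ℝ) : ℂ) = ((ν + r : ℝ) : ℂ) := by simp only [Complex.ofReal_add, star_add, RCLike.star_def, Complex.conj_ofReal]
  rw [s3, hself (Kinv ν ρ D), Kop_Kinv hν' hρ]
  simp only [Complex.add_re, Complex.re_ofReal_mul]
  rw [hbb, hbD, hDb]
  ring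

end e4

variable {n M : ℕ}

lemma e4_shift_unique {j : Fin n} {k k' l : Cf n M}
    (h : ∀ i, (k i : ℕ) = (l i : ℕ) + (if i = j then 1 else 0))
    (h' : ∀ i, (k' i : ℕ) = (l i : ℕ) + (if i = j then 1 else 0)) : k = k' := by
  funext i
  apply Fin.ext
  rw [h i, h' i]

lemma e4_shift_unique' {j : Fin n} {k l l' : Cf n M}
    (h : ∀ i, (k i : ℕ) = (l i : ℕ) + (if i = j then 1 else 0))
    (h' : ∀ i, (k i : ℕ) = (l' i : ℕ) + (if i = j then 1 else 0)) : l = l' := by
  funext i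
  apply Fin.ext
  have := (h i).symm.trans (h' i)
  omega

/-- `a†a` is diagonal -/
lemma e4_num (j : Fin n) : (ann n M j)ᴴ * ann n M j =
    Matrix.diagonal (fun k : Cf n M => (((k j : ℕ) : ℝ) : ℂ)) := by
  classical
  ext k k'
  rw [Matrix.mul_apply]
  simp only [conjTranspose_apply]
  by_cases hkk : k = k'
  · subst hkk
    rw [Matrix.diagonal_apply_eq]
    by_cases hk : (k j : ℕ) = 0
    · rw [Finset.sum_eq_zero, hk]
      · simp
      · intro l _
        have : ann n M j l k = 0 := by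
          unfold ann
          rw [if_neg]
          intro h
          have := h j
          simp only [if_true] at this
          omega
        rw [this, mul_zero]
    · let l0 : Cf n M := fun i => if i = j then ⟨(k i : ℕ) - 1, by have := (k i).2; omega⟩ else k i
      have hl0 : ∀ i, (k i : ℕ) = (l0 i : ℕ) + (if i = j then 1 else 0) := by
        intro i
        by_cases hij : i = j
        · subst hij
          simp only [l0, if_true]
          omega
        · simp only [hij, ↓reduceIte, add_zero, l0]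
      rw [Finset.sum_eq_single l0]
      · have : ann n M j l0 k = ((Real.sqrt (k j : ℕ) : ℝ) : ℂ) := by
          unfold ann
          rw [if_pos hl0]
        rw [this]
        simp only [RCLike.star_def, Complex.conj_ofReal]
        rw [← Complex.ofReal_mul, Real.mul_self_sqrt (Nat.cast_nonneg _)]
      · intro l _ hl
        have : ann n M j l k = 0 := by
          unfold ann
          rw [if_neg]
          intro h
          exact hl (e4_shift_unique' h hl0)
        rw [this, mul_zero]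
      · simp only [Finset.mem_univ, not_true_eq_false, RCLike.star_def, mul_eq_zero, map_eq_zero, or_self, IsEmpty.forall_iff]
  · rw [Matrix.diagonal_apply_ne _ hkk]
    refine Finset.sum_eq_zero fun l _ => ?_
    by_cases h : ∀ i, (k i : ℕ) = (l i : ℕ) + (if i = j then 1 else 0)
    · have : ann n M j l k' = 0 := by
        unfold ann
        rw [if_neg]
        intro h'
        exact hkk (e4_shift_unique h h')
      rw [this, mul_zero]
    · have : ann n M j l k = 0 := by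
        unfold ann
        rw [if_neg h]
      rw [this, star_zero, zero_mul]

/-- `a a†` is diagonal -/
lemma e4_num' (j : Fin n) : ann n M j * (ann n M j)ᴴ =
    Matrix.diagonal (fun k : Cf n M => if (k j : ℕ) = M then 0 else ((((k j : ℕ) : ℝ) + 1 : ℝ) : ℂ)) := by
  classical
  ext k k'
  rw [Matrix.mul_apply]
  simp only [conjTranspose_apply]
  by_cases hkk : k = k'
  · subst hkk
    rw [Matrix.diagonal_apply_eq]
    by_cases hk : (k j : ℕ) = M
    · rw [if_pos hk, Finset.sum_eq_zero]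
      intro l _
      have : ann n M j k l = 0 := by
        unfold ann
        rw [if_neg]
        intro h
        have := h j
        simp only [if_true] at this
        have := (l j).2
        omega
      rw [this, zero_mul]
    · rw [if_neg hk]
      let l0 : Cf n M := fun i => if h : i = j then ⟨(k i : ℕ) + 1, by
        have := (k i).2; subst h; omega⟩ else k i
      have hl0 : ∀ i, (l0 i : ℕ) = (k i : ℕ) + (if i = j then 1 else 0) := by
        intro i
        by_cases hij : i = j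
        · subst hij
          simp [l0]
        · simp only [hij, ↓reduceDIte, ↓reduceIte, add_zero, l0]
      rw [Finset.sum_eq_single l0]
      · have : ann n M j k l0 = ((Real.sqrt (l0 j : ℕ) : ℝ) : ℂ) := by
          unfold ann
          rw [if_pos hl0]
        rw [this]
        simp only [RCLike.star_def, Complex.conj_ofReal]
        rw [← Complex.ofReal_mul, Real.mul_self_sqrt (Nat.cast_nonneg _), hl0 j]
        simp only [↓reduceIte, Nat.cast_add, Nat.cast_one, Complex.ofReal_add, Complex.ofReal_natCast, Complex.ofReal_one]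
      · intro l _ hl
        have : ann n M j k l = 0 := by
          unfold ann
          rw [if_neg]
          intro h
          exact hl (e4_shift_unique h hl0)
        rw [this, zero_mul]
      · simp only [Finset.mem_univ, not_true_eq_false, RCLike.star_def, mul_eq_zero, map_eq_zero, or_self, IsEmpty.forall_iff]
  · rw [Matrix.diagonal_apply_ne _ hkk]
    refine Finset.sum_eq_zero fun l _ => ?_
    by_cases h : ∀ i, (l i : ℕ) = (k i : ℕ) + (if i = j then 1 else 0)
    · have : ann n M j k' l = 0 := by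
        unfold ann
        rw [if_neg]
        intro h'
        exact hkk (e4_shift_unique' h h')
      rw [this, star_zero, mul_zero]
    · have : ann n M j k l = 0 := by
        unfold ann
        rw [if_neg h]
      rw [this, zero_mul]

/-- the boundary term -/
lemma e4_ctop (ρ : Matrix (Cf n M) (Cf n M) ℂ) : ctop n M ρ =
    ∑ j, (ρ * ((ann n M j)ᴴ * ann n M j + 1 - ann n M j * (ann n M j)ᴴ)).trace.re := by
  unfold ctop
  refine Finset.sum_congr rfl fun j _ => ?_
  rw [e4_num, e4_num']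
  have h1 : (Matrix.diagonal (fun k : Cf n M => (((k j : ℕ) : ℝ) : ℂ)) + 1 -
      Matrix.diagonal (fun k : Cf n M => if (k j : ℕ) = M then 0
        else ((((k j : ℕ) : ℝ) + 1 : ℝ) : ℂ))) =
      Matrix.diagonal (fun k : Cf n M => if (k j : ℕ) = M then (((M : ℝ) + 1 : ℝ) : ℂ) else 0) := by
    rw [← Matrix.diagonal_one, Matrix.diagonal_add, Matrix.diagonal_sub]
    congr 1
    funext k
    by_cases hk : (k j : ℕ) = M
    · simp only [hk, Complex.ofReal_natCast, ↓reduceIte, sub_zero, Complex.ofReal_add, Complex.ofReal_one]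
    · simp only [Complex.ofReal_natCast, hk, ↓reduceIte, Complex.ofReal_add, Complex.ofReal_one, sub_self]
  rw [h1, Matrix.trace, Complex.re_sum]
  refine Finset.sum_congr rfl fun k _ => ?_
  rw [Matrix.diag_apply, Matrix.mul_diagonal]
  by_cases hk : (k j : ℕ) = M
  · rw [if_pos hk, if_pos hk, Complex.re_mul_ofReal]
    ring
  · rw [if_neg hk, if_neg hk, mul_zero, Complex.zero_re]

/-- E4: data processing with a common index -/
theorem dp {t ν r : ℝ} (ht : t ∈ Ioc (0 : ℝ) 1) (hν : ν ∈ Ioc (0 : ℝ) 1) (hr : 0 ≤ r)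
    {ρ : Matrix (Cf n M) (Cf n M) ℂ} (hρ : ρ.PosDef) (htr : ρ.trace = 1) :
    (ν + t * r) ^ 2 * (ctop n M (loss n M t ρ) / ν + FF n M ν (loss n M t ρ)) ≤
      (1 - t) * ν * n + t * ((ν + r) ^ 2 * (ctop n M ρ / ν + FF n M ν ρ)) := by
  have hC : (loss n M t ρ).PosDef := loss_posDef ht.1 ht.2 hρ
  have htC : (loss n M t ρ).trace = 1 := by rw [trace_loss ht.1.le ht.2, htr]
  have hν0 := hν.1
  have key : ∀ j, (loss n M t ρ * ((ann n M j)ᴴ * ann n M j)).trace.re -
        (ν + 2 * (t * r)) * (1 - (loss n M t ρ *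
          ((ann n M j)ᴴ * ann n M j + 1 - ann n M j * (ann n M j)ᴴ)).trace.re) +
        (ν + t * r) ^ 2 * Qf ν (loss n M t ρ) (ann n M j * loss n M t ρ - loss n M t ρ * ann n M j) +
        (t * r) ^ 2 / ν * (loss n M t ρ *
          ((ann n M j)ᴴ * ann n M j + 1 - ann n M j * (ann n M j)ᴴ)).trace.re ≤
      t * ((ρ * ((ann n M j)ᴴ * ann n M j)).trace.re -
        (ν + 2 * r) * (1 - (ρ *
          ((ann n M j)ᴴ * ann n M j + 1 - ann n M j * (ann n M j)ᴴ)).trace.re) +
        (ν + r) ^ 2 * Qf ν ρ (ann n M j * ρ - ρ * ann n M j) +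
        r ^ 2 / ν * (ρ *
          ((ann n M j)ᴴ * ann n M j + 1 - ann n M j * (ann n M j)ᴴ)).trace.re) := by
    intro j
    have h := e4_step (r := r) (inc_isometry (n := n) (M := M)) (ann_inc j) (bsJ_isometry ht.1.le ht.2)
      (bsJ_inc ht.1.le ht.2) ht.1 ht.2 (ann_bsJ ht.1.le ht.2 j) (ann_bsJ' ht.1.le ht.2 j)
      (by
        have := cre_bsJ (n := n) (M := M) ht.1.le ht.2 j
        simpa only [Matrix.mul_assoc] using this) hρ rfl hC hν
    rw [e4_G_sq (inc_isometry (n := n) (M := M)) (ann_inc j) (ccr_inc j)] at h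
    have e1 := e4_expand hC htC hν (t * r) (b := ann n M j)
    have e2 := e4_expand hρ htr hν r (b := ann n M j)
    change Qf ν (loss n M t ρ) _ + _ ≤ _ at h
    rw [e2] at h
    rw [← e1]
    exact h
  have hsum := Finset.sum_le_sum fun j (_ : j ∈ (Finset.univ : Finset (Fin n))) => key j
  have hen := en_loss ht.1.le ht.2 ρ
  unfold en at hen
  rw [← Finset.mul_sum] at hsum
  simp only [Finset.sum_add_distrib, Finset.sum_sub_distrib, ← Finset.mul_sum, Finset.sum_const,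
    Finset.card_univ, Fintype.card_fin, nsmul_eq_mul, mul_one] at hsum
  rw [← e4_ctop, ← e4_ctop, hen] at hsum
  have hF1 : FF n M ν (loss n M t ρ) = ∑ j, Qf ν (loss n M t ρ)
      (ann n M j * loss n M t ρ - loss n M t ρ * ann n M j) := rfl
  have hF2 : FF n M ν ρ = ∑ j, Qf ν ρ (ann n M j * ρ - ρ * ann n M j) := rfl
  rw [← hF1, ← hF2] at hsum
  have a1 : (ν + t * r) ^ 2 * (ctop n M (loss n M t ρ) / ν + FF n M ν (loss n M t ρ)) =
      (ν + 2 * (t * r)) * ctop n M (loss n M t ρ) +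
        (t * r) ^ 2 / ν * ctop n M (loss n M t ρ) +
        (ν + t * r) ^ 2 * FF n M ν (loss n M t ρ) := by
    field_simp
    ring
  have a2 : (ν + r) ^ 2 * (ctop n M ρ / ν + FF n M ν ρ) =
      (ν + 2 * r) * ctop n M ρ + r ^ 2 / ν * ctop n M ρ + (ν + r) ^ 2 * FF n M ν ρ := by
    field_simp
    ring
  rw [a1, a2]
  linarith

end

end Vale.Agent.P369V
end
end

section

section

/-!
P369A (architect helper630): functionals of the compressions of infinite matrices used in the two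
entropy flows, and the two families `Ck`, `Dk` of a finite matrix.
-/

namespace Vale.Agent.P369A

open Matrix MeasureTheory Set
open Vale.Agent.P369 (Conf up down)
open Vale.Agent.P369V (ent)
open scoped ComplexOrder

noncomputable section

variable {n : ℕ}

/-- infinite matrices -/
abbrev Ker (n : ℕ) : Type := Conf n → Conf n → ℂ

/-- trace of the compression -/
def trX (s : Ker n) (X : ℕ) : ℝ := ∑ x : Ct n X, (s x.1 x.1).re

/-- energy of the compression -/
def enX (s : Ker n) (X : ℕ) : ℝ := ∑ x : Ct n X, (∑ j, (x.1 j : ℝ)) * (s x.1 x.1).re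

/-- boundary term of the amplifier flow: `Tr (N+n) η(s^X)` -/
def uB (s : Ker n) (X : ℕ) : ℝ :=
  ∑ x : Ct n X, ((∑ j, (x.1 j : ℝ)) + n) * ((cfc Real.negMulLog (cut X s)) x x).re

/-- boundary term of the loss flow: `Tr N η(s^X)` -/
def wB (s : Ker n) (X : ℕ) : ℝ :=
  ∑ x : Ct n X, (∑ j, (x.1 j : ℝ)) * ((cfc Real.negMulLog (cut X s)) x x).re

/-- Fisher information at cutoff `X` -/
def FX (m : ℝ) (s : Ker n) (X : ℕ) : ℝ :=
  ∑ j, Qf m (cut X s) (cut (X + 1) s) (annR X j * cut (X + 1) s - cut X s * annR X j)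

/-- entropy production of the amplifier at cutoff `X` -/
def Pp (s : Ker n) (X : ℕ) : ℝ := n * trX s (X + 1) + ∫ m in (0 : ℝ)..1, (1 - m) * FX m s X

/-- entropy production of the (backward) loss at cutoff `X` -/
def Pm (s : Ker n) (X : ℕ) : ℝ := n * trX s X - ∫ m in (0 : ℝ)..1, m * FX m s X

/-- `∑_j a_j† s a_j - (N+n) s` (symmetrised) -/
def genA (s : Ker n) : Ker n := fun x y =>
  (∑ j, ((Real.sqrt (x j) * Real.sqrt (y j) : ℝ) : ℂ) * s (down x j) (down y j)) -
    ((((∑ j, (x j : ℝ)) + (∑ j, (y j : ℝ))) / 2 + n : ℝ) : ℂ) * s x y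

/-- `∑_j a_j s a_j† - N s` (symmetrised) -/
def genL (s : Ker n) : Ker n := fun x y =>
  (∑ j, ((Real.sqrt (x j + 1) * Real.sqrt (y j + 1) : ℝ) : ℂ) * s (up x j) (up y j)) -
    ((((∑ j, (x j : ℝ)) + (∑ j, (y j : ℝ))) / 2 : ℝ) : ℂ) * s x y

/-- entropy of an infinite matrix -/
def Sl (s : Ker n) : ℝ := Filter.limUnder Filter.atTop fun X => ent (cut X s)

/-- `s` is a state with all compressions faithful and energy `E` -/
structure Reg (s : Ker n) (E : ℝ) : Prop where
  pos : ∀ X, (cut X s).PosDef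
  tr : Filter.Tendsto (trX s) Filter.atTop (nhds 1)
  en : Filter.Tendsto (enX s) Filter.atTop (nhds E)

variable {M : ℕ}

/-- the amplifier family -/
def Ck (ρ : Matrix (Fin n → Fin (M + 1)) (Fin n → Fin (M + 1)) ℂ) (k : ℝ) : Ker n := ampE k (ext ρ)

/-- the environment family -/
def Dk (ρ : Matrix (Fin n → Fin (M + 1)) (Fin n → Fin (M + 1)) ℂ) (k : ℝ) : Ker n :=
  conE k (n * M) (ext ρ)

/-- energy of a finite matrix -/
def en0 (ρ : Matrix (Fin n → Fin (M + 1)) (Fin n → Fin (M + 1)) ℂ) : ℝ :=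
  ∑ x, (∑ j, ((x j : ℕ) : ℝ)) * (ρ x x).re

end

end Vale.Agent.P369A
end
end

section

section

/-!
P369A, F1, first part: sums of the squares of the matrix elements of the amplifier.
-/

namespace Vale.Agent.P369A

open Matrix MeasureTheory Set Filter
open Vale.Agent.P369 (Conf up down)
open Vale.Agent.P369V (ent)
open scoped ComplexOrder Topology

noncomputable section

theorem hasSum_pi {n : ℕ} {F : Fin n → ℕ → ℝ} {a : Fin n → ℝ} (h : ∀ j, HasSum (F j) (a j)) :
    HasSum (fun b : Fin n → ℕ => ∏ j, F j (b j)) (∏ j, a j) := by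
  induction n with
  | zero =>
    simp only [Finset.univ_eq_empty, Finset.prod_empty]
    exact hasSum_unique (fun _ : Fin 0 → ℕ => (1 : ℝ))
  | succ n ih =>
    have h1 := h 0
    have h2 := ih (F := fun j => F j.succ) (a := fun j => a j.succ) (fun j => h j.succ)
    have h3 : Summable fun x : ℕ × (Fin n → ℕ) => F 0 x.1 * ∏ j, F (Fin.succ j) (x.2 j) := by
      have h1n : Summable fun x : ℕ => ‖F 0 x‖ := h1.summable.norm
      have h2n : Summable fun x : Fin n → ℕ => ‖∏ j, F (Fin.succ j) (x j)‖ := h2.summable.norm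
      exact summable_mul_of_summable_norm (f := fun x => F 0 x)
        (g := fun x : Fin n → ℕ => ∏ j, F (Fin.succ j) (x j)) h1n h2n
    have h4 := h1.mul h2 h3
    rw [Fin.prod_univ_succ]
    rw [← (Fin.consEquiv (fun _ => ℕ)).hasSum_iff]
    refine h4.congr_fun fun x => ?_
    simp only [Function.comp, Fin.consEquiv]
    rw [Fin.prod_univ_succ]
    simp only [Equiv.coe_fn_mk, Fin.cons_zero, Fin.cons_succ]

/-- one factor of `cc ^ 2` -/
def nb (k : ℝ) (m l : ℕ) : ℝ := ((m + l).choose l : ℝ) * (1 / k) ^ (m + 1) * (1 - 1 / k) ^ l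

theorem cc_sq {n : ℕ} {k : ℝ} (hk : 1 ≤ k) (m l : Conf n) : cc k m l ^ 2 = ∏ j, nb k (m j) (l j) := by
  have h1 : 0 ≤ 1 - 1 / k := by
    rw [sub_nonneg, div_le_one (by linarith only [hk])]
    exact hk
  unfold cc nb
  rw [← Finset.prod_pow]
  refine Finset.prod_congr rfl fun j _ => ?_
  rw [mul_pow, mul_pow, Real.sq_sqrt (Nat.cast_nonneg _), ← pow_mul, ← pow_mul, mul_comm (m j + 1),
    mul_comm (l j) 2, pow_mul, pow_mul, Real.sq_sqrt h1, inv_pow, Real.sq_sqrt (by linarith only [hk]),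
    one_div]

theorem hasSum_nb {k : ℝ} (hk : 1 ≤ k) (m : ℕ) : HasSum (nb k m) 1 := by
  have hk0 : 0 < k := by linarith only [hk]
  have h1 : 0 ≤ 1 - 1 / k := by
    rw [sub_nonneg, div_le_one hk0]
    exact hk
  have h2 : ‖1 - 1 / k‖ < 1 := by
    rw [Real.norm_eq_abs, abs_of_nonneg h1]
    have : 0 < 1 / k := by positivity
    linarith
  have h := (hasSum_choose_mul_geometric_of_norm_lt_one m h2).mul_left ((1 / k) ^ (m + 1))
  have e : (1 / k) ^ (m + 1) * (1 / (1 - (1 - 1 / k)) ^ (m + 1)) = 1 := by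
    rw [sub_sub_cancel, mul_one_div, div_self (by positivity)]
  rw [e] at h
  refine h.congr_fun fun l => ?_
  unfold nb
  rw [← Nat.choose_symm_add, add_comm m l]
  ring

theorem hasSum_mul_nb {k : ℝ} (hk : 1 ≤ k) (m : ℕ) :
    HasSum (fun l : ℕ => (l : ℝ) * nb k m l) ((k - 1) * (m + 1)) := by
  have hk0 : 0 < k := by linarith only [hk]
  have h := (hasSum_nb hk (m + 1)).mul_left ((k - 1) * ((m : ℝ) + 1))
  rw [mul_one] at h
  rw [← hasSum_nat_add_iff' 1]
  simp only [Finset.sum_range_one, Nat.cast_zero, zero_mul, sub_zero]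
  refine h.congr_fun fun l => ?_
  have e : ((l + 1 : ℕ) : ℝ) * ((m + (l + 1)).choose (l + 1) : ℝ) =
      ((m : ℝ) + 1) * ((m + 1 + l).choose l : ℝ) := by
    have h1 := Nat.add_one_mul_choose_eq (m + l) l
    have h2 : (m + 1 + l).choose l * (m + 1) = (m + l + 1) * (m + l).choose l := by
      have := Nat.add_one_mul_choose_eq (m + l) m
      rw [Nat.choose_symm_add] at this
      have h3 : (m + l + 1).choose (m + 1) = (m + 1 + l).choose l := by
        rw [show m + l + 1 = m + 1 + l by ring, Nat.choose_symm_add]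
      rw [h3] at this
      exact this.symm
    have h4 : (m + (l + 1)).choose (l + 1) * (l + 1) = (m + 1 + l).choose l * (m + 1) := by
      rw [h2, h1, add_assoc]
    have h5 : (((m + (l + 1)).choose (l + 1) * (l + 1) : ℕ) : ℝ) =
      (((m + 1 + l).choose l * (m + 1) : ℕ) : ℝ) := by rw [h4]
    push_cast at h5 ⊢
    linarith only [h5]
  unfold nb
  have e2 : (1 - 1 / k) = (k - 1) * (1 / k) := by
    field_simp
  symm
  calc (k - 1) * (↑m + 1) * (((m + 1 + l).choose l : ℝ) * (1 / k) ^ (m + 1 + 1) * (1 - 1 / k) ^ l)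
      = ((m : ℝ) + 1) * ((m + 1 + l).choose l : ℝ) * (1 / k) ^ (m + 1) *
          ((1 - 1 / k) ^ l * ((k - 1) * (1 / k))) := by ring
    _ = _ := by rw [← e2, ← e]; ring

variable {n : ℕ}

theorem hasSum_cc_sq {k : ℝ} (hk : 1 ≤ k) (m : Conf n) : HasSum (fun l => cc k m l ^ 2) 1 := by
  have h := hasSum_pi (n := n) (F := fun j => nb k (m j)) (a := fun _ => 1)
    (fun j => hasSum_nb hk (m j))
  simp only [Finset.prod_const_one] at h
  exact h.congr_fun fun l => cc_sq hk m l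

theorem hasSum_mul_cc_sq {k : ℝ} (hk : 1 ≤ k) (m : Conf n) :
    HasSum (fun l => (∑ j, (l j : ℝ)) * cc k m l ^ 2) ((k - 1) * ((∑ j, (m j : ℝ)) + n)) := by
  have e : (k - 1) * ((∑ j, (m j : ℝ)) + n) = ∑ i : Fin n, (k - 1) * ((m i : ℝ) + 1) := by
    rw [← Finset.mul_sum, Finset.sum_add_distrib]
    simp only [Finset.sum_const, Finset.card_univ, Fintype.card_fin, nsmul_eq_mul, mul_one]
  rw [e]
  have h : ∀ i : Fin n, HasSum (fun l : Conf n => (l i : ℝ) * cc k m l ^ 2)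
      ((k - 1) * ((m i : ℝ) + 1)) := by
    intro i
    have h1 : ∀ j : Fin n, HasSum (fun l : ℕ => (if j = i then (l : ℝ) else 1) * nb k (m j) l)
        (if j = i then (k - 1) * ((m j : ℝ) + 1) else 1) := by
      intro j
      by_cases hj : j = i
      · subst hj
        simpa only [↓reduceIte] using hasSum_mul_nb hk (m j)
      · simp only [hj, if_false, one_mul]
        exact hasSum_nb hk (m j)
    have h2 := hasSum_pi h1
    rw [Finset.prod_ite_eq' Finset.univ i] at h2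
    simp only [Finset.mem_univ, if_true] at h2
    refine h2.congr_fun fun l => ?_
    rw [cc_sq hk, Finset.prod_mul_distrib, Finset.prod_ite_eq' Finset.univ i]
    simp only [Finset.mem_univ, ↓reduceIte]
  have h3 := hasSum_sum (s := Finset.univ) fun i _ => h i
  refine h3.congr_fun fun l => ?_
  rw [Finset.sum_mul]

/-- sums over the truncated configurations -/
theorem cs_tendsto_sum_Ct {G : Conf n → ℝ} {a : ℝ} (h : HasSum G a) :
    Tendsto (fun X => ∑ x : Ct n X, G x.1) atTop (𝓝 a) := by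
  have hS : Tendsto (fun X => (Finset.univ : Finset (Ct n X)).map
      (Function.Embedding.subtype fun x : Conf n => ∑ j, x j ≤ X)) atTop atTop := by
    refine tendsto_atTop_finset_of_monotone ?_ ?_
    · intro X Y hXY x hx
      rw [Finset.mem_map] at hx ⊢
      obtain ⟨y, -, rfl⟩ := hx
      exact ⟨⟨y.1, y.2.trans hXY⟩, Finset.mem_univ _, rfl⟩
    · intro x
      exact ⟨∑ j, x j, Finset.mem_map.2 ⟨⟨x, le_rfl⟩, Finset.mem_univ _, rfl⟩⟩
  have h2 := h.comp hS
  refine h2.congr fun X => ?_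
  simp only [Function.comp, Finset.sum_map]
  rfl

/-- regrouping a double sum by the total configuration -/
theorem hasSum_fiber {F : Conf n × Conf n → ℝ} {a : ℝ} (h : HasSum F a) :
    HasSum (fun x : Conf n => ∑ l ∈ Finset.Iic x, F (x - l, l)) a := by
  have h1 := (Equiv.sigmaFiberEquiv fun p : Conf n × Conf n => p.1 + p.2).hasSum_iff.2 h
  refine h1.sigma fun x => ?_
  let e : {l : Conf n // l ∈ Finset.Iic x} ≃ {p : Conf n × Conf n // p.1 + p.2 = x} :=
    { toFun := fun l => ⟨(x - l.1, l.1), tsub_add_cancel_of_le (Finset.mem_Iic.1 l.2)⟩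
      invFun := fun p => ⟨p.1.2, Finset.mem_Iic.2 (le_of_le_of_eq le_add_self p.2)⟩
      left_inv := fun l => rfl
      right_inv := fun p => by
        obtain ⟨⟨m, l⟩, hp⟩ := p
        simp only at hp
        subst hp
        simp only [add_tsub_cancel_right] }
  rw [← e.hasSum_iff]
  have h2 := hasSum_fintype fun l : {l : Conf n // l ∈ Finset.Iic x} => F (x - l.1, l.1)
  rw [Finset.univ_eq_attach, Finset.sum_attach (Finset.Iic x) fun l => F (x - l, l)] at h2
  exact h2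

end

end Vale.Agent.P369A
end
end

section

section

/-!
P369A, F1: limits of the trace and of the energy of the two families.
-/

namespace Vale.Agent.P369A

open Matrix MeasureTheory Set Filter
open Vale.Agent.P369 (Conf up down)
open Vale.Agent.P369V (ent)
open scoped ComplexOrder Topology

noncomputable section

variable {n : ℕ}

variable {M : ℕ} {ρ : Matrix (Fin n → Fin (M + 1)) (Fin n → Fin (M + 1)) ℂ}

/-- a configuration of the finite matrix as a configuration -/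
def te (c : Fin n → Fin (M + 1)) : Conf n := fun j => (c j : ℕ)

theorem te_inj : Function.Injective (te : (Fin n → Fin (M + 1)) → Conf n) := fun c d h => by
  funext j
  exact Fin.ext (congrFun h j)

theorem te_le (c : Fin n → Fin (M + 1)) : ∑ j, te c j ≤ n * M := by
  refine (Finset.sum_le_sum fun j _ => Nat.le_of_lt_succ (c j).2).trans ?_
  simp only [Finset.sum_const, Finset.card_univ, Fintype.card_fin, smul_eq_mul, Std.le_refl]

theorem ext_diag (G : Conf n → ℝ) (m : Conf n) :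
    (ext ρ m m).re * G m = ∑ c, if m = te c then (ρ c c).re * G (te c) else 0 := by
  by_cases h : ∀ j, m j < M + 1
  · have hm : m = te (fun j => (⟨m j, h j⟩ : Fin (M + 1))) := rfl
    rw [Finset.sum_eq_single (fun j => (⟨m j, h j⟩ : Fin (M + 1)))]
    · rw [if_pos hm, ← hm]
      unfold ext
      rw [dif_pos ⟨h, h⟩]
    · intro c _ hc
      rw [if_neg]
      intro h'
      exact hc (te_inj (h'.symm.trans hm))
    · intro h'
      exact absurd (Finset.mem_univ _) h'
  · rw [Finset.sum_eq_zero]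
    · unfold ext
      rw [dif_neg fun h' => h h'.1]
      simp
    · intro c _
      rw [if_neg]
      rintro rfl
      exact h fun j => (c j).2

theorem hasSum_ext_pair {G : Conf n → Conf n → ℝ} {a : (Fin n → Fin (M + 1)) → ℝ}
    (h : ∀ c, HasSum (G (te c)) (a c)) :
    HasSum (fun p : Conf n × Conf n => (ext ρ p.1 p.1).re * G p.1 p.2)
      (∑ c, (ρ c c).re * a c) := by
  classical
  have h1 : ∀ c : Fin n → Fin (M + 1), HasSum (fun p : Conf n × Conf n =>
      if p.1 = te c then (ρ c c).re * G (te c) p.2 else 0) ((ρ c c).re * a c) := by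
    intro c
    have hinj : Function.Injective fun l : Conf n => (te c, l) := Prod.mk_right_injective _
    rw [← hinj.hasSum_iff]
    · refine ((h c).mul_left _).congr_fun fun l => ?_
      simp
    · intro p hp
      rw [if_neg]
      intro h'
      exact hp ⟨p.2, by rw [← h']⟩
  refine (hasSum_sum fun c _ => h1 c).congr_fun fun p => ?_
  exact ext_diag (fun m => G m p.2) p.1

theorem Ck_diag {k : ℝ} (x : Conf n) :
    (Ck ρ k x x).re = ∑ l ∈ Finset.Iic x, (ext ρ (x - l) (x - l)).re * cc k (x - l) l ^ 2 := by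
  unfold Ck ampE
  rw [inf_idem, Complex.re_sum]
  refine Finset.sum_congr rfl fun l _ => ?_
  rw [Complex.re_ofReal_mul]
  ring

theorem Dk_diag {k : ℝ} (l : Conf n) :
    (Dk ρ k l l).re = ∑ c, (ρ c c).re * cc k (te c) l ^ 2 := by
  unfold Dk conE
  have h1 : ∀ m : Ct n (n * M), (∑ m' : Ct n (n * M), if m.1 + l = m'.1 + l then
      ((cc k m.1 l * cc k m'.1 l : ℝ) : ℂ) * ext ρ m.1 m'.1 else 0) =
      ((cc k m.1 l * cc k m.1 l : ℝ) : ℂ) * ext ρ m.1 m.1 := by
    intro m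
    rw [Finset.sum_eq_single m]
    · rw [if_pos rfl]
    · intro m' _ hm'
      rw [if_neg]
      intro h
      exact hm' (Subtype.ext (add_right_cancel h)).symm
    · intro h'
      exact absurd (Finset.mem_univ _) h'
  rw [Finset.sum_congr rfl fun m _ => h1 m, Complex.re_sum]
  have h2 : ∀ m : Ct n (n * M), (((cc k m.1 l * cc k m.1 l : ℝ) : ℂ) * ext ρ m.1 m.1).re =
      ∑ c, if m.1 = te c then (ρ c c).re * cc k (te c) l ^ 2 else 0 := by
    intro m
    rw [← ext_diag (fun m => cc k m l ^ 2), Complex.re_ofReal_mul]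
    ring
  rw [Finset.sum_congr rfl fun m _ => h2 m, Finset.sum_comm]
  refine Finset.sum_congr rfl fun c _ => ?_
  rw [Finset.sum_eq_single ⟨te c, te_le c⟩]
  · rw [if_pos rfl]
  · intro m _ hm
    rw [if_neg]
    intro h
    exact hm (Subtype.ext h)
  · intro h'
    exact absurd (Finset.mem_univ _) h'

theorem sum_rho (ht : ρ.trace = 1) : ∑ c, (ρ c c).re = 1 := by
  have h := congrArg Complex.re ht
  simpa only [trace, diag_apply, Complex.re_sum, Complex.one_re] using h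

theorem tendsto_trX_Ck (ht : ρ.trace = 1) {k : ℝ} (hk : 1 ≤ k) :
    Tendsto (trX (Ck ρ k)) atTop (𝓝 1) := by
  have h := hasSum_fiber (hasSum_ext_pair (ρ := ρ) (G := fun m l => cc k m l ^ 2) (a := fun _ => 1)
    fun c => hasSum_cc_sq hk (te c))
  simp only [mul_one, sum_rho ht] at h
  refine (cs_tendsto_sum_Ct h).congr fun X => ?_
  unfold trX
  exact Finset.sum_congr rfl fun x _ => (Ck_diag x.1).symm

theorem tendsto_enX_Ck (ht : ρ.trace = 1) {k : ℝ} (hk : 1 ≤ k) :
    Tendsto (enX (Ck ρ k)) atTop (𝓝 (k * en0 ρ + (k - 1) * n)) := by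
  have h := hasSum_fiber (hasSum_ext_pair (ρ := ρ)
    (G := fun m l => (∑ j, (m j : ℝ)) * cc k m l ^ 2 + (∑ j, (l j : ℝ)) * cc k m l ^ 2)
    (a := fun c => (∑ j, (te c j : ℝ)) * 1 + (k - 1) * ((∑ j, (te c j : ℝ)) + n))
    fun c => ((hasSum_cc_sq hk (te c)).mul_left _).add (hasSum_mul_cc_sq hk (te c)))
  have e : ∑ c, (ρ c c).re * ((∑ j, (te c j : ℝ)) * 1 + (k - 1) * ((∑ j, (te c j : ℝ)) + n)) =
      k * en0 ρ + (k - 1) * n := by
    have e1 : ∀ c, (ρ c c).re * ((∑ j, (te c j : ℝ)) * 1 + (k - 1) * ((∑ j, (te c j : ℝ)) + n)) =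
        k * ((∑ j, (te c j : ℝ)) * (ρ c c).re) + (k - 1) * n * (ρ c c).re := fun c => by ring
    rw [Finset.sum_congr rfl fun c _ => e1 c, Finset.sum_add_distrib, ← Finset.mul_sum,
      ← Finset.mul_sum, sum_rho ht, mul_one]
    rfl
  rw [e] at h
  refine (cs_tendsto_sum_Ct h).congr fun X => ?_
  unfold enX
  refine Finset.sum_congr rfl fun x _ => ?_
  rw [Ck_diag x.1, Finset.mul_sum]
  refine Finset.sum_congr rfl fun l hl => ?_
  have hl' : l ≤ x.1 := Finset.mem_Iic.1 hl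
  have e2 : (∑ j, (x.1 j : ℝ)) = (∑ j, (((x.1 - l) j : ℕ) : ℝ)) + ∑ j, (l j : ℝ) := by
    rw [← Finset.sum_add_distrib]
    refine Finset.sum_congr rfl fun j _ => ?_
    rw [Pi.sub_apply, Nat.cast_sub (hl' j)]
    ring
  rw [e2]
  ring

theorem tendsto_trX_Dk (ht : ρ.trace = 1) {k : ℝ} (hk : 1 ≤ k) :
    Tendsto (trX (Dk ρ k)) atTop (𝓝 1) := by
  have h : HasSum (fun l : Conf n => ∑ c, (ρ c c).re * cc k (te c) l ^ 2) (∑ c, (ρ c c).re * 1) :=
    hasSum_sum fun c _ => (hasSum_cc_sq hk (te c)).mul_left _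
  simp only [mul_one, sum_rho ht] at h
  refine (cs_tendsto_sum_Ct h).congr fun X => ?_
  unfold trX
  exact Finset.sum_congr rfl fun x _ => (Dk_diag x.1).symm

theorem tendsto_enX_Dk (ht : ρ.trace = 1) {k : ℝ} (hk : 1 ≤ k) :
    Tendsto (enX (Dk ρ k)) atTop (𝓝 ((k - 1) * (en0 ρ + n))) := by
  have h : HasSum (fun l : Conf n => ∑ c, (ρ c c).re * ((∑ j, (l j : ℝ)) * cc k (te c) l ^ 2))
      (∑ c, (ρ c c).re * ((k - 1) * ((∑ j, (te c j : ℝ)) + n))) :=
    hasSum_sum fun c _ => (hasSum_mul_cc_sq hk (te c)).mul_left _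
  have e : ∑ c, (ρ c c).re * ((k - 1) * ((∑ j, (te c j : ℝ)) + n)) = (k - 1) * (en0 ρ + n) := by
    have e1 : ∀ c, (ρ c c).re * ((k - 1) * ((∑ j, (te c j : ℝ)) + n)) =
        (k - 1) * ((∑ j, (te c j : ℝ)) * (ρ c c).re) + (k - 1) * n * (ρ c c).re :=
      fun c => by ring
    rw [Finset.sum_congr rfl fun c _ => e1 c, Finset.sum_add_distrib, ← Finset.mul_sum,
      ← Finset.mul_sum, sum_rho ht, mul_one, mul_add]
    rfl
  rw [e] at h
  refine (cs_tendsto_sum_Ct h).congr fun X => ?_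
  unfold enX
  refine Finset.sum_congr rfl fun x _ => ?_
  rw [Dk_diag x.1, Finset.mul_sum]
  exact Finset.sum_congr rfl fun c _ => by ring

/-- F1, first half, from the faithfulness of the compressions -/
theorem reg_Ck_of (ht : ρ.trace = 1) {k : ℝ} (hk : 1 ≤ k) (hp : ∀ X, (cut X (Ck ρ k)).PosDef) :
    Reg (Ck ρ k) (k * en0 ρ + (k - 1) * n) :=
  ⟨hp, tendsto_trX_Ck ht hk, tendsto_enX_Ck ht hk⟩

/-- F1, second half, from the faithfulness of the compressions -/
theorem reg_Dk_of (ht : ρ.trace = 1) {k : ℝ} (hk : 1 ≤ k) (hp : ∀ X, (cut X (Dk ρ k)).PosDef) :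
    Reg (Dk ρ k) ((k - 1) * (en0 ρ + n)) :=
  ⟨hp, tendsto_trX_Dk ht hk, tendsto_enX_Dk ht hk⟩

end

end Vale.Agent.P369A
end
end

section

section

/-!
P369A: intertwining relations of the amplifier isometry and the linear functionals `⟨Z_r, ·⟩`
of the two output channels.
-/

namespace Vale.Agent.P369A

open Matrix
open Vale.Agent.P369 (Conf up down)
open scoped Kronecker

noncomputable section

variable {n : ℕ}

/-! ### one mode -/

/-- one-mode coefficient -/
def c1 (k : ℝ) (a b : ℕ) : ℝ :=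
  Real.sqrt ((a + b).choose b : ℕ) * (Real.sqrt k)⁻¹ ^ (a + 1) * Real.sqrt (1 - 1 / k) ^ b

theorem cc_eq (k : ℝ) (m l : Conf n) : cc k m l = ∏ j, c1 k (m j) (l j) := rfl

theorem sqrt_one_sub {k : ℝ} (hk : 1 ≤ k) :
    Real.sqrt (1 - 1 / k) = Real.sqrt (k - 1) * (Real.sqrt k)⁻¹ := by
  have h : 1 - 1 / k = (k - 1) / k := by
    field_simp
  rw [h, Real.sqrt_div (by (clear * - hk; linarith)), div_eq_mul_inv]

theorem c1_r1 {k : ℝ} (hk : 0 < k) (a b : ℕ) :
    Real.sqrt ((a : ℝ) + b + 1) * c1 k a b = Real.sqrt k * Real.sqrt ((a : ℝ) + 1) * c1 k (a + 1) b := by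
  have hs : 0 < Real.sqrt k := Real.sqrt_pos.2 hk
  have h1 : Real.sqrt ((a : ℝ) + b + 1) * Real.sqrt ((a + b).choose b : ℕ) =
      Real.sqrt ((a : ℝ) + 1) * Real.sqrt ((a + 1 + b).choose b : ℕ) := by
    rw [← Real.sqrt_mul (by positivity), ← Real.sqrt_mul (by positivity)]
    congr 1
    have h3 : (a + b + 1) * (a + b).choose b = (a + 1) * (a + b + 1).choose b := by
      have h5 := Nat.add_one_mul_choose_eq (a + b) a
      have h6 : (a + b + 1).choose (a + 1) = (a + b + 1).choose b := by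
        apply Nat.choose_symm_of_eq_add
        ring
      have h7 : (a + b).choose a = (a + b).choose b := by
        apply Nat.choose_symm_of_eq_add
        ring
      rw [h6, h7] at h5
      rw [h5]
      ring
    have h9 : a + 1 + b = a + b + 1 := by ring
    rw [h9]
    exact_mod_cast h3
  unfold c1
  have h2 : (Real.sqrt k)⁻¹ ^ (a + 1) = Real.sqrt k * (Real.sqrt k)⁻¹ ^ (a + 1 + 1) := by
    rw [pow_succ (Real.sqrt k)⁻¹ (a + 1)]
    field_simp
  calc Real.sqrt ((a : ℝ) + b + 1) * (Real.sqrt ((a + b).choose b : ℕ) * (Real.sqrt k)⁻¹ ^ (a + 1) *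
        Real.sqrt (1 - 1 / k) ^ b)
      = (Real.sqrt ((a : ℝ) + b + 1) * Real.sqrt ((a + b).choose b : ℕ)) *
        (Real.sqrt k)⁻¹ ^ (a + 1) * Real.sqrt (1 - 1 / k) ^ b := by ring
    _ = _ := by
      rw [h1, h2]
      ring

theorem c1_r2 {k : ℝ} (hk : 1 ≤ k) (a b : ℕ) :
    Real.sqrt ((b : ℝ) + 1) * c1 k a (b + 1) =
      Real.sqrt (k - 1) * Real.sqrt ((a : ℝ) + 1) * c1 k (a + 1) b := by
  have hs : 0 < Real.sqrt k := Real.sqrt_pos.2 (by linarith)
  have h1 : Real.sqrt ((b : ℝ) + 1) * Real.sqrt ((a + (b + 1)).choose (b + 1) : ℕ) =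
      Real.sqrt ((a : ℝ) + 1) * Real.sqrt ((a + 1 + b).choose b : ℕ) := by
    rw [← Real.sqrt_mul (by positivity), ← Real.sqrt_mul (by positivity)]
    congr 1
    have h9 : a + 1 + b = a + b + 1 := by ring
    have h10 : a + (b + 1) = a + b + 1 := by ring
    rw [h9, h10]
    have h3 : (b + 1) * (a + b + 1).choose (b + 1) = (a + 1) * (a + b + 1).choose b := by
      have h4 := Nat.choose_succ_right_eq (a + b + 1) b
      have h8 : a + b + 1 - b = a + 1 := by omega
      rw [h8] at h4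
      linarith only [h4]
    exact_mod_cast h3
  unfold c1
  rw [sqrt_one_sub hk]
  calc Real.sqrt ((b : ℝ) + 1) * (Real.sqrt ((a + (b + 1)).choose (b + 1) : ℕ) *
        (Real.sqrt k)⁻¹ ^ (a + 1) * (Real.sqrt (k - 1) * (Real.sqrt k)⁻¹) ^ (b + 1))
      = (Real.sqrt ((b : ℝ) + 1) * Real.sqrt ((a + (b + 1)).choose (b + 1) : ℕ)) *
        (Real.sqrt k)⁻¹ ^ (a + 1) * (Real.sqrt (k - 1) * (Real.sqrt k)⁻¹) ^ (b + 1) := by ring
    _ = _ := by
      rw [h1]
      ring

theorem c1_r3 {k : ℝ} (hk : 1 ≤ k) (a b : ℕ) :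
    Real.sqrt (a : ℝ) * c1 k (a - 1) b = Real.sqrt k * Real.sqrt ((a : ℝ) + b) * c1 k a b -
      Real.sqrt (k - 1) * Real.sqrt (b : ℝ) * c1 k a (b - 1) := by
  have hk0 : 0 < k := by linarith only [hk]
  have hs : 0 < Real.sqrt k := Real.sqrt_pos.2 hk0
  rcases a with _ | a
  · rcases b with _ | b
    · simp only [CharP.cast_eq_zero, Real.sqrt_zero, zero_tsub, zero_mul, add_zero, mul_zero, sub_self]
    · simp only [CharP.cast_eq_zero, Real.sqrt_zero, zero_mul, zero_add, Nat.add_sub_cancel]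
      unfold c1
      rw [sqrt_one_sub hk]
      simp only [zero_add, Nat.choose_self, Nat.cast_one, Real.sqrt_one, one_mul, pow_one]
      have h := mul_inv_cancel₀ hs.ne'
      rw [pow_succ]
      linear_combination (-(Real.sqrt ((b + 1 : ℕ) : ℝ)) * (Real.sqrt k)⁻¹ * (√(k - 1) * (√k)⁻¹) ^ b * √(k - 1)) * h
  · have h1 := c1_r1 hk0 a b
    simp only [Nat.add_sub_cancel]
    rcases b with _ | b
    · simp only [CharP.cast_eq_zero, Real.sqrt_zero, mul_zero, zero_mul, sub_zero, add_zero]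
        at h1 ⊢
      push_cast
      -- √(a+1) c(a,0) = √k √(a+1) c(a+1,0)
      linarith only [h1]
    · have h2 := c1_r2 hk a b
      simp only [Nat.add_sub_cancel]
      have ha : 0 < Real.sqrt ((a : ℝ) + 1) := Real.sqrt_pos.2 (by positivity)
      have hab : Real.sqrt ((a : ℝ) + 1 + (b + 1)) * Real.sqrt ((a : ℝ) + 1 + (b + 1)) =
          (a : ℝ) + 1 + (b + 1) := Real.mul_self_sqrt (by positivity)
      have haa : Real.sqrt ((a : ℝ) + 1) * Real.sqrt ((a : ℝ) + 1) = (a : ℝ) + 1 :=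
        Real.mul_self_sqrt (by positivity)
      have hbb : Real.sqrt ((b : ℝ) + 1) * Real.sqrt ((b : ℝ) + 1) = (b : ℝ) + 1 :=
        Real.mul_self_sqrt (by positivity)
      push_cast at h1 h2 ⊢
      have e1 : (a : ℝ) + (b + 1) + 1 = (a : ℝ) + 1 + (b + 1) := by ring
      rw [e1] at h1
      -- multiply by √(a+1)
      apply mul_left_cancel₀ ha.ne'
      have t1 : Real.sqrt ((a : ℝ) + 1) * (Real.sqrt ((a : ℝ) + 1) * c1 k a (b + 1)) =
          ((a : ℝ) + 1) * c1 k a (b + 1) := by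
        rw [← mul_assoc, haa]
      have t2 : Real.sqrt ((a : ℝ) + 1) * (Real.sqrt k * Real.sqrt ((a : ℝ) + 1 + (b + 1)) *
          c1 k (a + 1) (b + 1)) = ((a : ℝ) + 1 + (b + 1)) * c1 k a (b + 1) := by
        calc Real.sqrt ((a : ℝ) + 1) * (Real.sqrt k * Real.sqrt ((a : ℝ) + 1 + (b + 1)) *
              c1 k (a + 1) (b + 1))
            = Real.sqrt ((a : ℝ) + 1 + (b + 1)) * (Real.sqrt k * Real.sqrt ((a : ℝ) + 1) *
              c1 k (a + 1) (b + 1)) := by ring
          _ = _ := by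
            rw [← h1, ← mul_assoc, hab]
      have t3 : Real.sqrt ((a : ℝ) + 1) * (Real.sqrt (k - 1) * Real.sqrt ((b : ℝ) + 1) *
          c1 k (a + 1) b) = ((b : ℝ) + 1) * c1 k a (b + 1) := by
        calc Real.sqrt ((a : ℝ) + 1) * (Real.sqrt (k - 1) * Real.sqrt ((b : ℝ) + 1) *
              c1 k (a + 1) b)
            = Real.sqrt ((b : ℝ) + 1) * (Real.sqrt (k - 1) * Real.sqrt ((a : ℝ) + 1) *
              c1 k (a + 1) b) := by ring
          _ = _ := by
            rw [← h2, ← mul_assoc, hbb]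
      rw [mul_sub, t1, t2, t3]
      ring

/-! ### several modes -/

/-- the product over the other modes -/
def ccr (k : ℝ) (m l : Conf n) (j : Fin n) : ℝ := ∏ i ∈ Finset.univ.erase j, c1 k (m i) (l i)

theorem cc_split (k : ℝ) (m l : Conf n) (j : Fin n) :
    cc k m l = c1 k (m j) (l j) * ccr k m l j :=
  (Finset.mul_prod_erase Finset.univ (fun i => c1 k (m i) (l i)) (Finset.mem_univ j)).symm

theorem ccr_congr (k : ℝ) {m l m' l' : Conf n} (j : Fin n) (h : ∀ i, i ≠ j → m i = m' i)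
    (h' : ∀ i, i ≠ j → l i = l' i) : ccr k m l j = ccr k m' l' j := by
  unfold ccr
  apply Finset.prod_congr rfl
  intro i hi
  rw [h i (Finset.ne_of_mem_erase hi), h' i (Finset.ne_of_mem_erase hi)]

theorem up_self (m : Conf n) (j : Fin n) : up m j j = m j + 1 := by simp [up]

theorem lin_up_ne (m : Conf n) {i j : Fin n} (h : i ≠ j) : up m j i = m i := by simp [up, h]

theorem down_self (m : Conf n) (j : Fin n) : down m j j = m j - 1 := by simp only [down, Function.update_self]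

theorem lin_down_ne (m : Conf n) {i j : Fin n} (h : i ≠ j) : down m j i = m i := by simp only [down, ne_eq, h, not_false_eq_true, Function.update_of_ne]

theorem cc_up_left (k : ℝ) (m l : Conf n) (j : Fin n) :
    cc k (up m j) l = c1 k (m j + 1) (l j) * ccr k m l j := by
  rw [cc_split k (up m j) l j, up_self, ccr_congr k j (fun i hi => lin_up_ne m hi) (fun i _ => rfl)]

theorem cc_up_right (k : ℝ) (m l : Conf n) (j : Fin n) :
    cc k m (up l j) = c1 k (m j) (l j + 1) * ccr k m l j := by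
  rw [cc_split k m (up l j) j, up_self, ccr_congr k j (fun i _ => rfl) (fun i hi => lin_up_ne l hi)]

theorem cc_down_left (k : ℝ) (m l : Conf n) (j : Fin n) :
    cc k (down m j) l = c1 k (m j - 1) (l j) * ccr k m l j := by
  rw [cc_split k (down m j) l j, down_self,
    ccr_congr k j (fun i hi => lin_down_ne m hi) (fun i _ => rfl)]

theorem cc_down_right (k : ℝ) (m l : Conf n) (j : Fin n) :
    cc k m (down l j) = c1 k (m j) (l j - 1) * ccr k m l j := by
  rw [cc_split k m (down l j) j, down_self,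
    ccr_congr k j (fun i _ => rfl) (fun i hi => lin_down_ne l hi)]

theorem cc_r1 {k : ℝ} (hk : 0 < k) (m l : Conf n) (j : Fin n) :
    Real.sqrt ((m j : ℝ) + l j + 1) * cc k m l =
      Real.sqrt k * Real.sqrt ((m j : ℝ) + 1) * cc k (up m j) l := by
  rw [cc_split k m l j, cc_up_left]
  have h := c1_r1 hk (m j) (l j)
  linear_combination ccr k m l j * h

theorem cc_r2 {k : ℝ} (hk : 1 ≤ k) (m l : Conf n) (j : Fin n) :
    Real.sqrt ((l j : ℝ) + 1) * cc k m (up l j) =
      Real.sqrt (k - 1) * Real.sqrt ((m j : ℝ) + 1) * cc k (up m j) l := by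
  rw [cc_up_right, cc_up_left]
  have h := c1_r2 hk (m j) (l j)
  linear_combination ccr k m l j * h

theorem cc_r3 {k : ℝ} (hk : 1 ≤ k) (m l : Conf n) (j : Fin n) :
    Real.sqrt (m j : ℝ) * cc k (down m j) l =
      Real.sqrt k * Real.sqrt ((m j : ℝ) + l j) * cc k m l -
      Real.sqrt (k - 1) * Real.sqrt (l j : ℝ) * cc k m (down l j) := by
  rw [cc_split k m l j, cc_down_left, cc_down_right]
  have h := c1_r3 hk (m j) (l j)
  linear_combination ccr k m l j * h

/-! ### configurations -/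

theorem lin_sum_up (x : Conf n) (j : Fin n) : ∑ i, up x j i = ∑ i, x i + 1 := by
  rw [← Finset.add_sum_erase Finset.univ (up x j) (Finset.mem_univ j),
    ← Finset.add_sum_erase Finset.univ x (Finset.mem_univ j), up_self]
  have : ∑ i ∈ Finset.univ.erase j, up x j i = ∑ i ∈ Finset.univ.erase j, x i :=
    Finset.sum_congr rfl fun i hi => lin_up_ne x (Finset.ne_of_mem_erase hi)
  rw [this]
  ring

theorem lin_up_down {x : Conf n} {j : Fin n} (h : 1 ≤ x j) : up (down x j) j = x := by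
  funext i
  by_cases hi : i = j
  · subst hi
    rw [up_self, down_self]
    omega
  · rw [lin_up_ne _ hi, lin_down_ne _ hi]

theorem lin_down_up (x : Conf n) (j : Fin n) : down (up x j) j = x := by
  funext i
  by_cases hi : i = j
  · subst hi
    rw [down_self, up_self]
    omega
  · rw [lin_down_ne _ hi, lin_up_ne _ hi]

theorem lin_sum_down {x : Conf n} {j : Fin n} (h : 1 ≤ x j) : ∑ i, down x j i + 1 = ∑ i, x i := by
  have := lin_sum_up (down x j) j
  rw [lin_up_down h] at this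
  exact this.symm

theorem lin_sum_down_le (x : Conf n) (j : Fin n) : ∑ i, down x j i ≤ ∑ i, x i := by
  apply Finset.sum_le_sum
  intro i _
  by_cases hi : i = j
  · subst hi
    rw [down_self]
    omega
  · rw [lin_down_ne _ hi]

/-- one more photon -/
def upC {X : ℕ} (x : Ct n X) (j : Fin n) : Ct n (X + 1) :=
  ⟨up x.1 j, by rw [lin_sum_up]; exact Nat.succ_le_succ x.2⟩

/-- sums over `Ct n (Y+1)` of a function which vanishes at `z j = 0` -/
theorem sum_upC {α : Type} [AddCommMonoid α] {Y : ℕ} (j : Fin n) (F : Ct n (Y + 1) → α)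
    (hF : ∀ z : Ct n (Y + 1), z.1 j = 0 → F z = 0) :
    ∑ z, F z = ∑ x : Ct n Y, F (upC x j) := by
  classical
  symm
  apply Finset.sum_bij_ne_zero (fun (x : Ct n Y) _ _ => upC x j)
  · intro x _ _
    exact Finset.mem_univ _
  · intro x _ _ y _ _ hxy
    apply Subtype.ext
    have h1 : up x.1 j = up y.1 j := congrArg Subtype.val hxy
    rw [← lin_down_up x.1 j, h1, lin_down_up]
  · intro z _ hz
    have h1 : 1 ≤ z.1 j := by
      by_contra h
      exact hz (hF z (by omega))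
    refine ⟨⟨down z.1 j, ?_⟩, Finset.mem_univ _, ?_, ?_⟩
    · have := lin_sum_down h1
      have h2 := z.2
      omega
    · have h3 : upC (⟨down z.1 j, by
          have := lin_sum_down h1
          have h2 := z.2
          omega⟩ : Ct n Y) j = z := Subtype.ext (lin_up_down h1)
      rw [h3]
      exact hz
    · exact Subtype.ext (lin_up_down h1)
  · intro x _ _
    rfl

/-! ### the pairing with `Z_r` -/

theorem Zr_apply (r : ℝ) (s : Conf n → Conf n → ℂ) (X : ℕ) (j : Fin n) (x : Ct n X)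
    (y : Ct n (X + 1)) :
    Zr r s X j x y = ((r + 1 : ℝ) : ℂ) * (((Real.sqrt ((x.1 j : ℝ) + 1) : ℝ) : ℂ) * s (up x.1 j) y.1) -
      ((r : ℝ) : ℂ) * (((Real.sqrt (y.1 j : ℝ) : ℝ) : ℂ) * s x.1 (down y.1 j)) := by
  have h1 : (annR X j * cut (X + 1) s) x y =
      ((Real.sqrt ((x.1 j : ℝ) + 1) : ℝ) : ℂ) * s (up x.1 j) y.1 := by
    rw [Matrix.mul_apply, Finset.sum_eq_single (upC x j)]
    · have h2 : (upC x j).1 = up x.1 j := rfl
      simp only [annR, cut, h2, if_true, up_self]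
      push_cast
      rfl
    · intro z _ hz
      have : ¬ z.1 = up x.1 j := fun h => hz (Subtype.ext h)
      simp only [annR, this, if_false, zero_mul]
    · intro h
      exact absurd (Finset.mem_univ _) h
  have h2 : (cut X s * annR X j) x y = ((Real.sqrt (y.1 j : ℝ) : ℝ) : ℂ) * s x.1 (down y.1 j) := by
    rw [Matrix.mul_apply]
    by_cases hy : y.1 j = 0
    · rw [Finset.sum_eq_zero]
      · simp only [hy, CharP.cast_eq_zero, Real.sqrt_zero, Complex.ofReal_zero, zero_mul]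
      · intro z _
        have : ¬ y.1 = up z.1 j := by
          intro h
          have := congrFun h j
          rw [up_self, hy] at this
          omega
        simp only [annR, this, if_false, mul_zero]
    · have hy1 : 1 ≤ y.1 j := by omega
      have hm : ∑ i, down y.1 j i ≤ X := by
        have := lin_sum_down hy1
        have h2 := y.2
        omega
      rw [Finset.sum_eq_single (⟨down y.1 j, hm⟩ : Ct n X)]
      · simp only [cut, annR, lin_up_down hy1, if_true]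
        ring
      · intro z _ hz
        have : ¬ y.1 = up z.1 j := by
          intro h
          apply hz
          apply Subtype.ext
          change z.1 = down y.1 j
          rw [h, lin_down_up]
        simp only [annR, this, if_false, mul_zero]
      · intro h
        exact absurd (Finset.mem_univ _) h
  unfold Zr
  simp only [Matrix.sub_apply, Matrix.smul_apply, smul_eq_mul, h1, h2]

/-- `Tr s^Y K` -/
def tau (Y : ℕ) (s K : Conf n → Conf n → ℂ) : ℂ :=
  ∑ x : Ct n Y, ∑ y : Ct n Y, s y.1 x.1 * K x.1 y.1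

/-- `a_j† K` -/
def lC (j : Fin n) (K : Conf n → Conf n → ℂ) : Conf n → Conf n → ℂ := fun x y =>
  ((Real.sqrt (x j : ℝ) : ℝ) : ℂ) * K (down x j) y

/-- `K a_j†` -/
def rC (j : Fin n) (K : Conf n → Conf n → ℂ) : Conf n → Conf n → ℂ := fun x y =>
  ((Real.sqrt ((y j : ℝ) + 1) : ℝ) : ℂ) * K x (up y j)

/-- `K a_j` -/
def rA (j : Fin n) (K : Conf n → Conf n → ℂ) : Conf n → Conf n → ℂ := fun x y =>
  ((Real.sqrt (y j : ℝ) : ℝ) : ℂ) * K x (down y j)

/-- `a_j K` -/
def lA (j : Fin n) (K : Conf n → Conf n → ℂ) : Conf n → Conf n → ℂ := fun x y =>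
  ((Real.sqrt ((x j : ℝ) + 1) : ℝ) : ℂ) * K (up x j) y

/-- a Hermitian infinite matrix -/
def Herm (s : Conf n → Conf n → ℂ) : Prop := ∀ x y, star (s x y) = s y x

theorem pair_eq (r : ℝ) {s : Conf n → Conf n → ℂ} (hs : Herm s) (Y : ℕ) (j : Fin n)
    (K : Conf n → Conf n → ℂ) :
    ((Zr r s Y j)ᴴ * cutR Y (Y + 1) K).trace =
      ((r + 1 : ℝ) : ℂ) * tau (Y + 1) s (lC j K) - ((r : ℝ) : ℂ) * tau Y s (rC j K) := by
  have e1 : tau (Y + 1) s (lC j K) = ∑ y : Ct n (Y + 1), ∑ x : Ct n Y,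
      ((Real.sqrt ((x.1 j : ℝ) + 1) : ℝ) : ℂ) * s y.1 (up x.1 j) * K x.1 y.1 := by
    unfold tau
    rw [Finset.sum_comm]
    apply Finset.sum_congr rfl
    intro y _
    rw [sum_upC j]
    · apply Finset.sum_congr rfl
      intro x _
      have h2 : (upC x j).1 = up x.1 j := rfl
      simp only [lC, h2, lin_down_up, up_self]
      push_cast
      ring
    · intro z hz
      simp only [lC, hz, CharP.cast_eq_zero, Real.sqrt_zero, Complex.ofReal_zero, zero_mul, mul_zero]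
  have e2 : tau Y s (rC j K) = ∑ y : Ct n (Y + 1), ∑ x : Ct n Y,
      ((Real.sqrt (y.1 j : ℝ) : ℝ) : ℂ) * s (down y.1 j) x.1 * K x.1 y.1 := by
    rw [sum_upC j]
    · unfold tau
      rw [Finset.sum_comm]
      apply Finset.sum_congr rfl
      intro y _
      apply Finset.sum_congr rfl
      intro x _
      have h2 : (upC y j).1 = up y.1 j := rfl
      simp only [rC, h2, lin_down_up, up_self]
      push_cast
      ring
    · intro z hz
      simp only [hz, CharP.cast_eq_zero, Real.sqrt_zero, Complex.ofReal_zero, zero_mul, Finset.sum_const_zero]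
  rw [e1, e2, Matrix.trace, Finset.mul_sum, Finset.mul_sum, ← Finset.sum_sub_distrib]
  apply Finset.sum_congr rfl
  intro y _
  rw [Matrix.diag_apply, Matrix.mul_apply, Finset.mul_sum, Finset.mul_sum,
    ← Finset.sum_sub_distrib]
  apply Finset.sum_congr rfl
  intro x _
  rw [Matrix.conjTranspose_apply, Zr_apply]
  have h3 : star (s (up x.1 j) y.1) = s y.1 (up x.1 j) := hs _ _
  have h4 : star (s x.1 (down y.1 j)) = s (down y.1 j) x.1 := hs _ _
  rw [star_sub, star_mul', star_mul', star_mul', star_mul', h3, h4]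
  simp only [Complex.star_def, Complex.conj_ofReal, cutR]
  ring

theorem tau_star {s : Conf n → Conf n → ℂ} (hs : Herm s) (Y : ℕ) (K : Conf n → Conf n → ℂ) :
    star (tau Y s K) = tau Y s (fun x y => star (K y x)) := by
  unfold tau
  rw [star_sum, Finset.sum_comm]
  apply Finset.sum_congr rfl
  intro x _
  rw [star_sum]
  apply Finset.sum_congr rfl
  intro y _
  rw [star_mul', hs]

theorem pair_eq_star (r : ℝ) {s : Conf n → Conf n → ℂ} (hs : Herm s) (Y : ℕ) (j : Fin n)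
    (T : Conf n → Conf n → ℂ) :
    star ((Zr r s Y j)ᴴ * (cutR (Y + 1) Y T)ᴴ).trace =
      ((r + 1 : ℝ) : ℂ) * tau (Y + 1) s (rA j T) - ((r : ℝ) : ℂ) * tau Y s (lA j T) := by
  have h1 : (cutR (Y + 1) Y T)ᴴ = cutR Y (Y + 1) (fun x y => star (T y x)) := by
    ext x y
    rfl
  rw [h1, pair_eq r hs, star_sub, star_mul', star_mul', tau_star hs, tau_star hs]
  simp only [Complex.star_def, Complex.conj_ofReal]
  congr 3
  · funext x y
    simp only [lC, rA, map_mul, Complex.conj_ofReal, Complex.conj_conj]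
  · funext x y
    simp only [rC, lA, map_mul, Complex.conj_ofReal, Complex.conj_conj]

/-! ### the complementary channel -/

/-- `J† (1 ⊗ |a⟩⟨b|) J` -/
def T1 (k : ℝ) (a b : Conf n) : Conf n → Conf n → ℂ := fun m' m =>
  if m + b = m' + a then ((cc k m b * cc k m' a : ℝ) : ℂ) else 0

theorem TW_eq (k : ℝ) {X' X : ℕ} (W : Matrix (Ct n X') (Ct n X) ℂ) (m' m : Conf n) :
    TW k W m' m = ∑ a : Ct n X', ∑ b : Ct n X, W a b * T1 k a.1 b.1 m' m := by
  unfold TW T1
  apply Finset.sum_congr rfl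
  intro a _
  apply Finset.sum_congr rfl
  intro b _
  split_ifs
  · ring
  · simp

theorem tau_T1 (k : ℝ) (Y : ℕ) (s : Conf n → Conf n → ℂ) (a b : Conf n) :
    tau Y s (T1 k a b) = conE k Y s b a := by
  unfold tau conE T1
  rw [Finset.sum_comm]
  apply Finset.sum_congr rfl
  intro y _
  apply Finset.sum_congr rfl
  intro x _
  split_ifs
  · ring
  · simp

theorem add_up_iff (x b w a : Conf n) (j : Fin n) :
    x + b = up w j + a ↔ x + b = w + up a j := by
  have : up w j + a = w + up a j := by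
    funext i
    by_cases hi : i = j
    · subst hi
      simp only [Pi.add_apply, up_self]
      ring
    · simp only [Pi.add_apply, lin_up_ne _ hi]
  rw [this]

theorem lA_T1 {k : ℝ} (hk : 1 < k) (j : Fin n) (a b : Conf n) (w x : Conf n) :
    lA j (T1 k a b) w x =
      (((Real.sqrt (k - 1))⁻¹ * Real.sqrt ((a j : ℝ) + 1) : ℝ) : ℂ) * T1 k (up a j) b w x := by
  have hs : 0 < Real.sqrt (k - 1) := Real.sqrt_pos.2 (by linarith only [hk])
  have h2 := cc_r2 hk.le w a j
  unfold lA T1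
  simp only [add_up_iff]
  split_ifs
  · have : Real.sqrt ((w j : ℝ) + 1) * (cc k x b * cc k (up w j) a) =
        (Real.sqrt (k - 1))⁻¹ * Real.sqrt ((a j : ℝ) + 1) * (cc k x b * cc k w (up a j)) := by
      field_simp
      linear_combination (-cc k x b) * h2
    exact_mod_cast this
  · simp only [mul_zero, Complex.ofReal_mul, Complex.ofReal_inv]

theorem down_add_iff {x b w a : Conf n} {j : Fin n} (hx : 1 ≤ x j) :
    down x j + b = w + a ↔ x + b = w + up a j := by
  have h1 : x + b = up (down x j + b) j := by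
    funext i
    by_cases hi : i = j
    · subst hi
      simp only [Pi.add_apply, up_self, down_self]
      omega
    · simp only [Pi.add_apply, lin_up_ne _ hi, lin_down_ne _ hi]
  have h2 : w + up a j = up (w + a) j := by
    funext i
    by_cases hi : i = j
    · subst hi
      simp only [Pi.add_apply, up_self]
      omega
    · simp only [Pi.add_apply, lin_up_ne _ hi]
  rw [h1, h2]
  constructor
  · intro h
    rw [h]
  · intro h
    rw [← lin_down_up (down x j + b) j, h, lin_down_up]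

theorem rA_T1 {k : ℝ} (hk : 1 < k) (j : Fin n) (a b : Conf n) (w x : Conf n) :
    rA j (T1 k a b) w x =
      ((k * (Real.sqrt (k - 1))⁻¹ * Real.sqrt ((a j : ℝ) + 1) : ℝ) : ℂ) * T1 k (up a j) b w x -
      ((Real.sqrt (k - 1) * Real.sqrt (b j : ℝ) : ℝ) : ℂ) * T1 k a (down b j) w x := by
  have hk0 : 0 < k := by linarith only [hk]
  have hs : 0 < Real.sqrt (k - 1) := Real.sqrt_pos.2 (by linarith only [hk])
  have hkk : Real.sqrt k * Real.sqrt k = k := Real.mul_self_sqrt hk0.le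
  have h1 := cc_r1 hk0 w a j
  have h2 := cc_r2 hk.le w a j
  have h3 := cc_r3 hk.le x b j
  unfold rA T1
  by_cases hxb : x + b = w + up a j
  · have hj : (x j : ℝ) + b j = w j + a j + 1 := by
      have := congrFun hxb j
      simp only [Pi.add_apply, up_self] at this
      have h4 : ((x j + b j : ℕ) : ℝ) = ((w j + (a j + 1) : ℕ) : ℝ) := by rw [this]
      push_cast at h4
      linarith only [h4]
    have e1 : (if down x j + b = w + a then ((cc k (down x j) b * cc k w a : ℝ) : ℂ) else 0) *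
        ((Real.sqrt (x j : ℝ) : ℝ) : ℂ) =
        ((Real.sqrt (x j : ℝ) * cc k (down x j) b * cc k w a : ℝ) : ℂ) := by
      by_cases hx : 1 ≤ x j
      · rw [if_pos ((down_add_iff hx).2 hxb)]
        push_cast
        ring
      · have : x j = 0 := by omega
        simp only [Complex.ofReal_mul, this, CharP.cast_eq_zero, Real.sqrt_zero, Complex.ofReal_zero, mul_zero, zero_mul]
    have e2 : (if x + down b j = w + a then ((cc k x (down b j) * cc k w a : ℝ) : ℂ) else 0) *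
        ((Real.sqrt (b j : ℝ) : ℝ) : ℂ) =
        ((Real.sqrt (b j : ℝ) * cc k x (down b j) * cc k w a : ℝ) : ℂ) := by
      by_cases hb : 1 ≤ b j
      · have : x + down b j = w + a := by
          have h5 := (down_add_iff (x := b) (b := x) (w := w) (a := a) hb).2 (by
            rw [add_comm]
            exact hxb)
          rw [add_comm]
          exact h5
        rw [if_pos this]
        push_cast
        ring
      · have : b j = 0 := by omega
        simp only [Complex.ofReal_mul, this, CharP.cast_eq_zero, Real.sqrt_zero, Complex.ofReal_zero, mul_zero, zero_mul]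
    rw [if_pos hxb, mul_comm, e1]
    have e3 : ((Real.sqrt (k - 1) * Real.sqrt (b j : ℝ) : ℝ) : ℂ) *
        (if x + down b j = w + a then ((cc k x (down b j) * cc k w a : ℝ) : ℂ) else 0) =
        ((Real.sqrt (k - 1) * (Real.sqrt (b j : ℝ) * cc k x (down b j) * cc k w a) : ℝ) : ℂ) := by
      have e4 : ((Real.sqrt (k - 1) * (Real.sqrt (b j : ℝ) * cc k x (down b j) * cc k w a) : ℝ) : ℂ) =
          ((Real.sqrt (k - 1) : ℝ) : ℂ) *
            ((Real.sqrt (b j : ℝ) * cc k x (down b j) * cc k w a : ℝ) : ℂ) := by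
        push_cast
        ring
      rw [e4, ← e2]
      push_cast
      ring
    rw [e3]
    rw [hj] at h3
    have h4 : k * (Real.sqrt (k - 1))⁻¹ * Real.sqrt ((a j : ℝ) + 1) * cc k w (up a j) =
        Real.sqrt k * Real.sqrt ((w j : ℝ) + a j + 1) * cc k w a := by
      calc k * (Real.sqrt (k - 1))⁻¹ * Real.sqrt ((a j : ℝ) + 1) * cc k w (up a j)
          = k * (Real.sqrt (k - 1))⁻¹ * (Real.sqrt ((a j : ℝ) + 1) * cc k w (up a j)) := by ring
        _ = k * ((Real.sqrt (k - 1))⁻¹ * Real.sqrt (k - 1)) * (Real.sqrt ((w j : ℝ) + 1) *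
            cc k (up w j) a) := by
            rw [h2]
            ring
        _ = (Real.sqrt k * Real.sqrt k) * (Real.sqrt ((w j : ℝ) + 1) * cc k (up w j) a) := by
            rw [inv_mul_cancel₀ hs.ne', hkk]
            ring
        _ = Real.sqrt k * (Real.sqrt k * Real.sqrt ((w j : ℝ) + 1) * cc k (up w j) a) := by ring
        _ = _ := by
            rw [← h1]
            ring
    have : Real.sqrt (x j : ℝ) * cc k (down x j) b * cc k w a =
        k * (Real.sqrt (k - 1))⁻¹ * Real.sqrt ((a j : ℝ) + 1) * (cc k x b * cc k w (up a j)) -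
        Real.sqrt (k - 1) * (Real.sqrt (b j : ℝ) * cc k x (down b j) * cc k w a) := by
      linear_combination cc k w a * h3 - cc k x b * h4
    rw [this]
    push_cast
    ring
  · rw [if_neg hxb]
    have e1 : ((Real.sqrt (x j : ℝ) : ℝ) : ℂ) *
        (if down x j + b = w + a then ((cc k (down x j) b * cc k w a : ℝ) : ℂ) else 0) = 0 := by
      by_cases hx : 1 ≤ x j
      · rw [if_neg (fun h => hxb ((down_add_iff hx).1 h)), mul_zero]
      · have : x j = 0 := by omega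
        simp only [this, CharP.cast_eq_zero, Real.sqrt_zero, Complex.ofReal_zero, Complex.ofReal_mul, mul_ite, zero_mul, mul_zero, ite_self]
    have e2 : ((Real.sqrt (k - 1) * Real.sqrt (b j : ℝ) : ℝ) : ℂ) *
        (if x + down b j = w + a then ((cc k x (down b j) * cc k w a : ℝ) : ℂ) else 0) = 0 := by
      by_cases hb : 1 ≤ b j
      · have : ¬ x + down b j = w + a := by
          intro h
          apply hxb
          have h5 := (down_add_iff (x := b) (b := x) (w := w) (a := a) hb).1 (by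
            rw [add_comm]
            exact h)
          rw [add_comm]
          exact h5
        rw [if_neg this, mul_zero]
      · have : b j = 0 := by omega
        simp only [this, CharP.cast_eq_zero, Real.sqrt_zero, mul_zero, Complex.ofReal_zero, Complex.ofReal_mul, mul_ite, zero_mul, ite_self]
    rw [e1, e2]
    simp only [Complex.ofReal_mul, Complex.ofReal_inv, mul_zero, sub_self]

theorem tau_sub (Y : ℕ) (s K L : Conf n → Conf n → ℂ) :
    tau Y s (fun x y => K x y - L x y) = tau Y s K - tau Y s L := by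
  unfold tau
  simp only [mul_sub, Finset.sum_sub_distrib]

theorem tau_smul (Y : ℕ) (s K : Conf n → Conf n → ℂ) (c : ℂ) :
    tau Y s (fun x y => c * K x y) = c * tau Y s K := by
  unfold tau
  simp only [Finset.mul_sum]
  apply Finset.sum_congr rfl
  intro x _
  apply Finset.sum_congr rfl
  intro y _
  ring

theorem tau_sum (Y : ℕ) (s : Conf n → Conf n → ℂ) {α : Type} (S : Finset α)
    (K : α → Conf n → Conf n → ℂ) :
    tau Y s (fun x y => ∑ i ∈ S, K i x y) = ∑ i ∈ S, tau Y s (K i) := by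
  unfold tau
  simp only [Finset.mul_sum]
  calc ∑ x : Ct n Y, ∑ y : Ct n Y, ∑ i ∈ S, s y.1 x.1 * K i x.1 y.1
      = ∑ x : Ct n Y, ∑ i ∈ S, ∑ y : Ct n Y, s y.1 x.1 * K i x.1 y.1 := by
        apply Finset.sum_congr rfl
        intro x _
        rw [Finset.sum_comm]
    _ = _ := by rw [Finset.sum_comm]

/-- the pairing of `Z_r` with `(J† (1 ⊗ |a⟩⟨b|) J)†`, conjugated -/
def PT (k r : ℝ) (Y : ℕ) (s : Conf n → Conf n → ℂ) (j : Fin n) (a b : Conf n) : ℂ :=
  ((r + 1 : ℝ) : ℂ) *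
    (((k * (Real.sqrt (k - 1))⁻¹ * Real.sqrt ((a j : ℝ) + 1) : ℝ) : ℂ) *
        conE k (Y + 1) s b (up a j) -
      ((Real.sqrt (k - 1) * Real.sqrt (b j : ℝ) : ℝ) : ℂ) * conE k (Y + 1) s (down b j) a) -
  ((r : ℝ) : ℂ) * ((((Real.sqrt (k - 1))⁻¹ * Real.sqrt ((a j : ℝ) + 1) : ℝ) : ℂ) *
    conE k Y s b (up a j))

theorem tau_rA_T1 {k : ℝ} (hk : 1 < k) (Y : ℕ) (s : Conf n → Conf n → ℂ) (j : Fin n)
    (a b : Conf n) :
    tau Y s (rA j (T1 k a b)) =
      ((k * (Real.sqrt (k - 1))⁻¹ * Real.sqrt ((a j : ℝ) + 1) : ℝ) : ℂ) *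
        conE k Y s b (up a j) -
      ((Real.sqrt (k - 1) * Real.sqrt (b j : ℝ) : ℝ) : ℂ) * conE k Y s (down b j) a := by
  have h1 : rA j (T1 k a b) = fun w x =>
      ((k * (Real.sqrt (k - 1))⁻¹ * Real.sqrt ((a j : ℝ) + 1) : ℝ) : ℂ) * T1 k (up a j) b w x -
      ((Real.sqrt (k - 1) * Real.sqrt (b j : ℝ) : ℝ) : ℂ) * T1 k a (down b j) w x := by
    funext w x
    exact rA_T1 hk j a b w x
  rw [h1, tau_sub, tau_smul, tau_smul]
  change _ * tau Y s (T1 k (up a j) b) - _ * tau Y s (T1 k a (down b j)) = _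
  rw [tau_T1, tau_T1]

theorem tau_lA_T1 {k : ℝ} (hk : 1 < k) (Y : ℕ) (s : Conf n → Conf n → ℂ) (j : Fin n)
    (a b : Conf n) :
    tau Y s (lA j (T1 k a b)) =
      (((Real.sqrt (k - 1))⁻¹ * Real.sqrt ((a j : ℝ) + 1) : ℝ) : ℂ) * conE k Y s b (up a j) := by
  have h1 : lA j (T1 k a b) = fun w x =>
      (((Real.sqrt (k - 1))⁻¹ * Real.sqrt ((a j : ℝ) + 1) : ℝ) : ℂ) * T1 k (up a j) b w x := by
    funext w x
    exact lA_T1 hk j a b w x
  rw [h1, tau_smul]
  change _ * tau Y s (T1 k (up a j) b) = _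
  rw [tau_T1]

theorem pair_T {k : ℝ} (hk : 1 < k) (r : ℝ) {s : Conf n → Conf n → ℂ} (hs : Herm s) (Y : ℕ)
    (j : Fin n) {X' X : ℕ} (W : Matrix (Ct n X') (Ct n X) ℂ) :
    star ((Zr r s Y j)ᴴ * (cutR (Y + 1) Y (TW k W))ᴴ).trace =
      ∑ a, ∑ b, W a b * PT k r Y s j a.1 b.1 := by
  rw [pair_eq_star r hs]
  have h1 : rA j (TW k W) = fun w x => ∑ a : Ct n X', ∑ b : Ct n X,
      W a b * rA j (T1 k a.1 b.1) w x := by
    funext w x
    unfold rA
    rw [TW_eq, Finset.mul_sum]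
    apply Finset.sum_congr rfl
    intro a _
    rw [Finset.mul_sum]
    apply Finset.sum_congr rfl
    intro b _
    ring
  have h2 : lA j (TW k W) = fun w x => ∑ a : Ct n X', ∑ b : Ct n X,
      W a b * lA j (T1 k a.1 b.1) w x := by
    funext w x
    unfold lA
    rw [TW_eq, Finset.mul_sum]
    apply Finset.sum_congr rfl
    intro a _
    rw [Finset.mul_sum]
    apply Finset.sum_congr rfl
    intro b _
    ring
  rw [h1, h2, tau_sum, tau_sum, Finset.mul_sum, Finset.mul_sum, ← Finset.sum_sub_distrib]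
  apply Finset.sum_congr rfl
  intro a _
  rw [tau_sum, tau_sum, Finset.mul_sum, Finset.mul_sum, ← Finset.sum_sub_distrib]
  apply Finset.sum_congr rfl
  intro b _
  rw [tau_smul, tau_smul]
  change _ * (_ * tau (Y + 1) s (rA j (T1 k a.1 b.1))) - _ * (_ * tau Y s (lA j (T1 k a.1 b.1))) = _
  rw [tau_rA_T1 hk, tau_lA_T1 hk]
  unfold PT
  ring

/-! ### the amplifier channel -/

/-- `J† (|a⟩⟨b| ⊗ 1) J` -/
def E1 (k : ℝ) (a b : Conf n) : Conf n → Conf n → ℂ := fun m' m =>
  if (∀ j, m' j ≤ a j) ∧ (∀ j, m j ≤ b j) ∧ b - m = a - m' then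
    ((cc k m (b - m) * cc k m' (a - m') : ℝ) : ℂ) else 0

theorem EV_eq (k : ℝ) {X' X : ℕ} (V : Matrix (Ct n X') (Ct n X) ℂ) (m' m : Conf n) :
    EV k V m' m = ∑ a : Ct n X', ∑ b : Ct n X, V a b * E1 k a.1 b.1 m' m := by
  unfold EV E1
  apply Finset.sum_congr rfl
  intro a _
  apply Finset.sum_congr rfl
  intro b _
  split_ifs
  · ring
  · simp

theorem E1_eq (k : ℝ) (a b m' m : Conf n) :
    E1 k a b m' m = if (∀ j, m j ≤ b j) ∧ m' + (b - m) = a then
      ((cc k m (b - m) * cc k m' (b - m) : ℝ) : ℂ) else 0 := by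
  unfold E1
  by_cases h : (∀ j, m j ≤ b j) ∧ m' + (b - m) = a
  · have h1 : ∀ j, m' j ≤ a j := by
      intro j
      rw [← h.2]
      simp only [Pi.add_apply, Pi.sub_apply, le_add_iff_nonneg_right, zero_le]
    have h2 : b - m = a - m' := by
      rw [← h.2]
      funext j
      simp only [Pi.sub_apply, Pi.add_apply, add_tsub_cancel_left]
    rw [if_pos h, if_pos ⟨h1, h.1, h2⟩, ← h2]
  · rw [if_neg h, if_neg]
    intro h1
    apply h
    refine ⟨h1.2.1, ?_⟩
    rw [h1.2.2]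
    funext j
    have := h1.1 j
    simp only [Pi.add_apply, Pi.sub_apply]
    omega

/-- `ampE` as a sum over `y ≤ b` -/
theorem tau_E1 (k : ℝ) (Y : ℕ) (s : Conf n → Conf n → ℂ) (a b : Conf n) (ha : ∑ j, a j ≤ Y)
    (hb : ∑ j, b j ≤ Y) : tau Y s (E1 k a b) = ampE k s b a := by
  classical
  have hle : ∀ (l c : Conf n), ∑ j, (c - l) j ≤ ∑ j, c j := fun l c =>
    Finset.sum_le_sum fun i _ => Nat.sub_le _ _
  unfold tau ampE
  rw [← Finset.sum_product']
  symm
  apply Finset.sum_bij_ne_zero (fun (l : Conf n) _ _ =>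
    ((⟨a - l, (hle l a).trans ha⟩, ⟨b - l, (hle l b).trans hb⟩) : Ct n Y × Ct n Y))
  · intro l _ _
    exact Finset.mem_product.2 ⟨Finset.mem_univ _, Finset.mem_univ _⟩
  · intro l hl _ l' hl' _ h
    rw [Finset.mem_Iic, le_inf_iff] at hl hl'
    have h1 : a - l = a - l' := congrArg (fun p : Ct n Y × Ct n Y => p.1.1) h
    funext j
    have h2 := congrFun h1 j
    have h3 : l j ≤ a j := hl.2 j
    have h4 : l' j ≤ a j := hl'.2 j
    simp only [Pi.sub_apply] at h2
    omega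
  · rintro ⟨x, y⟩ _ hxy
    have h0 : E1 k a b x.1 y.1 ≠ 0 := fun h => hxy (by simp only [h, mul_zero])
    rw [E1_eq] at h0
    by_cases h : (∀ j, y.1 j ≤ b j) ∧ x.1 + (b - y.1) = a
    · have hla : b - y.1 ≤ a := by
        rw [← h.2]
        intro j
        simp only [Pi.sub_apply, Pi.add_apply, le_add_iff_nonneg_left, zero_le]
      have hlb : b - y.1 ≤ b := fun j => Nat.sub_le _ _
      have e1 : a - (b - y.1) = x.1 := by
        rw [← h.2]
        funext j
        simp only [Pi.sub_apply, Pi.add_apply, add_tsub_cancel_right]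
      have e2 : b - (b - y.1) = y.1 := by
        funext j
        have := h.1 j
        simp only [Pi.sub_apply]
        omega
      refine ⟨b - y.1, ?_, ?_, ?_⟩
      · rw [Finset.mem_Iic, le_inf_iff]
        exact ⟨hlb, hla⟩
      · rw [e1, e2]
        rw [if_pos h] at h0
        intro h2
        apply hxy
        simp only
        rw [E1_eq, if_pos h]
        rw [mul_comm]
        exact h2
      · exact Prod.ext (Subtype.ext e1) (Subtype.ext e2)
    · rw [if_neg h] at h0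
      exact absurd rfl h0
  · intro l hl _
    rw [Finset.mem_Iic, le_inf_iff] at hl
    simp only
    have e0 : b - (b - l) = l := by
      funext j
      have : l j ≤ b j := hl.1 j
      simp only [Pi.sub_apply]
      (clear * - this; omega)
    have e1 : (∀ j, (b - l) j ≤ b j) ∧ (a - l) + (b - (b - l)) = a := by
      refine ⟨fun j => Nat.sub_le _ _, ?_⟩
      rw [e0]
      funext j
      have : l j ≤ a j := hl.2 j
      simp only [Pi.sub_apply, Pi.add_apply]
      omega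
    rw [E1_eq, if_pos e1, e0]
    ring

theorem sub_up_eq {b y : Conf n} {j : Fin n} (h : up y j ≤ b) : b - up y j = down b j - y := by
  funext i
  by_cases hi : i = j
  · subst hi
    have := h i
    simp only [Pi.sub_apply, up_self, down_self] at this ⊢
    omega
  · simp only [Pi.sub_apply, lin_up_ne _ hi, lin_down_ne _ hi]

theorem rC_E1 {k : ℝ} (hk : 1 < k) (j : Fin n) (a b : Conf n) (x y : Conf n) :
    rC j (E1 k a b) x y =
      (((Real.sqrt k)⁻¹ * Real.sqrt (b j : ℝ) : ℝ) : ℂ) * E1 k a (down b j) x y := by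
  have hk0 : 0 < k := by linarith only [hk]
  have hs : 0 < Real.sqrt k := Real.sqrt_pos.2 hk0
  unfold rC
  rw [E1_eq, E1_eq]
  by_cases hb : 1 ≤ b j
  · have hiff : ((∀ i, (up y j) i ≤ b i) ∧ x + (b - up y j) = a) ↔
        ((∀ i, y i ≤ (down b j) i) ∧ x + (down b j - y) = a) := by
      have h1 : (∀ i, (up y j) i ≤ b i) ↔ (∀ i, y i ≤ (down b j) i) := by
        constructor
        · intro h i
          have := h i
          by_cases hi : i = j
          · subst hi
            rw [up_self] at this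
            rw [down_self]
            omega
          · rw [lin_up_ne _ hi] at this
            rw [lin_down_ne _ hi]
            exact this
        · intro h i
          have := h i
          by_cases hi : i = j
          · subst hi
            rw [down_self] at this
            rw [up_self]
            omega
          · rw [lin_down_ne _ hi] at this
            rw [lin_up_ne _ hi]
            exact this
      constructor
      · intro h
        refine ⟨h1.1 h.1, ?_⟩
        rw [← sub_up_eq (fun i => h.1 i)]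
        exact h.2
      · intro h
        have h2 := h1.2 h.1
        refine ⟨h2, ?_⟩
        rw [sub_up_eq (fun i => h2 i)]
        exact h.2
    by_cases h : (∀ i, y i ≤ (down b j) i) ∧ x + (down b j - y) = a
    · have h2 := hiff.2 h
      rw [if_pos h2, if_pos h, sub_up_eq (fun i => h2.1 i)]
      have h3 := cc_r1 hk0 y (down b j - y) j
      have h4 : (y j : ℝ) + ((down b j - y) j : ℕ) + 1 = b j := by
        have h5 := h.1 j
        rw [down_self] at h5
        have h6 : y j + (down b j - y) j + 1 = b j := by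
          simp only [Pi.sub_apply, down_self]
          omega
        exact_mod_cast h6
      rw [h4] at h3
      have h5 : Real.sqrt ((y j : ℝ) + 1) * (cc k (up y j) (down b j - y) *
          cc k x (down b j - y)) = (Real.sqrt k)⁻¹ * Real.sqrt (b j : ℝ) *
          (cc k y (down b j - y) * cc k x (down b j - y)) := by
        field_simp
        linear_combination (-cc k x (down b j - y)) * h3
      exact_mod_cast h5
    · rw [if_neg h, if_neg (fun h' => h (hiff.1 h'))]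
      simp only [mul_zero, Complex.ofReal_mul, Complex.ofReal_inv]
  · have hb0 : b j = 0 := by omega
    rw [if_neg]
    · simp only [mul_zero, hb0, CharP.cast_eq_zero, Real.sqrt_zero, Complex.ofReal_zero, Complex.ofReal_mul, mul_ite, zero_mul, ite_self]
    · intro h
      have := h.1 j
      rw [up_self, hb0] at this
      omega

theorem lC_E1 {k : ℝ} (hk : 1 < k) (j : Fin n) (a b : Conf n) (x y : Conf n) :
    lC j (E1 k a b) x y =
      ((Real.sqrt k * Real.sqrt ((a j : ℝ) + 1) : ℝ) : ℂ) * E1 k (up a j) b x y -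
      (((k - 1) * (Real.sqrt k)⁻¹ * Real.sqrt (b j : ℝ) : ℝ) : ℂ) * E1 k a (down b j) x y := by
  have hk0 : 0 < k := by (clear * - hk; linarith)
  have hs : 0 < Real.sqrt k := Real.sqrt_pos.2 hk0
  have hs1 : 0 < Real.sqrt (k - 1) := Real.sqrt_pos.2 (by linarith only [hk])
  have hkk : Real.sqrt k * Real.sqrt k = k := Real.mul_self_sqrt hk0.le
  have hss : Real.sqrt (k - 1) * Real.sqrt (k - 1) = k - 1 := Real.mul_self_sqrt (by linarith)
  unfold lC
  rw [E1_eq, E1_eq, E1_eq]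
  by_cases h : (∀ i, y i ≤ b i) ∧ x + (b - y) = up a j
  · have hj : (x j : ℝ) + ((b - y) j : ℕ) = (a j : ℝ) + 1 := by
      have := congrFun h.2 j
      simp only [Pi.add_apply, up_self] at this
      exact_mod_cast this
    have h3 := cc_r3 hk.le x (b - y) j
    rw [hj] at h3
    -- the first term
    have e1 : ((Real.sqrt (x j : ℝ) : ℝ) : ℂ) * (if (∀ i, y i ≤ b i) ∧ down x j + (b - y) = a then
        ((cc k y (b - y) * cc k (down x j) (b - y) : ℝ) : ℂ) else 0) =
        ((Real.sqrt (x j : ℝ) * cc k (down x j) (b - y) * cc k y (b - y) : ℝ) : ℂ) := by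
      by_cases hx : 1 ≤ x j
      · have : down x j + (b - y) = a := by
          have h4 := h.2
          have h5 : x + (b - y) = up (down x j + (b - y)) j := by
            funext i
            by_cases hi : i = j
            · subst hi
              simp only [Pi.add_apply, up_self, down_self]
              omega
            · simp only [Pi.add_apply, lin_up_ne _ hi, lin_down_ne _ hi]
          rw [h5] at h4
          rw [← lin_down_up (down x j + (b - y)) j, h4, lin_down_up]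
        rw [if_pos ⟨h.1, this⟩]
        push_cast
        ring
      · have : x j = 0 := by omega
        simp only [this, CharP.cast_eq_zero, Real.sqrt_zero, Complex.ofReal_zero, Complex.ofReal_mul, mul_ite, zero_mul, mul_zero, ite_self]
    -- the third term
    have e2 : (((k - 1) * (Real.sqrt k)⁻¹ * Real.sqrt (b j : ℝ) : ℝ) : ℂ) *
        (if (∀ i, y i ≤ (down b j) i) ∧ x + (down b j - y) = a then
          ((cc k y (down b j - y) * cc k x (down b j - y) : ℝ) : ℂ) else 0) =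
        ((Real.sqrt (k - 1) * Real.sqrt ((b - y) j : ℕ) * cc k x (down (b - y) j) *
          cc k y (b - y) : ℝ) : ℂ) := by
      by_cases hl : 1 ≤ (b - y) j
      · have hl' : y j + 1 ≤ b j := by
          simp only [Pi.sub_apply] at hl
          omega
        have hd : down b j - y = down (b - y) j := by
          funext i
          by_cases hi : i = j
          · subst hi
            simp only [Pi.sub_apply, down_self]
            omega
          · simp only [Pi.sub_apply, lin_down_ne _ hi]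
        have c1 : ∀ i, y i ≤ (down b j) i := by
          intro i
          by_cases hi : i = j
          · subst hi
            rw [down_self]
            omega
          · rw [lin_down_ne _ hi]
            exact h.1 i
        have c2 : x + (down b j - y) = a := by
          rw [hd]
          have h4 := h.2
          have h5 : x + (b - y) = up (x + down (b - y) j) j := by
            funext i
            by_cases hi : i = j
            · subst hi
              simp only [Pi.add_apply, up_self, down_self]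
              (clear * - hl; omega)
            · simp only [Pi.add_apply, lin_up_ne _ hi, lin_down_ne _ hi]
          rw [h5] at h4
          rw [← lin_down_up (x + down (b - y) j) j, h4, lin_down_up]
        rw [if_pos ⟨c1, c2⟩, hd]
        -- √b_j cc(y, l') = √k √(l_j) cc(y, up l') / √(k-1)
        have r1 := cc_r1 hk0 y (down (b - y) j) j
        have r2 := cc_r2 hk.le y (down (b - y) j) j
        rw [lin_up_down hl] at r2
        have f1 : (y j : ℝ) + ((down (b - y) j) j : ℕ) + 1 = b j := by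
          have : y j + (down (b - y) j) j + 1 = b j := by
            rw [down_self]
            simp only [Pi.sub_apply]
            omega
          exact_mod_cast this
        have f2 : (((down (b - y) j) j : ℕ) : ℝ) + 1 = ((b - y) j : ℕ) := by
          have : (down (b - y) j) j + 1 = (b - y) j := by
            rw [down_self]
            omega
          exact_mod_cast this
        rw [f1] at r1
        rw [f2] at r2
        have h6 : (k - 1) * (Real.sqrt k)⁻¹ * Real.sqrt (b j : ℝ) *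
            (cc k y (down (b - y) j) * cc k x (down (b - y) j)) =
            Real.sqrt (k - 1) * Real.sqrt ((b - y) j : ℕ) * cc k x (down (b - y) j) *
            cc k y (b - y) := by
          calc (k - 1) * (Real.sqrt k)⁻¹ * Real.sqrt (b j : ℝ) *
              (cc k y (down (b - y) j) * cc k x (down (b - y) j))
              = (k - 1) * (Real.sqrt k)⁻¹ * (Real.sqrt (b j : ℝ) * cc k y (down (b - y) j)) *
                cc k x (down (b - y) j) := by ring
            _ = (k - 1) * ((Real.sqrt k)⁻¹ * Real.sqrt k) * (Real.sqrt ((y j : ℝ) + 1) *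
                cc k (up y j) (down (b - y) j)) * cc k x (down (b - y) j) := by
                rw [r1]
                ring
            _ = Real.sqrt (k - 1) * (Real.sqrt (k - 1) * Real.sqrt ((y j : ℝ) + 1) *
                cc k (up y j) (down (b - y) j)) * cc k x (down (b - y) j) := by
                rw [inv_mul_cancel₀ hs.ne', mul_one]
                linear_combination (-(Real.sqrt ((y j : ℝ) + 1) *
                  cc k (up y j) (down (b - y) j) * cc k x (down (b - y) j))) * hss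
            _ = _ := by
                rw [← r2]
                ring
        rw [← Complex.ofReal_mul, h6]
      · have hl0 : (b - y) j = 0 := by omega
        by_cases hb : 1 ≤ b j
        · rw [if_neg]
          · simp only [Complex.ofReal_mul, Complex.ofReal_sub, Complex.ofReal_one, Complex.ofReal_inv, mul_zero, hl0, CharP.cast_eq_zero, Real.sqrt_zero, zero_mul, Complex.ofReal_zero]
          · intro h5
            have h6 := h5.1 j
            rw [down_self] at h6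
            simp only [Pi.sub_apply] at hl0
            omega
        · have : b j = 0 := by omega
          simp only [this, CharP.cast_eq_zero, Real.sqrt_zero, mul_zero, Complex.ofReal_zero, Complex.ofReal_mul, mul_ite, zero_mul, ite_self, hl0]
    rw [e1, if_pos h, e2]
    have : Real.sqrt (x j : ℝ) * cc k (down x j) (b - y) * cc k y (b - y) =
        Real.sqrt k * Real.sqrt ((a j : ℝ) + 1) * (cc k y (b - y) * cc k x (b - y)) -
        Real.sqrt (k - 1) * Real.sqrt ((b - y) j : ℕ) * cc k x (down (b - y) j) *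
          cc k y (b - y) := by
      linear_combination cc k y (b - y) * h3
    rw [this]
    push_cast
    ring
  · have e1 : ((Real.sqrt (x j : ℝ) : ℝ) : ℂ) * (if (∀ i, y i ≤ b i) ∧ down x j + (b - y) = a then
        ((cc k y (b - y) * cc k (down x j) (b - y) : ℝ) : ℂ) else 0) = 0 := by
      by_cases hx : 1 ≤ x j
      · rw [if_neg, mul_zero]
        intro h4
        apply h
        refine ⟨h4.1, ?_⟩
        rw [← h4.2]
        funext i
        by_cases hi : i = j
        · subst hi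
          simp only [Pi.add_apply, up_self, down_self]
          omega
        · simp only [Pi.add_apply, lin_up_ne _ hi, lin_down_ne _ hi]
      · have : x j = 0 := by omega
        simp only [this, CharP.cast_eq_zero, Real.sqrt_zero, Complex.ofReal_zero, Complex.ofReal_mul, mul_ite, zero_mul, mul_zero, ite_self]
    have e2 : (((k - 1) * (Real.sqrt k)⁻¹ * Real.sqrt (b j : ℝ) : ℝ) : ℂ) *
        (if (∀ i, y i ≤ (down b j) i) ∧ x + (down b j - y) = a then
          ((cc k y (down b j - y) * cc k x (down b j - y) : ℝ) : ℂ) else 0) = 0 := by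
      by_cases hb : 1 ≤ b j
      · rw [if_neg, mul_zero]
        intro h4
        apply h
        have c1 : ∀ i, y i ≤ b i := fun i => (h4.1 i).trans (by
          by_cases hi : i = j
          · subst hi
            rw [down_self]
            omega
          · rw [lin_down_ne _ hi])
        refine ⟨c1, ?_⟩
        rw [← h4.2]
        funext i
        by_cases hi : i = j
        · subst hi
          have h5 := h4.1 i
          rw [down_self] at h5
          simp only [Pi.add_apply, up_self, down_self, Pi.sub_apply]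
          omega
        · simp only [Pi.add_apply, lin_up_ne _ hi, lin_down_ne _ hi, Pi.sub_apply]
      · have : b j = 0 := by omega
        simp only [this, CharP.cast_eq_zero, Real.sqrt_zero, mul_zero, Complex.ofReal_zero, Complex.ofReal_mul, mul_ite, zero_mul, ite_self]
    rw [e1, e2, if_neg h]
    simp

theorem tau_lC_E1 {k : ℝ} (hk : 1 < k) (Y : ℕ) (s : Conf n → Conf n → ℂ) (j : Fin n)
    (a b : Conf n) (ha : ∑ i, a i + 1 ≤ Y) (hb : ∑ i, b i ≤ Y) :
    tau Y s (lC j (E1 k a b)) =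
      ((Real.sqrt k * Real.sqrt ((a j : ℝ) + 1) : ℝ) : ℂ) * ampE k s b (up a j) -
      (((k - 1) * (Real.sqrt k)⁻¹ * Real.sqrt (b j : ℝ) : ℝ) : ℂ) * ampE k s (down b j) a := by
  have h1 : lC j (E1 k a b) = fun w x =>
      ((Real.sqrt k * Real.sqrt ((a j : ℝ) + 1) : ℝ) : ℂ) * E1 k (up a j) b w x -
      (((k - 1) * (Real.sqrt k)⁻¹ * Real.sqrt (b j : ℝ) : ℝ) : ℂ) * E1 k a (down b j) w x := by
    funext w x
    exact lC_E1 hk j a b w x
  rw [h1, tau_sub, tau_smul, tau_smul]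
  change _ * tau Y s (E1 k (up a j) b) - _ * tau Y s (E1 k a (down b j)) = _
  rw [tau_E1 k Y s (up a j) b (by rw [lin_sum_up]; exact ha) hb,
    tau_E1 k Y s a (down b j) (by omega) ((lin_sum_down_le b j).trans hb)]

theorem tau_rC_E1 {k : ℝ} (hk : 1 < k) (Y : ℕ) (s : Conf n → Conf n → ℂ) (j : Fin n)
    (a b : Conf n) (ha : ∑ i, a i ≤ Y) (hb : ∑ i, b i ≤ Y) :
    tau Y s (rC j (E1 k a b)) =
      (((Real.sqrt k)⁻¹ * Real.sqrt (b j : ℝ) : ℝ) : ℂ) * ampE k s (down b j) a := by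
  have h1 : rC j (E1 k a b) = fun w x =>
      (((Real.sqrt k)⁻¹ * Real.sqrt (b j : ℝ) : ℝ) : ℂ) * E1 k a (down b j) w x := by
    funext w x
    exact rC_E1 hk j a b w x
  rw [h1, tau_smul]
  change _ * tau Y s (E1 k a (down b j)) = _
  rw [tau_E1 k Y s a (down b j) ha ((lin_sum_down_le b j).trans hb)]

theorem herm_ampE (k : ℝ) {s : Conf n → Conf n → ℂ} (hs : Herm s) : Herm (ampE k s) := by
  intro x y
  unfold ampE
  rw [star_sum, inf_comm x y]
  apply Finset.sum_congr rfl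
  intro l _
  rw [star_mul', hs]
  simp only [Complex.star_def, Complex.conj_ofReal]
  push_cast
  ring

/-- the linear functional of the amplifier output -/
theorem pair_E {k : ℝ} (hk : 1 < k) (r : ℝ) {s : Conf n → Conf n → ℂ} (hs : Herm s) {Y : ℕ}
    (j : Fin n) {X : ℕ} (hY : X + 1 ≤ Y) (V : Matrix (Ct n X) (Ct n (X + 1)) ℂ) :
    ((Zr r s Y j)ᴴ * cutR Y (Y + 1) (EV k V)).trace =
      (((Real.sqrt k)⁻¹ : ℝ) : ℂ) *
        ((Zr (k * (r + 1) - 1) (ampE k s) X j)ᴴ * V).trace := by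
  have hk0 : 0 < k := by linarith only [hk]
  have hs0 : 0 < Real.sqrt k := Real.sqrt_pos.2 hk0
  have hkk : Real.sqrt k * Real.sqrt k = k := Real.mul_self_sqrt hk0.le
  rw [pair_eq r hs]
  have h1 : lC j (EV k V) = fun w x => ∑ a : Ct n X, ∑ b : Ct n (X + 1),
      V a b * lC j (E1 k a.1 b.1) w x := by
    funext w x
    unfold lC
    rw [EV_eq, Finset.mul_sum]
    apply Finset.sum_congr rfl
    intro a _
    rw [Finset.mul_sum]
    apply Finset.sum_congr rfl
    intro b _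
    ring
  have h2 : rC j (EV k V) = fun w x => ∑ a : Ct n X, ∑ b : Ct n (X + 1),
      V a b * rC j (E1 k a.1 b.1) w x := by
    funext w x
    unfold rC
    rw [EV_eq, Finset.mul_sum]
    apply Finset.sum_congr rfl
    intro a _
    rw [Finset.mul_sum]
    apply Finset.sum_congr rfl
    intro b _
    ring
  rw [h1, h2, tau_sum, tau_sum, Matrix.trace, Finset.mul_sum, Finset.mul_sum, Finset.mul_sum,
    ← Finset.sum_sub_distrib]
  have h5 : ∀ b : Ct n (X + 1), (((Real.sqrt k)⁻¹ : ℝ) : ℂ) *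
      ((Zr (k * (r + 1) - 1) (ampE k s) X j)ᴴ * V).diag b =
      ∑ a : Ct n X, (((Real.sqrt k)⁻¹ : ℝ) : ℂ) *
        ((Zr (k * (r + 1) - 1) (ampE k s) X j)ᴴ b a * V a b) := by
    intro b
    rw [Matrix.diag_apply, Matrix.mul_apply, Finset.mul_sum]
  simp only [h5]
  rw [Finset.sum_comm (s := (Finset.univ : Finset (Ct n (X + 1))))]
  apply Finset.sum_congr rfl
  intro a _
  rw [tau_sum, tau_sum, Finset.mul_sum, Finset.mul_sum, ← Finset.sum_sub_distrib]
  apply Finset.sum_congr rfl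
  intro b _
  rw [tau_smul, tau_smul]
  change _ * (_ * tau (Y + 1) s (lC j (E1 k a.1 b.1))) - _ * (_ * tau Y s (rC j (E1 k a.1 b.1))) = _
  have ha2 := a.2
  have hb2 := b.2
  rw [tau_lC_E1 hk (Y + 1) s j a.1 b.1 (by omega) (by omega),
    tau_rC_E1 hk Y s j a.1 b.1 (by omega) (by omega), Matrix.conjTranspose_apply, Zr_apply]
  have h3 : star (ampE k s (up a.1 j) b.1) = ampE k s b.1 (up a.1 j) := herm_ampE k hs _ _
  have h4 : star (ampE k s a.1 (down b.1 j)) = ampE k s (down b.1 j) a.1 := herm_ampE k hs _ _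
  rw [star_sub, star_mul', star_mul', star_mul', star_mul', h3, h4]
  simp only [Complex.star_def, Complex.conj_ofReal]
  have e1 : (((Real.sqrt k)⁻¹ : ℝ) : ℂ) * (k : ℂ) = ((Real.sqrt k : ℝ) : ℂ) := by
    have : (Real.sqrt k)⁻¹ * k = Real.sqrt k := by
      calc (Real.sqrt k)⁻¹ * k = (Real.sqrt k)⁻¹ * (Real.sqrt k * Real.sqrt k) := by rw [hkk]
        _ = ((Real.sqrt k)⁻¹ * Real.sqrt k) * Real.sqrt k := by ring
        _ = _ := by rw [inv_mul_cancel₀ hs0.ne', one_mul]
    exact_mod_cast this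
  push_cast at e1 ⊢
  linear_combination (-(r + 1) * V a b * (((Real.sqrt (a.1 j + 1) : ℝ) : ℂ) *
    ampE k s b.1 (up a.1 j))) * e1

/-! ### the isometry -/

theorem sum_restrict {X L : ℕ} (h : X ≤ L) (F : Ct n X → ℂ) :
    (∑ l : Ct n L, if h : ∑ j, l.1 j ≤ X then F ⟨l.1, h⟩ else 0) = ∑ b : Ct n X, F b := by
  classical
  symm
  apply Finset.sum_bij_ne_zero (fun (b : Ct n X) _ _ => (⟨b.1, b.2.trans h⟩ : Ct n L))
  · intro _ _ _
    exact Finset.mem_univ _
  · intro x _ _ y _ _ hxy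
    exact Subtype.ext (congrArg (fun p : Ct n L => p.1) hxy)
  · intro l _ hl
    by_cases h1 : ∑ j, l.1 j ≤ X
    · rw [dif_pos h1] at hl
      exact ⟨⟨l.1, h1⟩, Finset.mem_univ _, hl, rfl⟩
    · rw [dif_neg h1] at hl
      exact absurd rfl hl
  · intro b _ _
    rw [dif_pos b.2]

theorem mul_Jw (k : ℝ) {Γ L Y : ℕ} {α : Type} (A : Matrix α (Ct n Γ × Ct n L) ℂ) (i : α)
    (m : Ct n Y) :
    (A * Jw (n := n) k Γ L Y) i m = ∑ l : Ct n L, if h : ∑ j, (m.1 + l.1) j ≤ Γ then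
      A i (⟨m.1 + l.1, h⟩, l) * ((cc k m.1 l.1 : ℝ) : ℂ) else 0 := by
  rw [Matrix.mul_apply, Fintype.sum_prod_type, Finset.sum_comm]
  apply Finset.sum_congr rfl
  intro l _
  by_cases h : ∑ j, (m.1 + l.1) j ≤ Γ
  · rw [dif_pos h, Finset.sum_eq_single (⟨m.1 + l.1, h⟩ : Ct n Γ)]
    · simp only [Jw, ↓reduceIte]
    · intro x _ hx
      have : ¬ x.1 = m.1 + l.1 := fun h' => hx (Subtype.ext h')
      simp only [Jw, this, ↓reduceIte, mul_zero]
    · intro h'
      exact absurd (Finset.mem_univ _) h'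
  · rw [dif_neg h, Finset.sum_eq_zero]
    intro x _
    have : ¬ x.1 = m.1 + l.1 := fun h' => h (by rw [← h']; exact x.2)
    simp only [Jw, this, ↓reduceIte, mul_zero]

theorem JwH_mul (k : ℝ) {Γ L Y : ℕ} {α : Type} (A : Matrix (Ct n Γ × Ct n L) α ℂ) (i : α)
    (m : Ct n Y) :
    ((Jw (n := n) k Γ L Y)ᴴ * A) m i = ∑ l : Ct n L, if h : ∑ j, (m.1 + l.1) j ≤ Γ then
      ((cc k m.1 l.1 : ℝ) : ℂ) * A (⟨m.1 + l.1, h⟩, l) i else 0 := by
  rw [Matrix.mul_apply, Fintype.sum_prod_type, Finset.sum_comm]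
  apply Finset.sum_congr rfl
  intro l _
  by_cases h : ∑ j, (m.1 + l.1) j ≤ Γ
  · rw [dif_pos h, Finset.sum_eq_single (⟨m.1 + l.1, h⟩ : Ct n Γ)]
    · simp only [conjTranspose_apply, Jw, ↓reduceIte, RCLike.star_def, Complex.conj_ofReal]
    · intro x _ hx
      have : ¬ x.1 = m.1 + l.1 := fun h' => hx (Subtype.ext h')
      simp only [conjTranspose_apply, Jw, this, ↓reduceIte, star_zero, zero_mul]
    · intro h'
      exact absurd (Finset.mem_univ _) h'
  · rw [dif_neg h, Finset.sum_eq_zero]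
    intro x _
    have : ¬ x.1 = m.1 + l.1 := fun h' => h (by rw [← h']; exact x.2)
    simp only [conjTranspose_apply, Jw, this, ↓reduceIte, star_zero, zero_mul]

/-- `J† (1 ⊗ W†) J` -/
theorem Jw_T (k : ℝ) {Γ L Y Y' X X' : ℕ} (hL : X ≤ L) (hL' : X' ≤ L) (hΓ : Y + L ≤ Γ)
    (hΓ' : Y' + L ≤ Γ) (W : Matrix (Ct n X') (Ct n X) ℂ) :
    (Jw (n := n) k Γ L Y')ᴴ * ((1 : Matrix (Ct n Γ) (Ct n Γ) ℂ) ⊗ₖ (extR L W)ᴴ) * Jw (n := n) k Γ L Y =
      (cutR Y Y' (TW k W))ᴴ := by
  have hsum : ∀ (m l : Conf n), ∑ j, (m + l) j = ∑ j, m j + ∑ j, l j := fun m l => by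
    simp only [Pi.add_apply, Finset.sum_add_distrib, Nat.add_left_cancel_iff]
  ext m' m
  rw [mul_Jw]
  have h1 : ∀ l : Ct n L, (if h : ∑ j, (m.1 + l.1) j ≤ Γ then
      ((Jw (n := n) k Γ L Y')ᴴ * ((1 : Matrix (Ct n Γ) (Ct n Γ) ℂ) ⊗ₖ (extR L W)ᴴ)) m'
        (⟨m.1 + l.1, h⟩, l) * ((cc k m.1 l.1 : ℝ) : ℂ) else 0) =
      if h : ∑ j, l.1 j ≤ X' then (∑ b : Ct n X, if m'.1 + b.1 = m.1 + l.1 then
        ((cc k m.1 l.1 * cc k m'.1 b.1 : ℝ) : ℂ) * star (W ⟨l.1, h⟩ b) else 0) else 0 := by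
    intro l
    have hl : ∑ j, (m.1 + l.1) j ≤ Γ := by
      rw [hsum]
      have := m.2
      have := l.2
      omega
    rw [dif_pos hl, JwH_mul]
    have h2 : ∀ l' : Ct n L, (if h : ∑ j, (m'.1 + l'.1) j ≤ Γ then ((cc k m'.1 l'.1 : ℝ) : ℂ) *
        ((1 : Matrix (Ct n Γ) (Ct n Γ) ℂ) ⊗ₖ (extR L W)ᴴ) (⟨m'.1 + l'.1, h⟩, l')
          (⟨m.1 + l.1, hl⟩, l) else 0) =
        if h' : ∑ j, l'.1 j ≤ X then (if h : ∑ j, l.1 j ≤ X' then
          (if m'.1 + l'.1 = m.1 + l.1 then ((cc k m'.1 l'.1 : ℝ) : ℂ) * star (W ⟨l.1, h⟩ ⟨l'.1, h'⟩)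
            else 0) else 0) else 0 := by
      intro l'
      have hl' : ∑ j, (m'.1 + l'.1) j ≤ Γ := by
        rw [hsum]
        have := m'.2
        have := l'.2
        omega
      rw [dif_pos hl']
      simp only [Matrix.kroneckerMap_apply, Matrix.one_apply, Matrix.conjTranspose_apply, extR,
        Subtype.mk.injEq]
      by_cases c1 : m'.1 + l'.1 = m.1 + l.1
      · by_cases c2 : ∑ j, l'.1 j ≤ X
        · by_cases c3 : ∑ j, l.1 j ≤ X'
          · simp only [c1, ↓reduceIte, c3, c2, and_self, ↓reduceDIte, RCLike.star_def, one_mul]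
          · simp only [c1, ↓reduceIte, c3, c2, and_true, ↓reduceDIte, star_zero, mul_zero]
        · simp only [c1, ↓reduceIte, c2, and_false, ↓reduceDIte, star_zero, mul_zero]
      · simp only [c1, ↓reduceIte, RCLike.star_def, zero_mul, mul_zero, dite_eq_ite, ite_self]
    simp only [h2]
    rw [sum_restrict hL (fun b => if h : ∑ j, l.1 j ≤ X' then
          (if m'.1 + b.1 = m.1 + l.1 then ((cc k m'.1 b.1 : ℝ) : ℂ) * star (W ⟨l.1, h⟩ b)
            else 0) else 0)]
    by_cases c3 : ∑ j, l.1 j ≤ X'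
    · simp only [c3, dif_pos]
      rw [Finset.sum_mul]
      apply Finset.sum_congr rfl
      intro b _
      split_ifs
      · push_cast
        ring
      · simp
    · simp only [c3, ↓reduceDIte, Finset.sum_const_zero, zero_mul]
  simp only [h1]
  rw [sum_restrict hL' (fun a => ∑ b : Ct n X, if m'.1 + b.1 = m.1 + a.1 then
        ((cc k m.1 a.1 * cc k m'.1 b.1 : ℝ) : ℂ) * star (W a b) else 0)]
  rw [Matrix.conjTranspose_apply]
  unfold cutR TW
  rw [star_sum]
  apply Finset.sum_congr rfl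
  intro a _
  rw [star_sum]
  apply Finset.sum_congr rfl
  intro b _
  by_cases c : m'.1 + b.1 = m.1 + a.1
  · rw [if_pos c, if_pos c, star_mul']
    simp only [Complex.star_def, Complex.conj_ofReal]
    push_cast
    ring
  · rw [if_neg c, if_neg c, star_zero]

/-- `J† (V ⊗ 1) J` -/
theorem Jw_E (k : ℝ) {Γ L Y Y' X X' : ℕ} (hL : X ≤ L) (hΓ : X ≤ Γ) (hΓ' : X' ≤ Γ)
    (V : Matrix (Ct n X') (Ct n X) ℂ) :
    (Jw (n := n) k Γ L Y')ᴴ * ((extR Γ V) ⊗ₖ (1 : Matrix (Ct n L) (Ct n L) ℂ)) * Jw (n := n) k Γ L Y =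
      cutR Y' Y (EV k V) := by
  classical
  have hsum : ∀ (m l : Conf n), ∑ j, (m + l) j = ∑ j, m j + ∑ j, l j := fun m l => by
    simp only [Pi.add_apply, Finset.sum_add_distrib, Nat.add_left_cancel_iff]
  ext m' m
  rw [mul_Jw]
  have h1 : ∀ l : Ct n L, (if h : ∑ j, (m.1 + l.1) j ≤ Γ then
      ((Jw (n := n) k Γ L Y')ᴴ * ((extR Γ V) ⊗ₖ (1 : Matrix (Ct n L) (Ct n L) ℂ))) m'
        (⟨m.1 + l.1, h⟩, l) * ((cc k m.1 l.1 : ℝ) : ℂ) else 0) =
      if h : ∑ j, (m'.1 + l.1) j ≤ X' ∧ ∑ j, (m.1 + l.1) j ≤ X then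
        ((cc k m.1 l.1 * cc k m'.1 l.1 : ℝ) : ℂ) * V ⟨m'.1 + l.1, h.1⟩ ⟨m.1 + l.1, h.2⟩ else 0 := by
    intro l
    by_cases c0 : ∑ j, (m.1 + l.1) j ≤ Γ
    · rw [dif_pos c0, JwH_mul, Finset.sum_eq_single l]
      · by_cases c1 : ∑ j, (m'.1 + l.1) j ≤ X'
        · have c2 : ∑ j, (m'.1 + l.1) j ≤ Γ := c1.trans hΓ'
          rw [dif_pos c2]
          by_cases c3 : ∑ j, (m.1 + l.1) j ≤ X
          · rw [dif_pos ⟨c1, c3⟩]
            simp only [Matrix.kroneckerMap_apply, Matrix.one_apply_eq, extR, c1, c3]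
            simp only [and_self, dif_pos]
            push_cast
            ring
          · rw [dif_neg (fun h => c3 h.2)]
            simp only [Matrix.kroneckerMap_apply, Matrix.one_apply_eq, extR]
            rw [dif_neg (fun h => c3 h.2)]
            simp only [mul_one, mul_zero, zero_mul]
        · have hn : ¬ (∑ j, (m'.1 + l.1) j ≤ X' ∧ ∑ j, (m.1 + l.1) j ≤ X) := fun h => c1 h.1
          rw [dif_neg hn]
          by_cases c2 : ∑ j, (m'.1 + l.1) j ≤ Γ
          · rw [dif_pos c2]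
            simp only [Matrix.kroneckerMap_apply, Matrix.one_apply_eq, extR]
            rw [dif_neg (fun h => c1 h.1)]
            simp only [mul_one, mul_zero, zero_mul]
          · rw [dif_neg c2, zero_mul]
      · intro l' _ hl'
        by_cases c2 : ∑ j, (m'.1 + l'.1) j ≤ Γ
        · rw [dif_pos c2]
          simp only [kroneckerMap_apply, Matrix.one_apply_ne hl', mul_zero]
        · rw [dif_neg c2]
      · intro h
        exact absurd (Finset.mem_univ _) h
    · rw [dif_neg c0, dif_neg]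
      intro h
      exact c0 (h.2.trans hΓ)
  simp only [h1]
  change _ = EV k V m'.1 m.1
  rw [EV_eq, ← Finset.sum_product']
  apply Finset.sum_bij_ne_zero (fun (l : Ct n L) _ hl =>
    ((⟨m'.1 + l.1, by
        by_contra h
        exact hl (dif_neg (fun h' => h h'.1))⟩, ⟨m.1 + l.1, by
        by_contra h
        exact hl (dif_neg (fun h' => h h'.2))⟩) : Ct n X' × Ct n X))
  · intro l _ _
    exact Finset.mem_product.2 ⟨Finset.mem_univ _, Finset.mem_univ _⟩
  · intro l _ _ l' _ _ h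
    have h2 : m'.1 + l.1 = m'.1 + l'.1 := congrArg (fun p : Ct n X' × Ct n X => p.1.1) h
    exact Subtype.ext (add_left_cancel h2)
  · rintro ⟨a, b⟩ _ hab
    have h0 : E1 k a.1 b.1 m'.1 m.1 ≠ 0 := fun h => hab (by simp only [h, mul_zero])
    rw [E1_eq] at h0
    by_cases h : (∀ j, m.1 j ≤ b.1 j) ∧ m'.1 + (b.1 - m.1) = a.1
    · have e2 : m.1 + (b.1 - m.1) = b.1 := by
        funext j
        have := h.1 j
        simp only [Pi.sub_apply, Pi.add_apply]
        omega
      have hb : ∑ j, (b.1 - m.1) j ≤ L := by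
        have : ∑ j, (b.1 - m.1) j ≤ ∑ j, b.1 j := Finset.sum_le_sum fun i _ => Nat.sub_le _ _
        have := b.2
        omega
      have e3 : ∑ j, (m'.1 + (b.1 - m.1)) j ≤ X' := by
        rw [h.2]
        exact a.2
      have e4 : ∑ j, (m.1 + (b.1 - m.1)) j ≤ X := by
        rw [e2]
        exact b.2
      have f1 : (⟨m'.1 + (b.1 - m.1), e3⟩ : Ct n X') = a := Subtype.ext h.2
      have f2 : (⟨m.1 + (b.1 - m.1), e4⟩ : Ct n X) = b := Subtype.ext e2
      refine ⟨⟨b.1 - m.1, hb⟩, Finset.mem_univ _, ?_, Prod.ext f1 f2⟩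
      rw [dif_pos ⟨e3, e4⟩]
      rw [if_pos h] at h0
      intro h3
      apply hab
      rw [E1_eq, if_pos h, mul_comm]
      simp only [f1, f2] at h3
      exact h3
    · rw [if_neg h] at h0
      exact absurd rfl h0
  · intro l _ hl
    by_cases h : ∑ j, (m'.1 + l.1) j ≤ X' ∧ ∑ j, (m.1 + l.1) j ≤ X
    · rw [dif_pos h]
      simp only
      have e0 : m.1 + l.1 - m.1 = l.1 := by
        funext j
        simp only [Pi.sub_apply, Pi.add_apply, add_tsub_cancel_left]
      have e1 : (∀ j, m.1 j ≤ (m.1 + l.1) j) ∧ m'.1 + (m.1 + l.1 - m.1) = m'.1 + l.1 := by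
        refine ⟨fun j => by simp only [Pi.add_apply, le_add_iff_nonneg_right, zero_le], by rw [e0]⟩
      rw [E1_eq, if_pos e1, e0]
      ring
    · exact absurd (dif_neg h) hl

end

end Vale.Agent.P369A
end
end

section

section

/-!
P369A: the pair inequality, abstract finite-dimensional part. `J` is a contraction from the input
space (index `κ`) to a product (indices `γ`, `δ`); `E` is an isometry from a smaller input space.
-/

namespace Vale.Agent.P369A

open Matrix MeasureTheory Set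
open scoped Kronecker InnerProductSpace ComplexOrder

noncomputable section

variable {ι κ γ δ : Type} [Fintype ι] [DecidableEq ι] [Fintype κ] [DecidableEq κ]
  [Fintype γ] [DecidableEq γ] [Fintype δ] [DecidableEq δ]

/-- first marginal -/
def mar₁ (T : Matrix (γ × δ) (γ × δ) ℂ) : Matrix γ γ ℂ := fun x y => ∑ l, T (x, l) (y, l)

/-- second marginal -/
def mar₂ (T : Matrix (γ × δ) (γ × δ) ℂ) : Matrix δ δ ℂ := fun l l' => ∑ x, T (x, l) (x, l')

/-- the functional `(1-m) Tr ρ V†V + m Tr ρ V V†` for square matrices -/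
def penS (m : ℝ) (ρ V : Matrix γ γ ℂ) : ℝ :=
  (1 - m) * (ρ * (Vᴴ * V)).trace.re + m * (ρ * (V * Vᴴ)).trace.re

omit [DecidableEq γ] in
theorem trace_mar₁ (T : Matrix (γ × δ) (γ × δ) ℂ) (B : Matrix γ γ ℂ) :
    (mar₁ T * B).trace = (T * (B ⊗ₖ (1 : Matrix δ δ ℂ))).trace := by
  simp only [Matrix.trace, Matrix.diag, Matrix.mul_apply, mar₁, Fintype.sum_prod_type,
    Matrix.kroneckerMap_apply, Matrix.one_apply, mul_ite, mul_one, mul_zero, Finset.sum_ite_eq',
    Finset.mem_univ, if_true, Finset.sum_mul]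
  refine Finset.sum_congr rfl fun k _ => ?_
  rw [Finset.sum_comm]

omit [DecidableEq δ] in
theorem trace_mar₂ (T : Matrix (γ × δ) (γ × δ) ℂ) (B : Matrix δ δ ℂ) :
    (mar₂ T * B).trace = (T * ((1 : Matrix γ γ ℂ) ⊗ₖ B)).trace := by
  have h : ∀ (k : γ) (l : δ), ∑ k', ∑ l', T (k, l) (k', l') *
      ((1 : Matrix γ γ ℂ) k' k * B l' l) = ∑ l', T (k, l) (k, l') * B l' l := by
    intro k l
    rw [Finset.sum_eq_single k]
    · simp only [one_apply_eq, one_mul]
    · intro b _ hb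
      simp only [ne_eq, hb, not_false_eq_true, one_apply_ne, zero_mul, mul_zero, Finset.sum_const_zero]
    · simp only [Finset.mem_univ, not_true_eq_false, one_apply_eq, one_mul, IsEmpty.forall_iff]
  simp only [Matrix.trace, Matrix.diag, Matrix.mul_apply, mar₂, Fintype.sum_prod_type,
    Matrix.kroneckerMap_apply, Finset.sum_mul]
  simp only [h]
  symm
  rw [Finset.sum_comm]
  refine Finset.sum_congr rfl fun l _ => ?_
  rw [Finset.sum_comm]

omit [DecidableEq γ] [DecidableEq κ] in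
/-- trace of `ρ G†G` is nonnegative -/
theorem trace_gram_nonneg {ρ : Matrix κ κ ℂ} (hρ : ρ.PosSemidef) (G : Matrix γ κ ℂ) :
    0 ≤ (ρ * (Gᴴ * G)).trace.re := by
  have h1 : (ρ * (Gᴴ * G)).trace = (G * ρ * Gᴴ).trace := by
    rw [← Matrix.mul_assoc, Matrix.trace_mul_comm, ← Matrix.mul_assoc]
  rw [h1]
  have h2 := (hρ.mul_mul_conjTranspose_same G).trace_nonneg
  exact (Complex.le_def.1 h2).1

open scoped MatrixOrder in
omit [DecidableEq κ] in
theorem trace_mul_nonneg {ρ A : Matrix κ κ ℂ} (hρ : ρ.PosSemidef) (hA : A.PosSemidef) :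
    0 ≤ (ρ * A).trace.re := by
  classical
  obtain ⟨G, hG⟩ := CStarAlgebra.nonneg_iff_eq_star_mul_self.mp hA.nonneg
  rw [hG]
  exact trace_gram_nonneg hρ G

omit [DecidableEq ι] [DecidableEq γ] in
theorem one_sub_mul_conjTranspose [DecidableEq ι] [DecidableEq γ] {J : Matrix γ ι ℂ}
    (hJ : (1 - Jᴴ * J).PosSemidef) : (1 - J * Jᴴ).PosSemidef := by
  have h3 : (1 - J * Jᴴ)ᴴ = 1 - J * Jᴴ := by
    rw [conjTranspose_sub, conjTranspose_one, conjTranspose_mul, conjTranspose_conjTranspose]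
  have h4 : ((1 - J * Jᴴ)ᴴ * (1 - J * Jᴴ)).PosSemidef := Matrix.posSemidef_conjTranspose_mul_self _
  rw [h3] at h4
  have h5 := h4.add (hJ.mul_mul_conjTranspose_same J)
  have h2 : (1 - J * Jᴴ) * (1 - J * Jᴴ) + J * (1 - Jᴴ * J) * Jᴴ = 1 - J * Jᴴ := by
    have e1 : J * (1 - Jᴴ * J) * Jᴴ = J * Jᴴ - J * Jᴴ * (J * Jᴴ) := by
      rw [Matrix.mul_sub, Matrix.mul_one, Matrix.sub_mul]
      congr 1
      simp only [Matrix.mul_assoc]
    have e2 : (1 - J * Jᴴ) * (1 - J * Jᴴ) = 1 - J * Jᴴ - (J * Jᴴ - J * Jᴴ * (J * Jᴴ)) := by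
      rw [Matrix.mul_sub, Matrix.mul_one, Matrix.sub_mul, Matrix.one_mul]
    rw [e1, e2]
    abel
  rwa [h2] at h5

omit [DecidableEq κ] in
/-- Kadison's inequality for the compression `A ↦ J† A F` with a contraction `J` -/
theorem kadison {J : Matrix γ ι ℂ} (hJ : (1 - Jᴴ * J).PosSemidef) (F : Matrix γ κ ℂ)
    {ρ : Matrix κ κ ℂ} (hρ : ρ.PosSemidef) (A : Matrix γ γ ℂ) :
    (ρ * ((Jᴴ * A * F)ᴴ * (Jᴴ * A * F))).trace.re ≤ ((F * ρ * Fᴴ) * (Aᴴ * A)).trace.re := by
  have h1 : ((F * ρ * Fᴴ) * (Aᴴ * A)).trace = (ρ * ((A * F)ᴴ * (A * F))).trace := by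
    rw [Matrix.mul_assoc F, Matrix.mul_assoc F, Matrix.trace_mul_comm, conjTranspose_mul]
    simp only [Matrix.mul_assoc]
  have h5 : ((A * F)ᴴ * (A * F)) - (Jᴴ * A * F)ᴴ * (Jᴴ * A * F) =
      (A * F)ᴴ * (1 - J * Jᴴ) * (A * F) := by
    have e1 : (Jᴴ * A * F)ᴴ = (A * F)ᴴ * J := by
      rw [Matrix.mul_assoc, conjTranspose_mul, conjTranspose_conjTranspose]
    rw [e1, Matrix.mul_sub, Matrix.mul_one, Matrix.sub_mul]
    congr 1
    simp only [Matrix.mul_assoc]
  have h7 : 0 ≤ (ρ * ((A * F)ᴴ * (1 - J * Jᴴ) * (A * F))).trace.re :=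
    trace_mul_nonneg hρ ((one_sub_mul_conjTranspose hJ).conjTranspose_mul_mul_same _)
  rw [← h5, Matrix.mul_sub, trace_sub, Complex.sub_re] at h7
  rw [h1]
  linarith

/-- the test operator `p V ⊗ 1 + p' 1 ⊗ W†` -/
def tst (p p' : ℝ) (V : Matrix γ γ ℂ) (W : Matrix δ δ ℂ) : Matrix (γ × δ) (γ × δ) ℂ :=
  (p : ℂ) • (V ⊗ₖ (1 : Matrix δ δ ℂ)) + (p' : ℂ) • ((1 : Matrix γ γ ℂ) ⊗ₖ Wᴴ)

/-- the pair inequality for the penalties, abstract form: `T` is the output of `ρ`, `T'` the output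
of the compression of `ρ` by the isometry `E` -/
theorem pair_pen {J : Matrix (γ × δ) κ ℂ} (hJ : (1 - Jᴴ * J).PosSemidef) {E : Matrix κ ι ℂ}
    (hE : Eᴴ * E = 1) {ρ : Matrix κ κ ℂ} (hρ : ρ.PosSemidef) (V : Matrix γ γ ℂ)
    (W : Matrix δ δ ℂ) {p p' ν : ℝ} (hp : 0 ≤ p) (hp' : 0 ≤ p') (hpp : p + p' = 1)
    (hν : ν ∈ Icc (0 : ℝ) 1) {T T' : Matrix (γ × δ) (γ × δ) ℂ} (hT : T = J * ρ * Jᴴ)
    (hT' : T' = (J * E) * (Eᴴ * ρ * E) * (J * E)ᴴ)
    (hχ : (T * (V ⊗ₖ W + Vᴴ ⊗ₖ Wᴴ)).trace.re = (T' * (V ⊗ₖ W + Vᴴ ⊗ₖ Wᴴ)).trace.re) :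
    pen (1 - ν) (Eᴴ * ρ * E) ρ ((J * E)ᴴ * tst p p' V W * J) ≤
      p * (p * ν * (mar₁ T * (Vᴴ * V)).trace.re + (1 - p * ν) * (mar₁ T' * (V * Vᴴ)).trace.re) +
        p' * ((1 - p' * ν) * (mar₂ T' * (Wᴴ * W)).trace.re +
          p' * ν * (mar₂ T * (W * Wᴴ)).trace.re) := by
  set σ : Matrix ι ι ℂ := Eᴴ * ρ * E with hσdef
  have hσ : σ.PosSemidef := hρ.conjTranspose_mul_mul_same E
  set A : Matrix (γ × δ) (γ × δ) ℂ := tst p p' V W with hA
  have hJE : (1 - (J * E)ᴴ * (J * E)).PosSemidef := by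
    have h := hJ.conjTranspose_mul_mul_same E
    have e : Eᴴ * (1 - Jᴴ * J) * E = 1 - (J * E)ᴴ * (J * E) := by
      rw [Matrix.mul_sub, Matrix.mul_one, Matrix.sub_mul, hE, conjTranspose_mul]
      simp only [Matrix.mul_assoc]
    rwa [e] at h
  have k1 : (ρ * (((J * E)ᴴ * A * J)ᴴ * ((J * E)ᴴ * A * J))).trace.re ≤
      (T * (Aᴴ * A)).trace.re := by
    rw [hT]
    exact kadison hJE J hρ A
  have k2 : (σ * (((J * E)ᴴ * A * J) * ((J * E)ᴴ * A * J)ᴴ)).trace.re ≤
      (T' * (A * Aᴴ)).trace.re := by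
    have h := kadison hJ (J * E) hσ Aᴴ
    have e : (J * E)ᴴ * A * J = (Jᴴ * Aᴴ * (J * E))ᴴ := by
      rw [conjTranspose_mul (Jᴴ * Aᴴ) (J * E), conjTranspose_mul Jᴴ Aᴴ,
        conjTranspose_conjTranspose, conjTranspose_conjTranspose, Matrix.mul_assoc]
    rw [e, conjTranspose_conjTranspose, hT']
    rw [conjTranspose_conjTranspose] at h
    exact h
  -- the algebra
  set v : Matrix (γ × δ) (γ × δ) ℂ := V ⊗ₖ (1 : Matrix δ δ ℂ) with hv
  set w : Matrix (γ × δ) (γ × δ) ℂ := (1 : Matrix γ γ ℂ) ⊗ₖ W with hw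
  have hvH : vᴴ = Vᴴ ⊗ₖ (1 : Matrix δ δ ℂ) := by rw [hv, conjTranspose_kronecker, conjTranspose_one]
  have hwH : wᴴ = (1 : Matrix γ γ ℂ) ⊗ₖ Wᴴ := by rw [hw, conjTranspose_kronecker, conjTranspose_one]
  have c1 : w * v = v * w := by
    rw [hv, hw, ← mul_kronecker_mul, ← mul_kronecker_mul]; simp
  have c2 : vᴴ * wᴴ = wᴴ * vᴴ := by
    rw [← conjTranspose_mul, ← conjTranspose_mul, c1]
  have c3 : V ⊗ₖ W + Vᴴ ⊗ₖ Wᴴ = v * w + wᴴ * vᴴ := by
    rw [← c2, hvH, hwH, hv, hw, ← mul_kronecker_mul, ← mul_kronecker_mul, Matrix.mul_one,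
      Matrix.one_mul, Matrix.mul_one, Matrix.one_mul]
  rw [c3] at hχ
  have hAv : A = (p : ℂ) • v + (p' : ℂ) • wᴴ := by
    rw [hwH]
    rfl
  have hcp : star (p : ℂ) = (p : ℂ) := Complex.conj_ofReal _
  have hcp' : star (p' : ℂ) = (p' : ℂ) := Complex.conj_ofReal _
  have hAH : Aᴴ = (p : ℂ) • vᴴ + (p' : ℂ) • w := by
    rw [hAv, conjTranspose_add, conjTranspose_smul, conjTranspose_smul,
      conjTranspose_conjTranspose, hcp, hcp']
  have q1 : Aᴴ * A = ((p * p : ℝ) : ℂ) • (vᴴ * v) + ((p' * p' : ℝ) : ℂ) • (w * wᴴ) +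
      ((p * p' : ℝ) : ℂ) • (v * w + wᴴ * vᴴ) := by
    rw [hAH, hAv]
    simp only [Matrix.mul_add, Matrix.mul_smul, Matrix.add_mul, smul_mul, c1, c2]
    push_cast
    module
  have q2 : A * Aᴴ = ((p * p : ℝ) : ℂ) • (v * vᴴ) + ((p' * p' : ℝ) : ℂ) • (wᴴ * w) +
      ((p * p' : ℝ) : ℂ) • (v * w + wᴴ * vᴴ) := by
    rw [hAH, hAv]
    simp only [Matrix.add_mul, Matrix.mul_add, Matrix.smul_mul, Matrix.mul_smul]
    push_cast
    module
  have q3 : v * w + wᴴ * vᴴ = (v * vᴴ + wᴴ * w) - (v - wᴴ) * (v - wᴴ)ᴴ := by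
    rw [conjTranspose_sub, conjTranspose_conjTranspose, Matrix.sub_mul, Matrix.mul_sub,
      Matrix.mul_sub]
    abel
  have hTp' : T'.PosSemidef := by
    rw [hT']
    exact hσ.mul_mul_conjTranspose_same (J * E)
  have hY : 0 ≤ (T' * ((v - wᴴ) * (v - wᴴ)ᴴ)).trace.re := by
    have h := trace_gram_nonneg hTp' (v - wᴴ)ᴴ
    rwa [conjTranspose_conjTranspose] at h
  have hre : ∀ (S : Matrix (γ × δ) (γ × δ) ℂ) (c : ℝ) (B : Matrix (γ × δ) (γ × δ) ℂ),
      (S * ((c : ℂ) • B)).trace.re = c * (S * B).trace.re := by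
    intro S c B
    rw [Matrix.mul_smul, trace_smul, smul_eq_mul, Complex.re_ofReal_mul]
  have hadd : ∀ S B B' : Matrix (γ × δ) (γ × δ) ℂ,
      (S * (B + B')).trace.re = (S * B).trace.re + (S * B').trace.re := by
    intro S B B'
    rw [Matrix.mul_add, trace_add, Complex.add_re]
  have hsub : ∀ S B B' : Matrix (γ × δ) (γ × δ) ℂ,
      (S * (B - B')).trace.re = (S * B).trace.re - (S * B').trace.re := by
    intro S B B'
    rw [Matrix.mul_sub, trace_sub, Complex.sub_re]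
  have hχ' : (T' * (v * w + wᴴ * vᴴ)).trace.re = (T' * (v * vᴴ)).trace.re +
      (T' * (wᴴ * w)).trace.re - (T' * ((v - wᴴ) * (v - wᴴ)ᴴ)).trace.re := by
    rw [q3, hsub, hadd]
  have r1 : (T * (Aᴴ * A)).trace.re = p * p * (T * (vᴴ * v)).trace.re +
      p' * p' * (T * (w * wᴴ)).trace.re + p * p' * (T' * (v * w + wᴴ * vᴴ)).trace.re := by
    rw [q1, hadd, hadd, hre, hre, hre, hχ]
  have r2 : (T' * (A * Aᴴ)).trace.re = p * p * (T' * (v * vᴴ)).trace.re +
      p' * p' * (T' * (wᴴ * w)).trace.re + p * p' * (T' * (v * w + wᴴ * vᴴ)).trace.re := by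
    rw [q2, hadd, hadd, hre, hre, hre]
  have m1 : (mar₁ T * (Vᴴ * V)).trace.re = (T * (vᴴ * v)).trace.re := by
    rw [trace_mar₁, hvH, hv, ← mul_kronecker_mul, Matrix.one_mul]
  have m2 : (mar₁ T' * (V * Vᴴ)).trace.re = (T' * (v * vᴴ)).trace.re := by
    rw [trace_mar₁, hvH, hv, ← mul_kronecker_mul, Matrix.one_mul]
  have m3 : (mar₂ T' * (Wᴴ * W)).trace.re = (T' * (wᴴ * w)).trace.re := by
    rw [trace_mar₂, hwH, hw, ← mul_kronecker_mul, Matrix.one_mul]
  have m4 : (mar₂ T * (W * Wᴴ)).trace.re = (T * (w * wᴴ)).trace.re := by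
    rw [trace_mar₂, hwH, hw, ← mul_kronecker_mul, Matrix.one_mul]
  unfold pen
  rw [m1, m2, m3, m4]
  have n1 := mul_le_mul_of_nonneg_left k1 hν.1
  have n2 := mul_le_mul_of_nonneg_left k2 (sub_nonneg.2 hν.2)
  have n3 : 0 ≤ p * p' * (T' * ((v - wᴴ) * (v - wᴴ)ᴴ)).trace.re :=
    mul_nonneg (mul_nonneg hp hp') hY
  have hp1 : p' = 1 - p := by linarith only [hpp]
  rw [r1, hχ'] at n1
  rw [r2, hχ'] at n2
  have e1 : (1 : ℝ) - (1 - ν) = ν := by ring
  rw [e1]
  subst hp1
  linarith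

end

end Vale.Agent.P369A
end
end

section

section

/-!
P369A: windows. The cut isometry of the amplifier is a contraction, its marginals are the cuts of
the two channels.
-/

namespace Vale.Agent.P369A

open Matrix
open Vale.Agent.P369 (Conf up down)
open scoped Kronecker ComplexOrder

noncomputable section

variable {n : ℕ}

/-! ### sums over configurations -/

theorem sum_Ct_ite {β : Type*} [AddCommMonoid β] (Y : ℕ) (c : Conf n) (f : Ct n Y → β) :
    ∑ m : Ct n Y, (if m.1 = c then f m else 0) = if h : ∑ j, c j ≤ Y then f ⟨c, h⟩ else 0 := by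
  by_cases h : ∑ j, c j ≤ Y
  · rw [dif_pos h, Finset.sum_eq_single ⟨c, h⟩]
    · simp
    · intro m _ hm
      rw [if_neg]
      intro h'
      exact hm (Subtype.ext h')
    · intro h'
      exact absurd (Finset.mem_univ _) h'
  · rw [dif_neg h]
    refine Finset.sum_eq_zero fun m _ => ?_
    rw [if_neg]
    intro h'
    exact h (h' ▸ m.2)

theorem sum_Ct_eq {β : Type*} [AddCommMonoid β] (L : ℕ) (S : Finset (Conf n)) (F : Conf n → β)
    (hS : ∀ l ∈ S, ∑ j, l j ≤ L) (hF : ∀ l : Conf n, l ∉ S → F l = 0) :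
    ∑ l : Ct n L, F l.1 = ∑ l ∈ S, F l := by
  have h1 : ∑ l : Ct n L, F l.1 =
      ∑ l ∈ (Finset.univ : Finset (Ct n L)).map (Function.Embedding.subtype _), F l := by
    rw [Finset.sum_map]
    rfl
  rw [h1]
  symm
  refine Finset.sum_subset ?_ fun l _ hl => hF l hl
  intro l hl
  rw [Finset.mem_map]
  exact ⟨⟨l, hS l hl⟩, Finset.mem_univ _, rfl⟩

theorem sum_Ct_le (L : ℕ) (S : Finset (Conf n)) (F : Conf n → ℝ)
    (hS : ∀ l : Conf n, ∑ j, l j ≤ L → l ∈ S) (hF : ∀ l : Conf n, 0 ≤ F l) :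
    ∑ l : Ct n L, F l.1 ≤ ∑ l ∈ S, F l := by
  have h1 : ∑ l : Ct n L, F l.1 =
      ∑ l ∈ (Finset.univ : Finset (Ct n L)).map (Function.Embedding.subtype _), F l := by
    rw [Finset.sum_map]
    rfl
  rw [h1]
  refine Finset.sum_le_sum_of_subset_of_nonneg ?_ fun l _ _ => hF l
  intro l hl
  rw [Finset.mem_map] at hl
  obtain ⟨l', -, rfl⟩ := hl
  exact hS _ l'.2

theorem le_sum_conf (x : Conf n) (j : Fin n) : x j ≤ ∑ i, x i :=
  Finset.single_le_sum (f := fun i => x i) (fun _ _ => Nat.zero_le _) (Finset.mem_univ j)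

theorem sum_conf_mono {x y : Conf n} (h : x ≤ y) : ∑ i, x i ≤ ∑ i, y i :=
  Finset.sum_le_sum fun i _ => h i

theorem sum_conf_add (x y : Conf n) : ∑ i, (x + y) i = ∑ i, x i + ∑ i, y i := by
  simp only [Pi.add_apply, Finset.sum_add_distrib, Nat.add_left_cancel_iff]

/-! ### the coefficients -/

theorem cc_nonneg (k : ℝ) (m l : Conf n) : 0 ≤ cc k m l := by
  unfold cc
  refine Finset.prod_nonneg fun j _ => ?_
  (clear * -; positivity)

theorem cc_mul_self {k : ℝ} (hk : 1 ≤ k) (m l : Conf n) :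
    cc k m l * cc k m l =
      ∏ j, ((1 / k) ^ (m j + 1) * ((((l j + m j).choose (m j) : ℕ) : ℝ) * (1 - 1 / k) ^ (l j))) := by
  have hk0 : 0 < k := lt_of_lt_of_le one_pos hk
  have h1 : 0 ≤ 1 - 1 / k := by
    rw [sub_nonneg, div_le_one hk0]
    exact hk
  unfold cc
  rw [← Finset.prod_mul_distrib]
  refine Finset.prod_congr rfl fun j _ => ?_
  have e1 : Real.sqrt (((m j + l j).choose (l j) : ℕ) : ℝ) *
      Real.sqrt (((m j + l j).choose (l j) : ℕ) : ℝ) = ((l j + m j).choose (m j) : ℕ) := by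
    rw [Real.mul_self_sqrt (Nat.cast_nonneg _), add_comm (m j) (l j), Nat.choose_symm_add]
  have e2 : (Real.sqrt k)⁻¹ ^ (m j + 1) * (Real.sqrt k)⁻¹ ^ (m j + 1) = (1 / k) ^ (m j + 1) := by
    rw [← mul_pow, ← mul_inv, Real.mul_self_sqrt hk0.le, one_div]
  have e3 : Real.sqrt (1 - 1 / k) ^ (l j) * Real.sqrt (1 - 1 / k) ^ (l j) =
      (1 - 1 / k) ^ (l j) := by
    rw [← mul_pow, Real.mul_self_sqrt h1]
  calc Real.sqrt (((m j + l j).choose (l j) : ℕ) : ℝ) * (Real.sqrt k)⁻¹ ^ (m j + 1) *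
        Real.sqrt (1 - 1 / k) ^ (l j) * (Real.sqrt (((m j + l j).choose (l j) : ℕ) : ℝ) *
          (Real.sqrt k)⁻¹ ^ (m j + 1) * Real.sqrt (1 - 1 / k) ^ (l j))
      = (Real.sqrt (((m j + l j).choose (l j) : ℕ) : ℝ) *
          Real.sqrt (((m j + l j).choose (l j) : ℕ) : ℝ)) *
        ((Real.sqrt k)⁻¹ ^ (m j + 1) * (Real.sqrt k)⁻¹ ^ (m j + 1)) *
        (Real.sqrt (1 - 1 / k) ^ (l j) * Real.sqrt (1 - 1 / k) ^ (l j)) := by ring
    _ = _ := by
        rw [e1, e2, e3]
        ring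

/-- partial sums of the negative binomial distribution -/
theorem sum_negbin_le {k : ℝ} (hk : 1 ≤ k) (m L : ℕ) :
    ∑ l ∈ Finset.range (L + 1), ((1 / k) ^ (m + 1) * (((l + m).choose m : ℕ) * (1 - 1 / k) ^ l)) ≤ 1 := by
  have hk0 : 0 < k := lt_of_lt_of_le one_pos hk
  have h1 : 0 ≤ 1 - 1 / k := by
    rw [sub_nonneg, div_le_one hk0]
    exact hk
  have h2 : 1 - 1 / k < 1 := by
    have : 0 < 1 / k := by positivity
    linarith only [this]
  have h3 : ‖1 - 1 / k‖ < 1 := by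
    rw [Real.norm_eq_abs, abs_of_nonneg h1]
    exact h2
  have hs := hasSum_choose_mul_geometric_of_norm_lt_one m h3
  rw [← Finset.mul_sum]
  have h4 : ∑ l ∈ Finset.range (L + 1), (((l + m).choose m : ℕ) : ℝ) * (1 - 1 / k) ^ l ≤
      1 / (1 - (1 - 1 / k)) ^ (m + 1) :=
    sum_le_hasSum _ (fun l _ => by (clear * - h1; positivity)) hs
  have h5 : 1 - (1 - 1 / k) = 1 / k := by ring
  rw [h5] at h4
  have h6 : 0 < (1 / k) ^ (m + 1) := by positivity
  calc (1 / k) ^ (m + 1) * ∑ l ∈ Finset.range (L + 1), (((l + m).choose m : ℕ) : ℝ) * (1 - 1 / k) ^ l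
      ≤ (1 / k) ^ (m + 1) * (1 / (1 / k) ^ (m + 1)) := mul_le_mul_of_nonneg_left h4 h6.le
    _ = 1 := by rw [mul_one_div_cancel h6.ne']

theorem sum_cc_le {k : ℝ} (hk : 1 ≤ k) (m : Conf n) (L : ℕ) :
    ∑ l : Ct n L, cc k m l.1 * cc k m l.1 ≤ 1 := by
  have hk0 : 0 < k := lt_of_lt_of_le one_pos hk
  have h1 : 0 ≤ 1 - 1 / k := by
    rw [sub_nonneg, div_le_one hk0]
    exact hk
  refine (sum_Ct_le L (Fintype.piFinset fun _ => Finset.range (L + 1))
    (fun l => cc k m l * cc k m l) ?_ fun l => mul_nonneg (cc_nonneg _ _ _) (cc_nonneg _ _ _)).trans ?_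
  · intro l hl
    rw [Fintype.mem_piFinset]
    intro j
    rw [Finset.mem_range]
    exact Nat.lt_succ_of_le ((le_sum_conf l j).trans hl)
  · simp only [cc_mul_self hk]
    rw [← Finset.prod_univ_sum (fun _ : Fin n => Finset.range (L + 1))
      (fun j t => (1 / k) ^ (m j + 1) * ((((t + m j).choose (m j) : ℕ) : ℝ) * (1 - 1 / k) ^ t))]
    refine Finset.prod_le_one (fun j _ => Finset.sum_nonneg fun t _ => by (clear * - hk h1; positivity))
      fun j _ => sum_negbin_le hk (m j) L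

/-! ### the cut isometry is a contraction -/

theorem Jw_gram (k : ℝ) (Γ L Y : ℕ) :
    (Jw (n := n) k Γ L Y)ᴴ * Jw (n := n) k Γ L Y =
      diagonal fun m : Ct n Y => ((∑ l : Ct n L, if ∑ j, (m.1 + l.1) j ≤ Γ then
        cc k m.1 l.1 * cc k m.1 l.1 else 0 : ℝ) : ℂ) := by
  ext m m'
  rw [mul_apply, Fintype.sum_prod_type_right, diagonal_apply]
  have h1 : ∀ l : Ct n L, ∑ x : Ct n Γ, (Jw k Γ L Y)ᴴ m (x, l) * Jw k Γ L Y (x, l) m' =
      if m = m' then (if ∑ j, (m.1 + l.1) j ≤ Γ then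
        ((cc k m.1 l.1 * cc k m.1 l.1 : ℝ) : ℂ) else 0) else 0 := by
    intro l
    have h2 : ∀ x : Ct n Γ, (Jw k Γ L Y)ᴴ m (x, l) * Jw k Γ L Y (x, l) m' =
        if x.1 = m.1 + l.1 then (if m = m' then ((cc k m.1 l.1 * cc k m.1 l.1 : ℝ) : ℂ) else 0)
          else 0 := by
      intro x
      rw [conjTranspose_apply, Jw, Jw]
      dsimp only
      by_cases h3 : x.1 = m.1 + l.1
      · rw [if_pos h3, if_pos h3]
        by_cases h4 : m = m'
        · subst h4
          rw [if_pos h3, if_pos rfl]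
          have : star ((cc k m.1 l.1 : ℝ) : ℂ) = ((cc k m.1 l.1 : ℝ) : ℂ) := Complex.conj_ofReal _
          rw [this]
          push_cast
          ring
        · rw [if_neg h4, if_neg, mul_zero]
          intro h5
          exact h4 (Subtype.ext (add_right_cancel (h3.symm.trans h5)))
      · rw [if_neg h3, if_neg h3, star_zero, zero_mul]
    simp only [h2]
    rw [sum_Ct_ite Γ (m.1 + l.1)
      (fun _ => if m = m' then ((cc k m.1 l.1 * cc k m.1 l.1 : ℝ) : ℂ) else 0)]
    by_cases h4 : m = m'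
    · rw [if_pos h4, if_pos h4]
      by_cases h5 : ∑ j, (m.1 + l.1) j ≤ Γ
      · rw [dif_pos h5, if_pos h5]
      · rw [dif_neg h5, if_neg h5]
    · rw [if_neg h4, if_neg h4]
      by_cases h5 : ∑ j, (m.1 + l.1) j ≤ Γ
      · rw [dif_pos h5]
      · rw [dif_neg h5]
  simp only [h1]
  by_cases h4 : m = m'
  · simp only [if_pos h4]
    push_cast
    refine Finset.sum_congr rfl fun l _ => ?_
    split_ifs <;> push_cast <;> rfl
  · simp only [if_neg h4, Finset.sum_const_zero]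

theorem Jw_contraction {k : ℝ} (hk : 1 ≤ k) (Γ L Y : ℕ) :
    (1 - (Jw (n := n) k Γ L Y)ᴴ * Jw (n := n) k Γ L Y).PosSemidef := by
  rw [Jw_gram, ← diagonal_one, diagonal_sub]
  refine PosSemidef.diagonal fun m => ?_
  have h1 : (∑ l : Ct n L, if ∑ j, (m.1 + l.1) j ≤ Γ then
        cc k m.1 l.1 * cc k m.1 l.1 else 0 : ℝ) ≤ 1 := by
    refine le_trans (Finset.sum_le_sum fun l _ => ?_) (sum_cc_le hk m.1 L)
    split_ifs
    · exact le_rfl
    · exact mul_nonneg (cc_nonneg _ _ _) (cc_nonneg _ _ _)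
  show (0 : ℂ) ≤ 1 - _
  rw [sub_nonneg]
  exact_mod_cast h1

/-! ### entries of `J s J†` -/

/-- the entries of `J s J†` without cutoffs -/
def jj (k : ℝ) (s : Conf n → Conf n → ℂ) (x l x' l' : Conf n) : ℂ :=
  if (∀ j, l j ≤ x j) ∧ (∀ j, l' j ≤ x' j) then ((cc k (x - l) l * cc k (x' - l') l' : ℝ) : ℂ) * s (x - l) (x' - l') else 0

theorem Jw_apply_eq (k : ℝ) (Γ L Y : ℕ) (xl : Ct n Γ × Ct n L) (m : Ct n Y) :
    Jw k Γ L Y xl m = if m.1 = xl.1.1 - xl.2.1 then
      (if ∀ j, xl.2.1 j ≤ xl.1.1 j then ((cc k m.1 xl.2.1 : ℝ) : ℂ) else 0) else 0 := by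
  unfold Jw
  by_cases h : xl.1.1 = m.1 + xl.2.1
  · rw [if_pos h, if_pos, if_pos]
    · intro j
      rw [h]
      exact Nat.le_add_left _ _
    · rw [h, add_tsub_cancel_right]
  · rw [if_neg h]
    by_cases h1 : m.1 = xl.1.1 - xl.2.1
    · rw [if_pos h1, if_neg]
      intro h2
      apply h
      rw [h1, tsub_add_cancel_of_le h2]
    · rw [if_neg h1]

/-- `J s J†` with cutoffs -/
def JsJ (k : ℝ) (Γ L Y : ℕ) (s : Conf n → Conf n → ℂ) :
    Matrix (Ct n Γ × Ct n L) (Ct n Γ × Ct n L) ℂ :=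
  Jw (n := n) k Γ L Y * cut Y s * (Jw (n := n) k Γ L Y)ᴴ

theorem Jw_conj_apply (k : ℝ) (Γ L Y : ℕ) (s : Conf n → Conf n → ℂ) (xl xl' : Ct n Γ × Ct n L) :
    JsJ k Γ L Y s xl xl' =
      if (∑ j, (xl.1.1 - xl.2.1) j ≤ Y) ∧ (∑ j, (xl'.1.1 - xl'.2.1) j ≤ Y) then
        jj k s xl.1.1 xl.2.1 xl'.1.1 xl'.2.1 else 0 := by
  rw [JsJ, mul_apply]
  have h1 : ∀ m' : Ct n Y, (Jw (n := n) k Γ L Y * cut Y s) xl m' =
      if h : ∑ j, (xl.1.1 - xl.2.1) j ≤ Y then
        (if ∀ j, xl.2.1 j ≤ xl.1.1 j then ((cc k (xl.1.1 - xl.2.1) xl.2.1 : ℝ) : ℂ) else 0) *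
          s (xl.1.1 - xl.2.1) m'.1 else 0 := by
    intro m'
    rw [mul_apply]
    have h2 : ∀ m : Ct n Y, Jw k Γ L Y xl m * cut Y s m m' = if m.1 = xl.1.1 - xl.2.1 then
        (if ∀ j, xl.2.1 j ≤ xl.1.1 j then ((cc k m.1 xl.2.1 : ℝ) : ℂ) else 0) * s m.1 m'.1 else 0 := by
      intro m
      rw [Jw_apply_eq]
      by_cases h : m.1 = xl.1.1 - xl.2.1
      · rw [if_pos h, if_pos h]
        rfl
      · rw [if_neg h, if_neg h, zero_mul]
    simp only [h2]
    rw [sum_Ct_ite Y (xl.1.1 - xl.2.1)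
      (fun m => (if ∀ j, xl.2.1 j ≤ xl.1.1 j then ((cc k m.1 xl.2.1 : ℝ) : ℂ) else 0) * s m.1 m'.1)]
  simp only [h1]
  have h3 : ∀ m' : Ct n Y, (if h : ∑ j, (xl.1.1 - xl.2.1) j ≤ Y then
        (if ∀ j, xl.2.1 j ≤ xl.1.1 j then ((cc k (xl.1.1 - xl.2.1) xl.2.1 : ℝ) : ℂ) else 0) *
          s (xl.1.1 - xl.2.1) m'.1 else 0) * (Jw (n := n) k Γ L Y)ᴴ m' xl' =
      if m'.1 = xl'.1.1 - xl'.2.1 then (if ∑ j, (xl.1.1 - xl.2.1) j ≤ Y then
        (if ∀ j, xl.2.1 j ≤ xl.1.1 j then ((cc k (xl.1.1 - xl.2.1) xl.2.1 : ℝ) : ℂ) else 0) *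
          s (xl.1.1 - xl.2.1) m'.1 *
            (if ∀ j, xl'.2.1 j ≤ xl'.1.1 j then ((cc k m'.1 xl'.2.1 : ℝ) : ℂ) else 0) else 0) else 0 := by
    intro m'
    rw [conjTranspose_apply, Jw_apply_eq]
    by_cases h : m'.1 = xl'.1.1 - xl'.2.1
    · rw [if_pos h, if_pos h]
      by_cases h5 : ∑ j, (xl.1.1 - xl.2.1) j ≤ Y
      · rw [dif_pos h5, if_pos h5]
        congr 1
        split_ifs
        · exact Complex.conj_ofReal _
        · exact star_zero _
      · rw [dif_neg h5, if_neg h5, zero_mul]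
    · rw [if_neg h, if_neg h, star_zero, mul_zero]
  simp only [h3]
  rw [sum_Ct_ite Y (xl'.1.1 - xl'.2.1) (fun m' => (if ∑ j, (xl.1.1 - xl.2.1) j ≤ Y then
        (if ∀ j, xl.2.1 j ≤ xl.1.1 j then ((cc k (xl.1.1 - xl.2.1) xl.2.1 : ℝ) : ℂ) else 0) *
          s (xl.1.1 - xl.2.1) m'.1 *
            (if ∀ j, xl'.2.1 j ≤ xl'.1.1 j then ((cc k m'.1 xl'.2.1 : ℝ) : ℂ) else 0) else 0))]
  unfold jj
  by_cases h5 : ∑ j, (xl.1.1 - xl.2.1) j ≤ Y
  · by_cases h6 : ∑ j, (xl'.1.1 - xl'.2.1) j ≤ Y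
    · have h56 : (∑ j, (xl.1.1 - xl.2.1) j ≤ Y) ∧ (∑ j, (xl'.1.1 - xl'.2.1) j ≤ Y) := ⟨h5, h6⟩
      rw [dif_pos h6, if_pos h5, if_pos h56]
      by_cases h7 : ∀ j, xl.2.1 j ≤ xl.1.1 j
      · by_cases h8 : ∀ j, xl'.2.1 j ≤ xl'.1.1 j
        · have h78 : (∀ j, xl.2.1 j ≤ xl.1.1 j) ∧ (∀ j, xl'.2.1 j ≤ xl'.1.1 j) := ⟨h7, h8⟩
          rw [if_pos h7, if_pos h8, if_pos h78]
          push_cast
          ring
        · have h78 : ¬((∀ j, xl.2.1 j ≤ xl.1.1 j) ∧ (∀ j, xl'.2.1 j ≤ xl'.1.1 j)) :=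
            fun h => h8 h.2
          rw [if_neg h8, if_neg h78, mul_zero]
      · have h78 : ¬((∀ j, xl.2.1 j ≤ xl.1.1 j) ∧ (∀ j, xl'.2.1 j ≤ xl'.1.1 j)) :=
          fun h => h7 h.1
        rw [if_neg h7, if_neg h78, zero_mul, zero_mul]
    · have h56 : ¬((∑ j, (xl.1.1 - xl.2.1) j ≤ Y) ∧ (∑ j, (xl'.1.1 - xl'.2.1) j ≤ Y)) :=
        fun h => h6 h.2
      rw [dif_neg h6, if_neg h56]
  · have h56 : ¬((∑ j, (xl.1.1 - xl.2.1) j ≤ Y) ∧ (∑ j, (xl'.1.1 - xl'.2.1) j ≤ Y)) :=
      fun h => h5 h.1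
    rw [if_neg h56]
    by_cases h6 : ∑ j, (xl'.1.1 - xl'.2.1) j ≤ Y
    · rw [dif_pos h6, if_neg h5]
    · rw [dif_neg h6]

/-- the first marginal is the cut of the amplifier channel -/
theorem mar₁_Jw (k : ℝ) {Γ L Y : ℕ} (s : Conf n → Conf n → ℂ) (x x' : Ct n Γ)
    (hL : ∑ j, x.1 j ≤ L) (hY : ∑ j, x.1 j ≤ Y) (hY' : ∑ j, x'.1 j ≤ Y) :
    mar₁ (JsJ k Γ L Y s) x x' = ampE k s x.1 x'.1 := by
  unfold mar₁ ampE
  simp only [Jw_conj_apply]
  rw [sum_Ct_eq L (Finset.Iic (x.1 ⊓ x'.1)) (fun l => if (∑ j, (x.1 - l) j ≤ Y) ∧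
    (∑ j, (x'.1 - l) j ≤ Y) then jj k s x.1 l x'.1 l else 0)]
  · refine Finset.sum_congr rfl fun l hl => ?_
    rw [Finset.mem_Iic, le_inf_iff] at hl
    have h1 : (∑ j, (x.1 - l) j ≤ Y) ∧ (∑ j, (x'.1 - l) j ≤ Y) :=
      ⟨(sum_conf_mono tsub_le_self).trans hY, (sum_conf_mono tsub_le_self).trans hY'⟩
    have h2 : (∀ j, l j ≤ x.1 j) ∧ (∀ j, l j ≤ x'.1 j) := hl
    rw [if_pos h1, jj, if_pos h2]
  · intro l hl
    rw [Finset.mem_Iic, le_inf_iff] at hl
    exact (sum_conf_mono hl.1).trans hL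
  · intro l hl
    rw [Finset.mem_Iic, le_inf_iff] at hl
    have h2 : ¬((∀ j, l j ≤ x.1 j) ∧ (∀ j, l j ≤ x'.1 j)) := hl
    split_ifs
    · rw [jj, if_neg h2]
    · rfl

/-- the second marginal is the complementary channel -/
theorem mar₂_Jw (k : ℝ) {Γ L Y : ℕ} (s : Conf n → Conf n → ℂ) (l l' : Ct n L)
    (hΓ : Y + ∑ j, l.1 j ≤ Γ) :
    mar₂ (JsJ k Γ L Y s) l l' = conE k Y s l.1 l'.1 := by
  unfold mar₂ conE
  have h1 : ∀ x : Ct n Γ, JsJ k Γ L Y s (x, l) (x, l') =
      ∑ m : Ct n Y, ∑ m' : Ct n Y, if x.1 = m.1 + l.1 then (if m.1 + l.1 = m'.1 + l'.1 then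
        ((cc k m.1 l.1 * cc k m'.1 l'.1 : ℝ) : ℂ) * s m.1 m'.1 else 0) else 0 := by
    intro x
    rw [JsJ, mul_apply, Finset.sum_comm]
    refine Finset.sum_congr rfl fun m' _ => ?_
    rw [mul_apply, Finset.sum_mul]
    refine Finset.sum_congr rfl fun m _ => ?_
    rw [conjTranspose_apply, Jw, Jw]
    dsimp only
    by_cases h2 : x.1 = m.1 + l.1
    · rw [if_pos h2, if_pos h2]
      by_cases h3 : x.1 = m'.1 + l'.1
      · rw [if_pos h3, if_pos (h2.symm.trans h3)]
        have : star ((cc k m'.1 l'.1 : ℝ) : ℂ) = ((cc k m'.1 l'.1 : ℝ) : ℂ) :=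
          Complex.conj_ofReal _
        rw [this, cut]
        push_cast
        ring
      · rw [if_neg h3, if_neg fun h => h3 (h2.trans h), star_zero, mul_zero]
    · rw [if_neg h2, if_neg h2, zero_mul, zero_mul]
  simp only [h1]
  rw [Finset.sum_comm]
  refine Finset.sum_congr rfl fun m _ => ?_
  rw [Finset.sum_comm]
  refine Finset.sum_congr rfl fun m' _ => ?_
  rw [sum_Ct_ite Γ (m.1 + l.1) (fun _ => if m.1 + l.1 = m'.1 + l'.1 then
        ((cc k m.1 l.1 * cc k m'.1 l'.1 : ℝ) : ℂ) * s m.1 m'.1 else 0), dif_pos]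
  rw [sum_conf_add]
  exact (Nat.add_le_add_right m.2 _).trans hΓ

/-! ### extension by zero -/

/-- the inclusion of cutoffs -/
def inj {X Γ : ℕ} (h : X ≤ Γ) (x : Ct n X) : Ct n Γ := ⟨x.1, x.2.trans h⟩

theorem inj_injective {X Γ : ℕ} (h : X ≤ Γ) : Function.Injective (inj (n := n) h) := by
  intro x y hxy
  exact Subtype.ext (congrArg (fun z : Ct n Γ => z.1) hxy)

/-- the inclusion matrix of cutoffs -/
def inc (n : ℕ) {X Γ : ℕ} (h : X ≤ Γ) : Matrix (Ct n Γ) (Ct n X) ℂ := incl (inj h)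

theorem inc_isometry {X Γ : ℕ} (h : X ≤ Γ) : (inc n h)ᴴ * inc n h = 1 :=
  incl_isometry (inj_injective h)

theorem inc_mul_inc {X X' Γ : ℕ} (h : X ≤ Γ) (h' : X' ≤ Γ) (A : Matrix (Ct n Γ) (Ct n Γ) ℂ) :
    (inc n h)ᴴ * A * inc n h' = A.submatrix (inj h) (inj h') := incl_mul_incl _ _ _

theorem Jw_mul_incl (k : ℝ) (Γ L Y : ℕ) :
    Jw (n := n) k Γ L (Y + 1) * inc n (Nat.le_succ Y) = Jw k Γ L Y := by
  ext xl m
  rw [mul_apply, Finset.sum_eq_single (inj (Nat.le_succ Y) m)]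
  · rw [inc, incl, if_pos rfl, mul_one]
    rfl
  · intro m' _ hm'
    rw [inc, incl, if_neg hm', mul_zero]
  · intro h
    exact absurd (Finset.mem_univ _) h

theorem incl_cut (s : Conf n → Conf n → ℂ) {X Γ : ℕ} (h : X ≤ Γ) :
    (inc n h)ᴴ * cut Γ s * inc n h = cut X s := by
  rw [inc_mul_inc]
  rfl

theorem extR_eq {Γ X' X : ℕ} (h' : X' ≤ Γ) (h : X ≤ Γ) (V : Matrix (Ct n X') (Ct n X) ℂ) :
    extR Γ V = inc n h' * V * (inc n h)ᴴ := by
  ext x y
  rw [mul_apply]
  have h1 : ∀ y' : Ct n X, (inc n h' * V) x y' =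
      if hx : ∑ j, x.1 j ≤ X' then V ⟨x.1, hx⟩ y' else 0 := by
    intro y'
    rw [mul_apply]
    have h2 : ∀ x' : Ct n X', inc n h' x x' * V x' y' = if x'.1 = x.1 then V x' y' else 0 := by
      intro x'
      unfold inc incl
      by_cases h3 : x'.1 = x.1
      · rw [if_pos h3, if_pos, one_mul]
        exact Subtype.ext h3.symm
      · rw [if_neg h3, if_neg, zero_mul]
        intro h4
        exact h3 (congrArg (fun z : Ct n Γ => z.1) h4).symm
    simp only [h2]
    exact sum_Ct_ite X' x.1 (fun x' => V x' y')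
  simp only [h1]
  have h2 : ∀ y' : Ct n X, (if hx : ∑ j, x.1 j ≤ X' then V ⟨x.1, hx⟩ y' else 0) *
      (inc n h)ᴴ y' y = if y'.1 = y.1 then
        (if hx : ∑ j, x.1 j ≤ X' then V ⟨x.1, hx⟩ y' else 0) else 0 := by
    intro y'
    rw [conjTranspose_apply, inc, incl]
    by_cases h3 : y'.1 = y.1
    · rw [if_pos h3, if_pos, star_one, mul_one]
      exact Subtype.ext h3.symm
    · rw [if_neg h3, if_neg, star_zero, mul_zero]
      intro h4
      exact h3 (congrArg (fun z : Ct n Γ => z.1) h4).symm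
  simp only [h2]
  rw [sum_Ct_ite X y.1 (fun y' => if hx : ∑ j, x.1 j ≤ X' then V ⟨x.1, hx⟩ y' else 0)]
  unfold extR
  by_cases h3 : ∑ j, x.1 j ≤ X'
  · by_cases h4 : ∑ j, y.1 j ≤ X
    · rw [dif_pos ⟨h3, h4⟩, dif_pos h4, dif_pos h3]
    · rw [dif_neg fun h => h4 h.2, dif_neg h4]
  · rw [dif_neg fun h => h3 h.1]
    split_ifs <;> rfl

/-- the penalty of an extension by zero -/
theorem penS_extR (m : ℝ) {Γ X' X : ℕ} (h' : X' ≤ Γ) (h : X ≤ Γ) (C : Matrix (Ct n Γ) (Ct n Γ) ℂ)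
    (V : Matrix (Ct n X') (Ct n X) ℂ) :
    penS m C (extR Γ V) = pen m (C.submatrix (inj h') (inj h')) (C.submatrix (inj h) (inj h)) V := by
  have hG : (inc n h')ᴴ * inc n h' = 1 := inc_isometry h'
  have hE : (inc n h)ᴴ * inc n h = 1 := inc_isometry h
  have hGG : (inc n h')ᴴ * C * inc n h' = C.submatrix (inj h') (inj h') := inc_mul_inc h' h' C
  have hEE : (inc n h)ᴴ * C * inc n h = C.submatrix (inj h) (inj h) := inc_mul_inc h h C
  set G : Matrix (Ct n Γ) (Ct n X') ℂ := inc n h'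
  set E : Matrix (Ct n Γ) (Ct n X) ℂ := inc n h
  have e2 : (C * ((G * V * Eᴴ)ᴴ * (G * V * Eᴴ))).trace =
      (C.submatrix (inj h) (inj h) * (Vᴴ * V)).trace := by
    rw [conjTranspose_mul, conjTranspose_mul, conjTranspose_conjTranspose]
    calc (C * (E * (Vᴴ * Gᴴ) * (G * V * Eᴴ))).trace
        = (C * E * Vᴴ * (Gᴴ * G) * V * Eᴴ).trace := by simp only [Matrix.mul_assoc]
      _ = (C * E * Vᴴ * V * Eᴴ).trace := by rw [hG, Matrix.mul_one]
      _ = (Eᴴ * (C * E * Vᴴ * V)).trace := trace_mul_comm _ _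
      _ = ((Eᴴ * C * E) * (Vᴴ * V)).trace := by simp only [Matrix.mul_assoc]
      _ = _ := by rw [hEE]
  have e3 : (C * ((G * V * Eᴴ) * (G * V * Eᴴ)ᴴ)).trace =
      (C.submatrix (inj h') (inj h') * (V * Vᴴ)).trace := by
    rw [conjTranspose_mul, conjTranspose_mul, conjTranspose_conjTranspose]
    calc (C * (G * V * Eᴴ * (E * (Vᴴ * Gᴴ)))).trace
        = (C * G * V * (Eᴴ * E) * Vᴴ * Gᴴ).trace := by simp only [Matrix.mul_assoc]
      _ = (C * G * V * Vᴴ * Gᴴ).trace := by rw [hE, Matrix.mul_one]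
      _ = (Gᴴ * (C * G * V * Vᴴ)).trace := trace_mul_comm _ _
      _ = ((Gᴴ * C * G) * (V * Vᴴ)).trace := by simp only [Matrix.mul_assoc]
      _ = _ := by rw [hGG]
  unfold penS pen
  rw [extR_eq h' h, e2, e3]

end

end Vale.Agent.P369A
end
end

section

section

/-!
P369A: comparison of the entropies of the two outputs of an isometry `J` whose second output is a
completely co-positive function of the input (positive partial transpose implies the reduction
criterion, and the reduction criterion implies `S(D) ≤ S(C)`).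
-/

namespace Vale.Agent.P369A

open Matrix
open scoped Kronecker InnerProductSpace ComplexOrder
open Vale.Agent.P369V (ent)

noncomputable section

section gen

variable {γ ι δ : Type} [Fintype γ] [DecidableEq γ] [Fintype ι] [DecidableEq ι]
  [Fintype δ] [DecidableEq δ]

/-- marginal on the first factor -/
def pt1 (T : Matrix (γ × δ) (γ × δ) ℂ) : Matrix γ γ ℂ := fun c c' => ∑ l, T (c, l) (c', l)

/-- marginal on the second factor -/
def pt2 (T : Matrix (ι × δ) (ι × δ) ℂ) : Matrix δ δ ℂ := fun l l' => ∑ i, T (i, l) (i, l')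

/-- partial transpose on the first factor -/
def ptr (T : Matrix (ι × δ) (ι × δ) ℂ) : Matrix (ι × δ) (ι × δ) ℂ :=
  fun x y => T (y.1, x.2) (x.1, y.2)

omit [DecidableEq γ] [DecidableEq δ] [Fintype γ] in
theorem ecd_sum_if (f : ι → δ → ℂ) (a₀ : ι) :
    ∑ a, ∑ l, (if a = a₀ then f a l else 0) = ∑ l, f a₀ l := by
  rw [Finset.sum_eq_single a₀]
  · simp only [↓reduceIte]
  · intro b _ hb
    simp only [hb, ↓reduceIte, Finset.sum_const_zero]
  · intro h
    exact absurd (Finset.mem_univ _) h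

/-- the test vectors -/
def ecdY (x : ι × δ → ℂ) (i i' : ι) : ι × δ → ℂ := fun p =>
  (if p.1 = i' then x (i, p.2) else 0) - (if p.1 = i then x (i', p.2) else 0)

omit [DecidableEq δ] in
theorem ecd_inner (T : Matrix (ι × δ) (ι × δ) ℂ) (x : ι × δ → ℂ) (i i' a : ι) (l : δ) :
    (ptr T *ᵥ ecdY x i i') (a, l) =
      ∑ l', (T (i', l) (a, l') * x (i, l') - T (i, l) (a, l') * x (i', l')) := by
  simp only [mulVec, dotProduct, ptr, ecdY, mul_sub, mul_ite, mul_zero, Finset.sum_sub_distrib, Fintype.sum_prod_type]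
  rw [ecd_sum_if (fun b l' => T (b, l) (a, l') * x (i, l')) i',
    ecd_sum_if (fun b l' => T (b, l) (a, l') * x (i', l')) i]

omit [DecidableEq δ] in
theorem ecd_quad (T : Matrix (ι × δ) (ι × δ) ℂ) (x : ι × δ → ℂ) (i i' : ι) :
    star (ecdY x i i') ⬝ᵥ (ptr T *ᵥ ecdY x i i') =
      ∑ l, ∑ l', (star (x (i, l)) * (T (i', l) (i', l') * x (i, l'))
        - star (x (i, l)) * (T (i, l) (i', l') * x (i', l'))
        - star (x (i', l)) * (T (i', l) (i, l') * x (i, l'))
        + star (x (i', l)) * (T (i, l) (i, l') * x (i', l'))) := by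
  have h1 : ∀ p : ι × δ, star (ecdY x i i') p =
      (if p.1 = i' then star (x (i, p.2)) else 0) - (if p.1 = i then star (x (i', p.2)) else 0) := by
    intro p
    rw [Pi.star_apply]
    unfold ecdY
    rw [star_sub]
    congr 1 <;> split_ifs <;> simp
  rw [dotProduct, Fintype.sum_prod_type]
  simp only [h1, ecd_inner, sub_mul, ite_mul, zero_mul, Finset.sum_sub_distrib]
  rw [ecd_sum_if (fun a l => star (x (i, l)) *
      (∑ l', T (i', l) (a, l') * x (i, l') - ∑ l', T (i, l) (a, l') * x (i', l'))) i',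
    ecd_sum_if (fun a l => star (x (i', l)) *
      (∑ l', T (i', l) (a, l') * x (i, l') - ∑ l', T (i, l) (a, l') * x (i', l'))) i]
  simp only [mul_sub, Finset.mul_sum, Finset.sum_sub_distrib, Finset.sum_add_distrib]
  ring

/-- positive partial transpose implies the reduction criterion -/
theorem red_of_ppt {T : Matrix (ι × δ) (ι × δ) ℂ} (h : (ptr T).PosSemidef) :
    ((1 : Matrix ι ι ℂ) ⊗ₖ pt2 T - T).PosSemidef := by
  have hT : T.IsHermitian := by
    ext x y
    have := congrFun (congrFun h.isHermitian (y.1, x.2)) (x.1, y.2)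
    simpa only [conjTranspose_apply, RCLike.star_def, ptr, Prod.mk.eta] using this
  have hD : (pt2 T).IsHermitian := by
    ext l l'
    rw [Matrix.conjTranspose_apply]
    unfold pt2
    rw [star_sum]
    refine Finset.sum_congr rfl fun i _ => ?_
    exact hT.apply _ _
  have hH : ((1 : Matrix ι ι ℂ) ⊗ₖ pt2 T - T).IsHermitian := by
    refine Matrix.IsHermitian.sub ?_ hT
    unfold Matrix.IsHermitian
    rw [Matrix.conjTranspose_kronecker, conjTranspose_one, hD.eq]
  refine Matrix.PosSemidef.of_dotProduct_mulVec_nonneg hH fun x => ?_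
  have key : 2 * (star x ⬝ᵥ (((1 : Matrix ι ι ℂ) ⊗ₖ pt2 T - T) *ᵥ x)) =
      ∑ i, ∑ i', star (ecdY x i i') ⬝ᵥ (ptr T *ᵥ ecdY x i i') := by
    have h0 : ∀ (i : ι) (l : δ), (((1 : Matrix ι ι ℂ) ⊗ₖ pt2 T) *ᵥ x) (i, l) =
        ∑ i', ∑ l', T (i', l) (i', l') * x (i, l') := by
      intro i l
      simp only [Matrix.mulVec, dotProduct, Fintype.sum_prod_type, Matrix.kroneckerMap_apply,
        Matrix.one_apply, ite_mul, zero_mul, one_mul]
      rw [Finset.sum_eq_single i]
      · rw [Finset.sum_comm]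
        refine Finset.sum_congr rfl fun l' _ => ?_
        rw [if_pos rfl, pt2, Finset.sum_mul]
      · intro b _ hb
        simp only [Ne.symm hb, ↓reduceIte, Finset.sum_const_zero]
      · intro h
        exact absurd (Finset.mem_univ _) h
    have hA : star x ⬝ᵥ (((1 : Matrix ι ι ℂ) ⊗ₖ pt2 T) *ᵥ x) =
        ∑ i, ∑ i', ∑ l, ∑ l', star (x (i, l)) * (T (i', l) (i', l') * x (i, l')) := by
      rw [dotProduct, Fintype.sum_prod_type]
      refine Finset.sum_congr rfl fun i _ => ?_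
      rw [Finset.sum_comm]
      refine Finset.sum_congr rfl fun l _ => ?_
      rw [h0, Finset.mul_sum, Pi.star_apply]
      refine Finset.sum_congr rfl fun i' _ => ?_
      rw [Finset.mul_sum]
    have hB : star x ⬝ᵥ (T *ᵥ x) =
        ∑ i, ∑ i', ∑ l, ∑ l', star (x (i, l)) * (T (i, l) (i', l') * x (i', l')) := by
      rw [dotProduct, Fintype.sum_prod_type]
      refine Finset.sum_congr rfl fun i _ => ?_
      rw [Finset.sum_comm]
      refine Finset.sum_congr rfl fun l _ => ?_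
      rw [Matrix.mulVec, dotProduct, Fintype.sum_prod_type, Finset.mul_sum, Pi.star_apply]
      refine Finset.sum_congr rfl fun i' _ => ?_
      rw [Finset.mul_sum]
    have hA' : star x ⬝ᵥ (((1 : Matrix ι ι ℂ) ⊗ₖ pt2 T) *ᵥ x) =
        ∑ i, ∑ i', ∑ l, ∑ l', star (x (i', l)) * (T (i, l) (i, l') * x (i', l')) := by
      rw [hA, Finset.sum_comm]
    have hB' : star x ⬝ᵥ (T *ᵥ x) =
        ∑ i, ∑ i', ∑ l, ∑ l', star (x (i', l)) * (T (i', l) (i, l') * x (i, l')) := by
      rw [hB, Finset.sum_comm]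
    rw [Matrix.sub_mulVec, dotProduct_sub, two_mul]
    simp only [ecd_quad, Finset.sum_add_distrib, Finset.sum_sub_distrib]
    rw [← hA, ← hB, ← hA', ← hB']
    ring
  have h2 : (0 : ℂ) ≤ 2 * (star x ⬝ᵥ (((1 : Matrix ι ι ℂ) ⊗ₖ pt2 T - T) *ᵥ x)) := by
    rw [key]
    exact Finset.sum_nonneg fun i _ => Finset.sum_nonneg fun i' _ => h.dotProduct_mulVec_nonneg _
  have h3 := mul_nonneg (show (0 : ℂ) ≤ ((1 / 2 : ℝ) : ℂ) by rw [Complex.zero_le_real]; norm_num) h2
  have h4 : ((1 / 2 : ℝ) : ℂ) * (2 * (star x ⬝ᵥ (((1 : Matrix ι ι ℂ) ⊗ₖ pt2 T - T) *ᵥ x))) =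
      star x ⬝ᵥ (((1 : Matrix ι ι ℂ) ⊗ₖ pt2 T - T) *ᵥ x) := by
    push_cast
    ring
  rwa [h4] at h3

/-- tangent line inequality for `-x log x` -/
theorem ecd_tangent {x c : ℝ} (hx : 0 ≤ x) (hc : 0 < c) :
    Real.negMulLog x ≤ c - x - x * Real.log c := by
  rcases hx.eq_or_lt with h | h
  · subst h
    simp only [Real.negMulLog_zero, sub_zero, zero_mul, hc.le]
  · have h1 := Real.log_le_sub_one_of_pos (div_pos hc h)
    rw [Real.log_div hc.ne' h.ne'] at h1
    have h2 : x * (Real.log c - Real.log x) ≤ x * (c / x - 1) := mul_le_mul_of_nonneg_left h1 h.le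
    have h3 : x * (c / x - 1) = c - x := by (clear * - h; field_simp)
    unfold Real.negMulLog
    linarith

/-- the majorization argument, in eigenbases -/
theorem maj_core {Y : Matrix γ (ι × δ) ℂ} {c : γ → ℝ} {d : δ → ℝ}
    (h1 : ∀ u, ∑ x, ‖Y u x‖ ^ 2 = c u)
    (h2 : ∀ a, ∑ u, ∑ i, ‖Y u (i, a)‖ ^ 2 = d a)
    (h3 : ∀ u, ∀ v : ι × δ → ℂ, ‖∑ x, Y u x * v x‖ ^ 2 ≤ ∑ x : ι × δ, d x.2 * ‖v x‖ ^ 2) :
    ∑ a, Real.negMulLog (d a) ≤ ∑ u, Real.negMulLog (c u) := by
  set m : γ → δ → ℝ := fun u a => ∑ i, ‖Y u (i, a)‖ ^ 2 with hm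
  have hm0 : ∀ u a, 0 ≤ m u a := fun u a => Finset.sum_nonneg fun i _ => sq_nonneg _
  have hd0 : ∀ a, 0 ≤ d a := fun a => by
    rw [← h2 a]
    exact Finset.sum_nonneg fun u _ => hm0 u a
  set w : γ → δ → ℝ := fun u a => m u a / d a with hw
  have hw0 : ∀ u a, 0 ≤ w u a := fun u a => div_nonneg (hm0 u a) (hd0 a)
  have hmz : ∀ u a, d a = 0 → m u a = 0 := by
    intro u a ha
    have := h2 a
    rw [ha] at this
    exact (Finset.sum_eq_zero_iff_of_nonneg (fun u _ => hm0 u a)).1 this u (Finset.mem_univ _)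
  have hwd : ∀ u a, w u a * d a = m u a := by
    intro u a
    by_cases ha : d a = 0
    · rw [ha, mul_zero, hmz u a ha]
    · exact div_mul_cancel₀ _ ha
  have hw1 : ∀ a, ∑ u, w u a * Real.negMulLog (d a) = Real.negMulLog (d a) := by
    intro a
    by_cases ha : d a = 0
    · simp only [ha, Real.negMulLog_zero, mul_zero, Finset.sum_const_zero]
    · rw [← Finset.sum_mul, ← Finset.sum_div]
      have := h2 a
      change ∑ u, m u a = d a at this
      rw [this, div_self ha, one_mul]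
  have hw2 : ∀ u, ∑ a, w u a * d a = c u := by
    intro u
    rw [← h1 u, Fintype.sum_prod_type, Finset.sum_comm]
    exact Finset.sum_congr rfl fun a _ => hwd u a
  have hw3 : ∀ u, ∑ a, w u a ≤ 1 := by
    intro u
    have h := h3 u fun x => star (Y u x) / (d x.2 : ℂ)
    have e1 : ∑ x : ι × δ, Y u x * (star (Y u x) / (d x.2 : ℂ)) = ((∑ a, w u a : ℝ) : ℂ) := by
      rw [Fintype.sum_prod_type, Finset.sum_comm]
      push_cast
      refine Finset.sum_congr rfl fun a _ => ?_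
      simp only [hw, hm]
      push_cast
      rw [Finset.sum_div]
      refine Finset.sum_congr rfl fun i _ => ?_
      rw [← mul_div_assoc, Complex.star_def, Complex.mul_conj, Complex.normSq_eq_norm_sq]
      push_cast
      rfl
    have e2 : ∑ x : ι × δ, d x.2 * ‖star (Y u x) / (d x.2 : ℂ)‖ ^ 2 = ∑ a, w u a := by
      rw [Fintype.sum_prod_type, Finset.sum_comm]
      refine Finset.sum_congr rfl fun a _ => ?_
      simp only [hw, hm]
      rw [Finset.sum_div]
      refine Finset.sum_congr rfl fun i _ => ?_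
      rw [norm_div, norm_star, Complex.norm_real, Real.norm_eq_abs, abs_of_nonneg (hd0 a)]
      by_cases ha : d a = 0
      · simp [ha]
      · (clear * - ha; field_simp)
    rw [e1, e2, Complex.norm_real, Real.norm_eq_abs, sq_abs] at h
    have h0 : 0 ≤ ∑ a, w u a := Finset.sum_nonneg fun a _ => hw0 u a
    nlinarith only [h]
  have hj : ∀ u, ∑ a, w u a * Real.negMulLog (d a) ≤ Real.negMulLog (c u) := by
    intro u
    have hc0 : 0 ≤ c u := by
      rw [← hw2 u]
      exact Finset.sum_nonneg fun a _ => mul_nonneg (hw0 u a) (hd0 a)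
    rcases hc0.eq_or_lt with h | h
    · have hz : ∀ a, w u a * d a = 0 := by
        intro a
        have := hw2 u
        rw [← h] at this
        exact (Finset.sum_eq_zero_iff_of_nonneg
          (fun a _ => mul_nonneg (hw0 u a) (hd0 a))).1 this a (Finset.mem_univ _)
      rw [← h, Real.negMulLog_zero]
      refine le_of_eq (Finset.sum_eq_zero fun a _ => ?_)
      rw [Real.negMulLog]
      have := hz a
      linear_combination (-Real.log (d a)) * this
    · have hb : ∀ a, w u a * Real.negMulLog (d a) ≤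
          w u a * c u - (w u a * d a) * (1 + Real.log (c u)) := by
        intro a
        have := mul_le_mul_of_nonneg_left (ecd_tangent (hd0 a) h) (hw0 u a)
        linarith
      calc ∑ a, w u a * Real.negMulLog (d a) ≤
          ∑ a, (w u a * c u - (w u a * d a) * (1 + Real.log (c u))) :=
            Finset.sum_le_sum fun a _ => hb a
        _ = (∑ a, w u a) * c u - c u * (1 + Real.log (c u)) := by
            rw [Finset.sum_sub_distrib, ← Finset.sum_mul, ← Finset.sum_mul, hw2 u]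
        _ ≤ 1 * c u - c u * (1 + Real.log (c u)) := by
            have := mul_le_mul_of_nonneg_right (hw3 u) h.le
            linarith
        _ = Real.negMulLog (c u) := by
            rw [Real.negMulLog]; ring
  calc ∑ a, Real.negMulLog (d a) = ∑ a, ∑ u, w u a * Real.negMulLog (d a) :=
        Finset.sum_congr rfl fun a _ => (hw1 a).symm
    _ = ∑ u, ∑ a, w u a * Real.negMulLog (d a) := Finset.sum_comm
    _ ≤ ∑ u, Real.negMulLog (c u) := Finset.sum_le_sum fun u _ => hj u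

/-- eigenbasis of a Hermitian matrix -/
theorem herm_eig {A : Matrix ι ι ℂ} (hA : A.IsHermitian) :
    ∃ (U : Matrix ι ι ℂ) (p : ι → ℝ), Uᴴ * U = 1 ∧ U * Uᴴ = 1 ∧
      A = U * Matrix.diagonal (fun i => (p i : ℂ)) * Uᴴ ∧ ent A = ∑ i, Real.negMulLog (p i) := by
  refine ⟨(hA.eigenvectorUnitary : Matrix ι ι ℂ), hA.eigenvalues,
    Unitary.coe_star_mul_self _, Unitary.coe_mul_star_self _, ?_, P369V.b_trace_cfc hA _⟩
  have h := hA.spectral_theorem
  rw [Unitary.conjStarAlgAut_apply] at h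
  exact h

theorem pt2_herm {T : Matrix (ι × δ) (ι × δ) ℂ} (hT : T.IsHermitian) : (pt2 T).IsHermitian := by
  ext l l'
  rw [Matrix.conjTranspose_apply]
  unfold pt2
  rw [star_sum]
  exact Finset.sum_congr rfl fun i _ => hT.apply _ _

theorem pt2_conj (T : Matrix (ι × δ) (ι × δ) ℂ) (W : Matrix δ δ ℂ) :
    pt2 (((1 : Matrix ι ι ℂ) ⊗ₖ W)ᴴ * T * ((1 : Matrix ι ι ℂ) ⊗ₖ W)) = Wᴴ * pt2 T * W := by
  have hr : ∀ (S : Matrix (ι × δ) (ι × δ) ℂ) (x : ι × δ) (i : ι) (l : δ),
      (S * ((1 : Matrix ι ι ℂ) ⊗ₖ W)) x (i, l) = ∑ a, S x (i, a) * W a l := by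
    intro S x i l
    rw [Matrix.mul_apply, Fintype.sum_prod_type, Finset.sum_eq_single i]
    · refine Finset.sum_congr rfl fun a _ => ?_
      rw [Matrix.kroneckerMap_apply, Matrix.one_apply_eq, one_mul]
    · intro b _ hb
      refine Finset.sum_eq_zero fun a _ => ?_
      rw [Matrix.kroneckerMap_apply, Matrix.one_apply_ne hb, zero_mul, mul_zero]
    · intro h
      exact absurd (Finset.mem_univ _) h
  have hl : ∀ (S : Matrix (ι × δ) (ι × δ) ℂ) (x : ι × δ) (i : ι) (l : δ),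
      (((1 : Matrix ι ι ℂ) ⊗ₖ W)ᴴ * S) (i, l) x = ∑ a, star (W a l) * S (i, a) x := by
    intro S x i l
    rw [Matrix.mul_apply, Fintype.sum_prod_type, Finset.sum_eq_single i]
    · refine Finset.sum_congr rfl fun a _ => ?_
      rw [Matrix.conjTranspose_apply, Matrix.kroneckerMap_apply, Matrix.one_apply_eq, one_mul]
    · intro b _ hb
      refine Finset.sum_eq_zero fun a _ => ?_
      rw [Matrix.conjTranspose_apply, Matrix.kroneckerMap_apply, Matrix.one_apply_ne hb, zero_mul,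
        star_zero, zero_mul]
    · intro h
      exact absurd (Finset.mem_univ _) h
  ext l l'
  simp only [pt2, hr, hl, Matrix.mul_apply, Matrix.conjTranspose_apply, Finset.sum_mul,
    Finset.mul_sum]
  rw [Finset.sum_comm]
  refine Finset.sum_congr rfl fun a _ => ?_
  rw [Finset.sum_comm]

/-- the reduction criterion implies `S(D) ≤ S(C)` -/
theorem ent_pt2_le {X : Matrix γ (ι × δ) ℂ}
    (hr : ((1 : Matrix ι ι ℂ) ⊗ₖ pt2 (Xᴴ * X) - Xᴴ * X).PosSemidef) :
    ent (pt2 (Xᴴ * X)) ≤ ent (X * Xᴴ) := by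
  obtain ⟨U, c, hU, hU', hC, heC⟩ := herm_eig (Matrix.isHermitian_mul_conjTranspose_self X)
  obtain ⟨W, d, hW, hW', hD, heD⟩ := herm_eig (pt2_herm (Matrix.isHermitian_conjTranspose_mul_self X))
  rw [heC, heD]
  set K : Matrix (ι × δ) (ι × δ) ℂ := (1 : Matrix ι ι ℂ) ⊗ₖ W with hK
  have hKK : K * Kᴴ = 1 := by
    rw [hK, Matrix.conjTranspose_kronecker, ← Matrix.mul_kronecker_mul, hW', conjTranspose_one,
      Matrix.mul_one, Matrix.one_kronecker_one]
  set Y : Matrix γ (ι × δ) ℂ := Uᴴ * X * K with hY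
  have hYY : Y * Yᴴ = Matrix.diagonal (fun i => (c i : ℂ)) := by
    calc Y * Yᴴ = Uᴴ * X * (K * Kᴴ) * Xᴴ * U := by
          rw [hY]
          simp only [conjTranspose_mul, conjTranspose_conjTranspose, Matrix.mul_assoc]
      _ = Uᴴ * (X * Xᴴ) * U := by rw [hKK]; simp only [Matrix.mul_assoc, Matrix.mul_one, Matrix.one_mul]
      _ = (Uᴴ * U) * Matrix.diagonal (fun i => (c i : ℂ)) * (Uᴴ * U) := by
          rw [hC]; simp only [Matrix.mul_assoc]
      _ = _ := by rw [hU, Matrix.one_mul, Matrix.mul_one]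
  have hYT : Yᴴ * Y = Kᴴ * (Xᴴ * X) * K := by
    calc Yᴴ * Y = Kᴴ * Xᴴ * (U * Uᴴ) * X * K := by
          rw [hY]
          simp only [conjTranspose_mul, conjTranspose_conjTranspose, Matrix.mul_assoc]
      _ = _ := by rw [hU']; simp only [Matrix.mul_assoc, Matrix.one_mul]
  have hpt : pt2 (Yᴴ * Y) = Matrix.diagonal (fun i => (d i : ℂ)) := by
    rw [hYT, hK, pt2_conj]
    calc Wᴴ * pt2 (Xᴴ * X) * W = (Wᴴ * W) * Matrix.diagonal (fun i => (d i : ℂ)) * (Wᴴ * W) := by
          conv_lhs => rw [hD]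
          simp only [Matrix.mul_assoc]
      _ = _ := by rw [hW, Matrix.one_mul, Matrix.mul_one]
  have hred : ((1 : Matrix ι ι ℂ) ⊗ₖ Matrix.diagonal (fun i => (d i : ℂ)) - Yᴴ * Y).PosSemidef := by
    have h := hr.conjTranspose_mul_mul_same K
    have e : Kᴴ * ((1 : Matrix ι ι ℂ) ⊗ₖ pt2 (Xᴴ * X) - Xᴴ * X) * K =
        (1 : Matrix ι ι ℂ) ⊗ₖ Matrix.diagonal (fun i => (d i : ℂ)) - Yᴴ * Y := by
      rw [Matrix.mul_sub, Matrix.sub_mul, hYT, ← hpt, hYT, hK, pt2_conj,
        Matrix.conjTranspose_kronecker, ← Matrix.mul_kronecker_mul, ← Matrix.mul_kronecker_mul,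
        conjTranspose_one, Matrix.mul_one, Matrix.mul_one]
    rwa [e] at h
  refine maj_core (Y := Y) ?_ ?_ ?_
  · intro u
    have h := congrFun (congrFun hYY u) u
    rw [Matrix.mul_apply, Matrix.diagonal_apply_eq] at h
    have h' : ((∑ x, ‖Y u x‖ ^ 2 : ℝ) : ℂ) = (c u : ℂ) := by
      rw [← h]
      push_cast
      refine Finset.sum_congr rfl fun x _ => ?_
      rw [Matrix.conjTranspose_apply, Complex.star_def, Complex.mul_conj, Complex.normSq_eq_norm_sq]
      push_cast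
      rfl
    exact_mod_cast h'
  · intro a
    have h := congrFun (congrFun hpt a) a
    rw [pt2, Matrix.diagonal_apply_eq] at h
    have h' : ((∑ u, ∑ i, ‖Y u (i, a)‖ ^ 2 : ℝ) : ℂ) = (d a : ℂ) := by
      rw [← h, Finset.sum_comm]
      push_cast
      refine Finset.sum_congr rfl fun i _ => ?_
      rw [Matrix.mul_apply]
      refine Finset.sum_congr rfl fun u _ => ?_
      rw [Matrix.conjTranspose_apply, Complex.star_def, mul_comm, Complex.mul_conj,
        Complex.normSq_eq_norm_sq]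
      push_cast
      rfl
    exact_mod_cast h'
  · intro u v
    have h := hred.dotProduct_mulVec_nonneg v
    rw [Matrix.sub_mulVec, dotProduct_sub] at h
    have e1 : star v ⬝ᵥ (((1 : Matrix ι ι ℂ) ⊗ₖ Matrix.diagonal (fun i => (d i : ℂ))) *ᵥ v) =
        ((∑ x : ι × δ, d x.2 * ‖v x‖ ^ 2 : ℝ) : ℂ) := by
      rw [← Matrix.diagonal_one, Matrix.diagonal_kronecker_diagonal]
      simp only [dotProduct, Matrix.mulVec_diagonal, one_mul, Pi.star_apply]
      push_cast
      refine Finset.sum_congr rfl fun x _ => ?_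
      rw [Complex.star_def]
      have := Complex.mul_conj (v x)
      rw [Complex.normSq_eq_norm_sq] at this
      push_cast at this
      linear_combination (d x.2 : ℂ) * this
    have e2 : star v ⬝ᵥ ((Yᴴ * Y) *ᵥ v) = ((∑ u, ‖∑ x, Y u x * v x‖ ^ 2 : ℝ) : ℂ) := by
      rw [← Matrix.mulVec_mulVec, Matrix.dotProduct_mulVec, ← Matrix.star_mulVec]
      simp only [dotProduct, Pi.star_apply, Matrix.mulVec]
      push_cast
      refine Finset.sum_congr rfl fun u _ => ?_
      rw [Complex.star_def, mul_comm, Complex.mul_conj, Complex.normSq_eq_norm_sq]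
      push_cast
      rfl
    rw [e1, e2, ← Complex.ofReal_sub, Complex.zero_le_real] at h
    have h4 : ‖∑ x, Y u x * v x‖ ^ 2 ≤ ∑ u, ‖∑ x, Y u x * v x‖ ^ 2 :=
      Finset.single_le_sum (f := fun u => ‖∑ x, Y u x * v x‖ ^ 2) (fun u _ => sq_nonneg _)
        (Finset.mem_univ u)
    linarith

theorem exists_sqrt {A : Matrix ι ι ℂ} (hA : A.PosSemidef) : ∃ G : Matrix ι ι ℂ, A = G * Gᴴ := by
  have h := hA.isHermitian.spectral_theorem
  rw [Unitary.conjStarAlgAut_apply] at h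
  refine ⟨(hA.isHermitian.eigenvectorUnitary : Matrix ι ι ℂ) *
    Matrix.diagonal (fun i => ((Real.sqrt (hA.isHermitian.eigenvalues i) : ℝ) : ℂ)), ?_⟩
  rw [conjTranspose_mul, Matrix.diagonal_conjTranspose, Matrix.mul_assoc,
    ← Matrix.mul_assoc (Matrix.diagonal _), Matrix.diagonal_mul_diagonal]
  conv_lhs => rw [h]
  rw [Matrix.mul_assoc]
  congr 2
  congr 1
  funext i
  rw [Pi.star_apply, Complex.star_def, Complex.conj_ofReal, ← Complex.ofReal_mul,
    Real.mul_self_sqrt (hA.eigenvalues_nonneg i)]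
  rfl

theorem ent_roots {A : Matrix ι ι ℂ} (hA : A.IsHermitian) :
    ent A = (A.charpoly.roots.map fun z => Real.negMulLog z.re).sum := by
  rw [hA.roots_charpoly_eq_eigenvalues, Multiset.map_map]
  have h : ent A = ∑ i, Real.negMulLog (hA.eigenvalues i) := P369V.b_trace_cfc hA _
  rw [h]
  rfl

theorem ent_transpose {A : Matrix ι ι ℂ} (hA : A.IsHermitian) : ent Aᵀ = ent A := by
  rw [ent_roots hA, ent_roots hA.transpose, Matrix.charpoly_transpose]

theorem kron_one_mul {η : Type} (B : Matrix ι ι ℂ) (S : Matrix (ι × δ) η ℂ) (i : ι) (l : δ) (y : η) :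
    ((B ⊗ₖ (1 : Matrix δ δ ℂ)) * S) (i, l) y = ∑ m, B i m * S (m, l) y := by
  rw [Matrix.mul_apply, Fintype.sum_prod_type]
  refine Finset.sum_congr rfl fun m _ => ?_
  rw [Finset.sum_eq_single l]
  · rw [Matrix.kroneckerMap_apply, Matrix.one_apply_eq, mul_one]
  · intro b _ hb
    rw [Matrix.kroneckerMap_apply, Matrix.one_apply_ne hb.symm, mul_zero, zero_mul]
  · intro h
    exact absurd (Finset.mem_univ _) h

theorem mul_kron_one_conj {η : Type} (B : Matrix ι ι ℂ) (S : Matrix η (ι × δ) ℂ) (x : η) (i : ι)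
    (l : δ) : (S * (B ⊗ₖ (1 : Matrix δ δ ℂ))ᴴ) x (i, l) = ∑ m, S x (m, l) * star (B i m) := by
  rw [Matrix.mul_apply, Fintype.sum_prod_type]
  refine Finset.sum_congr rfl fun m _ => ?_
  rw [Finset.sum_eq_single l]
  · rw [Matrix.conjTranspose_apply, Matrix.kroneckerMap_apply, Matrix.one_apply_eq, mul_one]
  · intro b _ hb
    rw [Matrix.conjTranspose_apply, Matrix.kroneckerMap_apply, Matrix.one_apply_ne hb.symm,
      mul_zero, star_zero, mul_zero]
  · intro h
    exact absurd (Finset.mem_univ _) h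

/-- the matrix with entries `∑_c conj (J (c,l) m) J (c,l') m'` in row `(m', l)`, column `(m, l')` -/
def choiG (J : Matrix (γ × δ) ι ℂ) : Matrix (ι × δ) (ι × δ) ℂ :=
  fun x y => ∑ c, star (J (c, x.2) y.1) * J (c, y.2) x.1

/-- if the second output is a completely co-positive function of the input, then `S(D) ≤ S(C)` -/
theorem ent_out_le {J : Matrix (γ × δ) ι ℂ} (hJ : (choiG J).PosSemidef) {A : Matrix ι ι ℂ}
    (hA : A.PosSemidef) : ent (pt2 (J * A * Jᴴ)) ≤ ent (pt1 (J * A * Jᴴ)) := by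
  obtain ⟨G, rfl⟩ := exists_sqrt hA
  set X : Matrix γ (ι × δ) ℂ := fun c x => (J * G) (c, x.2) x.1 with hX
  have hT : J * (G * Gᴴ) * Jᴴ = (J * G) * (J * G)ᴴ := by
    rw [conjTranspose_mul]
    simp only [Matrix.mul_assoc]
  have h1 : X * Xᴴ = pt1 (J * (G * Gᴴ) * Jᴴ) := by
    ext c c'
    rw [hT, pt1, Matrix.mul_apply, Fintype.sum_prod_type, Finset.sum_comm]
    refine Finset.sum_congr rfl fun l _ => ?_
    rw [Matrix.mul_apply]
    rfl
  have h2 : pt2 (Xᴴ * X) = (pt2 (J * (G * Gᴴ) * Jᴴ))ᵀ := by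
    ext l l'
    rw [hT, Matrix.transpose_apply, pt2, pt2]
    simp only [Matrix.mul_apply (M := Xᴴ), Matrix.mul_apply (M := J * G), Matrix.conjTranspose_apply]
    rw [Finset.sum_comm]
    refine Finset.sum_congr rfl fun c _ => Finset.sum_congr rfl fun i _ => ?_
    rw [mul_comm]
  have hTH : (J * (G * Gᴴ) * Jᴴ).IsHermitian := by
    rw [hT]
    exact Matrix.isHermitian_mul_conjTranspose_self _
  have h3 : (ptr (Xᴴ * X)).PosSemidef := by
    have h := hJ.mul_mul_conjTranspose_same (Gᵀ ⊗ₖ (1 : Matrix δ δ ℂ))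
    have e : (Gᵀ ⊗ₖ (1 : Matrix δ δ ℂ)) * choiG J * (Gᵀ ⊗ₖ (1 : Matrix δ δ ℂ))ᴴ = ptr (Xᴴ * X) := by
      ext x y
      obtain ⟨i, l⟩ := x
      obtain ⟨i', l'⟩ := y
      have eL : ((Gᵀ ⊗ₖ (1 : Matrix δ δ ℂ)) * choiG J * (Gᵀ ⊗ₖ (1 : Matrix δ δ ℂ))ᴴ) (i, l) (i', l') =
          ∑ c, ∑ m, ∑ m', G m i * (star (J (c, l) m') * J (c, l') m) * star (G m' i') := by
        rw [Matrix.mul_assoc, kron_one_mul, Finset.sum_comm]
        refine Finset.sum_congr rfl fun m _ => ?_
        rw [mul_kron_one_conj, Finset.mul_sum, Finset.sum_comm]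
        refine Finset.sum_congr rfl fun m' _ => ?_
        rw [choiG, Finset.sum_mul, Finset.mul_sum]
        refine Finset.sum_congr rfl fun c _ => ?_
        rw [Matrix.transpose_apply, Matrix.transpose_apply]
        ring
      have eR : ptr (Xᴴ * X) (i, l) (i', l') =
          ∑ c, ∑ m, ∑ m', G m i * (star (J (c, l) m') * J (c, l') m) * star (G m' i') := by
        rw [ptr, Matrix.mul_apply]
        refine Finset.sum_congr rfl fun c _ => ?_
        rw [Matrix.conjTranspose_apply]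
        simp only [hX]
        rw [Matrix.mul_apply, Matrix.mul_apply, star_sum, mul_comm, Finset.sum_mul_sum]
        refine Finset.sum_congr rfl fun m _ => Finset.sum_congr rfl fun m' _ => ?_
        rw [star_mul']
        ring
      rw [eL, eR]
    rwa [e] at h
  have h4 := ent_pt2_le (red_of_ppt h3)
  rw [h1, h2, ent_transpose (pt2_herm hTH)] at h4
  exact h4

end gen

end

end Vale.Agent.P369A
end
end

section

section

/-!
P369A: the complementary channel of the amplifier is completely co-positive (Vandermonde identity).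
-/

namespace Vale.Agent.P369A

open Matrix
open scoped Kronecker InnerProductSpace ComplexOrder Nat
open Vale.Agent.P369 (Conf)

noncomputable section

/-- Vandermonde -/
theorem vdm_sum (p p' α B : ℕ) (hp' : p' ≤ B) :
    ∑ i ∈ Finset.range (B + 1), p.choose i * (p' + α).choose (i + α) = (p + p' + α).choose p' := by
  have h1 : ∑ i ∈ Finset.range (B + 1), p.choose i * (p' + α).choose (i + α) =
      ∑ i ∈ Finset.range (p' + 1), p.choose i * (p' + α).choose (i + α) := by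
    symm
    refine Finset.sum_subset (Finset.range_subset_range.2 (by omega)) fun i _ hi => ?_
    rw [Finset.mem_range] at hi
    rw [Nat.choose_eq_zero_of_lt (show p' + α < i + α by omega), mul_zero]
  rw [h1, show p + p' + α = p + (p' + α) by omega, Nat.add_choose_eq,
    Finset.Nat.sum_antidiagonal_eq_sum_range_succ_mk]
  refine Finset.sum_congr rfl fun i hi => ?_
  rw [Finset.mem_range] at hi
  congr 1
  rw [← Nat.choose_symm (show i + α ≤ p' + α by omega)]
  congr 1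
  omega

/-- one term -/
theorem vdm_term (p α i : ℕ) :
    (p ! * (p + α).choose (i + α)) * (i + α)! = (p + α)! * p.choose i * i ! := by
  by_cases h : i ≤ p
  · have e1 := Nat.choose_mul_factorial_mul_factorial (show i + α ≤ p + α by omega)
    have e2 := Nat.choose_mul_factorial_mul_factorial h
    rw [show p + α - (i + α) = p - i by omega] at e1
    have h3 : (p - i)! ≠ 0 := Nat.factorial_ne_zero _
    apply Nat.eq_of_mul_eq_mul_right (Nat.pos_of_ne_zero h3)
    calc p ! * (p + α).choose (i + α) * (i + α)! * (p - i)!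
        = p ! * ((p + α).choose (i + α) * (i + α)! * (p - i)!) := by ring
      _ = p ! * (p + α)! := by rw [e1]
      _ = (p + α)! * (p.choose i * i ! * (p - i)!) := by rw [e2]; ring
      _ = (p + α)! * p.choose i * i ! * (p - i)! := by ring
  · rw [Nat.choose_eq_zero_of_lt (show p + α < i + α by omega),
      Nat.choose_eq_zero_of_lt (show p < i by omega)]
    ring

/-- the coefficients -/
def vph (p α i : ℕ) : ℝ := (p ! : ℝ) * ((p + α).choose (i + α) : ℝ) * Real.sqrt ((i + α)! / (i ! : ℝ))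

theorem vph_sum (p p' α B : ℕ) (hp' : p' ≤ B) :
    ∑ i ∈ Finset.range (B + 1), vph p α i * vph p' α i = ((p + p' + α)! : ℝ) := by
  have h1 : ∀ i, vph p α i * vph p' α i =
      ((p + α)! : ℝ) * (p' ! : ℝ) * ((p.choose i * (p' + α).choose (i + α) : ℕ) : ℝ) := by
    intro i
    have e := vdm_term p α i
    have e' : ((p ! : ℝ) * ((p + α).choose (i + α) : ℝ)) * ((i + α)! : ℝ) =
        ((p + α)! : ℝ) * (p.choose i : ℝ) * (i ! : ℝ) := by exact_mod_cast e
    have hi : (i ! : ℝ) ≠ 0 := by exact_mod_cast Nat.factorial_ne_zero i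
    have hs : Real.sqrt ((i + α)! / (i ! : ℝ)) * Real.sqrt ((i + α)! / (i ! : ℝ)) =
        (i + α)! / (i ! : ℝ) := Real.mul_self_sqrt (by positivity)
    unfold vph
    generalize Real.sqrt ((i + α)! / (i ! : ℝ)) = S at hs
    calc (p ! : ℝ) * ((p + α).choose (i + α) : ℝ) * S *
          ((p' ! : ℝ) * ((p' + α).choose (i + α) : ℝ) * S)
        = (p ! : ℝ) * ((p + α).choose (i + α) : ℝ) * ((p' ! : ℝ) * ((p' + α).choose (i + α) : ℝ)) *
            (S * S) := by ring
      _ = ((p ! : ℝ) * ((p + α).choose (i + α) : ℝ) * ((i + α)! : ℝ)) / (i ! : ℝ) *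
            ((p' ! : ℝ) * ((p' + α).choose (i + α) : ℝ)) := by
          rw [hs]; ring
      _ = _ := by
          rw [e']
          push_cast
          field_simp
  simp only [h1]
  rw [← Finset.mul_sum, ← Nat.cast_sum, vdm_sum p p' α B hp']
  have e := Nat.add_choose_mul_factorial_mul_factorial (p + α) p'
  have e2 : (p + p' + α).choose p' * (p + α)! * p' ! = (p + p' + α)! := by
    rw [show p + p' + α = p + α + p' by omega, ← e]
  rw [← e2]
  push_cast
  ring

/-- one-mode vectors -/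
def vps (B : ℕ) (τ : Fin (2 * B + 1) × Fin (B + 1)) (a b : ℕ) : ℝ :=
  if a + B = b + (τ.1 : ℕ) then vph (min a b) (max a b - min a b) τ.2 else 0

theorem vps_sum {B a b a' b' : ℕ} (ha : a ≤ B) (hb : b ≤ B) (ha' : a' ≤ B) (hb' : b' ≤ B) :
    ∑ τ, vps B τ a b * vps B τ a' b' = if a' + b = a + b' then ((a + b')! : ℝ) else 0 := by
  rw [Fintype.sum_prod_type]
  split_ifs with h
  · rw [Finset.sum_eq_single ⟨a + B - b, by omega⟩]
    · have e1 : a + B = b + (a + B - b) := by omega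
      have e2 : a' + B = b' + (a + B - b) := by omega
      have h3 : max a' b' - min a' b' = max a b - min a b := by omega
      simp only [vps, if_pos e1, if_pos e2, h3]
      rw [Fin.sum_univ_eq_sum_range (fun i => vph (min a b) (max a b - min a b) i *
        vph (min a' b') (max a b - min a b) i) (B + 1), vph_sum _ _ _ _ (by omega)]
      congr 2
      (clear * - h; omega)
    · intro s _ hs
      refine Finset.sum_eq_zero fun i _ => ?_
      have : ¬ a + B = b + (s : ℕ) := by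
        intro h'
        apply hs
        apply Fin.ext
        simp only
        omega
      rw [vps, if_neg this, zero_mul]
    · intro h'
      exact absurd (Finset.mem_univ _) h'
  · refine Finset.sum_eq_zero fun s _ => Finset.sum_eq_zero fun i _ => ?_
    by_cases h1 : a + B = b + (s : ℕ)
    · have h2 : ¬ a' + B = b' + (s : ℕ) := by omega
      have : vps B (s, i) a' b' = 0 := by rw [vps, if_neg h2]
      rw [this, mul_zero]
    · rw [vps, if_neg h1, zero_mul]

variable {n : ℕ}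

/-- one-mode factor -/
def vsc1 (k : ℝ) (a b : ℕ) : ℝ :=
  (Real.sqrt k)⁻¹ ^ (a + 1) * Real.sqrt (1 - 1 / k) ^ b / (Real.sqrt (a ! : ℝ) * Real.sqrt (b ! : ℝ))

theorem cc_mul (k : ℝ) {a b a' b' : ℕ} (h : a' + b = a + b') :
    (Real.sqrt ((a' + b).choose b : ℕ) * (Real.sqrt k)⁻¹ ^ (a' + 1) * Real.sqrt (1 - 1 / k) ^ b) *
      (Real.sqrt ((a + b').choose b' : ℕ) * (Real.sqrt k)⁻¹ ^ (a + 1) * Real.sqrt (1 - 1 / k) ^ b') =
      vsc1 k a b * vsc1 k a' b' * ((a + b')! : ℝ) := by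
  have hs : ∀ x y : ℕ, Real.sqrt ((x + y).choose y : ℕ) =
      Real.sqrt ((x + y)! : ℝ) / (Real.sqrt (x ! : ℝ) * Real.sqrt (y ! : ℝ)) := by
    intro x y
    have hx : (0 : ℝ) < (x ! : ℝ) := by exact_mod_cast Nat.factorial_pos x
    have hy : (0 : ℝ) < (y ! : ℝ) := by exact_mod_cast Nat.factorial_pos y
    rw [← Real.sqrt_mul hx.le, ← Real.sqrt_div (by positivity)]
    congr 1
    have e := Nat.add_choose_mul_factorial_mul_factorial x y
    have e' : ((x + y).choose y : ℝ) * (x ! : ℝ) * (y ! : ℝ) = ((x + y)! : ℝ) := by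
      exact_mod_cast e
    rw [← e']
    field_simp
  rw [hs, hs, h]
  have h0 : Real.sqrt ((a + b')! : ℝ) * Real.sqrt ((a + b')! : ℝ) = ((a + b')! : ℝ) :=
    Real.mul_self_sqrt (Nat.cast_nonneg _)
  unfold vsc1
  have hp : ∀ x : ℕ, Real.sqrt (x ! : ℝ) ≠ 0 := fun x =>
    (Real.sqrt_pos.2 (by exact_mod_cast Nat.factorial_pos x)).ne'
  have h1 := hp a
  have h2 := hp b
  have h3 := hp a'
  have h4 := hp b'
  generalize Real.sqrt ((a + b')! : ℝ) = S at h0
  rw [← h0]
  field_simp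

/-- the complementary channel of the amplifier is completely co-positive -/
theorem choiG_Jw {k : ℝ} {Γ L Y : ℕ} (h : Y + L ≤ Γ) :
    (choiG (Jw (n := n) k Γ L Y)).PosSemidef := by
  set B : ℕ := Y + L with hB
  set Ψ : Matrix (Ct n Y × Ct n L) (Fin n → Fin (2 * B + 1) × Fin (B + 1)) ℂ := fun x τ =>
    ∏ j, ((vsc1 k (x.1.1 j) (x.2.1 j) * vps B (τ j) (x.1.1 j) (x.2.1 j) : ℝ) : ℂ) with hΨ
  have hle : ∀ (X : ℕ) (x : Ct n X) (j : Fin n), x.1 j ≤ X := fun X x j =>
    (Finset.single_le_sum (f := fun i => x.1 i) (fun _ _ => Nat.zero_le _)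
      (Finset.mem_univ j)).trans x.2
  have key : choiG (Jw (n := n) k Γ L Y) = Ψ * Ψᴴ := by
    ext x y
    have hR : (Ψ * Ψᴴ) x y = ∏ j, (if y.1.1 j + x.2.1 j = x.1.1 j + y.2.1 j then
        ((vsc1 k (x.1.1 j) (x.2.1 j) * vsc1 k (y.1.1 j) (y.2.1 j) *
          ((x.1.1 j + y.2.1 j)! : ℝ) : ℝ) : ℂ) else 0) := by
      rw [Matrix.mul_apply]
      have e1 : ∀ τ : Fin n → Fin (2 * B + 1) × Fin (B + 1), Ψ x τ * Ψᴴ τ y =
          ∏ j, (((vsc1 k (x.1.1 j) (x.2.1 j) * vsc1 k (y.1.1 j) (y.2.1 j)) *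
            (vps B (τ j) (x.1.1 j) (x.2.1 j) * vps B (τ j) (y.1.1 j) (y.2.1 j)) : ℝ) : ℂ) := by
        intro τ
        rw [Matrix.conjTranspose_apply]
        simp only [hΨ]
        rw [star_prod, ← Finset.prod_mul_distrib]
        refine Finset.prod_congr rfl fun j _ => ?_
        rw [Complex.star_def, Complex.conj_ofReal, ← Complex.ofReal_mul]
        congr 1
        ring
      simp only [e1]
      rw [P369V.d1_sum (fun j (t : Fin (2 * B + 1) × Fin (B + 1)) =>
        (((vsc1 k (x.1.1 j) (x.2.1 j) * vsc1 k (y.1.1 j) (y.2.1 j)) *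
            (vps B t (x.1.1 j) (x.2.1 j) * vps B t (y.1.1 j) (y.2.1 j)) : ℝ) : ℂ))]
      refine Finset.prod_congr rfl fun j _ => ?_
      rw [← Complex.ofReal_sum, ← Finset.mul_sum, vps_sum ((hle _ x.1 j).trans (by omega))
        ((hle _ x.2 j).trans (by omega)) ((hle _ y.1 j).trans (by omega))
        ((hle _ y.2 j).trans (by omega))]
      split_ifs with h1
      · rfl
      · simp only [mul_zero, Complex.ofReal_zero]
    rw [hR]
    by_cases hxy : y.1.1 + x.2.1 = x.1.1 + y.2.1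
    · have hc : ∑ j, (y.1.1 + x.2.1) j ≤ Γ := by
        have h1 := y.1.2
        have h2 := x.2.2
        simp only [Pi.add_apply, Finset.sum_add_distrib]
        omega
      rw [choiG, Finset.sum_eq_single ⟨y.1.1 + x.2.1, hc⟩]
      · rw [Jw, Jw, if_pos rfl, if_pos hxy, Complex.star_def, Complex.conj_ofReal,
          ← Complex.ofReal_mul, cc, cc, ← Finset.prod_mul_distrib, Complex.ofReal_prod]
        refine Finset.prod_congr rfl fun j _ => ?_
        have hj : y.1.1 j + x.2.1 j = x.1.1 j + y.2.1 j := congrFun hxy j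
        rw [if_pos hj]
        congr 1
        exact cc_mul k hj
      · intro c _ hc'
        have : ¬ c.1 = y.1.1 + x.2.1 := by
          intro h'
          exact hc' (Subtype.ext h')
        rw [Jw, if_neg this, star_zero, zero_mul]
      · intro h'
        exact absurd (Finset.mem_univ _) h'
    · have hz : choiG (Jw (n := n) k Γ L Y) x y = 0 := by
        rw [choiG]
        refine Finset.sum_eq_zero fun c _ => ?_
        by_cases h1 : c.1 = y.1.1 + x.2.1
        · have h2 : ¬ c.1 = x.1.1 + y.2.1 := by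
            intro h'
            exact hxy (h1.symm.trans h')
          have : Jw (n := n) k Γ L Y (c, y.2) x.1 = 0 := by rw [Jw, if_neg h2]
          rw [this, mul_zero]
        · rw [Jw, if_neg h1, star_zero, zero_mul]
      rw [hz]
      obtain ⟨j, hj⟩ := Function.ne_iff.1 hxy
      symm
      refine Finset.prod_eq_zero (Finset.mem_univ j) ?_
      exact if_neg hj
  rw [key]
  exact Matrix.posSemidef_self_mul_conjTranspose _

end

end Vale.Agent.P369A
end
end

section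

section

/-!
P369A: elementary relations for `cc`, `annR`.
-/

namespace Vale.Agent.P369A

open Matrix
open Vale.Agent.P369 (Conf up down)

noncomputable section

variable {n : ℕ}

/-- total photon number -/
def tot (x : Conf n) : ℝ := ∑ j, (x j : ℝ)

theorem up_same (x : Conf n) (j : Fin n) : up x j j = x j + 1 := by
  unfold up; simp

theorem up_ne (x : Conf n) {i j : Fin n} (h : i ≠ j) : up x j i = x i := by
  unfold up; simp [h]

theorem down_same (x : Conf n) (j : Fin n) : down x j j = x j - 1 := by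
  unfold down; simp only [Function.update_self]

theorem down_ne (x : Conf n) {i j : Fin n} (h : i ≠ j) : down x j i = x i := by
  unfold down; simp only [ne_eq, h, not_false_eq_true, Function.update_of_ne]

theorem down_up (x : Conf n) (j : Fin n) : down (up x j) j = x := by
  funext i
  by_cases h : i = j
  · subst h; rw [down_same, up_same]; simp only [add_tsub_cancel_right]
  · rw [down_ne _ h, up_ne _ h]

theorem up_down {x : Conf n} {j : Fin n} (h : 1 ≤ x j) : up (down x j) j = x := by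
  funext i
  by_cases hi : i = j
  · subst hi; rw [up_same, down_same]; omega
  · rw [up_ne _ hi, down_ne _ hi]

theorem sum_up (x : Conf n) (j : Fin n) : ∑ i, up x j i = ∑ i, x i + 1 := by
  unfold up
  rw [Finset.sum_update_of_mem (Finset.mem_univ j), ← Finset.add_sum_erase _ _ (Finset.mem_univ j),
    Finset.sdiff_singleton_eq_erase]
  ring

theorem sum_down {x : Conf n} {j : Fin n} (h : 1 ≤ x j) : ∑ i, down x j i + 1 = ∑ i, x i := by
  have := sum_up (down x j) j
  rw [up_down h] at this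
  exact this.symm

theorem up_eq_iff {k l : Conf n} {j : Fin n} : l = up k j ↔ 1 ≤ l j ∧ k = down l j := by
  constructor
  · intro h
    subst h
    refine ⟨by rw [up_same]; omega, (down_up k j).symm⟩
  · rintro ⟨h1, h2⟩
    rw [h2, up_down h1]

theorem up_mem {X : ℕ} (k : Ct n X) (j : Fin n) : ∑ i, up k.1 j i ≤ X + 1 := by
  rw [sum_up]
  have := k.2
  omega

theorem down_mem {X : ℕ} {l : Conf n} (hl : ∑ i, l i ≤ X + 1) {j : Fin n} (h : 1 ≤ l j) :
    ∑ i, down l j i ≤ X := by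
  have := sum_down h
  omega

/-- sums against a row of `annR` -/
theorem sum_annR_row {X : ℕ} (j : Fin n) (k : Ct n X) (f : Ct n (X + 1) → ℂ) :
    ∑ l, annR X j k l * f l = ((Real.sqrt ((k.1 j : ℝ) + 1) : ℝ) : ℂ) * f ⟨up k.1 j, up_mem k j⟩ := by
  rw [Finset.sum_eq_single (⟨up k.1 j, up_mem k j⟩ : Ct n (X + 1))]
  · unfold annR
    rw [if_pos rfl]
    have e : ((up k.1 j j : ℕ) : ℝ) = (k.1 j : ℝ) + 1 := by
      rw [up_same]; push_cast; rfl
    show ((Real.sqrt ((up k.1 j j : ℕ) : ℝ) : ℝ) : ℂ) * f ⟨up k.1 j, up_mem k j⟩ = _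
    rw [e]
  · intro l _ hl
    unfold annR
    rw [if_neg, zero_mul]
    intro h
    exact hl (Subtype.ext h)
  · intro h
    exact absurd (Finset.mem_univ _) h

/-- sums against a column of `annR` -/
theorem sum_annR_col {X : ℕ} (j : Fin n) (l : Ct n (X + 1)) (f : Ct n X → ℂ) :
    ∑ k, annR X j k l * f k = if h : 1 ≤ l.1 j then
      ((Real.sqrt (l.1 j) : ℝ) : ℂ) * f ⟨down l.1 j, down_mem l.2 h⟩ else 0 := by
  by_cases h : 1 ≤ l.1 j
  · rw [dif_pos h, Finset.sum_eq_single (⟨down l.1 j, down_mem l.2 h⟩ : Ct n X)]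
    · unfold annR
      rw [if_pos (by show l.1 = up (down l.1 j) j; rw [up_down h])]
    · intro k _ hk
      unfold annR
      rw [if_neg, zero_mul]
      intro h1
      exact hk (Subtype.ext (up_eq_iff.1 h1).2)
    · intro h
      exact absurd (Finset.mem_univ _) h
  · rw [dif_neg h]
    refine Finset.sum_eq_zero fun k _ => ?_
    unfold annR
    rw [if_neg, zero_mul]
    intro h1
    exact h (up_eq_iff.1 h1).1

theorem star_annR (X : ℕ) (j : Fin n) (k : Ct n X) (l : Ct n (X + 1)) :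
    star (annR X j k l) = annR X j k l := by
  unfold annR
  split_ifs
  · exact Complex.conj_ofReal _
  · exact star_zero _

/-- `a_j† A a_j` -/
theorem conj_annR_mul {X : ℕ} (j : Fin n) (s : Conf n → Conf n → ℂ) (x y : Ct n (X + 1)) :
    ((annR X j)ᴴ * cut X s * annR X j) x y = if 1 ≤ x.1 j ∧ 1 ≤ y.1 j then
      ((Real.sqrt (x.1 j) * Real.sqrt (y.1 j) : ℝ) : ℂ) * s (down x.1 j) (down y.1 j) else 0 := by
  have e1 : ∀ l : Ct n X, ((annR X j)ᴴ * cut X s) x l = if h : 1 ≤ x.1 j then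
      ((Real.sqrt (x.1 j) : ℝ) : ℂ) * s (down x.1 j) l.1 else 0 := by
    intro l
    rw [Matrix.mul_apply]
    refine (Finset.sum_congr rfl fun k _ => ?_).trans (sum_annR_col j x (fun k => cut X s k l))
    rw [conjTranspose_apply, star_annR]
  rw [Matrix.mul_apply]
  have e2 : ∀ l : Ct n X, ((annR X j)ᴴ * cut X s) x l * annR X j l y =
      annR X j l y * (((annR X j)ᴴ * cut X s) x l) := fun l => mul_comm _ _
  rw [Finset.sum_congr rfl (fun l _ => e2 l), sum_annR_col]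
  by_cases hy : 1 ≤ y.1 j
  · rw [dif_pos hy, e1]
    by_cases hx : 1 ≤ x.1 j
    · rw [dif_pos hx, if_pos ⟨hx, hy⟩]
      push_cast
      ring
    · rw [dif_neg hx, if_neg (fun h => hx h.1), mul_zero]
  · rw [dif_neg hy, if_neg (fun h => hy h.2)]

/-- `a_j A a_j†` -/
theorem annR_mul_conj {X : ℕ} (j : Fin n) (s : Conf n → Conf n → ℂ) (x y : Ct n X) :
    (annR X j * cut (X + 1) s * (annR X j)ᴴ) x y =
      ((Real.sqrt ((x.1 j : ℝ) + 1) * Real.sqrt ((y.1 j : ℝ) + 1) : ℝ) : ℂ) *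
        s (up x.1 j) (up y.1 j) := by
  have e1 : ∀ l : Ct n (X + 1), (annR X j * cut (X + 1) s) x l =
      ((Real.sqrt ((x.1 j : ℝ) + 1) : ℝ) : ℂ) * s (up x.1 j) l.1 := by
    intro l
    rw [Matrix.mul_apply, sum_annR_row]
    rfl
  rw [Matrix.mul_apply]
  have e2 : ∀ l : Ct n (X + 1), (annR X j * cut (X + 1) s) x l * (annR X j)ᴴ l y =
      annR X j y l * ((annR X j * cut (X + 1) s) x l) := fun l => by
    rw [conjTranspose_apply, star_annR, mul_comm]
  rw [Finset.sum_congr rfl (fun l _ => e2 l), sum_annR_row, e1]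
  push_cast
  ring

/-- `a_j a_j† = diag (x_j + 1)` -/
theorem annR_mul_self_conj {X : ℕ} (j : Fin n) :
    annR X j * (annR X j)ᴴ = diagonal fun x : Ct n X => ((x.1 j : ℂ) + 1) := by
  ext x y
  rw [Matrix.mul_apply]
  have e2 : ∀ l : Ct n (X + 1), annR X j x l * (annR X j)ᴴ l y = annR X j x l * annR X j y l :=
    fun l => by rw [conjTranspose_apply, star_annR]
  rw [Finset.sum_congr rfl (fun l _ => e2 l), sum_annR_row]
  unfold annR
  by_cases h : x = y
  · subst h
    rw [diagonal_apply_eq, if_pos rfl, ← Complex.ofReal_mul]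
    have : ((up x.1 j j : ℕ) : ℝ) = (x.1 j : ℝ) + 1 := by rw [up_same]; push_cast; rfl
    rw [this, Real.mul_self_sqrt (by (clear * -; positivity))]
    push_cast
    rfl
  · rw [diagonal_apply_ne _ h, if_neg, mul_zero]
    intro h1
    apply h
    have h2 : up x.1 j = up y.1 j := h1
    have h3 := congrArg (fun z => down z j) h2
    simp only [down_up] at h3
    exact Subtype.ext h3

/-- `a_j† a_j = diag (x_j)` -/
theorem conj_mul_annR_self {X : ℕ} (j : Fin n) :
    (annR X j)ᴴ * annR X j = diagonal fun x : Ct n (X + 1) => (x.1 j : ℂ) := by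
  ext x y
  rw [Matrix.mul_apply]
  have e2 : ∀ l : Ct n X, (annR X j)ᴴ x l * annR X j l y = annR X j l x * annR X j l y :=
    fun l => by rw [conjTranspose_apply, star_annR]
  rw [Finset.sum_congr rfl (fun l _ => e2 l), sum_annR_col]
  by_cases hx : 1 ≤ x.1 j
  · rw [dif_pos hx]
    unfold annR
    by_cases h : x = y
    · subst h
      rw [diagonal_apply_eq, if_pos (by show x.1 = up (down x.1 j) j; rw [up_down hx]),
        ← Complex.ofReal_mul, Real.mul_self_sqrt (by positivity)]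
      push_cast
      rfl
    · rw [diagonal_apply_ne _ h, if_neg, mul_zero]
      intro h1
      apply h
      have h2 : y.1 = up (down x.1 j) j := h1
      rw [up_down hx] at h2
      exact Subtype.ext h2.symm
  · rw [dif_neg hx]
    by_cases h : x = y
    · subst h
      rw [diagonal_apply_eq]
      have : x.1 j = 0 := by omega
      rw [this]
      simp
    · rw [diagonal_apply_ne _ h]

/-- the step of `cc` -/
theorem cc_up (k : ℝ) (m l : Conf n) (j : Fin n) :
    Real.sqrt ((l j : ℝ) + 1) * cc k m (up l j) =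
      Real.sqrt ((m j : ℝ) + l j + 1) * Real.sqrt (1 - 1 / k) * cc k m l := by
  unfold cc
  rw [← Finset.mul_prod_erase Finset.univ _ (Finset.mem_univ j),
    ← Finset.mul_prod_erase Finset.univ (fun j => (Real.sqrt ((m j + l j).choose (l j) : ℕ) *
      (Real.sqrt k)⁻¹ ^ (m j + 1) * Real.sqrt (1 - 1 / k) ^ (l j))) (Finset.mem_univ j)]
  have e : ∏ x ∈ Finset.univ.erase j, (Real.sqrt ((m x + up l j x).choose (up l j x) : ℕ) *
      (Real.sqrt k)⁻¹ ^ (m x + 1) * Real.sqrt (1 - 1 / k) ^ (up l j x)) =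
      ∏ x ∈ Finset.univ.erase j, (Real.sqrt ((m x + l x).choose (l x) : ℕ) *
      (Real.sqrt k)⁻¹ ^ (m x + 1) * Real.sqrt (1 - 1 / k) ^ (l x)) := by
    refine Finset.prod_congr rfl fun i hi => ?_
    rw [up_ne _ (Finset.ne_of_mem_erase hi)]
  rw [e, up_same]
  have h1 : Real.sqrt ((l j : ℝ) + 1) * Real.sqrt ((m j + (l j + 1)).choose (l j + 1) : ℕ) =
      Real.sqrt ((m j : ℝ) + l j + 1) * Real.sqrt ((m j + l j).choose (l j) : ℕ) := by
    rw [← Real.sqrt_mul (by positivity), ← Real.sqrt_mul (by (clear * -; positivity))]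
    congr 1
    have h2 := Nat.add_one_mul_choose_eq (m j + l j) (l j)
    have h3 : (((m j + l j + 1) * (m j + l j).choose (l j) : ℕ) : ℝ) =
        (((m j + l j + 1).choose (l j + 1) * (l j + 1) : ℕ) : ℝ) := by
      exact_mod_cast h2
    push_cast at h3
    have h4 : m j + (l j + 1) = m j + l j + 1 := by ring
    rw [h4, h3]
    ring
  calc _ = (Real.sqrt ((l j : ℝ) + 1) * Real.sqrt ((m j + (l j + 1)).choose (l j + 1) : ℕ)) *
        ((Real.sqrt k)⁻¹ ^ (m j + 1) * Real.sqrt (1 - 1 / k) ^ (l j + 1) *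
        ∏ x ∈ Finset.univ.erase j, (Real.sqrt ((m x + l x).choose (l x) : ℕ) *
      (Real.sqrt k)⁻¹ ^ (m x + 1) * Real.sqrt (1 - 1 / k) ^ (l x))) := by ring
    _ = _ := by rw [h1]; ring

theorem cc_factor (k : ℝ) (m l : Conf n) :
    cc k m l = (∏ j, Real.sqrt ((m j + l j).choose (l j) : ℕ)) *
      ((Real.sqrt k)⁻¹ ^ (∑ j, (m j + 1)) * Real.sqrt (1 - 1 / k) ^ (∑ j, l j)) := by
  unfold cc
  rw [Finset.prod_mul_distrib, Finset.prod_mul_distrib, Finset.prod_pow_eq_pow_sum,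
    Finset.prod_pow_eq_pow_sum]
  ring

theorem hasDerivAt_inv_sqrt_pow {k : ℝ} (hk : 0 < k) (K : ℕ) :
    HasDerivAt (fun x : ℝ => (Real.sqrt x)⁻¹ ^ K) (-((K : ℝ) / (2 * k)) * (Real.sqrt k)⁻¹ ^ K) k := by
  have hs : Real.sqrt k ≠ 0 := (Real.sqrt_pos.2 hk).ne'
  have h := ((Real.hasDerivAt_sqrt hk.ne').inv hs).pow K
  refine h.congr_deriv ?_
  have h1 : Real.sqrt k * Real.sqrt k = k := Real.mul_self_sqrt hk.le
  rcases K with _ | K
  · simp only [CharP.cast_eq_zero, Pi.inv_apply, zero_tsub, pow_zero, mul_one, one_div, _root_.mul_inv_rev, zero_mul, zero_div, neg_zero]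
  · have h3 : 2 * k = 2 * (Real.sqrt k * Real.sqrt k) := by rw [h1]
    rw [Nat.add_sub_cancel, h3]
    simp only [Pi.inv_apply]
    have h4 : (Real.sqrt k)⁻¹ ^ (K + 1) = (Real.sqrt k)⁻¹ ^ K * (Real.sqrt k)⁻¹ := pow_succ _ _
    rw [h4]
    set r := (Real.sqrt k)⁻¹ ^ K
    field_simp

theorem hasDerivAt_sqrt_one_sub_pow {k : ℝ} (hk : 1 < k) (L : ℕ) :
    HasDerivAt (fun x : ℝ => Real.sqrt (1 - 1 / x) ^ L)
      ((L : ℝ) / (2 * k * (k - 1)) * Real.sqrt (1 - 1 / k) ^ L) k := by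
  have hk0 : 0 < k := by linarith only [hk]
  have hp : 0 < 1 - 1 / k := by
    rw [sub_pos, div_lt_one hk0]; exact hk
  have h1 : HasDerivAt (fun x : ℝ => 1 - 1 / x) (1 / k ^ 2) k := by
    have h := (hasDerivAt_inv hk0.ne').const_sub 1
    refine (h.congr_deriv ?_).congr_of_eventuallyEq ?_
    · rw [neg_neg, one_div]
    · exact Filter.Eventually.of_forall fun y => by simp
  have h := (h1.sqrt hp.ne').pow L
  refine h.congr_deriv ?_
  have h2 : Real.sqrt (1 - 1 / k) * Real.sqrt (1 - 1 / k) = 1 - 1 / k := Real.mul_self_sqrt hp.le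
  have hs : Real.sqrt (1 - 1 / k) ≠ 0 := (Real.sqrt_pos.2 hp).ne'
  have hk1 : k - 1 ≠ 0 := by linarith only [hk]
  rcases L with _ | L
  · simp only [CharP.cast_eq_zero, one_div, zero_tsub, pow_zero, mul_one, zero_mul, zero_div]
  · rw [Nat.add_sub_cancel, pow_succ]
    have h3 : Real.sqrt (1 - 1 / k) * Real.sqrt (1 - 1 / k) * k = k - 1 := by
      rw [h2]; field_simp
    set q := Real.sqrt (1 - 1 / k)
    rw [← h3]
    field_simp
    try ring

/-- derivative of `cc` -/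
theorem hasDerivAt_cc {k : ℝ} (hk : 1 < k) (m l : Conf n) :
    HasDerivAt (fun x : ℝ => cc x m l)
      ((-((tot m + n) / (2 * k)) + tot l / (2 * k * (k - 1))) * cc k m l) k := by
  have e : (fun x : ℝ => cc x m l) = fun x : ℝ =>
      (∏ j, Real.sqrt ((m j + l j).choose (l j) : ℕ)) *
      ((Real.sqrt x)⁻¹ ^ (∑ j, (m j + 1)) * Real.sqrt (1 - 1 / x) ^ (∑ j, l j)) :=
    funext fun x => cc_factor x m l
  rw [e, cc_factor k]
  have h := ((hasDerivAt_inv_sqrt_pow (k := k) (by linarith only [hk]) (∑ j, (m j + 1))).mul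
    (hasDerivAt_sqrt_one_sub_pow hk (∑ j, l j))).const_mul
    (∏ j, Real.sqrt ((m j + l j).choose (l j) : ℕ))
  refine h.congr_deriv ?_
  have e1 : ((∑ j, (m j + 1) : ℕ) : ℝ) = tot m + n := by
    unfold tot
    push_cast
    rw [Finset.sum_add_distrib]
    simp only [Finset.sum_const, Finset.card_univ, Fintype.card_fin, nsmul_eq_mul, mul_one]
  have e2 : ((∑ j, l j : ℕ) : ℝ) = tot l := by
    unfold tot
    push_cast
    rfl
  rw [e1, e2]
  ring

end

end Vale.Agent.P369A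
end
end

section

section

/-!
P369A: the differential equations of the amplifier channel and of its complement.
-/

namespace Vale.Agent.P369A

open Matrix
open Vale.Agent.P369 (Conf up down)

noncomputable section

variable {n : ℕ}

/-- `diag (|x| + n)` -/
def NN (n X : ℕ) : Matrix (Ct n X) (Ct n X) ℂ := diagonal fun x => ((tot x.1 + n : ℝ) : ℂ)

/-- `diag |x|` -/
def Nd (n X : ℕ) : Matrix (Ct n X) (Ct n X) ℂ := diagonal fun x => ((tot x.1 : ℝ) : ℂ)

theorem sum_annR_mul_conj (X : ℕ) : ∑ j, annR X j * (annR X j)ᴴ = NN n X := by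
  simp only [annR_mul_self_conj]
  ext x y
  rw [Matrix.sum_apply]
  unfold NN
  by_cases h : x = y
  · subst h
    simp only [diagonal_apply_eq]
    unfold tot
    push_cast
    rw [Finset.sum_add_distrib]
    simp only [Finset.sum_const, Finset.card_univ, Fintype.card_fin, nsmul_eq_mul, mul_one]
  · rw [diagonal_apply_ne _ h]
    exact Finset.sum_eq_zero fun j _ => diagonal_apply_ne _ h

theorem sum_conj_mul_annR (X : ℕ) : ∑ j : Fin n, (annR X j)ᴴ * annR X j = Nd n (X + 1) := by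
  simp only [conj_mul_annR_self]
  ext x y
  rw [Matrix.sum_apply]
  unfold Nd
  by_cases h : x = y
  · subst h
    simp only [diagonal_apply_eq]
    unfold tot
    push_cast
    rfl
  · rw [diagonal_apply_ne _ h]
    exact Finset.sum_eq_zero fun j _ => diagonal_apply_ne _ h

theorem tot_sub {x l : Conf n} (h : l ≤ x) : tot (x - l) = tot x - tot l := by
  unfold tot
  rw [← Finset.sum_sub_distrib]
  refine Finset.sum_congr rfl fun j _ => ?_
  rw [Pi.sub_apply, Nat.cast_sub (h j)]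

theorem tot_add (x l : Conf n) : tot (x + l) = tot x + tot l := by
  unfold tot
  rw [← Finset.sum_add_distrib]
  refine Finset.sum_congr rfl fun j _ => ?_
  rw [Pi.add_apply]
  push_cast
  rfl

theorem down_le {l x : Conf n} (h : l ≤ x) (j : Fin n) : down l j ≤ down x j := by
  intro i
  by_cases hi : i = j
  · subst hi
    rw [down_same, down_same]
    exact Nat.sub_le_sub_right (h i) 1
  · rw [down_ne _ hi, down_ne _ hi]
    exact h i

theorem up_le_of {l x : Conf n} {j : Fin n} (hx : 1 ≤ x j) (h : l ≤ down x j) : up l j ≤ x := by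
  intro i
  by_cases hi : i = j
  · subst hi
    have h1 : l i ≤ x i - 1 := by
      have h2 := h i
      rwa [down_same] at h2
    rw [up_same]
    show l i + 1 ≤ x i
    omega
  · have := h i
    rw [down_ne _ hi] at this
    rw [up_ne _ hi]
    exact this

theorem sub_up (x l : Conf n) (j : Fin n) : x - up l j = down x j - l := by
  funext i
  rw [Pi.sub_apply, Pi.sub_apply]
  by_cases hi : i = j
  · subst hi
    rw [up_same, down_same]
    omega
  · rw [up_ne _ hi, down_ne _ hi]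

theorem sqrt_one_sub_sq {k : ℝ} (hk : 1 < k) :
    k / (k - 1) * (Real.sqrt (1 - 1 / k) * Real.sqrt (1 - 1 / k)) = 1 := by
  have hk0 : 0 < k := by linarith
  have hk1 : k - 1 ≠ 0 := by linarith
  have hp : 0 ≤ 1 - 1 / k := by
    rw [sub_nonneg, div_le_one hk0]; exact hk.le
  rw [Real.mul_self_sqrt hp]
  field_simp

/-- the terms of `ampE` -/
def tC (k : ℝ) (s : Conf n → Conf n → ℂ) (x y l : Conf n) : ℂ :=
  ((cc k (x - l) l * cc k (y - l) l : ℝ) : ℂ) * s (x - l) (y - l)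

theorem ampE_eq (k : ℝ) (s : Conf n → Conf n → ℂ) (x y : Conf n) :
    ampE k s x y = ∑ l ∈ Finset.Iic (x ⊓ y), tC k s x y l := rfl

theorem tC_up {k : ℝ} (hk : 1 < k) (s : Conf n → Conf n → ℂ) {x y l : Conf n} {j : Fin n}
    (hx : 1 ≤ x j) (hy : 1 ≤ y j) (hlx : l ≤ down x j) (hly : l ≤ down y j) :
    (((up l j j : ℕ) : ℝ) * (k / (k - 1)) : ℝ) * tC k s x y (up l j) =
      ((Real.sqrt (x j) * Real.sqrt (y j) : ℝ) : ℂ) * tC k s (down x j) (down y j) l := by
  unfold tC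
  rw [sub_up, sub_up, ← mul_assoc, ← mul_assoc, ← Complex.ofReal_mul, ← Complex.ofReal_mul]
  congr 2
  have h1 := cc_up k (down x j - l) l j
  have h2 := cc_up k (down y j - l) l j
  have e : ∀ z : Conf n, 1 ≤ z j → l ≤ down z j →
      (((down z j - l) j : ℕ) : ℝ) + l j + 1 = z j := by
    intro z hz hl
    have h3 : l j ≤ z j - 1 := by
      have h2 := hl j
      rwa [down_same] at h2
    rw [Pi.sub_apply, down_same]
    have h4 : z j - 1 - l j + l j + 1 = z j := by omega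
    exact_mod_cast h4
  rw [e x hx hlx] at h1
  rw [e y hy hly] at h2
  have h3 : ((up l j j : ℕ) : ℝ) = Real.sqrt ((l j : ℝ) + 1) * Real.sqrt ((l j : ℝ) + 1) := by
    rw [Real.mul_self_sqrt (by positivity), up_same]
    push_cast
    rfl
  rw [h3]
  calc _ = (Real.sqrt ((l j : ℝ) + 1) * cc k (down x j - l) (up l j)) *
        (Real.sqrt ((l j : ℝ) + 1) * cc k (down y j - l) (up l j)) * (k / (k - 1)) := by ring
    _ = (k / (k - 1) * (Real.sqrt (1 - 1 / k) * Real.sqrt (1 - 1 / k))) *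
        (Real.sqrt (x j) * Real.sqrt (y j) * (cc k (down x j - l) l * cc k (down y j - l) l)) := by
      rw [h1, h2]; ring
    _ = _ := by rw [sqrt_one_sub_sq hk, one_mul]

theorem sum_tC {k : ℝ} (hk : 1 < k) (s : Conf n → Conf n → ℂ) (x y : Conf n) (j : Fin n) :
    ∑ l ∈ Finset.Iic (x ⊓ y), (((l j : ℝ) * (k / (k - 1)) : ℝ) : ℂ) * tC k s x y l =
      if 1 ≤ x j ∧ 1 ≤ y j then ((Real.sqrt (x j) * Real.sqrt (y j) : ℝ) : ℂ) *
        ampE k s (down x j) (down y j) else 0 := by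
  by_cases h : 1 ≤ x j ∧ 1 ≤ y j
  · rw [if_pos h, ampE_eq, Finset.mul_sum]
    rw [← Finset.sum_filter_add_sum_filter_not (Finset.Iic (x ⊓ y)) (fun l => 1 ≤ l j)]
    have e0 : ∑ l ∈ (Finset.Iic (x ⊓ y)).filter (fun l => ¬ 1 ≤ l j),
        (((l j : ℝ) * (k / (k - 1)) : ℝ) : ℂ) * tC k s x y l = 0 := by
      refine Finset.sum_eq_zero fun l hl => ?_
      have h1 := (Finset.mem_filter.1 hl).2
      have h2 : l j = 0 := by omega
      rw [h2]
      simp only [CharP.cast_eq_zero, zero_mul, Complex.ofReal_zero]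
    rw [e0, add_zero]
    refine Finset.sum_nbij' (fun l => down l j) (fun l => up l j) ?_ ?_ ?_ ?_ ?_
    · intro l hl
      obtain ⟨h1, h2⟩ := Finset.mem_filter.1 hl
      have h3 := le_inf_iff.1 (Finset.mem_Iic.1 h1)
      exact Finset.mem_Iic.2 (le_inf (down_le h3.1 j) (down_le h3.2 j))
    · intro l hl
      have h3 := le_inf_iff.1 (Finset.mem_Iic.1 hl)
      refine Finset.mem_filter.2 ⟨Finset.mem_Iic.2 (le_inf (up_le_of h.1 h3.1) (up_le_of h.2 h3.2)), ?_⟩
      rw [up_same]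
      omega
    · intro l hl
      exact up_down (Finset.mem_filter.1 hl).2
    · intro l _
      exact down_up l j
    · intro l hl
      obtain ⟨h1, h2⟩ := Finset.mem_filter.1 hl
      have h3 := le_inf_iff.1 (Finset.mem_Iic.1 h1)
      have := tC_up hk s h.1 h.2 (down_le h3.1 j) (down_le h3.2 j)
      rw [up_down h2] at this
      exact this
  · rw [if_neg h]
    refine Finset.sum_eq_zero fun l hl => ?_
    have h3 := le_inf_iff.1 (Finset.mem_Iic.1 hl)
    have h4 : l j ≤ x j := h3.1 j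
    have h5 : l j ≤ y j := h3.2 j
    have h2 : l j = 0 := by
      by_contra h6
      exact h ⟨by omega, by omega⟩
    rw [h2]
    simp only [CharP.cast_eq_zero, zero_mul, Complex.ofReal_zero]

theorem hasDerivAt_tC {k : ℝ} (hk : 1 < k) (s : Conf n → Conf n → ℂ) {x y l : Conf n}
    (hx : l ≤ x) (hy : l ≤ y) :
    HasDerivAt (fun t => tC t s x y l)
      (((1 / k : ℝ) : ℂ) * ((∑ j, (((l j : ℝ) * (k / (k - 1)) : ℝ) : ℂ) * tC k s x y l) -
        (((tot x + tot y) / 2 + n : ℝ) : ℂ) * tC k s x y l)) k := by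
  unfold tC
  have h := (((hasDerivAt_cc hk (x - l) l).mul (hasDerivAt_cc hk (y - l) l)).ofReal_comp).mul_const
    (s (x - l) (y - l))
  refine h.congr_deriv ?_
  rw [tot_sub hx, tot_sub hy, ← Finset.sum_mul, ← Complex.ofReal_sum]
  have e : ∑ j, (l j : ℝ) * (k / (k - 1)) = tot l * (k / (k - 1)) := by
    rw [← Finset.sum_mul]
    rfl
  rw [e]
  have hk0 : k ≠ 0 := by linarith only [hk]
  have hk1 : k - 1 ≠ 0 := by linarith only [hk]
  have hk0' : (k : ℂ) ≠ 0 := by exact_mod_cast hk0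
  have hk1' : (k : ℂ) - 1 ≠ 0 := by exact_mod_cast hk1
  push_cast
  field_simp
  ring

/-- the amplifier equation, entrywise -/
theorem hasDerivAt_ampE {k : ℝ} (hk : 1 < k) (s : Conf n → Conf n → ℂ) (x y : Conf n) :
    HasDerivAt (fun t => ampE t s x y)
      (((1 / k : ℝ) : ℂ) * ((∑ j, if 1 ≤ x j ∧ 1 ≤ y j then
        ((Real.sqrt (x j) * Real.sqrt (y j) : ℝ) : ℂ) * ampE k s (down x j) (down y j) else 0) -
        (((tot x + tot y) / 2 + n : ℝ) : ℂ) * ampE k s x y)) k := by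
  have h : HasDerivAt (fun t => ∑ l ∈ Finset.Iic (x ⊓ y), tC t s x y l)
      (∑ l ∈ Finset.Iic (x ⊓ y),
        (((1 / k : ℝ) : ℂ) * ((∑ j, (((l j : ℝ) * (k / (k - 1)) : ℝ) : ℂ) * tC k s x y l) -
        (((tot x + tot y) / 2 + n : ℝ) : ℂ) * tC k s x y l))) k := by
    refine HasDerivAt.fun_sum fun l hl => ?_
    have h3 := le_inf_iff.1 (Finset.mem_Iic.1 hl)
    exact hasDerivAt_tC hk s h3.1 h3.2
  refine h.congr_deriv ?_
  rw [← Finset.mul_sum, Finset.sum_sub_distrib, Finset.sum_comm, ← Finset.mul_sum, ← ampE_eq]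
  congr 2
  exact Finset.sum_congr rfl fun j _ => sum_tC hk s x y j

/-- the generator of the amplifier semigroup, compressed -/
def genC (X : ℕ) (s : Conf n → Conf n → ℂ) : Matrix (Ct n (X + 1)) (Ct n (X + 1)) ℂ :=
  ∑ j : Fin n, (annR X j).conjTranspose * cut X s * annR X j -
    (1 / 2 : ℂ) • (NN n (X + 1) * cut (X + 1) s + cut (X + 1) s * NN n (X + 1))

/-! ### the complement -/

/-- the terms of `conE` -/
def tD (k : ℝ) (s : Conf n → Conf n → ℂ) (l l' m m' : Conf n) : ℂ :=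
  if m + l = m' + l' then ((cc k m l * cc k m' l' : ℝ) : ℂ) * s m m' else 0

theorem conE_eq (k : ℝ) (Y : ℕ) (s : Conf n → Conf n → ℂ) (l l' : Conf n) :
    conE k Y s l l' = ∑ m : Ct n Y, ∑ m' : Ct n Y, tD k s l l' m.1 m'.1 := rfl

theorem add_up_eq_iff (m l m' l' : Conf n) (j : Fin n) :
    m + up l j = m' + up l' j ↔ m + l = m' + l' := by
  constructor
  · intro h
    funext i
    have h1 := congrFun h i
    rw [Pi.add_apply, Pi.add_apply] at h1 ⊢
    by_cases hi : i = j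
    · subst hi
      rw [up_same, up_same] at h1
      omega
    · rw [up_ne _ hi, up_ne _ hi] at h1
      exact h1
  · intro h
    funext i
    have h1 := congrFun h i
    rw [Pi.add_apply, Pi.add_apply] at h1 ⊢
    by_cases hi : i = j
    · subst hi
      rw [up_same, up_same]
      omega
    · rw [up_ne _ hi, up_ne _ hi]
      exact h1

theorem tD_up {k : ℝ} (hk : 1 < k) (s : Conf n → Conf n → ℂ) (l l' m m' : Conf n) (j : Fin n) :
    ((Real.sqrt ((l j : ℝ) + 1) * Real.sqrt ((l' j : ℝ) + 1) : ℝ) : ℂ) *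
      tD k s (up l j) (up l' j) m m' =
      ((((m j : ℝ) + l j + 1) * ((k - 1) / k) : ℝ) : ℂ) * tD k s l l' m m' := by
  unfold tD
  by_cases h : m + l = m' + l'
  · rw [if_pos h, if_pos ((add_up_eq_iff m l m' l' j).2 h), ← mul_assoc, ← mul_assoc,
      ← Complex.ofReal_mul, ← Complex.ofReal_mul]
    congr 2
    have h1 := cc_up k m l j
    have h2 := cc_up k m' l' j
    have h3 : (m' j : ℝ) + l' j = (m j : ℝ) + l j := by
      have := congrFun h j
      rw [Pi.add_apply, Pi.add_apply] at this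
      exact_mod_cast this.symm
    rw [h3] at h2
    have h4 : Real.sqrt ((m j : ℝ) + l j + 1) * Real.sqrt ((m j : ℝ) + l j + 1) =
        (m j : ℝ) + l j + 1 := Real.mul_self_sqrt (by (clear * -; positivity))
    have h5 := sqrt_one_sub_sq hk
    have hk0 : 0 < k := by linarith only [hk]
    have hk1 : k - 1 ≠ 0 := by linarith only [hk]
    have h6 : Real.sqrt (1 - 1 / k) * Real.sqrt (1 - 1 / k) = (k - 1) / k := by
      field_simp at h5 ⊢
      linarith only [h5]
    calc _ = (Real.sqrt ((l j : ℝ) + 1) * cc k m (up l j)) *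
          (Real.sqrt ((l' j : ℝ) + 1) * cc k m' (up l' j)) := by ring
      _ = (Real.sqrt ((m j : ℝ) + l j + 1) * Real.sqrt ((m j : ℝ) + l j + 1)) *
          (Real.sqrt (1 - 1 / k) * Real.sqrt (1 - 1 / k)) * (cc k m l * cc k m' l') := by
        rw [h1, h2]; ring
      _ = _ := by rw [h4, h6]
  · rw [if_neg h, if_neg (fun h' => h ((add_up_eq_iff m l m' l' j).1 h')), mul_zero, mul_zero]

theorem hasDerivAt_tD {k : ℝ} (hk : 1 < k) (s : Conf n → Conf n → ℂ) (l l' m m' : Conf n) :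
    HasDerivAt (fun t => tD t s l l' m m')
      (((1 / (k - 1) : ℝ) : ℂ) * ((((tot l + tot l') / 2 : ℝ) : ℂ) * tD k s l l' m m' -
        ∑ j, ((Real.sqrt ((l j : ℝ) + 1) * Real.sqrt ((l' j : ℝ) + 1) : ℝ) : ℂ) *
          tD k s (up l j) (up l' j) m m')) k := by
  rw [Finset.sum_congr rfl (fun j _ => tD_up hk s l l' m m' j), ← Finset.sum_mul]
  unfold tD
  by_cases h : m + l = m' + l'
  · simp only [if_pos h]
    have h0 := (((hasDerivAt_cc hk m l).mul (hasDerivAt_cc hk m' l')).ofReal_comp).mul_const (s m m')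
    refine h0.congr_deriv ?_
    have e : ∑ j, (((((m j : ℝ) + l j + 1) * ((k - 1) / k) : ℝ)) : ℂ) =
        (((tot m + tot l + n) * ((k - 1) / k) : ℝ) : ℂ) := by
      rw [← Complex.ofReal_sum, ← Finset.sum_mul]
      congr 2
      unfold tot
      rw [Finset.sum_add_distrib, Finset.sum_add_distrib]
      simp only [Finset.sum_const, Finset.card_univ, Fintype.card_fin, nsmul_eq_mul, mul_one]
    rw [e]
    have h1 : tot m + tot l = tot m' + tot l' := by
      rw [← tot_add, ← tot_add, h]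
    have h2 : tot m' = tot m + tot l - tot l' := by linarith only [h1]
    have hk0 : k ≠ 0 := by linarith only [hk]
    have hk1 : k - 1 ≠ 0 := by linarith only [hk]
    have hk0' : (k : ℂ) ≠ 0 := by exact_mod_cast hk0
    have hk1' : (k : ℂ) - 1 ≠ 0 := by exact_mod_cast hk1
    rw [h2]
    push_cast
    field_simp
    ring
  · simp only [if_neg h, mul_zero, sub_zero]
    exact hasDerivAt_const k (0 : ℂ)

/-- the equation of the complementary channel, entrywise -/
theorem hasDerivAt_conE {k : ℝ} (hk : 1 < k) (Y : ℕ) (s : Conf n → Conf n → ℂ) (l l' : Conf n) :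
    HasDerivAt (fun t => conE t Y s l l')
      (((1 / (k - 1) : ℝ) : ℂ) * ((((tot l + tot l') / 2 : ℝ) : ℂ) * conE k Y s l l' -
        ∑ j, ((Real.sqrt ((l j : ℝ) + 1) * Real.sqrt ((l' j : ℝ) + 1) : ℝ) : ℂ) *
          conE k Y s (up l j) (up l' j))) k := by
  have h : HasDerivAt (fun t => ∑ m : Ct n Y, ∑ m' : Ct n Y, tD t s l l' m.1 m'.1)
      (∑ m : Ct n Y, ∑ m' : Ct n Y,
      (((1 / (k - 1) : ℝ) : ℂ) * ((((tot l + tot l') / 2 : ℝ) : ℂ) * tD k s l l' m.1 m'.1 -
        ∑ j, ((Real.sqrt ((l j : ℝ) + 1) * Real.sqrt ((l' j : ℝ) + 1) : ℝ) : ℂ) *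
          tD k s (up l j) (up l' j) m.1 m'.1))) k :=
    HasDerivAt.fun_sum fun m _ => HasDerivAt.fun_sum fun m' _ => hasDerivAt_tD hk s l l' m.1 m'.1
  refine h.congr_deriv ?_
  simp only [conE_eq, ← Finset.mul_sum, Finset.sum_sub_distrib]
  congr 2
  have e : ∀ m : Ct n Y, ∑ m' : Ct n Y, ∑ j : Fin n,
      ((Real.sqrt ((l j : ℝ) + 1) * Real.sqrt ((l' j : ℝ) + 1) : ℝ) : ℂ) *
          tD k s (up l j) (up l' j) m.1 m'.1 = ∑ j : Fin n, ∑ m' : Ct n Y,
      ((Real.sqrt ((l j : ℝ) + 1) * Real.sqrt ((l' j : ℝ) + 1) : ℝ) : ℂ) *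
          tD k s (up l j) (up l' j) m.1 m'.1 := fun m => Finset.sum_comm
  rw [Finset.sum_congr rfl (fun m _ => e m), Finset.sum_comm]
  refine Finset.sum_congr rfl fun j _ => ?_
  simp only [← Finset.mul_sum]

/-- minus the generator of the loss semigroup, compressed -/
def genD (X : ℕ) (s : Conf n → Conf n → ℂ) : Matrix (Ct n X) (Ct n X) ℂ :=
  (1 / 2 : ℂ) • (Nd n X * cut X s + cut X s * Nd n X) -
    ∑ j : Fin n, annR X j * cut (X + 1) s * (annR X j).conjTranspose

end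

end Vale.Agent.P369A
end
end

section

section

/-!
P369A: generic properties of `FX` and `IX` (modules G1, G2, G3).
-/

namespace Vale.Agent.P369A

open Matrix MeasureTheory Set Filter
open Vale.Agent.P369 (Conf up down)
open scoped ComplexOrder Topology

noncomputable section

variable {n : ℕ}

/-! ### `up` and `down` -/

theorem gfx_up_apply_self (k : Conf n) (j : Fin n) : up k j j = k j + 1 := by
  simp [up]

theorem gfx_up_down {l : Conf n} {j : Fin n} (h : l j ≠ 0) : up (down l j) j = l := by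
  ext i
  by_cases hi : i = j
  · subst hi
    simp only [up, down, Function.update_self]
    omega
  · simp only [up, down, Function.update_self, Function.update_of_ne hi]

theorem gfx_down_up (k : Conf n) (j : Fin n) : down (up k j) j = k := by
  ext i
  by_cases hi : i = j
  · subst hi
    simp only [down, up, Function.update_self, add_tsub_cancel_right]
  · simp only [down, up, Function.update_self, add_tsub_cancel_right, Function.update_of_ne hi]

theorem gfx_sum_up (k : Conf n) (j : Fin n) : ∑ i, up k j i = (∑ i, k i) + 1 := by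
  unfold up
  rw [Finset.sum_update_of_mem (Finset.mem_univ j), ← Finset.sum_erase_add _ _ (Finset.mem_univ j),
    Finset.sdiff_singleton_eq_erase]
  ring

theorem gfx_sum_down {l : Conf n} {j : Fin n} (h : l j ≠ 0) :
    (∑ i, down l j i) + 1 = ∑ i, l i := by
  rw [← gfx_sum_up, gfx_up_down h]

/-! ### entries of the products with `annR` -/

theorem gfx_annR_mul {κ : Type} (X : ℕ) (j : Fin n) (A : Matrix (Ct n (X + 1)) κ ℂ) (k : Ct n X)
    (l : κ) : (annR X j * A) k l =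
      ((Real.sqrt (k.1 j + 1) : ℝ) : ℂ) *
        A ⟨up k.1 j, by rw [gfx_sum_up]; exact Nat.succ_le_succ k.2⟩ l := by
  rw [mul_apply, Finset.sum_eq_single ⟨up k.1 j, by rw [gfx_sum_up]; exact Nat.succ_le_succ k.2⟩]
  · unfold annR
    rw [if_pos rfl]
    simp only [gfx_up_apply_self]
    push_cast
    rfl
  · intro l' _ hl'
    unfold annR
    rw [if_neg, zero_mul]
    intro h
    exact hl' (Subtype.ext h)
  · intro h
    exact absurd (Finset.mem_univ _) h

theorem gfx_mul_annR {κ : Type} (X : ℕ) (j : Fin n) (A : Matrix κ (Ct n X) ℂ) (k : κ)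
    (l : Ct n (X + 1)) (hl : l.1 j ≠ 0) : (A * annR X j) k l =
      A k ⟨down l.1 j, by have := gfx_sum_down hl; have := l.2; omega⟩ *
        ((Real.sqrt (l.1 j) : ℝ) : ℂ) := by
  have hm : ∑ i, down l.1 j i ≤ X := by have := gfx_sum_down hl; have := l.2; omega
  rw [mul_apply, Finset.sum_eq_single ⟨down l.1 j, hm⟩]
  · unfold annR
    rw [if_pos (gfx_up_down hl).symm]
  · intro l' _ hl'
    unfold annR
    rw [if_neg, mul_zero]
    intro h
    apply hl'
    apply Subtype.ext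
    show l'.1 = down l.1 j
    rw [h, gfx_down_up]
  · intro h
    exact absurd (Finset.mem_univ _) h

theorem gfx_mul_annR_zero {κ : Type} (X : ℕ) (j : Fin n) (A : Matrix κ (Ct n X) ℂ) (k : κ)
    (l : Ct n (X + 1)) (hl : l.1 j = 0) : (A * annR X j) k l = 0 := by
  rw [mul_apply]
  refine Finset.sum_eq_zero fun l' _ => ?_
  unfold annR
  rw [if_neg, mul_zero]
  intro h
  rw [h, gfx_up_apply_self] at hl
  exact absurd hl (Nat.succ_ne_zero _)

theorem gfx_annR_cut (s : Ker n) (X : ℕ) (j : Fin n) (k : Ct n X) (l : Ct n (X + 1)) :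
    (annR X j * cut (X + 1) s) k l = ((Real.sqrt (k.1 j + 1) : ℝ) : ℂ) * s (up k.1 j) l.1 := by
  rw [gfx_annR_mul]
  rfl

theorem gfx_cut_annR (s : Ker n) (X : ℕ) (j : Fin n) (k : Ct n X) (l : Ct n (X + 1)) :
    (cut X s * annR X j) k l = s k.1 (down l.1 j) * ((Real.sqrt (l.1 j) : ℝ) : ℂ) := by
  by_cases hl : l.1 j = 0
  · rw [gfx_mul_annR_zero _ _ _ _ _ hl, hl]
    simp
  · rw [gfx_mul_annR _ _ _ _ _ hl]
    rfl

/-- the inclusion of the cutoffs -/
def gfx_in (X : ℕ) (x : Ct n X) : Ct n (X + 1) := ⟨x.1, x.2.trans (Nat.le_succ X)⟩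

theorem gfx_in_inj (X : ℕ) : Function.Injective (gfx_in X : Ct n X → Ct n (X + 1)) := by
  intro x y h
  have h1 : (gfx_in X x).1 = (gfx_in X y).1 := congrArg Subtype.val h
  exact Subtype.ext h1

theorem gfx_Z_sub (s : Ker n) (X : ℕ) (j : Fin n) (a b : ℂ) :
    a • (annR X j * cut (X + 1) s) - b • (cut X s * annR X j) =
      (a • (annR (X + 1) j * cut (X + 1 + 1) s) - b • (cut (X + 1) s * annR (X + 1) j)).submatrix
        (gfx_in X) (gfx_in (X + 1)) := by
  ext k l
  rw [submatrix_apply, Matrix.sub_apply, Matrix.sub_apply, Matrix.smul_apply, Matrix.smul_apply,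
    Matrix.smul_apply, Matrix.smul_apply, gfx_annR_cut, gfx_cut_annR, gfx_annR_cut, gfx_cut_annR]
  rfl

/-! ### G1 -/

theorem FX_nonneg {s : Ker n} (hs : ∀ X, (cut X s).PosDef) {m : ℝ} (hm : m ∈ Icc (0 : ℝ) 1)
    (X : ℕ) : 0 ≤ FX m s X :=
  Finset.sum_nonneg fun _ _ => Qf_nonneg hm (hs X) (hs (X + 1)) _

theorem IX_nonneg {s : Ker n} (hs : ∀ X, (cut X s).PosDef) {m : ℝ} (hm : m ∈ Icc (0 : ℝ) 1)
    (r : ℝ) (X : ℕ) : 0 ≤ IX m r s X :=
  Finset.sum_nonneg fun _ _ => Qf_nonneg hm (hs X) (hs (X + 1)) _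

theorem gfx_Qf_le {s : Ker n} (hs : ∀ X, (cut X s).PosDef) {m : ℝ} (hm : m ∈ Icc (0 : ℝ) 1)
    (X : ℕ) (j : Fin n) (a b : ℂ) :
    Qf m (cut X s) (cut (X + 1) s) (a • (annR X j * cut (X + 1) s) - b • (cut X s * annR X j)) ≤
      Qf m (cut (X + 1) s) (cut (X + 1 + 1) s)
        (a • (annR (X + 1) j * cut (X + 1 + 1) s) - b • (cut (X + 1) s * annR (X + 1) j)) := by
  rw [gfx_Z_sub]
  exact Qf_submatrix_le hm (hs (X + 1)) (hs (X + 1 + 1)) (gfx_in_inj X) (gfx_in_inj (X + 1)) _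

theorem FX_mono {s : Ker n} (hs : ∀ X, (cut X s).PosDef) {m : ℝ} (hm : m ∈ Icc (0 : ℝ) 1) :
    Monotone (FX m s) := by
  refine monotone_nat_of_le_succ fun X => Finset.sum_le_sum fun j _ => ?_
  have h := gfx_Qf_le hs hm X j 1 1
  rw [one_smul, one_smul, one_smul, one_smul] at h
  exact h

theorem IX_mono {s : Ker n} (hs : ∀ X, (cut X s).PosDef) {m : ℝ} (hm : m ∈ Icc (0 : ℝ) 1)
    (r : ℝ) : Monotone (IX m r s) := by
  refine monotone_nat_of_le_succ fun X => Finset.sum_le_sum fun j _ => ?_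
  exact gfx_Qf_le hs hm X j _ _

theorem IX_convex {s : Ker n} (hs : ∀ X, (cut X s).PosDef) (r : ℝ) (X : ℕ) :
    ConvexOn ℝ (Icc 0 1) (fun m => IX m r s X) := by
  refine ⟨convex_Icc 0 1, fun x hx y hy a b ha hb hab => ?_⟩
  unfold IX
  simp only [smul_eq_mul]
  rw [Finset.mul_sum, Finset.mul_sum, ← Finset.sum_add_distrib]
  refine Finset.sum_le_sum fun j _ => ?_
  have ha' : a = 1 - b := by linarith only [hab]
  have h := Qf_joint_convex (hs X) (hs (X + 1)) (Zr r s X j) (w₀ := 1) (w₁ := 1) hx hy hb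
    (by linarith only [ha, hab])
  subst ha'
  simpa only [ge_iff_le, mul_one, sub_add_cancel, one_pow, one_mul] using h

/-! ### G2 -/

theorem gfx_annH_ann (X : ℕ) (j : Fin n) : (annR X j)ᴴ * annR X j =
    diagonal fun l : Ct n (X + 1) => ((l.1 j : ℝ) : ℂ) := by
  ext l l'
  by_cases hl : l'.1 j = 0
  · rw [gfx_mul_annR_zero _ _ _ _ _ hl, diagonal_apply]
    split_ifs with h
    · rw [h, hl]
      simp
    · rfl
  · rw [gfx_mul_annR _ _ _ _ _ hl, conjTranspose_apply, diagonal_apply]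
    unfold annR
    simp only [gfx_up_down hl]
    by_cases h : l = l'
    · rw [if_pos (congrArg Subtype.val h), if_pos h, h]
      have h1 : star ((Real.sqrt (l'.1 j) : ℝ) : ℂ) = ((Real.sqrt (l'.1 j) : ℝ) : ℂ) :=
        Complex.conj_ofReal _
      rw [h1, ← Complex.ofReal_mul, Real.mul_self_sqrt (Nat.cast_nonneg _)]
    · rw [if_neg (fun h' => h (Subtype.ext h')), if_neg h]
      simp only [star_zero, zero_mul]

theorem gfx_ann_annH (X : ℕ) (j : Fin n) : annR X j * (annR X j)ᴴ =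
    diagonal fun k : Ct n X => (((k.1 j : ℝ) + 1 : ℝ) : ℂ) := by
  ext k k'
  rw [gfx_annR_mul, conjTranspose_apply, diagonal_apply]
  unfold annR
  simp only
  by_cases h : k = k'
  · subst h
    rw [if_pos rfl, if_pos rfl, gfx_up_apply_self]
    have h1 : star ((Real.sqrt ((k.1 j + 1 : ℕ) : ℝ) : ℝ) : ℂ) =
        ((Real.sqrt ((k.1 j + 1 : ℕ) : ℝ) : ℝ) : ℂ) := Complex.conj_ofReal _
    have h2 : Real.sqrt ((k.1 j : ℝ) + 1) * Real.sqrt ((k.1 j + 1 : ℕ) : ℝ) = (k.1 j : ℝ) + 1 := by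
      push_cast
      exact Real.mul_self_sqrt (by positivity)
    rw [h1, ← Complex.ofReal_mul, h2]
  · rw [if_neg, if_neg h]
    · simp only [star_zero, mul_zero]
    · intro h'
      apply h
      apply Subtype.ext
      rw [← gfx_down_up k.1 j, h', gfx_down_up]

theorem gfx_sum_trace1 (s : Ker n) (X : ℕ) :
    ∑ j, (cut (X + 1) s * ((annR X j)ᴴ * annR X j)).trace.re = enX s (X + 1) := by
  unfold enX
  simp only [gfx_annH_ann, trace, diag_apply, mul_diagonal, Complex.re_sum]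
  rw [Finset.sum_comm]
  refine Finset.sum_congr rfl fun x _ => ?_
  rw [Finset.sum_mul]
  refine Finset.sum_congr rfl fun j _ => ?_
  rw [Complex.re_mul_ofReal, mul_comm]
  rfl

theorem gfx_sum_trace2 (s : Ker n) (X : ℕ) :
    ∑ j, (cut X s * (annR X j * (annR X j)ᴴ)).trace.re = enX s X + n * trX s X := by
  unfold enX trX
  simp only [trace, gfx_ann_annH, diag_apply, mul_diagonal, Complex.re_sum]
  rw [Finset.sum_comm, Finset.mul_sum, ← Finset.sum_add_distrib]
  refine Finset.sum_congr rfl fun x _ => ?_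
  have h : ∀ j : Fin n, ((cut X s x x) * (((x.1 j : ℝ) + 1 : ℝ) : ℂ)).re =
      (x.1 j : ℝ) * (s x.1 x.1).re + (s x.1 x.1).re := by
    intro j
    rw [Complex.re_mul_ofReal]
    unfold cut
    ring
  simp only [h]
  rw [Finset.sum_add_distrib, ← Finset.sum_mul, Finset.sum_const, Finset.card_univ,
    Fintype.card_fin, nsmul_eq_mul]

/-- G2 (Qf_thermal and the algebra of `annR`) -/
theorem IX_eq {s : Ker n} (hs : ∀ X, (cut X s).PosDef) {m : ℝ} (hm : m ∈ Icc (0 : ℝ) 1)
    (r : ℝ) (X : ℕ) :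
    IX m r s X = (m + r) ^ 2 * FX m s X + ((1 - m) + 2 * (m + r)) * enX s (X + 1) +
      (m - 2 * (m + r)) * (enX s X + n * trX s X) := by
  have h : ∀ j : Fin n, Qf m (cut X s) (cut (X + 1) s) (Zr r s X j) =
      (m + r) ^ 2 * Qf m (cut X s) (cut (X + 1) s)
        (annR X j * cut (X + 1) s - cut X s * annR X j) +
      ((1 - m) + 2 * (m + r)) * (cut (X + 1) s * ((annR X j)ᴴ * annR X j)).trace.re +
      (m - 2 * (m + r)) * (cut X s * (annR X j * (annR X j)ᴴ)).trace.re := by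
    intro j
    unfold Zr
    rw [Qf_thermal hm (hs X) (hs (X + 1)) (annR X j) r]
    unfold pen
    ring
  unfold IX FX
  simp only [h]
  rw [Finset.sum_add_distrib, Finset.sum_add_distrib, ← Finset.mul_sum, ← Finset.mul_sum,
    ← Finset.mul_sum, gfx_sum_trace1, gfx_sum_trace2]
  rfl

/-! ### G3 -/

theorem gfx_int_FX {s : Ker n} (hs : ∀ X, (cut X s).PosDef) (X : ℕ) :
    IntervalIntegrable (fun m => FX m s X) volume 0 1 := by
  have h := IntervalIntegrable.sum (Finset.univ : Finset (Fin n)) fun j _ =>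
    (int_Qf (hs X) (hs (X + 1)) (annR X j)).1
  have h2 : (fun m => FX m s X) = ∑ j : Fin n, fun m => Qf m (cut X s) (cut (X + 1) s)
      (annR X j * cut (X + 1) s - cut X s * annR X j) := by
    funext m
    rw [Finset.sum_apply]
    rfl
  rw [h2]
  exact h

theorem gfx_hasDeriv {r m : ℝ} (hm : r + m ≠ 0) (a b c : ℝ) :
    HasDerivAt (fun m : ℝ => a * m + b * Real.log (r + m) - c * (r + m)⁻¹)
      (a + b / (r + m) + c / (r + m) ^ 2) m := by
  have h1 : HasDerivAt (fun m : ℝ => r + m) 1 m := (hasDerivAt_id m).const_add r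
  have h2 := h1.log hm
  have h3 := h1.inv hm
  have h4 := ((hasDerivAt_id m).const_mul a).add ((h2.const_mul b).sub (h3.const_mul c))
  have h5 : (fun m : ℝ => a * m + b * Real.log (r + m) - c * (r + m)⁻¹) =
      ((fun y => a * id y) + ((fun y => b * Real.log (r + y)) - fun y => c * (fun m => r + m)⁻¹ y)) := by
    funext x
    simp only [Pi.add_apply, Pi.sub_apply, Pi.inv_apply, id]
    ring
  rw [h5]
  refine h4.congr_deriv ?_
  field_simp
  ring

theorem gfx_int_rat {r : ℝ} (hr : 0 < r) (a b c : ℝ) :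
    IntervalIntegrable (fun m : ℝ => a + b / (r + m) + c / (r + m) ^ 2) volume 0 1 ∧
    ∫ m in (0 : ℝ)..1, (a + b / (r + m) + c / (r + m) ^ 2) =
      a + b * Real.log (1 + 1 / r) + c * (1 / (r * (r + 1))) := by
  have hpos : ∀ m ∈ uIcc (0 : ℝ) 1, r + m ≠ 0 := by
    intro m hm
    rw [uIcc_of_le zero_le_one] at hm
    have := hm.1
    (clear * - hr this; positivity)
  have hc : ContinuousOn (fun m : ℝ => a + b / (r + m) + c / (r + m) ^ 2) (uIcc 0 1) := by
    have h1 : ContinuousOn (fun m : ℝ => r + m) (uIcc 0 1) := by fun_prop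
    exact (continuousOn_const.add (continuousOn_const.div h1 hpos)).add
      (continuousOn_const.div (h1.pow 2) fun m hm => pow_ne_zero 2 (hpos m hm))
  have hi : IntervalIntegrable (fun m : ℝ => a + b / (r + m) + c / (r + m) ^ 2) volume 0 1 :=
    hc.intervalIntegrable
  refine ⟨hi, ?_⟩
  rw [intervalIntegral.integral_eq_sub_of_hasDerivAt
    (fun m hm => gfx_hasDeriv (hpos m hm) a b c) hi]
  have h1 : Real.log (1 + 1 / r) = Real.log (r + 1) - Real.log (r + 0) := by
    rw [← Real.log_div (by positivity) (by positivity)]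
    congr 1
    field_simp
    ring
  rw [h1]
  have h2 : (r + 0)⁻¹ - (r + 1)⁻¹ = 1 / (r * (r + 1)) := by
    rw [add_zero]
    field_simp
    ring
  rw [← h2]
  ring

/-- G3 -/
theorem int_IX_C {s : Ker n} (hs : ∀ X, (cut X s).PosDef) {r : ℝ} (hr : 0 < r) (X : ℕ) :
    ∫ m in (0 : ℝ)..1, (1 - m) / (r + m) ^ 2 * IX m r s X =
      (∫ m in (0 : ℝ)..1, (1 - m) * FX m s X) + 1 / r * enX s (X + 1) -
        Real.log (1 + 1 / r) * (enX s X + n * trX s X) := by
  set E := enX s (X + 1) with hE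
  set G := enX s X + n * trX s X with hG
  have h1 : ∀ m ∈ uIcc (0 : ℝ) 1, (1 - m) / (r + m) ^ 2 * IX m r s X =
      (1 - m) * FX m s X + ((-E + G) + (-G) / (r + m) +
        ((r + 1) ^ 2 * E - r * (r + 1) * G) / (r + m) ^ 2) := by
    intro m hm
    rw [uIcc_of_le zero_le_one] at hm
    have hp : r + m ≠ 0 := by
      have := hm.1
      (clear * - hr this; positivity)
    rw [IX_eq hs hm r X, ← hE, ← hG]
    field_simp
    ring
  have hF : IntervalIntegrable (fun m => (1 - m) * FX m s X) volume 0 1 :=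
    (gfx_int_FX hs X).continuousOn_mul (by fun_prop)
  obtain ⟨hi, hv⟩ := gfx_int_rat hr (-E + G) (-G) ((r + 1) ^ 2 * E - r * (r + 1) * G)
  rw [intervalIntegral.integral_congr h1, intervalIntegral.integral_add hF hi, hv]
  field_simp
  ring

theorem int_IX_D {s : Ker n} (hs : ∀ X, (cut X s).PosDef) {r : ℝ} (hr : 0 < r) (X : ℕ) :
    ∫ m in (0 : ℝ)..1, m / (r + m) ^ 2 * IX m r s X =
      (∫ m in (0 : ℝ)..1, m * FX m s X) + Real.log (1 + 1 / r) * enX s (X + 1) -
        1 / (1 + r) * (enX s X + n * trX s X) := by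
  set E := enX s (X + 1) with hE
  set G := enX s X + n * trX s X with hG
  have h1 : ∀ m ∈ uIcc (0 : ℝ) 1, m / (r + m) ^ 2 * IX m r s X =
      m * FX m s X + ((E - G) + E / (r + m) +
        (-(r * (r + 1)) * E + r ^ 2 * G) / (r + m) ^ 2) := by
    intro m hm
    rw [uIcc_of_le zero_le_one] at hm
    have hp : r + m ≠ 0 := by
      have := hm.1
      (clear * - hr this; positivity)
    rw [IX_eq hs hm r X, ← hE, ← hG]
    field_simp
    ring
  have hF : IntervalIntegrable (fun m => m * FX m s X) volume 0 1 :=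
    (gfx_int_FX hs X).continuousOn_mul (by fun_prop)
  obtain ⟨hi, hv⟩ := gfx_int_rat hr (E - G) E (-(r * (r + 1)) * E + r ^ 2 * G)
  rw [intervalIntegral.integral_congr h1, intervalIntegral.integral_add hF hi, hv]
  field_simp
  ring

end

end Vale.Agent.P369A
end
end

section

section

/-!
P369A: the pair inequality for the cuts of the amplifier channel and its complementary channel,
exact at a finite cutoff `Y` of the base.
-/

namespace Vale.Agent.P369A

open Matrix Filter Set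
open Vale.Agent.P369 (Conf up down)
open scoped Kronecker ComplexOrder Topology

noncomputable section

variable {n : ℕ}

/-! ### marginals restricted to small cutoffs -/

theorem mar₁_sub (g : ℝ) {Γ L Y X : ℕ} (s : Conf n → Conf n → ℂ) (hL : X ≤ L) (hY : X ≤ Y)
    (h : X ≤ Γ) : (mar₁ (JsJ g Γ L Y s)).submatrix (inj h) (inj h) = cut X (ampE g s) := by
  ext x x'
  rw [submatrix_apply, mar₁_Jw g s (inj h x) (inj h x') (x.2.trans hL) (x.2.trans hY)
    (x'.2.trans hY)]
  rfl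

theorem mar₂_sub (g : ℝ) {Γ L Y X : ℕ} (s : Conf n → Conf n → ℂ) (h : X ≤ L)
    (hΓ : Y + X ≤ Γ) : (mar₂ (JsJ g Γ L Y s)).submatrix (inj h) (inj h) = cut X (conE g Y s) := by
  ext l l'
  rw [submatrix_apply, mar₂_Jw g s (inj h l) (inj h l') ((Nat.add_le_add_left l.2 _).trans hΓ)]
  rfl

/-- for small photon numbers the entries of `J s J†` do not depend on the cutoff -/
theorem JsJ_eq_jj (g : ℝ) {Γ L Y : ℕ} (s : Conf n → Conf n → ℂ) (a b : Ct n Γ × Ct n L)
    (ha : ∑ j, a.1.1 j ≤ Y) (hb : ∑ j, b.1.1 j ≤ Y) :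
    JsJ g Γ L Y s a b = jj g s a.1.1 a.2.1 b.1.1 b.2.1 := by
  rw [Jw_conj_apply, if_pos]
  exact ⟨(sum_conf_mono tsub_le_self).trans ha, (sum_conf_mono tsub_le_self).trans hb⟩

theorem trace_cross (g : ℝ) {Γ L Y Z : ℕ} (s : Conf n → Conf n → ℂ)
    (hZ : Z ≤ Y) (V : Matrix (Ct n Γ) (Ct n Γ) ℂ)
    (hV : ∀ x y : Ct n Γ, ¬(∑ j, x.1 j ≤ Z ∧ ∑ j, y.1 j ≤ Z) → V x y = 0)
    (W : Matrix (Ct n L) (Ct n L) ℂ) :
    (JsJ g Γ L (Y + 1) s * (V ⊗ₖ W)).trace = (JsJ g Γ L Y s * (V ⊗ₖ W)).trace := by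
  rw [trace, trace]
  refine Finset.sum_congr rfl fun a _ => ?_
  rw [diag_apply, mul_apply, diag_apply, mul_apply]
  refine Finset.sum_congr rfl fun b _ => ?_
  rw [kroneckerMap_apply]
  by_cases h : ∑ j, b.1.1 j ≤ Z ∧ ∑ j, a.1.1 j ≤ Z
  · rw [JsJ_eq_jj g s a b (h.2.trans hZ) (h.1.trans hZ),
      JsJ_eq_jj g s a b (h.2.trans (hZ.trans (Nat.le_succ Y)))
        (h.1.trans (hZ.trans (Nat.le_succ Y)))]
  · rw [hV b.1 a.1 h, zero_mul, mul_zero, mul_zero]

theorem extR_eq_zero {Γ X : ℕ} (V : Matrix (Ct n X) (Ct n (X + 1)) ℂ) (x y : Ct n Γ)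
    (h : ¬(∑ j, x.1 j ≤ X + 1 ∧ ∑ j, y.1 j ≤ X + 1)) : extR Γ V x y = 0 := by
  unfold extR
  rw [dif_neg]
  intro h'
  exact h ⟨h'.1.trans (Nat.le_succ X), h'.2⟩

theorem trace_extR₀ {Γ X' X : ℕ} (h' : X' ≤ Γ) (h : X ≤ Γ) (C : Matrix (Ct n Γ) (Ct n Γ) ℂ)
    (V : Matrix (Ct n X') (Ct n X) ℂ) : (C * ((extR Γ V)ᴴ * extR Γ V)).trace.re =
      (C.submatrix (inj h) (inj h) * (Vᴴ * V)).trace.re := by
  have := penS_extR 0 h' h C V
  unfold penS pen at this
  simpa only [sub_zero, one_mul, zero_mul, add_zero] using this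

theorem trace_extR₁ {Γ X' X : ℕ} (h' : X' ≤ Γ) (h : X ≤ Γ) (C : Matrix (Ct n Γ) (Ct n Γ) ℂ)
    (V : Matrix (Ct n X') (Ct n X) ℂ) : (C * (extR Γ V * (extR Γ V)ᴴ)).trace.re =
      (C.submatrix (inj h') (inj h') * (V * Vᴴ)).trace.re := by
  have := penS_extR 1 h' h C V
  unfold penS pen at this
  simpa only [sub_self, zero_mul, one_mul, zero_add] using this

/-! ### the penalties at finite cutoff of the base -/

theorem pen_pair {g : ℝ} (hg : 1 ≤ g) {s : Conf n → Conf n → ℂ} {X X' L Y Γ : ℕ}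
    (hs : (cut (Y + 1) s).PosSemidef) (hXL : X + 1 ≤ L) (hXL' : X' + 1 ≤ L) (hLY : L ≤ Y)
    (hΓ : Y + 1 + L ≤ Γ) (V : Matrix (Ct n X) (Ct n (X + 1)) ℂ)
    (W : Matrix (Ct n X') (Ct n (X' + 1)) ℂ) {p p' ν : ℝ} (hp : 0 ≤ p) (hp' : 0 ≤ p')
    (hpp : p + p' = 1) (hν : ν ∈ Icc (0 : ℝ) 1) :
    pen (1 - ν) (cut Y s) (cut (Y + 1) s) ((Jw (n := n) g Γ L Y)ᴴ *
        tst p p' (extR Γ V) (extR L W) * Jw (n := n) g Γ L (Y + 1)) ≤
      p * pen (1 - p * ν) (cut X (ampE g s)) (cut (X + 1) (ampE g s)) V +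
        p' * pen (p' * ν) (cut X' (conE g (Y + 1) s)) (cut (X' + 1) (conE g Y s)) W := by
  have hχ : (JsJ g Γ L (Y + 1) s * (extR Γ V ⊗ₖ extR L W + (extR Γ V)ᴴ ⊗ₖ (extR L W)ᴴ)).trace.re =
      (JsJ g Γ L Y s * (extR Γ V ⊗ₖ extR L W + (extR Γ V)ᴴ ⊗ₖ (extR L W)ᴴ)).trace.re := by
    rw [Matrix.mul_add, Matrix.mul_add, trace_add, trace_add,
      trace_cross g s (show X + 1 ≤ Y by omega) (extR Γ V) (extR_eq_zero V),
      trace_cross g s (show X + 1 ≤ Y by omega) (extR Γ V)ᴴ]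
    intro x y h
    rw [conjTranspose_apply, extR_eq_zero V y x fun h' => h ⟨h'.2, h'.1⟩, star_zero]
  have h1 := pair_pen (Jw_contraction (n := n) hg Γ L (Y + 1)) (E := inc n (Nat.le_succ Y))
    (inc_isometry _) hs (extR Γ V) (extR L W) hp hp' hpp hν (T := JsJ g Γ L (Y + 1) s)
    (T' := JsJ g Γ L Y s) rfl (by rw [incl_cut, Jw_mul_incl]; rfl) hχ
  rw [incl_cut, Jw_mul_incl] at h1
  have hX1 : X + 1 ≤ Γ := by omega
  have hX0 : X ≤ Γ := by omega
  have hX1' : X' + 1 ≤ L := hXL'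
  have hX0' : X' ≤ L := by omega
  rw [trace_extR₀ hX0 hX1, trace_extR₁ hX0 hX1, trace_extR₀ hX0' hX1', trace_extR₁ hX0' hX1',
    mar₁_sub g s (by omega) (by omega) hX1, mar₁_sub g s (by omega) (by omega) hX0,
    mar₂_sub g s hX1' (by omega), mar₂_sub g s hX0' (by (clear * - hXL' hΓ; omega))] at h1
  refine h1.trans (le_of_eq ?_)
  unfold pen
  ring

theorem pen_mono {ι κ : Type} [Fintype ι] [DecidableEq ι] [Fintype κ] [DecidableEq κ] {ν : ℝ}
    (hν : ν ∈ Icc (0 : ℝ) 1) {σ P : Matrix ι ι ℂ} {ρ Q : Matrix κ κ ℂ} (hP : (P - σ).PosSemidef)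
    (hQ : (Q - ρ).PosSemidef) (V : Matrix ι κ ℂ) : pen ν σ ρ V ≤ pen ν P Q V := by
  have h := pen_nonneg hν hP hQ V
  unfold pen at h ⊢
  rw [Matrix.sub_mul, Matrix.sub_mul, trace_sub, trace_sub, Complex.sub_re, Complex.sub_re] at h
  linarith

theorem pen_smul {ι κ : Type} [Fintype ι] [DecidableEq ι] [Fintype κ] [DecidableEq κ] (ν : ℝ)
    (σ : Matrix ι ι ℂ) (ρ : Matrix κ κ ℂ) (c : ℝ) (V : Matrix ι κ ℂ) :
    pen ν σ ρ ((c : ℂ) • V) = c ^ 2 * pen ν σ ρ V := by
  have hc : star (c : ℂ) = (c : ℂ) := Complex.conj_ofReal _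
  have h : (c : ℂ) * (c : ℂ) = ((c ^ 2 : ℝ) : ℂ) := by push_cast; ring
  unfold pen
  simp only [conjTranspose_smul, hc, Matrix.mul_smul, smul_mul, smul_smul, h, trace_smul, smul_eq_mul, Complex.re_ofReal_mul]
  ring

/-! ### the linear functional of the environment at finite cutoff -/

/-- the matrix of the linear functional of the environment at cutoff `Y` of the base -/
def ZY (g r : ℝ) (s : Conf n → Conf n → ℂ) (Y X : ℕ) (j : Fin n) :
    Matrix (Ct n X) (Ct n (X + 1)) ℂ := fun a b => star (PT g r Y s j a.1 b.1)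

theorem trace_ZY (g r : ℝ) (s : Conf n → Conf n → ℂ) (Y X : ℕ) (j : Fin n)
    (W : Matrix (Ct n X) (Ct n (X + 1)) ℂ) :
    ((ZY g r s Y X j)ᴴ * W).trace = ∑ a, ∑ b, W a b * PT g r Y s j a.1 b.1 := by
  rw [trace, Finset.sum_comm]
  refine Finset.sum_congr rfl fun b _ => ?_
  rw [diag_apply, mul_apply]
  refine Finset.sum_congr rfl fun a _ => ?_
  rw [conjTranspose_apply, ZY, star_star, mul_comm]

theorem lin_C {g : ℝ} (hg : 1 < g) (r : ℝ) {s : Conf n → Conf n → ℂ} (hs : Herm s) {X L Y Γ : ℕ}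
    (hXL : X + 1 ≤ L) (hXY : X + 1 ≤ Y) (hΓ : Y + 1 + L ≤ Γ) (j : Fin n)
    (V : Matrix (Ct n X) (Ct n (X + 1)) ℂ) :
    ((Zr r s Y j)ᴴ * ((Jw (n := n) g Γ L Y)ᴴ * (extR Γ V ⊗ₖ (1 : Matrix (Ct n L) (Ct n L) ℂ)) *
      Jw (n := n) g Γ L (Y + 1))).trace.re =
        1 / Real.sqrt g * ((Zr (g * (r + 1) - 1) (ampE g s) X j)ᴴ * V).trace.re := by
  have h := Jw_E (n := n) g (Γ := Γ) (L := L) (Y := Y + 1) (Y' := Y) (show X + 1 ≤ L by omega)
    (by omega) (by omega) V
  rw [h, pair_E hg r hs j hXY V, one_div, Complex.re_ofReal_mul]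

theorem lin_D {g : ℝ} (hg : 1 < g) (r : ℝ) {s : Conf n → Conf n → ℂ} (hs : Herm s) {X L Y Γ : ℕ}
    (hXL : X + 1 ≤ L) (hΓ : Y + 1 + L ≤ Γ) (j : Fin n) (W : Matrix (Ct n X) (Ct n (X + 1)) ℂ) :
    ((Zr r s Y j)ᴴ * ((Jw (n := n) g Γ L Y)ᴴ * ((1 : Matrix (Ct n Γ) (Ct n Γ) ℂ) ⊗ₖ (extR L W)ᴴ) *
      Jw (n := n) g Γ L (Y + 1))).trace.re = ((ZY g r s Y X j)ᴴ * W).trace.re := by
  have h := Jw_T (n := n) g (Γ := Γ) (L := L) (Y := Y + 1) (Y' := Y) (show X + 1 ≤ L by omega)
    (by omega) (by omega) (by omega) W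
  rw [h, trace_ZY, ← pair_T hg r hs Y j W]
  exact (Complex.conj_re _).symm

/-! ### the pair inequality at finite cutoff -/

theorem pair_fin {g r : ℝ} (hg : 1 < g) {s : Conf n → Conf n → ℂ} (hH : Herm s)
    (hs : ∀ Y, (cut Y s).PosDef) (hC : ∀ X, (cut X (ampE g s)).PosDef) {X X' Y : ℕ}
    (hXY : X + X' + 1 ≤ Y) {P : Matrix (Ct n X') (Ct n X') ℂ}
    {Q : Matrix (Ct n (X' + 1)) (Ct n (X' + 1)) ℂ} (hP : P.PosDef) (hQ : Q.PosDef)
    (hP1 : (P - cut X' (conE g (Y + 1) s)).PosSemidef)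
    (hQ1 : (Q - cut (X' + 1) (conE g Y s)).PosSemidef) {p p' ν : ℝ} (hp : 0 ≤ p) (hp' : 0 ≤ p')
    (hpp : p + p' = 1) (hν : ν ∈ Icc (0 : ℝ) 1) :
    p * (IX (1 - p * ν) (g * (r + 1) - 1) (ampE g s) X / g) +
      p' * (∑ j, Qf (p' * ν) P Q (ZY g r s Y X' j)) ≤ IX (1 - ν) r s Y := by
  have hg0 : 0 < g := one_pos.trans hg
  have hp1 : p ≤ 1 := by linarith only [hp', hpp]
  have hp1' : p' ≤ 1 := by linarith only [hp, hpp]
  have hpν : 1 - p * ν ∈ Icc (0 : ℝ) 1 :=
    ⟨sub_nonneg.2 (mul_le_one₀ hp1 hν.1 hν.2), by linarith only [mul_nonneg hp hν.1]⟩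
  have hpν' : p' * ν ∈ Icc (0 : ℝ) 1 := ⟨mul_nonneg hp' hν.1, mul_le_one₀ hp1' hν.1 hν.2⟩
  have hν' : 1 - ν ∈ Icc (0 : ℝ) 1 := ⟨sub_nonneg.2 hν.2, by linarith only [hν.1]⟩
  unfold IX
  rw [Finset.sum_div, Finset.mul_sum, Finset.mul_sum, ← Finset.sum_add_distrib]
  refine Finset.sum_le_sum fun j _ => ?_
  set ZC : Matrix (Ct n X) (Ct n (X + 1)) ℂ := Zr (g * (r + 1) - 1) (ampE g s) X j with hZC
  set ZD : Matrix (Ct n X') (Ct n (X' + 1)) ℂ := ZY g r s Y X' j with hZD
  set V : Matrix (Ct n X) (Ct n (X + 1)) ℂ := ((1 / Real.sqrt g : ℝ) : ℂ) •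
    Kinv (1 - p * ν) (cut X (ampE g s)) (cut (X + 1) (ampE g s)) ZC with hV
  set W : Matrix (Ct n X') (Ct n (X' + 1)) ℂ := Kinv (p' * ν) P Q ZD with hW
  set L : ℕ := X + X' + 1 with hL
  have h1 := pen_pair (n := n) hg.le (hs (Y + 1)).posSemidef (show X + 1 ≤ L by omega)
    (show X' + 1 ≤ L by omega) hXY (le_refl (Y + 1 + L)) V W hp hp' hpp hν
  have h2 := two_re_sub_pen_le hν' (hs Y) (hs (Y + 1)) (Zr r s Y j)
    ((Jw (n := n) g (Y + 1 + L) L Y)ᴴ * tst p p' (extR (Y + 1 + L) V) (extR L W) *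
      Jw (n := n) g (Y + 1 + L) L (Y + 1))
  have h3 : ((Zr r s Y j)ᴴ * ((Jw (n := n) g (Y + 1 + L) L Y)ᴴ *
      tst p p' (extR (Y + 1 + L) V) (extR L W) * Jw (n := n) g (Y + 1 + L) L (Y + 1))).trace.re =
      p * (1 / Real.sqrt g * (ZCᴴ * V).trace.re) + p' * (ZDᴴ * W).trace.re := by
    rw [tst, Matrix.mul_add, Matrix.add_mul, Matrix.mul_add, trace_add, Complex.add_re,
      Matrix.mul_smul, Matrix.smul_mul, Matrix.mul_smul, trace_smul, smul_eq_mul,
      Complex.re_ofReal_mul, Matrix.mul_smul, Matrix.smul_mul, Matrix.mul_smul, trace_smul,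
      smul_eq_mul, Complex.re_ofReal_mul, lin_C hg r hH (by omega) (by omega) le_rfl j V,
      lin_D hg r hH (by omega) le_rfl j W]
  have h4 : pen (p' * ν) (cut X' (conE g (Y + 1) s)) (cut (X' + 1) (conE g Y s)) W ≤
      pen (p' * ν) P Q W := pen_mono hpν' hP1 hQ1 W
  have q1 : (ZCᴴ * V).trace.re = 1 / Real.sqrt g *
      Qf (1 - p * ν) (cut X (ampE g s)) (cut (X + 1) (ampE g s)) ZC := by
    rw [hV, Matrix.mul_smul, trace_smul, smul_eq_mul, Complex.re_ofReal_mul]
    rfl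
  have q2 : (ZDᴴ * W).trace.re = Qf (p' * ν) P Q ZD := rfl
  have q3 : pen (1 - p * ν) (cut X (ampE g s)) (cut (X + 1) (ampE g s)) V =
      (1 / Real.sqrt g) ^ 2 * Qf (1 - p * ν) (cut X (ampE g s)) (cut (X + 1) (ampE g s)) ZC := by
    rw [hV, pen_smul, pen_Kinv hpν (hC X) (hC (X + 1))]
  have q4 : pen (p' * ν) P Q W = Qf (p' * ν) P Q ZD := by
    rw [hW, pen_Kinv hpν' hP hQ]
  have hsg : (1 / Real.sqrt g) ^ 2 = 1 / g := by rw [div_pow, one_pow, Real.sq_sqrt hg0.le]
  rw [h3, q1, q2, ← mul_assoc (1 / Real.sqrt g), ← sq, hsg] at h2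
  rw [q3, hsg] at h1
  rw [q4] at h4
  have h5 := mul_le_mul_of_nonneg_left h4 hp'
  have h6 : p * (Qf (1 - p * ν) (cut X (ampE g s)) (cut (X + 1) (ampE g s)) ZC / g) =
      p * (1 / g * Qf (1 - p * ν) (cut X (ampE g s)) (cut (X + 1) (ampE g s)) ZC) := by ring
  rw [h6]
  linarith only [h1, h2, h5]

end

end Vale.Agent.P369A
end
end

section

section

/-!
P369A: the environment functional at finite cutoff `Y` of the base, its continuity, its limit and
the inequalities it satisfies (input of `pair_final`).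
-/

namespace Vale.Agent.P369A

open Matrix Filter Set
open Vale.Agent.P369 (Conf up down)
open scoped Kronecker ComplexOrder Topology

noncomputable section

variable {n : ℕ}

/-! ### a majorant -/

theorem posSemidef_smul_one_add {ι : Type} [Fintype ι] [DecidableEq ι] {M : Matrix ι ι ℂ}
    (hM : M.IsHermitian) {c : ℝ} (hc : ∑ i, ∑ j, ‖M i j‖ ≤ c) :
    ((c : ℂ) • (1 : Matrix ι ι ℂ) + M).PosSemidef := by
  have h1 : ((c : ℂ) • (1 : Matrix ι ι ℂ) + M).IsHermitian := by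
    refine IsHermitian.add ?_ hM
    rw [IsHermitian, conjTranspose_smul, conjTranspose_one]
    congr 1
    exact Complex.conj_ofReal _
  rw [posSemidef_iff_dotProduct_mulVec]
  refine ⟨h1, fun x => ?_⟩
  have him := h1.im_star_dotProduct_mulVec_self x
  rw [Complex.le_def]
  refine ⟨?_, him.symm⟩
  set S : ℝ := ∑ i, ‖x i‖ ^ 2 with hS
  have hS0 : 0 ≤ S := Finset.sum_nonneg fun i _ => sq_nonneg _
  have e1 : (star x ⬝ᵥ (((c : ℂ) • (1 : Matrix ι ι ℂ) + M) *ᵥ x)).re =
      c * S + (star x ⬝ᵥ (M *ᵥ x)).re := by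
    rw [add_mulVec, dotProduct_add, Complex.add_re, smul_mulVec, one_mulVec, dotProduct_smul,
      smul_eq_mul, Complex.re_ofReal_mul]
    congr 2
    unfold dotProduct
    rw [Complex.re_sum, hS]
    refine Finset.sum_congr rfl fun i _ => ?_
    rw [Pi.star_apply, Complex.star_def, ← Complex.normSq_eq_conj_mul_self, Complex.ofReal_re,
      Complex.normSq_eq_norm_sq]
  have e2 : |(star x ⬝ᵥ (M *ᵥ x)).re| ≤ (∑ i, ∑ j, ‖M i j‖) * S := by
    refine (Complex.abs_re_le_norm _).trans ?_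
    unfold dotProduct mulVec dotProduct
    refine (norm_sum_le _ _).trans ?_
    rw [Finset.sum_mul]
    refine Finset.sum_le_sum fun i _ => ?_
    rw [norm_mul, Finset.sum_mul]
    have h2 : ‖∑ j, M i j * x j‖ ≤ ∑ j, ‖M i j‖ * ‖x j‖ := by
      refine (norm_sum_le _ _).trans (le_of_eq ?_)
      simp only [norm_mul]
    refine (mul_le_mul_of_nonneg_left h2 (norm_nonneg _)).trans ?_
    rw [Finset.mul_sum]
    refine Finset.sum_le_sum fun j _ => ?_
    have h3 : ‖(star x) i‖ = ‖x i‖ := by rw [Pi.star_apply, norm_star]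
    rw [h3]
    have h4 : ‖x i‖ * ‖x j‖ ≤ S := by
      have hi : ‖x i‖ ^ 2 ≤ S :=
        Finset.single_le_sum (f := fun i => ‖x i‖ ^ 2) (fun i _ => sq_nonneg _) (Finset.mem_univ i)
      have hj : ‖x j‖ ^ 2 ≤ S :=
        Finset.single_le_sum (f := fun i => ‖x i‖ ^ 2) (fun i _ => sq_nonneg _) (Finset.mem_univ j)
      nlinarith only [hi, hj]
    calc ‖x i‖ * (‖M i j‖ * ‖x j‖) = ‖M i j‖ * (‖x i‖ * ‖x j‖) := by ring
      _ ≤ ‖M i j‖ * S := mul_le_mul_of_nonneg_left h4 (norm_nonneg _)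
  rw [e1]
  have e3 := (abs_le.1 e2).1
  have e4 := mul_le_mul_of_nonneg_right hc hS0
  show (0 : ℂ).re ≤ _
  rw [Complex.zero_re]
  linarith only [e3, e4]

theorem posSemidef_mar₂ {γ δ : Type} [Fintype γ] [DecidableEq γ] [Fintype δ] [DecidableEq δ]
    {T : Matrix (γ × δ) (γ × δ) ℂ} (hT : T.PosSemidef) : (mar₂ T).PosSemidef := by
  have h1 : mar₂ T = ∑ c : γ, T.submatrix (fun l => (c, l)) (fun l => (c, l)) := by
    ext l l'
    rw [Matrix.sum_apply]
    rfl
  rw [h1]
  exact posSemidef_sum _ fun c _ => hT.submatrix _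

theorem posSemidef_conE {t : ℝ} {s : Conf n → Conf n → ℂ} {Y : ℕ}
    (hs : (cut Y s).PosSemidef) (X : ℕ) : (cut X (conE t Y s)).PosSemidef := by
  rw [← mar₂_sub (Γ := Y + X) (L := X) t s (le_refl X) (le_refl (Y + X))]
  refine (posSemidef_mar₂ ?_).submatrix _
  exact hs.mul_mul_conjTranspose_same _

/-! ### the regularised environment at cutoff `Y` -/

/-- the regularisation -/
def epsY (t : ℝ) (s : Conf n → Conf n → ℂ) (Y X : ℕ) : ℝ :=
  ∑ a : Ct n (X + 1), ∑ b : Ct n (X + 1), ‖conE t Y s a.1 b.1 - conE t (Y + 1) s a.1 b.1‖ +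
    1 / ((Y : ℝ) + 1)

/-- the regularised environment at cutoff `X` -/
def PY (t : ℝ) (s : Conf n → Conf n → ℂ) (Y X X₁ : ℕ) : Matrix (Ct n X₁) (Ct n X₁) ℂ :=
  ((epsY t s Y X : ℝ) : ℂ) • (1 : Matrix (Ct n X₁) (Ct n X₁) ℂ) + cut X₁ (conE t (Y + 1) s)

theorem epsY_pos (t : ℝ) (s : Conf n → Conf n → ℂ) (Y X : ℕ) : 0 < epsY t s Y X := by
  unfold epsY
  have h1 : 0 ≤ ∑ a : Ct n (X + 1), ∑ b : Ct n (X + 1),
      ‖conE t Y s a.1 b.1 - conE t (Y + 1) s a.1 b.1‖ :=
    Finset.sum_nonneg fun a _ => Finset.sum_nonneg fun b _ => norm_nonneg _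
  have h2 : 0 < 1 / ((Y : ℝ) + 1) := by positivity
  linarith only [h1, h2]

theorem posDef_PY {t : ℝ} {s : Conf n → Conf n → ℂ} {Y : ℕ} (hs : ∀ Y, (cut Y s).PosSemidef)
    (X X₁ : ℕ) : (PY t s Y X X₁).PosDef := by
  unfold PY
  refine Matrix.PosDef.add_posSemidef ?_ (posSemidef_conE (hs (Y + 1)) X₁)
  refine Matrix.PosDef.one.smul ?_
  exact_mod_cast epsY_pos t s Y X

theorem PY_sub₁ {t : ℝ} {s : Conf n → Conf n → ℂ} {Y X X₁ : ℕ} :
    (PY t s Y X X₁ - cut X₁ (conE t (Y + 1) s)).PosSemidef := by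
  unfold PY
  rw [add_sub_cancel_right]
  refine Matrix.PosSemidef.one.smul ?_
  exact_mod_cast (epsY_pos t s Y X).le

theorem PY_sub₀ {t : ℝ} {s : Conf n → Conf n → ℂ} {Y X X₁ : ℕ}
    (hs : ∀ Y, (cut Y s).PosSemidef) (hX : X₁ ≤ X + 1) :
    (PY t s Y X X₁ - cut X₁ (conE t Y s)).PosSemidef := by
  set M : Matrix (Ct n (X + 1)) (Ct n (X + 1)) ℂ :=
    cut (X + 1) (conE t (Y + 1) s) - cut (X + 1) (conE t Y s) with hM
  have hMh : M.IsHermitian := (posSemidef_conE (hs (Y + 1)) (X + 1)).isHermitian.sub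
    (posSemidef_conE (hs Y) (X + 1)).isHermitian
  have h1 : ∑ i, ∑ j, ‖M i j‖ ≤ epsY t s Y X := by
    unfold epsY
    have h2 : (0 : ℝ) ≤ 1 / ((Y : ℝ) + 1) := by positivity
    have h3 : ∑ i, ∑ j, ‖M i j‖ = ∑ a : Ct n (X + 1), ∑ b : Ct n (X + 1),
        ‖conE t Y s a.1 b.1 - conE t (Y + 1) s a.1 b.1‖ := by
      refine Finset.sum_congr rfl fun a _ => Finset.sum_congr rfl fun b _ => ?_
      rw [hM, Matrix.sub_apply, norm_sub_rev]
      rfl
    (clear * - h2 h3; linarith)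
  have h4 := (posSemidef_smul_one_add hMh h1).submatrix (inj (n := n) hX)
  have h5 : (((epsY t s Y X : ℝ) : ℂ) • (1 : Matrix (Ct n (X + 1)) (Ct n (X + 1)) ℂ) + M).submatrix
      (inj (n := n) hX) (inj (n := n) hX) = PY t s Y X X₁ - cut X₁ (conE t Y s) := by
    ext a b
    rw [submatrix_apply, Matrix.add_apply, Matrix.smul_apply, Matrix.sub_apply, PY,
      Matrix.add_apply, Matrix.smul_apply, hM, Matrix.sub_apply]
    have h6 : (1 : Matrix (Ct n (X + 1)) (Ct n (X + 1)) ℂ) (inj hX a) (inj hX b) =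
        (1 : Matrix (Ct n X₁) (Ct n X₁) ℂ) a b := by
      rw [one_apply, one_apply]
      simp only [(inj_injective hX).eq_iff]
    rw [h6]
    exact add_sub_assoc _ _ _ |>.symm
  rwa [h5] at h4

/-- the environment functional at cutoff `Y` of the base -/
def idF (s : Conf n → Conf n → ℂ) (r : ℝ) (X Y : ℕ) (t μ : ℝ) : ℝ :=
  ∑ j, Qf μ (PY t s Y X X) (PY t s Y X (X + 1)) (ZY t r s Y X j)

theorem idF_nonneg {s : Conf n → Conf n → ℂ} (hs : ∀ Y, (cut Y s).PosSemidef) (r : ℝ) (X Y : ℕ)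
    (t : ℝ) {μ : ℝ} (hμ : μ ∈ Icc (0 : ℝ) 1) : 0 ≤ idF s r X Y t μ :=
  Finset.sum_nonneg fun _ _ => Qf_nonneg hμ (posDef_PY hs X X) (posDef_PY hs X (X + 1)) _

theorem herm_of_cut {s : Conf n → Conf n → ℂ} (hs : ∀ Y, (cut Y s).PosSemidef) : Herm s := by
  intro x y
  set Y : ℕ := ∑ j, x j + ∑ j, y j with hY
  have h := (hs Y).isHermitian
  have h1 := congrFun (congrFun h ⟨y, by omega⟩) ⟨x, by omega⟩
  rw [conjTranspose_apply] at h1
  exact h1

/-- the pair inequality -/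
theorem idF_pair {s : Conf n → Conf n → ℂ} (hs : ∀ Y, (cut Y s).PosDef) {t : ℝ} (ht : 1 < t)
    (hC : ∀ X, (cut X (ampE t s)).PosDef) (r : ℝ) {X X' Y : ℕ} (hXY : X + X' + 1 ≤ Y) {l ν : ℝ}
    (hl : 0 ≤ l) (hlν : l ≤ ν) (hν : ν ≤ 1) :
    (1 - ν) * (IX ν (t * (r + 1) - 1) (ampE t s) X / t) + (ν - l) * idF s r X' Y t (ν - l) ≤
      (1 - l) * IX l r s Y := by
  have hs' : ∀ Y, (cut Y s).PosSemidef := fun Y => (hs Y).posSemidef
  rcases (hlν.trans hν).eq_or_lt with h | h
  · have h1 : ν = 1 := le_antisymm hν (h ▸ hlν)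
    rw [h, h1]
    simp
  · have h0 : 0 < 1 - l := by linarith only [h]
    have hp : 0 ≤ (1 - ν) / (1 - l) := div_nonneg (by linarith only [hν]) h0.le
    have hp' : 0 ≤ (ν - l) / (1 - l) := div_nonneg (by linarith only [hlν]) h0.le
    have hpp : (1 - ν) / (1 - l) + (ν - l) / (1 - l) = 1 := by
      field_simp
      ring
    have h2 := pair_fin (r := r) ht (herm_of_cut hs') hs hC hXY (posDef_PY (t := t) (Y := Y) hs' X' X')
      (posDef_PY (t := t) (Y := Y) hs' X' (X' + 1)) PY_sub₁ (PY_sub₀ hs' (le_refl (X' + 1)))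
      hp hp' hpp (ν := 1 - l) ⟨h0.le, by linarith only [hl]⟩
    have e1 : 1 - (1 - ν) / (1 - l) * (1 - l) = ν := by
      rw [div_mul_cancel₀ _ h0.ne']
      ring
    have e2 : (ν - l) / (1 - l) * (1 - l) = ν - l := div_mul_cancel₀ _ h0.ne'
    have e3 : 1 - (1 - l) = l := by ring
    rw [e1, e2, e3] at h2
    have h3 := mul_le_mul_of_nonneg_left h2 h0.le
    refine le_trans (le_of_eq ?_) h3
    unfold idF
    (clear * - ht h; field_simp)

/-- data processing -/
theorem idF_dp {s : Conf n → Conf n → ℂ} (hs : ∀ Y, (cut Y s).PosDef) {t : ℝ} (ht : 1 < t)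
    (hC : ∀ X, (cut X (ampE t s)).PosDef) (r : ℝ) {X Y : ℕ} (hXY : X + 1 ≤ Y) {ν : ℝ}
    (hν : ν ∈ Icc (0 : ℝ) 1) : IX ν (t * (r + 1) - 1) (ampE t s) X / t ≤ IX ν r s Y := by
  have hs' : ∀ Y, (cut Y s).PosSemidef := fun Y => (hs Y).posSemidef
  have h2 := pair_fin (r := r) (X' := 0) ht (herm_of_cut hs') hs hC (by omega)
    (posDef_PY (t := t) (Y := Y) hs' 0 0)
    (posDef_PY (t := t) (Y := Y) hs' 0 1) PY_sub₁ (PY_sub₀ hs' (le_refl 1))
    zero_le_one le_rfl (add_zero 1) (ν := 1 - ν) ⟨by linarith only [hν.2], by linarith only [hν.1]⟩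
  have e1 : 1 - 1 * (1 - ν) = ν := by ring
  have e3 : 1 - (1 - ν) = ν := by ring
  rw [e1, e3, one_mul, zero_mul, add_zero] at h2
  exact h2

/-! ### continuity in the gain -/

theorem pf_continuousOn_cc (m l : Conf n) : ContinuousOn (fun t : ℝ => cc t m l) (Ioi 1) := by
  unfold cc
  refine continuousOn_finsetProd _ fun j _ => ?_
  have h1 : ContinuousOn (fun t : ℝ => (Real.sqrt t)⁻¹) (Ioi 1) :=
    Real.continuous_sqrt.continuousOn.inv₀ fun t ht =>
      (Real.sqrt_pos.2 (lt_trans one_pos ht)).ne'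
  have h2 : ContinuousOn (fun t : ℝ => Real.sqrt (1 - 1 / t)) (Ioi 1) :=
    (continuousOn_const.sub (continuousOn_const.div continuousOn_id
      fun t ht => (lt_trans one_pos ht).ne')).sqrt
  exact (continuousOn_const.mul (h1.pow _)).mul (h2.pow _)

theorem pf_continuousOn_conE (s : Conf n → Conf n → ℂ) (Y : ℕ) (l l' : Conf n) :
    ContinuousOn (fun t : ℝ => conE t Y s l l') (Ioi 1) := by
  unfold conE
  refine continuousOn_finsetSum _ fun m _ => continuousOn_finsetSum _ fun m' _ => ?_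
  split_ifs
  · exact (Complex.continuous_ofReal.comp_continuousOn
      ((pf_continuousOn_cc _ _).mul (pf_continuousOn_cc _ _))).mul continuousOn_const
  · exact continuousOn_const

theorem continuousOn_epsY (s : Conf n → Conf n → ℂ) (Y X : ℕ) :
    ContinuousOn (fun t : ℝ => epsY t s Y X) (Ioi 1) := by
  unfold epsY
  refine ContinuousOn.add ?_ continuousOn_const
  exact continuousOn_finsetSum _ fun a _ => continuousOn_finsetSum _ fun b _ =>
    ((pf_continuousOn_conE s Y _ _).sub (pf_continuousOn_conE s (Y + 1) _ _)).norm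

theorem continuousOn_PY (s : Conf n → Conf n → ℂ) (Y X X₁ : ℕ) :
    ContinuousOn (fun t : ℝ => PY t s Y X X₁) (Ioi 1) := by
  refine continuousOn_pi.2 fun a => continuousOn_pi.2 fun b => ?_
  unfold PY
  simp only [Matrix.add_apply, Matrix.smul_apply, smul_eq_mul]
  exact ((Complex.continuous_ofReal.comp_continuousOn (continuousOn_epsY s Y X)).mul
    continuousOn_const).add (pf_continuousOn_conE s (Y + 1) _ _)

theorem continuousOn_ZY (s : Conf n → Conf n → ℂ) (r : ℝ) (Y X : ℕ) (j : Fin n) :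
    ContinuousOn (fun t : ℝ => ZY t r s Y X j) (Ioi 1) := by
  refine continuousOn_pi.2 fun a => continuousOn_pi.2 fun b => ?_
  unfold ZY PT
  have h1 : ContinuousOn (fun t : ℝ => Real.sqrt (t - 1)) (Ioi 1) :=
    (continuousOn_id.sub continuousOn_const).sqrt
  have h2 : ContinuousOn (fun t : ℝ => (Real.sqrt (t - 1))⁻¹) (Ioi 1) :=
    h1.inv₀ fun t ht => (Real.sqrt_pos.2 (sub_pos.2 ht)).ne'
  refine ContinuousOn.star ?_
  refine ContinuousOn.sub (continuousOn_const.mul (ContinuousOn.sub ?_ ?_))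
    (continuousOn_const.mul ?_)
  · exact (Complex.continuous_ofReal.comp_continuousOn
      ((continuousOn_id.mul h2).mul continuousOn_const)).mul (pf_continuousOn_conE _ _ _ _)
  · exact (Complex.continuous_ofReal.comp_continuousOn (h1.mul continuousOn_const)).mul
      (pf_continuousOn_conE _ _ _ _)
  · exact (Complex.continuous_ofReal.comp_continuousOn (h2.mul continuousOn_const)).mul
      (pf_continuousOn_conE _ _ _ _)

theorem continuousOn_idF {s : Conf n → Conf n → ℂ} (hs : ∀ Y, (cut Y s).PosSemidef) (r : ℝ)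
    (X Y : ℕ) : ContinuousOn (Function.uncurry (idF s r X Y)) (Ioi 1 ×ˢ Icc 0 1) := by
  unfold idF Function.uncurry
  refine continuousOn_finsetSum _ fun j _ => ?_
  refine continuousOn_Qf.comp (f := fun p : ℝ × ℝ =>
    (p.2, PY p.1 s Y X X, PY p.1 s Y X (X + 1), ZY p.1 r s Y X j)) ?_ ?_
  · have hf : MapsTo (Prod.fst : ℝ × ℝ → ℝ) (Ioi 1 ×ˢ Icc 0 1) (Ioi 1) := fun p hp => hp.1
    exact continuousOn_snd.prodMk (((continuousOn_PY s Y X X).comp continuousOn_fst hf).prodMk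
      (((continuousOn_PY s Y X (X + 1)).comp continuousOn_fst hf).prodMk
        ((continuousOn_ZY s r Y X j).comp continuousOn_fst hf)))
  · intro p hp
    exact ⟨hp.2, posDef_PY hs X X, posDef_PY hs X (X + 1), mem_univ _⟩

/-! ### the limit -/

theorem tendsto_epsY {s D : Conf n → Conf n → ℂ} {t : ℝ}
    (hlim : ∀ l l' : Conf n, Tendsto (fun Y => conE t Y s l l') atTop (𝓝 (D l l'))) (X : ℕ) :
    Tendsto (fun Y => epsY t s Y X) atTop (𝓝 0) := by
  have hlim' : ∀ l l' : Conf n, Tendsto (fun Y => conE t (Y + 1) s l l') atTop (𝓝 (D l l')) :=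
    fun l l' => (hlim l l').comp (tendsto_add_atTop_nat 1)
  have h1 : Tendsto (fun Y => epsY t s Y X) atTop
      (𝓝 (∑ a : Ct n (X + 1), ∑ b : Ct n (X + 1), ‖D a.1 b.1 - D a.1 b.1‖ + 0)) := by
    unfold epsY
    refine Tendsto.add (tendsto_finsetSum _ fun a _ => tendsto_finsetSum _ fun b _ =>
      ((hlim _ _).sub (hlim' _ _)).norm) ?_
    exact tendsto_one_div_add_atTop_nhds_zero_nat
  simpa only [sub_self, norm_zero, Finset.sum_const_zero, add_zero] using h1

theorem tendsto_PY {s D : Conf n → Conf n → ℂ} {t : ℝ}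
    (hlim : ∀ l l' : Conf n, Tendsto (fun Y => conE t Y s l l') atTop (𝓝 (D l l'))) (X X₁ : ℕ) :
    Tendsto (fun Y => PY t s Y X X₁) atTop (𝓝 (cut X₁ D)) := by
  have hlim' : ∀ l l' : Conf n, Tendsto (fun Y => conE t (Y + 1) s l l') atTop (𝓝 (D l l')) :=
    fun l l' => (hlim l l').comp (tendsto_add_atTop_nat 1)
  refine tendsto_pi_nhds.2 fun a => tendsto_pi_nhds.2 fun b => ?_
  unfold PY
  simp only [Matrix.add_apply, Matrix.smul_apply, smul_eq_mul]
  have h1 : Tendsto (fun Y => ((epsY t s Y X : ℝ) : ℂ) * (1 : Matrix (Ct n X₁) (Ct n X₁) ℂ) a b +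
      cut X₁ (conE t (Y + 1) s) a b) atTop
      (𝓝 (((0 : ℝ) : ℂ) * (1 : Matrix (Ct n X₁) (Ct n X₁) ℂ) a b + D a.1 b.1)) :=
    (((Complex.continuous_ofReal.tendsto 0).comp (tendsto_epsY hlim X)).mul_const _).add
      (hlim' _ _)
  have h2 : ((0 : ℝ) : ℂ) * (1 : Matrix (Ct n X₁) (Ct n X₁) ℂ) a b + D a.1 b.1 =
      cut X₁ D a b := by
    rw [Complex.ofReal_zero, zero_mul, zero_add]
    rfl
  rw [h2] at h1
  exact h1

theorem tendsto_ZY {s D : Conf n → Conf n → ℂ} {t : ℝ} (ht : 1 < t) (r : ℝ) (hD : Herm D)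
    (hlim : ∀ l l' : Conf n, Tendsto (fun Y => conE t Y s l l') atTop (𝓝 (D l l'))) (X : ℕ)
    (j : Fin n) : Tendsto (fun Y => ZY t r s Y X j) atTop
      (𝓝 (((1 / Real.sqrt (t - 1) : ℝ) : ℂ) • Zr ((t - 1) * (r + 1)) D X j)) := by
  have hlim' : ∀ l l' : Conf n, Tendsto (fun Y => conE t (Y + 1) s l l') atTop (𝓝 (D l l')) :=
    fun l l' => (hlim l l').comp (tendsto_add_atTop_nat 1)
  refine tendsto_pi_nhds.2 fun a => tendsto_pi_nhds.2 fun b => ?_
  unfold ZY PT
  have h1 := (((((hlim' b.1 (up a.1 j)).const_mul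
    (((t * (Real.sqrt (t - 1))⁻¹ * Real.sqrt ((a.1 j : ℝ) + 1) : ℝ) : ℂ))).sub
      ((hlim' (down b.1 j) a.1).const_mul
        ((Real.sqrt (t - 1) * Real.sqrt (b.1 j : ℝ) : ℝ) : ℂ))).const_mul
          ((r + 1 : ℝ) : ℂ)).sub (((hlim b.1 (up a.1 j)).const_mul
            ((((Real.sqrt (t - 1))⁻¹ * Real.sqrt ((a.1 j : ℝ) + 1) : ℝ) : ℂ))).const_mul
              ((r : ℝ) : ℂ))).star
  refine (h1.congr' (Eventually.of_forall fun Y => rfl)).trans (le_of_eq ?_)
  congr 1
  have hs1 : 0 < Real.sqrt (t - 1) := Real.sqrt_pos.2 (by linarith)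
  have hss : Real.sqrt (t - 1) = (t - 1) * (Real.sqrt (t - 1))⁻¹ := by
    rw [← div_eq_mul_inv, Real.div_sqrt]
  rw [Matrix.smul_apply, Zr_apply, smul_eq_mul, star_sub, star_mul', star_mul', star_sub,
    star_mul', star_mul', star_mul', hD, hD]
  simp only [Complex.star_def, Complex.conj_ofReal]
  have hssC : ((Real.sqrt (t - 1) : ℝ) : ℂ) = ((t : ℂ) - 1) * ((Real.sqrt (t - 1) : ℝ) : ℂ)⁻¹ := by
    have h := congrArg (fun x : ℝ => (x : ℂ)) hss
    push_cast at h
    exact h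
  rw [one_div]
  push_cast
  linear_combination (-((r : ℂ) + 1) * ((Real.sqrt (b.1 j : ℝ) : ℝ) : ℂ) * D a.1 (down b.1 j)) * hssC

theorem tendsto_Qf {ι κ : Type} [Fintype ι] [DecidableEq ι] [Fintype κ] [DecidableEq κ] {μ : ℝ}
    (hμ : μ ∈ Icc (0 : ℝ) 1) {A : ℕ → Matrix ι ι ℂ} {B : ℕ → Matrix κ κ ℂ} {Z : ℕ → Matrix ι κ ℂ}
    {A₀ : Matrix ι ι ℂ} {B₀ : Matrix κ κ ℂ} {Z₀ : Matrix ι κ ℂ} (hA : ∀ Y, (A Y).PosDef)
    (hB : ∀ Y, (B Y).PosDef) (hA₀ : A₀.PosDef) (hB₀ : B₀.PosDef)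
    (hAt : Tendsto A atTop (𝓝 A₀)) (hBt : Tendsto B atTop (𝓝 B₀)) (hZt : Tendsto Z atTop (𝓝 Z₀)) :
    Tendsto (fun Y => Qf μ (A Y) (B Y) (Z Y)) atTop (𝓝 (Qf μ A₀ B₀ Z₀)) := by
  have hc := (continuousOn_Qf (ι := ι) (κ := κ)) (μ, A₀, B₀, Z₀) ⟨hμ, hA₀, hB₀, mem_univ _⟩
  have hf : Tendsto (fun Y : ℕ => (μ, A Y, B Y, Z Y)) atTop
      (𝓝[Icc (0 : ℝ) 1 ×ˢ ({σ : Matrix ι ι ℂ | σ.PosDef} ×ˢ ({ρ : Matrix κ κ ℂ | ρ.PosDef} ×ˢ
        (Set.univ : Set (Matrix ι κ ℂ))))] (μ, A₀, B₀, Z₀)) :=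
    tendsto_nhdsWithin_iff.2 ⟨tendsto_const_nhds.prodMk_nhds (hAt.prodMk_nhds
      (hBt.prodMk_nhds hZt)), Eventually.of_forall fun Y => ⟨hμ, hA Y, hB Y, mem_univ _⟩⟩
  have h : Tendsto ((fun p : ℝ × Matrix ι ι ℂ × Matrix κ κ ℂ × Matrix ι κ ℂ =>
      Qf p.1 p.2.1 p.2.2.1 p.2.2.2) ∘ fun Y : ℕ => (μ, A Y, B Y, Z Y)) atTop
      (𝓝 (Qf μ A₀ B₀ Z₀)) := Tendsto.comp (y := 𝓝[Icc (0 : ℝ) 1 ×ˢ
        ({σ : Matrix ι ι ℂ | σ.PosDef} ×ˢ ({ρ : Matrix κ κ ℂ | ρ.PosDef} ×ˢ
        (Set.univ : Set (Matrix ι κ ℂ))))] (μ, A₀, B₀, Z₀)) hc hf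
  exact h

theorem tendsto_idF {s D : Conf n → Conf n → ℂ} (hs : ∀ Y, (cut Y s).PosSemidef) {t : ℝ}
    (ht : 1 < t) (r : ℝ) (hD : ∀ X, (cut X D).PosDef)
    (hlim : ∀ l l' : Conf n, Tendsto (fun Y => conE t Y s l l') atTop (𝓝 (D l l'))) (X : ℕ)
    {μ : ℝ} (hμ : μ ∈ Icc (0 : ℝ) 1) :
    Tendsto (fun Y => idF s r X Y t μ) atTop (𝓝 (IX μ ((t - 1) * (r + 1)) D X / (t - 1))) := by
  have hDh : Herm D := herm_of_cut fun Y => (hD Y).posSemidef
  have h0 : (0 : ℝ) < t - 1 := by linarith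
  have e1 : IX μ ((t - 1) * (r + 1)) D X / (t - 1) = ∑ j, Qf μ (cut X D) (cut (X + 1) D)
      (((1 / Real.sqrt (t - 1) : ℝ) : ℂ) • Zr ((t - 1) * (r + 1)) D X j) := by
    unfold IX
    rw [Finset.sum_div]
    refine Finset.sum_congr rfl fun j _ => ?_
    rw [Qf_smul, div_pow, one_pow, Real.sq_sqrt h0.le]
    ring
  rw [e1]
  unfold idF
  exact tendsto_finsetSum _ fun j _ => tendsto_Qf hμ (fun Y => posDef_PY hs X X)
    (fun Y => posDef_PY hs X (X + 1)) (hD X) (hD (X + 1)) (tendsto_PY hlim X X)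
    (tendsto_PY hlim X (X + 1)) (tendsto_ZY ht r hDh hlim X j)

end

end Vale.Agent.P369A
end
end

section

section

/-!
P369A: the complementary channel of the amplifier is completely co-positive. Abstract part: the
co-Kadison inequality.
-/

namespace Vale.Agent.P369A

open Matrix
open scoped Kronecker InnerProductSpace ComplexOrder

noncomputable section

section gen

variable {γ κ δ ι τ : Type} [Fintype γ] [DecidableEq γ] [Fintype κ] [DecidableEq κ]
  [Fintype δ] [DecidableEq δ] [Fintype ι] [DecidableEq ι] [Fintype τ] [DecidableEq τ]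

/-- compression of `1 ⊗ A` by `J`, in coordinates -/
theorem compr_apply (J : Matrix (γ × δ) κ ℂ) (A : Matrix δ δ ℂ) (m m' : κ) :
    (Jᴴ * ((1 : Matrix γ γ ℂ) ⊗ₖ A) * J) m m' =
      ∑ l, ∑ l', A l l' * choiG J (m', l) (m, l') := by
  have h1 : ∀ (c : γ) (l : δ), (((1 : Matrix γ γ ℂ) ⊗ₖ A) * J) (c, l) m' =
      ∑ l', A l l' * J (c, l') m' := by
    intro c l
    rw [Matrix.mul_apply, Fintype.sum_prod_type, Finset.sum_eq_single c]
    · refine Finset.sum_congr rfl fun l' _ => ?_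
      rw [Matrix.kroneckerMap_apply, Matrix.one_apply_eq, one_mul]
    · intro b _ hb
      refine Finset.sum_eq_zero fun l' _ => ?_
      rw [Matrix.kroneckerMap_apply, Matrix.one_apply_ne hb.symm, zero_mul, zero_mul]
    · intro h
      exact absurd (Finset.mem_univ _) h
  rw [Matrix.mul_assoc, Matrix.mul_apply, Fintype.sum_prod_type, Finset.sum_comm]
  refine Finset.sum_congr rfl fun l _ => ?_
  simp only [h1, Matrix.conjTranspose_apply, choiG, Finset.mul_sum]
  rw [Finset.sum_comm]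
  refine Finset.sum_congr rfl fun l' _ => Finset.sum_congr rfl fun c _ => ?_
  ring

/-- Kadison's inequality for a contraction -/
theorem kadison_psd {V : Matrix τ κ ℂ} (hV : (1 - Vᴴ * V).PosSemidef) (X : Matrix τ τ ℂ) :
    (Vᴴ * (Xᴴ * X) * V - (Vᴴ * X * V)ᴴ * (Vᴴ * X * V)).PosSemidef := by
  have h := (one_sub_mul_conjTranspose hV).conjTranspose_mul_mul_same (X * V)
  have e : (X * V)ᴴ * (1 - V * Vᴴ) * (X * V) =
      Vᴴ * (Xᴴ * X) * V - (Vᴴ * X * V)ᴴ * (Vᴴ * X * V) := by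
    rw [Matrix.mul_sub, Matrix.sub_mul, Matrix.mul_one]
    simp only [conjTranspose_mul, conjTranspose_conjTranspose, Matrix.mul_assoc]
  rwa [e] at h

/-- the co-Kadison inequality -/
theorem co_kadison {J : Matrix (γ × δ) κ ℂ} (hJ : (1 - Jᴴ * J).PosSemidef)
    (hc : (choiG J).PosSemidef) (A : Matrix δ δ ℂ) :
    (Jᴴ * ((1 : Matrix γ γ ℂ) ⊗ₖ (A * Aᴴ)) * J -
      (Jᴴ * ((1 : Matrix γ γ ℂ) ⊗ₖ A) * J)ᴴ * (Jᴴ * ((1 : Matrix γ γ ℂ) ⊗ₖ A) * J)).PosSemidef := by
  obtain ⟨R, hR⟩ := exists_sqrt hc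
  set V : Matrix (δ × (κ × δ)) κ ℂ := fun x m => R (m, x.1) x.2 with hV
  have key : ∀ B : Matrix δ δ ℂ, Jᴴ * ((1 : Matrix γ γ ℂ) ⊗ₖ B) * J =
      Vᴴ * (Bᵀ ⊗ₖ (1 : Matrix (κ × δ) (κ × δ) ℂ)) * V := by
    intro B
    ext m m'
    rw [compr_apply, hR, Matrix.mul_assoc, Matrix.mul_apply, Fintype.sum_prod_type,
      Finset.sum_comm]
    rw [Finset.sum_comm]
    have h2 : ∀ (l' : δ) (t : κ × δ), ((Bᵀ ⊗ₖ (1 : Matrix (κ × δ) (κ × δ) ℂ)) * V) (l', t) m' =
        ∑ l, B l l' * R (m', l) t := by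
      intro l' t
      rw [kron_one_mul]
      rfl
    have h3 : ∀ l l' : δ, (R * Rᴴ) (m', l) (m, l') = ∑ t, R (m', l) t * star (R (m, l') t) := by
      intro l l'
      rw [Matrix.mul_apply]
      rfl
    simp only [h3, Finset.mul_sum]
    rw [Finset.sum_comm]
    refine Finset.sum_congr rfl fun l' _ => ?_
    rw [Finset.sum_comm]
    refine Finset.sum_congr rfl fun t _ => ?_
    rw [h2, Matrix.conjTranspose_apply, Finset.mul_sum]
    refine Finset.sum_congr rfl fun l _ => ?_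
    change B l l' * (R (m', l) t * star (R (m, l') t)) = star (R (m, l') t) * (B l l' * R (m', l) t)
    ring
  have hVV : (1 - Vᴴ * V).PosSemidef := by
    have h := key 1
    rw [Matrix.transpose_one, Matrix.one_kronecker_one, Matrix.one_kronecker_one, Matrix.mul_one,
      Matrix.mul_one] at h
    rwa [← h]
  have h := kadison_psd hVV (Aᵀ ⊗ₖ (1 : Matrix (κ × δ) (κ × δ) ℂ))
  have e : (Aᵀ ⊗ₖ (1 : Matrix (κ × δ) (κ × δ) ℂ))ᴴ * (Aᵀ ⊗ₖ (1 : Matrix (κ × δ) (κ × δ) ℂ)) =
      (A * Aᴴ)ᵀ ⊗ₖ (1 : Matrix (κ × δ) (κ × δ) ℂ) := by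
    rw [Matrix.conjTranspose_kronecker, ← Matrix.mul_kronecker_mul, conjTranspose_one,
      Matrix.mul_one, Matrix.transpose_mul]
    congr 1
  rw [e, ← key, ← key] at h
  exact h

end gen

end

end Vale.Agent.P369A
end
end

section

section

/-!
P369A: the free window. The complementary channel of the amplifier is completely positive and
completely co-positive, so the penalty of a pulled-back test operator at any parameter is bounded
by the penalty of the test operator at any other parameter.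
-/

namespace Vale.Agent.P369A

open Matrix Filter Set
open Vale.Agent.P369 (Conf up down)
open scoped Kronecker ComplexOrder Topology

noncomputable section

section abs

variable {γ κ δ ι : Type} [Fintype γ] [DecidableEq γ] [Fintype κ] [DecidableEq κ]
  [Fintype δ] [DecidableEq δ] [Fintype ι] [DecidableEq ι]

omit [DecidableEq κ] in
theorem fw_trace_le {ρ A B : Matrix κ κ ℂ} (hρ : ρ.PosSemidef) (h : (B - A).PosSemidef) :
    (ρ * A).trace.re ≤ (ρ * B).trace.re := by
  have h1 := trace_mul_nonneg hρ h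
  rw [Matrix.mul_sub, trace_sub, Complex.sub_re] at h1
  linarith

omit [DecidableEq κ] [DecidableEq δ] in
theorem fw_mar₂ (J : Matrix (γ × δ) κ ℂ) (ρ : Matrix κ κ ℂ) (B : Matrix δ δ ℂ) :
    (ρ * (Jᴴ * ((1 : Matrix γ γ ℂ) ⊗ₖ B) * J)).trace = (mar₂ (J * ρ * Jᴴ) * B).trace := by
  rw [trace_mar₂, Matrix.mul_assoc J, Matrix.mul_assoc J, Matrix.trace_mul_comm J]
  simp only [Matrix.mul_assoc]

omit [DecidableEq γ] [DecidableEq δ] in
theorem fw_contr {J : Matrix (γ × δ) κ ℂ} (hJ : (1 - Jᴴ * J).PosSemidef) {E : Matrix κ ι ℂ}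
    (hE : Eᴴ * E = 1) : (1 - (J * E)ᴴ * (J * E)).PosSemidef := by
  have h := hJ.conjTranspose_mul_mul_same E
  have e : Eᴴ * (1 - Jᴴ * J) * E = 1 - (J * E)ᴴ * (J * E) := by
    rw [Matrix.mul_sub, Matrix.mul_one, Matrix.sub_mul, hE, conjTranspose_mul]
    simp only [Matrix.mul_assoc]
  rwa [e] at h

/-- the right part of the penalty -/
theorem free_right {J : Matrix (γ × δ) κ ℂ} (hJ : (1 - Jᴴ * J).PosSemidef)
    (hc : (choiG J).PosSemidef) {E : Matrix κ ι ℂ} (hE : Eᴴ * E = 1) {ρ : Matrix κ κ ℂ}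
    (hρ : ρ.PosSemidef) (B : Matrix δ δ ℂ) {μ : ℝ} (hμ : μ ∈ Icc (0 : ℝ) 1) :
    (ρ * (((J * E)ᴴ * ((1 : Matrix γ γ ℂ) ⊗ₖ B) * J)ᴴ *
      ((J * E)ᴴ * ((1 : Matrix γ γ ℂ) ⊗ₖ B) * J))).trace.re ≤
      (1 - μ) * (mar₂ (J * ρ * Jᴴ) * (B * Bᴴ)).trace.re +
        μ * (mar₂ (J * ρ * Jᴴ) * (Bᴴ * B)).trace.re := by
  have h1 := kadison (fw_contr hJ hE) J hρ ((1 : Matrix γ γ ℂ) ⊗ₖ B)
  have e1 : ((1 : Matrix γ γ ℂ) ⊗ₖ B)ᴴ * ((1 : Matrix γ γ ℂ) ⊗ₖ B) =
      (1 : Matrix γ γ ℂ) ⊗ₖ (Bᴴ * B) := by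
    rw [conjTranspose_kronecker, conjTranspose_one, ← mul_kronecker_mul, Matrix.mul_one]
  rw [e1, ← trace_mar₂] at h1
  have h2 : (ρ * (((J * E)ᴴ * ((1 : Matrix γ γ ℂ) ⊗ₖ B) * J)ᴴ *
      ((J * E)ᴴ * ((1 : Matrix γ γ ℂ) ⊗ₖ B) * J))).trace.re ≤
      (mar₂ (J * ρ * Jᴴ) * (B * Bᴴ)).trace.re := by
    rw [← fw_mar₂]
    apply fw_trace_le hρ
    have h3 := co_kadison hJ hc B
    have hEE : (1 - E * Eᴴ).PosSemidef := by
      apply one_sub_mul_conjTranspose
      rw [hE, sub_self]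
      exact Matrix.PosSemidef.zero
    have h4 := hEE.conjTranspose_mul_mul_same (Jᴴ * ((1 : Matrix γ γ ℂ) ⊗ₖ B) * J)
    have h5 := h3.add h4
    have e2 : Jᴴ * ((1 : Matrix γ γ ℂ) ⊗ₖ (B * Bᴴ)) * J -
        (Jᴴ * ((1 : Matrix γ γ ℂ) ⊗ₖ B) * J)ᴴ * (Jᴴ * ((1 : Matrix γ γ ℂ) ⊗ₖ B) * J) +
        (Jᴴ * ((1 : Matrix γ γ ℂ) ⊗ₖ B) * J)ᴴ * (1 - E * Eᴴ) *
          (Jᴴ * ((1 : Matrix γ γ ℂ) ⊗ₖ B) * J) =
        Jᴴ * ((1 : Matrix γ γ ℂ) ⊗ₖ (B * Bᴴ)) * J -
        ((J * E)ᴴ * ((1 : Matrix γ γ ℂ) ⊗ₖ B) * J)ᴴ *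
          ((J * E)ᴴ * ((1 : Matrix γ γ ℂ) ⊗ₖ B) * J) := by
      set K := (1 : Matrix γ γ ℂ) ⊗ₖ B
      have e3 : (J * E)ᴴ * K * J = Eᴴ * (Jᴴ * K * J) := by
        rw [conjTranspose_mul]
        simp only [Matrix.mul_assoc]
      have e4 : (Jᴴ * K * J)ᴴ * (1 - E * Eᴴ) * (Jᴴ * K * J) =
          (Jᴴ * K * J)ᴴ * (Jᴴ * K * J) - (Eᴴ * (Jᴴ * K * J))ᴴ * (Eᴴ * (Jᴴ * K * J)) := by
        rw [Matrix.mul_sub, Matrix.mul_one, Matrix.sub_mul, conjTranspose_mul Eᴴ,
          conjTranspose_conjTranspose]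
        simp only [Matrix.mul_assoc]
      rw [e4, e3]
      abel
    rwa [e2] at h5
  have := mul_le_mul_of_nonneg_left h2 (sub_nonneg.2 hμ.2)
  have := mul_le_mul_of_nonneg_left h1 hμ.1
  linarith

omit [DecidableEq ι] in
/-- the left part of the penalty -/
theorem free_left {J : Matrix (γ × δ) κ ℂ} (hJ : (1 - Jᴴ * J).PosSemidef)
    (hc : (choiG J).PosSemidef) (E : Matrix κ ι ℂ) {σ : Matrix ι ι ℂ}
    (hσ : σ.PosSemidef) (B : Matrix δ δ ℂ) {μ : ℝ} (hμ : μ ∈ Icc (0 : ℝ) 1) :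
    (σ * (((J * E)ᴴ * ((1 : Matrix γ γ ℂ) ⊗ₖ B) * J) *
      ((J * E)ᴴ * ((1 : Matrix γ γ ℂ) ⊗ₖ B) * J)ᴴ)).trace.re ≤
      (1 - μ) * (mar₂ ((J * E) * σ * (J * E)ᴴ) * (B * Bᴴ)).trace.re +
        μ * (mar₂ ((J * E) * σ * (J * E)ᴴ) * (Bᴴ * B)).trace.re := by
  set K := (1 : Matrix γ γ ℂ) ⊗ₖ B with hK
  have h1 := kadison hJ (J * E) hσ Kᴴ
  have e0 : (J * E)ᴴ * K * J = (Jᴴ * Kᴴ * (J * E))ᴴ := by
    rw [conjTranspose_mul (Jᴴ * Kᴴ) (J * E), conjTranspose_mul Jᴴ Kᴴ,
      conjTranspose_conjTranspose, conjTranspose_conjTranspose, Matrix.mul_assoc]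
  have e1 : Kᴴᴴ * Kᴴ = (1 : Matrix γ γ ℂ) ⊗ₖ (B * Bᴴ) := by
    rw [conjTranspose_conjTranspose, hK, conjTranspose_kronecker, conjTranspose_one,
      ← mul_kronecker_mul, Matrix.mul_one]
  rw [e1, ← trace_mar₂] at h1
  rw [e0, conjTranspose_conjTranspose]
  have h2 : (σ * ((Jᴴ * Kᴴ * (J * E))ᴴ * (Jᴴ * Kᴴ * (J * E)))).trace.re ≤
      (mar₂ ((J * E) * σ * (J * E)ᴴ) * (Bᴴ * B)).trace.re := by
    rw [← fw_mar₂]
    apply fw_trace_le hσ
    have h3 := (co_kadison hJ hc Bᴴ).conjTranspose_mul_mul_same E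
    have e2 : (1 : Matrix γ γ ℂ) ⊗ₖ Bᴴ = Kᴴ := by
      rw [hK, conjTranspose_kronecker, conjTranspose_one]
    rw [conjTranspose_conjTranspose, e2] at h3
    have e3 : Eᴴ * (Jᴴ * ((1 : Matrix γ γ ℂ) ⊗ₖ (Bᴴ * B)) * J -
        (Jᴴ * Kᴴ * J)ᴴ * (Jᴴ * Kᴴ * J)) * E =
        (J * E)ᴴ * ((1 : Matrix γ γ ℂ) ⊗ₖ (Bᴴ * B)) * (J * E) -
          (Jᴴ * Kᴴ * (J * E))ᴴ * (Jᴴ * Kᴴ * (J * E)) := by
      have e4 : Jᴴ * Kᴴ * (J * E) = (Jᴴ * Kᴴ * J) * E := by simp only [Matrix.mul_assoc]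
      rw [e4, Matrix.mul_sub, Matrix.sub_mul, conjTranspose_mul J E, conjTranspose_mul _ E]
      simp only [Matrix.mul_assoc]
    rwa [e3] at h3
  have := mul_le_mul_of_nonneg_left h1 (sub_nonneg.2 hμ.2)
  have := mul_le_mul_of_nonneg_left h2 hμ.1
  linarith

end abs

variable {n : ℕ}

/-- the free window at finite cutoff of the base -/
theorem free_pen {t : ℝ} (ht : 1 ≤ t) {s : Conf n → Conf n → ℂ} {X L Y Γ : ℕ}
    (hs : (cut (Y + 1) s).PosSemidef) (hXL : X + 1 ≤ L) (hΓ : Y + 1 + L ≤ Γ)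
    (W : Matrix (Ct n X) (Ct n (X + 1)) ℂ) {l μ : ℝ} (hl : l ∈ Icc (0 : ℝ) 1)
    (hμ : μ ∈ Icc (0 : ℝ) 1) :
    pen l (cut Y s) (cut (Y + 1) s) ((Jw (n := n) t Γ L Y)ᴴ *
        ((1 : Matrix (Ct n Γ) (Ct n Γ) ℂ) ⊗ₖ (extR L W)ᴴ) * Jw (n := n) t Γ L (Y + 1)) ≤
      (1 - l) * pen μ (cut X (conE t (Y + 1) s)) (cut (X + 1) (conE t (Y + 1) s)) W +
        l * pen μ (cut X (conE t Y s)) (cut (X + 1) (conE t Y s)) W := by
  have hJ := Jw_contraction (n := n) ht Γ L (Y + 1)
  have hc : (choiG (Jw (n := n) t Γ L (Y + 1))).PosSemidef := choiG_Jw hΓ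
  have hE : (inc n (Nat.le_succ Y))ᴴ * inc n (Nat.le_succ Y) = 1 := inc_isometry _
  have hσ : (cut Y s).PosSemidef := by
    rw [← incl_cut s (Nat.le_succ Y)]
    exact hs.conjTranspose_mul_mul_same _
  have h1 := free_right hJ hc hE hs (extR L W)ᴴ hμ
  have h2 := free_left hJ hc (inc n (Nat.le_succ Y)) hσ (extR L W)ᴴ hμ
  rw [Jw_mul_incl, conjTranspose_conjTranspose] at h1 h2
  have hX0 : X ≤ L := by omega
  have q1 := penS_extR μ hX0 hXL (mar₂ (JsJ (n := n) t Γ L (Y + 1) s)) W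
  have q2 := penS_extR μ hX0 hXL (mar₂ (JsJ (n := n) t Γ L Y s)) W
  rw [mar₂_sub t s hX0 (by omega), mar₂_sub t s hXL (by omega)] at q1 q2
  rw [← q1, ← q2]
  unfold penS
  unfold pen
  change _ ≤ (1 - μ) * (mar₂ (JsJ (n := n) t Γ L (Y + 1) s) * _).trace.re +
    μ * (mar₂ (JsJ (n := n) t Γ L (Y + 1) s) * _).trace.re at h1
  change _ ≤ (1 - μ) * (mar₂ (JsJ (n := n) t Γ L Y s) * _).trace.re +
    μ * (mar₂ (JsJ (n := n) t Γ L Y s) * _).trace.re at h2
  have n1 := mul_le_mul_of_nonneg_left h1 (sub_nonneg.2 hl.2)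
  have n2 := mul_le_mul_of_nonneg_left h2 hl.1
  linarith only [n1, n2]

/-- the free window for the quadratic forms, at finite cutoff of the base -/
theorem free_fin {g r : ℝ} (hg : 1 < g) {s : Conf n → Conf n → ℂ} (hH : Herm s)
    (hs : ∀ Y, (cut Y s).PosDef) {X Y : ℕ} {P : Matrix (Ct n X) (Ct n X) ℂ}
    {Q : Matrix (Ct n (X + 1)) (Ct n (X + 1)) ℂ} (hP : P.PosDef) (hQ : Q.PosDef)
    (hP0 : (P - cut X (conE g Y s)).PosSemidef) (hP1 : (P - cut X (conE g (Y + 1) s)).PosSemidef)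
    (hQ0 : (Q - cut (X + 1) (conE g Y s)).PosSemidef)
    (hQ1 : (Q - cut (X + 1) (conE g (Y + 1) s)).PosSemidef) {μ lam : ℝ}
    (hμ : μ ∈ Icc (0 : ℝ) 1) (hl : lam ∈ Icc (0 : ℝ) 1) :
    ∑ j, Qf μ P Q (ZY g r s Y X j) ≤ IX lam r s Y := by
  unfold IX
  refine Finset.sum_le_sum fun j _ => ?_
  set W : Matrix (Ct n X) (Ct n (X + 1)) ℂ := Kinv μ P Q (ZY g r s Y X j) with hW
  have h1 := free_pen (n := n) hg.le (hs (Y + 1)).posSemidef (le_refl (X + 1))
    (le_refl (Y + 1 + (X + 1))) W hl hμ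
  have h2 := two_re_sub_pen_le hl (hs Y) (hs (Y + 1)) (Zr r s Y j)
    ((Jw (n := n) g (Y + 1 + (X + 1)) (X + 1) Y)ᴴ *
      ((1 : Matrix (Ct n (Y + 1 + (X + 1))) (Ct n (Y + 1 + (X + 1))) ℂ) ⊗ₖ (extR (X + 1) W)ᴴ) *
      Jw (n := n) g (Y + 1 + (X + 1)) (X + 1) (Y + 1))
  rw [lin_D hg r hH (le_refl (X + 1)) le_rfl j W] at h2
  have h3 : pen μ (cut X (conE g (Y + 1) s)) (cut (X + 1) (conE g (Y + 1) s)) W ≤
      pen μ P Q W := pen_mono hμ hP1 hQ1 W
  have h4 : pen μ (cut X (conE g Y s)) (cut (X + 1) (conE g Y s)) W ≤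
      pen μ P Q W := pen_mono hμ hP0 hQ0 W
  have q2 : ((ZY g r s Y X j)ᴴ * W).trace.re = Qf μ P Q (ZY g r s Y X j) := rfl
  have q4 : pen μ P Q W = Qf μ P Q (ZY g r s Y X j) := by
    rw [hW, pen_Kinv hμ hP hQ]
  rw [q4] at h3 h4
  rw [q2] at h2
  have n1 := mul_le_mul_of_nonneg_left h3 (sub_nonneg.2 hl.2)
  have n2 := mul_le_mul_of_nonneg_left h4 hl.1
  linarith only [h1, h2, n1, n2]

end

end Vale.Agent.P369A
end
end

section

section

/-!
P369A: the pair inequality in the form used by the assembly, for a base `s` whose amplifications and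
whose environments are given by families `C`, `D`.
-/

namespace Vale.Agent.P369A

open Matrix Filter Set
open Vale.Agent.P369 (Conf up down)
open scoped Kronecker ComplexOrder Topology

noncomputable section

variable {n : ℕ}

/-- data processing, also at `t = 1` -/
theorem idF_dp' {s : Conf n → Conf n → ℂ} (hs : ∀ Y, (cut Y s).PosDef) (h1 : ampE 1 s = s)
    {t : ℝ} (ht : 1 ≤ t) (hC : ∀ X, (cut X (ampE t s)).PosDef) (r : ℝ) {X Y : ℕ}
    (hXY : X + 1 ≤ Y) {ν : ℝ} (hν : ν ∈ Icc (0 : ℝ) 1) :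
    IX ν (t * (r + 1) - 1) (ampE t s) X / t ≤ IX ν r s Y := by
  rcases ht.eq_or_lt with h | h
  · subst h
    rw [h1, one_mul, div_one, add_sub_cancel_right]
    exact IX_mono hs hν r (by omega)
  · exact idF_dp hs h hC r hXY hν

/-- `pair_final` for a base `s` -/
theorem pair_final_gen {s : Conf n → Conf n → ℂ} (hs : ∀ Y, (cut Y s).PosDef)
    (h1 : ampE 1 s = s) {C D : ℝ → Conf n → Conf n → ℂ} (hC : ∀ t, 1 ≤ t → ampE t s = C t)
    (hCp : ∀ t, 1 ≤ t → ∀ X, (cut X (C t)).PosDef) (hDp : ∀ t, 1 < t → ∀ X, (cut X (D t)).PosDef)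
    (hlim : ∀ t, 1 < t → ∀ l l' : Conf n,
      Tendsto (fun Y => conE t Y s l l') atTop (𝓝 (D t l l'))) (R : ℝ) (X X' : ℕ) :
    ∃ idY : ℕ → ℝ → ℝ → ℝ,
      (∀ᶠ Y in atTop,
        (∀ t₁ T, 1 < t₁ → ContinuousOn (Function.uncurry (idY Y)) (Icc t₁ T ×ˢ Icc 0 1)) ∧
        (∀ t, 1 < t → ∀ μ ∈ Icc (0 : ℝ) 1, 0 ≤ idY Y t μ) ∧
        (∀ t, 1 < t → ∀ l ν : ℝ, 0 ≤ l → l ≤ ν → ν ≤ 1 →
          (1 - ν) * (IX ν (t * (R + 1) - 1) (C t) X / t) + (ν - l) * idY Y t (ν - l) ≤
            (1 - l) * IX l R s Y) ∧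
        (∀ t, 1 ≤ t → ∀ ν ∈ Icc (0 : ℝ) 1,
          IX ν (t * (R + 1) - 1) (C t) X / t ≤ IX ν R s Y) ∧
        (∀ t, 1 < t → ∀ l ∈ Icc (0 : ℝ) 1, ∀ μ ∈ Icc (0 : ℝ) 1,
          idY Y t μ ≤ IX l R s Y)) ∧
      (∀ t, 1 < t → ∀ μ ∈ Icc (0 : ℝ) 1, Tendsto (fun Y => idY Y t μ) atTop
        (𝓝 (IX μ ((t - 1) * (R + 1)) (D t) X' / (t - 1)))) := by
  have hs' : ∀ Y, (cut Y s).PosSemidef := fun Y => (hs Y).posSemidef
  have hH : Herm s := herm_of_cut hs'
  refine ⟨fun Y t μ => idF s R X' Y t μ, ?_, fun t ht μ hμ =>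
    tendsto_idF hs' ht R (hDp t ht) (hlim t ht) X' hμ⟩
  filter_upwards [eventually_ge_atTop (X + X' + 1)] with Y hY
  have hCt : ∀ t, 1 ≤ t → ∀ X, (cut X (ampE t s)).PosDef := fun t ht X => by
    rw [hC t ht]
    exact hCp t ht X
  refine ⟨fun t₁ T h => ?_, fun t _ μ hμ => idF_nonneg hs' R X' Y t hμ,
    fun t ht l ν hl hlν hν => ?_, fun t ht ν hν => ?_, fun t ht l hl μ hμ => ?_⟩
  · exact (continuousOn_idF hs' R X' Y).mono (prod_mono (fun t ht => h.trans_le ht.1) le_rfl)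
  · have h := idF_pair hs ht (hCt t ht.le) R hY hl hlν hν
    rwa [hC t ht.le] at h
  · have h := idF_dp' hs h1 ht (hCt t ht) R (X := X) (Y := Y) (by omega) hν
    rwa [hC t ht] at h
  · exact free_fin ht hH hs (posDef_PY hs' X' X') (posDef_PY hs' X' (X' + 1))
      (PY_sub₀ hs' (by omega)) PY_sub₁ (PY_sub₀ hs' (le_refl (X' + 1))) PY_sub₁ hμ hl

end

end Vale.Agent.P369A
end
end

section

section

section

/-!
The entropy photon-number inequality for passive inputs.
-/

namespace Vale.Agent.P369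

open scoped InnerProductSpace

theorem ker_eta_zero (k i j : ℕ) : ker 0 k i j = if k = j then 1 else 0 := by
  induction k generalizing i j with
  | zero =>
    apply opD_inj (η := 0) (g := fun i j => if 0 = j then 1 else 0)
    intro i j
    have := ker_zero_rec (η := 0) le_rfl zero_le_one i j
    unfold opD
    rw [this]
    cases i <;> cases j <;> simp
  | succ k ih =>
    apply opD_inj (η := 0) (g := fun i j => if k + 1 = j then 1 else 0)
    intro i j
    have := ker_rec (η := 0) le_rfl zero_le_one k i j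
    unfold opD
    rw [this]
    cases i <;> cases j <;> simp [ih]

theorem ker_eta_one (k i j : ℕ) : ker 1 k i j = if k = i then 1 else 0 := by
  induction k generalizing i j with
  | zero =>
    apply opD_inj (η := 1) (g := fun i j => if 0 = i then 1 else 0)
    intro i j
    have := ker_zero_rec (η := 1) zero_le_one le_rfl i j
    unfold opD
    rw [this]
    cases i <;> cases j <;> simp
  | succ k ih =>
    apply opD_inj (η := 1) (g := fun i j => if k + 1 = i then 1 else 0)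
    intro i j
    have := ker_rec (η := 1) zero_le_one le_rfl k i j
    unfold opD
    rw [this]
    cases i <;> cases j <;> simp [ih]

theorem hasSum_pick (q : ℕ → ℝ) (k : ℕ) :
    HasSum (fun j : ℕ => if k = j then q j else 0) (q k) := by
  have := hasSum_ite_eq k (q k)
  refine this.congr_fun fun j => ?_
  by_cases h : j = k
  · subst h; simp
  · rw [if_neg h, if_neg (Ne.symm h)]

theorem pick_nonneg {q : ℕ → ℝ} (hq : ∀ j, 0 ≤ q j) (k j : ℕ) :
    0 ≤ (if k = j then q j else 0) := by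
  split_ifs
  · exact hq j
  · exact le_rfl

theorem out_eta_zero {p q : ℕ → ℝ} (hp : IsProb p) (hq : IsProb q) (k : ℕ) :
    out 0 p q k = q k := by
  have h2 := hasSum_pick q k
  set f : ℕ → ℝ := fun j : ℕ => if k = j then q j else 0 with hf
  have h3 : Summable (fun x : ℕ × ℕ => p x.1 * f x.2) :=
    Summable.mul_of_nonneg hp.2.summable h2.summable hp.1 (pick_nonneg hq.1 k)
  have h1 : HasSum (fun x : ℕ × ℕ => p x.1 * f x.2) (1 * q k) := hp.2.mul h2 h3
  rw [one_mul] at h1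
  have e : ∀ x : ℕ × ℕ, ker 0 k x.1 x.2 * (p x.1 * q x.2) = p x.1 * f x.2 := by
    intro x
    rw [ker_eta_zero]
    simp only [hf]
    split_ifs <;> ring
  exact (h1.congr_fun e).tsum_eq

theorem out_eta_one {p q : ℕ → ℝ} (hp : IsProb p) (hq : IsProb q) (k : ℕ) :
    out 1 p q k = p k := by
  have h2 := hasSum_pick p k
  set f : ℕ → ℝ := fun j : ℕ => if k = j then p j else 0 with hf
  have h3 : Summable (fun x : ℕ × ℕ => f x.1 * q x.2) :=
    Summable.mul_of_nonneg h2.summable hq.2.summable (pick_nonneg hp.1 k) hq.1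
  have h1 : HasSum (fun x : ℕ × ℕ => f x.1 * q x.2) (p k * 1) := h2.mul hq.2 h3
  rw [mul_one] at h1
  have e : ∀ x : ℕ × ℕ, ker 1 k x.1 x.2 * (p x.1 * q x.2) = f x.1 * q x.2 := by
    intro x
    rw [ker_eta_one]
    simp only [hf]
    split_ifs <;> ring
  exact (h1.congr_fun e).tsum_eq

theorem lin_all {η : ℝ} (h0 : 0 ≤ η) (h1 : η ≤ 1) (r s : ℝ) (hr : 0 < r) (hs : 0 < s)
    (p q : ℕ → ℝ) (hp : IsProb p) (hq : IsProb q)
    (fp : (Function.support p).Finite) (fq : (Function.support q).Finite)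
    (ap : Antitone p) (aq : Antitone q) :
    η * theta r * (Hs p - Real.log (1 + r)) + (1 - η) * theta s * (Hs q - Real.log (1 + s)) ≤
      theta (η * r + (1 - η) * s) *
        (Hs (out η p q) - Real.log (1 + (η * r + (1 - η) * s))) := by
  rcases h0.eq_or_lt with h | h0'
  · subst h
    rw [show out 0 p q = q from funext (out_eta_zero hp hq)]
    simp
  rcases h1.eq_or_lt with h | h1'
  · subst h
    rw [show out 1 p q = p from funext (out_eta_one hp hq)]
    simp
  have := lin_one h0' h1' hr hs hp hq fp fq ap aq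
  linarith

section quantum

variable {n : ℕ} {η : ℝ}

theorem outn_isProb (h0 : 0 ≤ η) (h1 : η ≤ 1) {p q : Conf n → ℝ} (hp : IsProb p)
    (hq : IsProb q) : IsProb (outn η p q) := by
  have hk := kern_isKer (fun i j => (hasSum_ker h0 h1 i j).tsum_eq) n
  exact outG_isProb (K := kern η) hk.nonneg
    (fun k l => by
      rw [← hk.one k l]
      exact (summable_of_hasFiniteSupport (hk.fin k l)).hasSum) hp hq

theorem outn_energy (h0 : 0 ≤ η) (h1 : η ≤ 1) {p q : Conf n → ℝ} (hp : IsProb p)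
    (hq : IsProb q) (Ep : Summable fun k : Conf n => (∑ j, (k j : ℝ)) * p k)
    (Eq : Summable fun k : Conf n => (∑ j, (k j : ℝ)) * q k) :
    Summable fun k : Conf n => (∑ j, (k j : ℝ)) * outn η p q k := by
  have hk := kern_isKer (fun i j => (hasSum_ker h0 h1 i j).tsum_eq) n
  exact energy_outG (K := kern η) hk.nonneg
    (fun k l => by
      rw [← hk.one k l]
      exact (summable_of_hasFiniteSupport (hk.fin k l)).hasSum)
    (E := fun k => ∑ j, (k j : ℝ)) (fun m => by (clear * -; positivity))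
    (fun m k l h => kern_tot m k l h) hp.1 hq.1 hp.2.summable hq.2.summable Ep Eq

/-- an operator diagonal in the number basis acts coordinatewise. -/
theorem diag_apply {ρ : Fock n →L[ℂ] Fock n} {p : Conf n → ℝ}
    (h : ∀ k, ρ (ket k) = (p k : ℂ) • ket k) (f : Fock n) (k : Conf n) :
    (ρ f) k = (p k : ℂ) * f k := by
  have h1 : HasSum (fun i => lp.single 2 i (f i)) f := lp.hasSum_single (by norm_num) f
  have h2 : HasSum (fun i => ρ (lp.single 2 i (f i))) (ρ f) := ρ.hasSum h1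
  have h3 : HasSum (fun i => ⟪ket k, ρ (lp.single 2 i (f i))⟫_ℂ) ⟪ket k, ρ f⟫_ℂ :=
    (innerSL ℂ (ket k)).hasSum h2
  have e : ∀ i, ⟪ket k, ρ (lp.single 2 i (f i))⟫_ℂ = if i = k then (p k : ℂ) * f k else 0 := by
    intro i
    have e1 : (lp.single 2 i (f i) : Fock n) = f i • ket i := by
      unfold ket
      rw [← lp.single_smul]
      simp only [smul_eq_mul, mul_one]
    rw [e1, map_smul, h, inner_smul_right, inner_smul_right, inner_ket_ket]
    by_cases hi : i = k
    · subst hi; simp only [↓reduceIte, mul_one, mul_comm]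
    · rw [if_neg (Ne.symm hi), if_neg hi]; simp
  simp only [e] at h3
  rw [← inner_ket, h3.unique (hasSum_ite_eq k _)]

theorem isState_of_diag {ρ : Fock n →L[ℂ] Fock n} {p : Conf n → ℝ}
    (h : ∀ k, ρ (ket k) = (p k : ℂ) • ket k) (hp : IsProb p) : IsState ρ := by
  have key : ∀ f g : Fock n, ⟪ρ f, g⟫_ℂ = ⟪f, ρ g⟫_ℂ := by
    intro f g
    rw [lp.inner_eq_tsum, lp.inner_eq_tsum]
    refine tsum_congr fun k => ?_
    rw [diag_apply h, diag_apply h]
    simp only [RCLike.inner_apply, map_mul, Complex.conj_ofReal]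
    ring
  constructor
  · refine ⟨fun f g => key f g, fun f => ?_⟩
    have hs := lp.hasSum_inner (𝕜 := ℂ) (ρ f) f
    have hs2 := Complex.hasSum_re hs
    change 0 ≤ (⟪ρ f, f⟫_ℂ).re
    rw [← hs2.tsum_eq]
    refine tsum_nonneg fun k => ?_
    rw [diag_apply h]
    have e : ⟪(p k : ℂ) * f k, f k⟫_ℂ = ((p k * ‖f k‖ ^ 2 : ℝ) : ℂ) := by
      rw [RCLike.inner_apply]
      simp only [map_mul, Complex.conj_ofReal]
      have := Complex.mul_conj (f k)
      rw [Complex.normSq_eq_norm_sq] at this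
      push_cast
      push_cast at this
      linear_combination (p k : ℂ) * this
    rw [e, Complex.ofReal_re]
    have := hp.1 k
    (clear * - this; positivity)
  · have h2 : HasSum (fun k => ((p k : ℝ) : ℂ)) ((1 : ℝ) : ℂ) := by
      exact_mod_cast hp.2
    simp only [inner_diag h]
    simpa using h2

end quantum

end Vale.Agent.P369
end
end
end

section

section

section

/-!
The linear entropy inequality for arbitrary (not necessarily passive) one-mode number distributions.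
-/

namespace Vale.Agent.P369

open Finset

noncomputable section

variable {η : ℝ}

theorem exists_sort {f : ℕ → ℝ} (h0 : ∀ k, 0 ≤ f k) {N : ℕ} (hN : ∀ k, N ≤ k → f k = 0) :
    ∃ σ : Equiv.Perm ℕ, (∀ i, i ∈ range N ↔ σ i ∈ range N) ∧ Antitone (f ∘ σ) := by
  set g : Fin N → ℝ := fun i => -f i with hg
  set s := Tuple.sort g with hs
  have hm : Monotone (g ∘ s) := Tuple.monotone_sort g
  set e : Fin N ≃ {i // i < N} := Fin.equivSubtype with he
  set σ : Equiv.Perm ℕ := s.extendDomain e with hσ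
  have h1 : ∀ (i : ℕ) (hi : i < N), σ i = (s ⟨i, hi⟩ : ℕ) := by
    intro i hi
    have := Equiv.Perm.extendDomain_apply_subtype s e hi
    rw [hσ, this]
    rfl
  have h2 : ∀ i : ℕ, ¬ i < N → σ i = i := fun i hi =>
    Equiv.Perm.extendDomain_apply_not_subtype s e hi
  refine ⟨σ, ?_, ?_⟩
  · intro i
    simp only [Finset.mem_range]
    by_cases hi : i < N
    · rw [h1 i hi]
      exact ⟨fun _ => (s ⟨i, hi⟩).2, fun _ => hi⟩
    · rw [h2 i hi]
  · intro i j hij
    simp only [Function.comp]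
    by_cases hj : j < N
    · have hi : i < N := lt_of_le_of_lt hij hj
      rw [h1 i hi, h1 j hj]
      have := hm (show (⟨i, hi⟩ : Fin N) ≤ ⟨j, hj⟩ from hij)
      simp only [Function.comp, hg] at this
      linarith only [this]
    · rw [h2 j hj, hN j (by omega)]
      exact h0 _

/-- Abel summation. -/
theorem abel {y u v : ℕ → ℝ} (hy : Antitone y) (hy0 : ∀ k, 0 ≤ y k)
    (h : ∀ M, ∑ a ∈ range M, u a ≤ ∑ a ∈ range M, v a) (N : ℕ) :
    ∑ a ∈ range N, u a * y a ≤ ∑ a ∈ range N, v a * y a := by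
  have key : ∀ M, (∑ a ∈ range M, (v a - u a)) * y M ≤ ∑ a ∈ range M, (v a - u a) * y a := by
    intro M
    induction M with
    | zero => simp
    | succ M ih =>
      rw [Finset.sum_range_succ (fun a => (v a - u a) * y a)]
      have h1 : 0 ≤ ∑ a ∈ range (M + 1), (v a - u a) := by
        rw [Finset.sum_sub_distrib]
        have := h (M + 1)
        linarith
      have h2 : (∑ a ∈ range (M + 1), (v a - u a)) * y (M + 1) ≤
          (∑ a ∈ range (M + 1), (v a - u a)) * y M :=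
        mul_le_mul_of_nonneg_left (hy (Nat.le_succ M)) h1
      rw [Finset.sum_range_succ] at h2 ⊢
      linarith only [ih, h2]
  have h1 := key N
  have h2 : 0 ≤ (∑ a ∈ range N, (v a - u a)) * y N := by
    apply mul_nonneg _ (hy0 N)
    rw [Finset.sum_sub_distrib]
    have := h N
    linarith
  have h3 : ∑ a ∈ range N, (v a - u a) * y a =
      ∑ a ∈ range N, v a * y a - ∑ a ∈ range N, u a * y a := by
    rw [← Finset.sum_sub_distrib]
    apply Finset.sum_congr rfl
    intro a _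
    ring
  linarith

theorem out_fin {p q : ℕ → ℝ} {N : ℕ} (hp : ∀ k, N ≤ k → p k = 0) (hq : ∀ k, N ≤ k → q k = 0)
    (k : ℕ) : out η p q k = ∑ i ∈ range N, ∑ j ∈ range N, ker η k i j * (p i * q j) := by
  unfold out
  rw [tsum_eq_sum (s := range N ×ˢ range N), Finset.sum_product]
  intro ij hij
  rw [Finset.mem_product, not_and_or] at hij
  simp only [Finset.mem_range, not_lt] at hij
  rcases hij with h | h
  · rw [hp _ h]; ring
  · rw [hq _ h]; ring

theorem comp_zero {p : ℕ → ℝ} {N : ℕ} (hp : ∀ k, N ≤ k → p k = 0) {σ : Equiv.Perm ℕ}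
    (hσ : ∀ i, i ∈ range N ↔ σ i ∈ range N) (k : ℕ) (hk : N ≤ k) : (p ∘ σ) k = 0 := by
  apply hp
  have := hσ k
  simp only [Finset.mem_range] at this
  by_contra h
  rw [not_le] at h
  have := this.2 h
  omega

theorem card_image_perm (σ : Equiv.Perm ℕ) (M : ℕ) : ((range M).image σ).card = M := by
  rw [Finset.card_image_of_injective _ σ.injective, Finset.card_range]

/-- rearranging the inputs concentrates the output. -/
theorem out_rearrange (h0 : 0 ≤ η) (h1 : η ≤ 1) {p q : ℕ → ℝ} (p0 : ∀ k, 0 ≤ p k)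
    (q0 : ∀ k, 0 ≤ q k) {N : ℕ} (hp : ∀ k, N ≤ k → p k = 0) (hq : ∀ k, N ≤ k → q k = 0)
    {σ τ : Equiv.Perm ℕ} (hσ : ∀ i, i ∈ range N ↔ σ i ∈ range N)
    (hτ : ∀ i, i ∈ range N ↔ τ i ∈ range N) (ap : Antitone (p ∘ σ)) (aq : Antitone (q ∘ τ))
    (Z : Finset ℕ) :
    ∑ k ∈ Z, out η p q k ≤ ∑ k ∈ range Z.card, out η (p ∘ σ) (q ∘ τ) k := by
  set W : ℕ → ℕ → ℝ := fun i j => ∑ k ∈ Z, ker η k i j with hW
  set V : ℕ → ℕ → ℝ := fun i j => ∑ k ∈ range Z.card, ker η k i j with hV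
  have e1 : ∑ k ∈ Z, out η p q k =
      ∑ a ∈ range N, (∑ b ∈ range N, W (σ a) (τ b) * (q ∘ τ) b) * (p ∘ σ) a := by
    have : ∑ k ∈ Z, out η p q k = ∑ i ∈ range N, ∑ j ∈ range N, W i j * q j * p i := by
      simp only [out_fin hp hq]
      rw [Finset.sum_comm]
      apply Finset.sum_congr rfl
      intro i _
      rw [Finset.sum_comm]
      apply Finset.sum_congr rfl
      intro j _
      rw [hW, ← Finset.sum_mul]
      ring
    rw [this]
    symm
    apply Finset.sum_equiv σ hσ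
    intro a _
    rw [Finset.sum_mul]
    apply Finset.sum_equiv τ hτ
    intro b _
    rfl
  have e2 : ∑ k ∈ range Z.card, out η (p ∘ σ) (q ∘ τ) k =
      ∑ a ∈ range N, (∑ b ∈ range N, V a b * (q ∘ τ) b) * (p ∘ σ) a := by
    simp only [out_fin (comp_zero hp hσ) (comp_zero hq hτ)]
    rw [Finset.sum_comm]
    apply Finset.sum_congr rfl
    intro i _
    rw [Finset.sum_comm, Finset.sum_mul]
    apply Finset.sum_congr rfl
    intro j _
    rw [hV, ← Finset.sum_mul]
    ring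
  rw [e1, e2]
  apply abel ap (fun k => p0 _)
  intro M
  have f1 : ∀ (U : ℕ → ℕ → ℝ), ∑ a ∈ range M, ∑ b ∈ range N, U a b * (q ∘ τ) b =
      ∑ b ∈ range N, (∑ a ∈ range M, U a b) * (q ∘ τ) b := by
    intro U
    rw [Finset.sum_comm]
    apply Finset.sum_congr rfl
    intro b _
    rw [Finset.sum_mul]
  rw [f1 (fun a b => W (σ a) (τ b)), f1 V]
  apply abel aq (fun k => q0 _)
  intro M'
  have r := riesz h0 h1 ((range M).image σ) ((range M').image τ) Z
  rw [card_image_perm, card_image_perm, Finset.sum_image (fun _ _ _ _ h => σ.injective h)] at r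
  have e3 : ∑ a ∈ range M, ∑ j ∈ (range M').image τ, ∑ k ∈ Z, ker η k (σ a) j =
      ∑ b ∈ range M', ∑ a ∈ range M, W (σ a) (τ b) := by
    rw [Finset.sum_comm]
    rw [Finset.sum_image (fun _ _ _ _ h => τ.injective h)]
  have e4 : ∑ i ∈ range M, ∑ j ∈ range M', ∑ k ∈ range Z.card, ker η k i j =
      ∑ b ∈ range M', ∑ a ∈ range M, V a b := by
    rw [Finset.sum_comm]
  rw [e3, e4] at r
  exact r

/-- a more concentrated distribution has smaller entropy. -/
theorem entropy_le {x y : ℕ → ℝ} (x0 : ∀ k, 0 ≤ x k) (y0 : ∀ k, 0 ≤ y k) {N : ℕ}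
    (hx : ∀ k, N ≤ k → x k = 0) (hy : ∀ k, N ≤ k → y k = 0)
    (hs : ∑ k ∈ range N, x k = ∑ k ∈ range N, y k)
    (h : ∀ Z : Finset ℕ, ∑ k ∈ Z, x k ≤ ∑ k ∈ range Z.card, y k) : Hs y ≤ Hs x := by
  obtain ⟨σ, hσ, ax⟩ := exists_sort x0 hx
  set z : ℕ → ℝ := x ∘ σ with hz
  have z0 : ∀ k, 0 ≤ z k := fun k => x0 _
  have zN : ∀ k, N ≤ k → z k = 0 := comp_zero hx hσ
  have hzs : ∑ k ∈ range N, z k = ∑ k ∈ range N, x k := Finset.sum_equiv σ hσ (fun _ _ => rfl)
  have part : ∀ M, ∑ k ∈ range M, z k ≤ ∑ k ∈ range M, y k := by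
    intro M
    have := h ((range M).image σ)
    rw [card_image_perm, Finset.sum_image (fun _ _ _ _ h => σ.injective h)] at this
    exact this
  have hHs : Hs x = ∑ k ∈ range N, Real.negMulLog (z k) := by
    have : Hs x = Hs z := (σ.tsum_eq (fun k => Real.negMulLog (x k))).symm
    rw [this]
    unfold Hs
    apply tsum_eq_sum
    intro k hk
    rw [Finset.mem_range, not_lt] at hk
    rw [zN k hk, Real.negMulLog_zero]
  have hHy : Hs y = ∑ k ∈ range N, Real.negMulLog (y k) := by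
    unfold Hs
    apply tsum_eq_sum
    intro k hk
    rw [Finset.mem_range, not_lt] at hk
    rw [hy k hk, Real.negMulLog_zero]
  -- full sums bound partial sums
  have tot : ∀ M, ∑ k ∈ range M, y k ≤ ∑ k ∈ range N, y k := by
    intro M
    rcases le_total M N with hM | hM
    · exact Finset.sum_le_sum_of_subset_of_nonneg (Finset.range_mono hM) (fun k _ _ => y0 k)
    · apply le_of_eq
      symm
      apply Finset.sum_subset (Finset.range_mono hM)
      intro k _ hk
      rw [Finset.mem_range, not_lt] at hk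
      exact hy k hk
  have zero_of : ∀ k, z k = 0 → ∑ a ∈ range k, z a = ∑ a ∈ range N, z a := by
    intro k hk
    rcases le_total k N with hM | hM
    · apply Finset.sum_subset (Finset.range_mono hM)
      intro a _ ha
      rw [Finset.mem_range, not_lt] at ha
      exact le_antisymm (hk ▸ ax ha) (z0 a)
    · symm
      apply Finset.sum_subset (Finset.range_mono hM)
      intro a _ ha
      rw [Finset.mem_range, not_lt] at ha
      exact zN a ha
  have yz : ∀ k, z k = 0 → y k = 0 := by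
    intro k hk
    have h1 := zero_of k hk
    have h2 := part k
    have h3 := tot (k + 1)
    rw [Finset.sum_range_succ] at h3
    have h4 := y0 k
    linarith only [h4, hs, hzs, h1, h2, h3]
  -- the first zero of z
  have hex : ∃ k, z k = 0 := ⟨N, zN N le_rfl⟩
  classical
  set K := Nat.find hex with hK
  have zK : z K = 0 := Nat.find_spec hex
  have zpos : ∀ k, k < K → 0 < z k := fun k hk =>
    lt_of_le_of_ne (z0 k) (Ne.symm (Nat.find_min hex hk))
  have KN : K ≤ N := Nat.find_min' hex (zN N le_rfl)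
  have zge : ∀ k, K ≤ k → z k = 0 := fun k hk => le_antisymm (zK ▸ ax hk) (z0 k)
  have red : ∀ F : ℝ → ℝ, F 0 = 0 → ∀ w : ℕ → ℝ, (∀ k, K ≤ k → w k = 0) →
      ∑ k ∈ range N, F (w k) = ∑ k ∈ range K, F (w k) := by
    intro F hF w hw
    symm
    apply Finset.sum_subset (Finset.range_mono KN)
    intro k _ hk
    rw [Finset.mem_range, not_lt] at hk
    rw [hw k hk, hF]
  have yge : ∀ k, K ≤ k → y k = 0 := fun k hk => yz k (zge k hk)
  rw [hHs, hHy, red _ Real.negMulLog_zero z zge, red _ Real.negMulLog_zero y yge]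
  have sz : ∑ k ∈ range K, z k = ∑ k ∈ range K, y k := by
    have h1 := red id rfl z zge
    have h2 := red id rfl y yge
    simp only [id] at h1 h2
    rw [← h1, ← h2, hzs, hs]
  set c : ℕ → ℝ := fun k => -Real.log (z k) with hc
  have key : ∀ M, M ≤ K → ∀ C : ℝ, (∀ a, a < M → c a ≤ C) →
      ∑ a ∈ range M, c a * (y a - z a) ≤ C * ∑ a ∈ range M, (y a - z a) := by
    intro M
    induction M with
    | zero => intro _ C _; simp
    | succ M ih =>
      intro hM C hC
      have mono : ∀ a, a < M → c a ≤ c M := by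
        intro a ha
        simp only [hc]
        apply neg_le_neg
        exact Real.log_le_log (zpos M (by omega)) (ax ha.le)
      have h1 := ih (by omega) (c M) mono
      rw [Finset.sum_range_succ]
      have h2 : 0 ≤ ∑ a ∈ range (M + 1), (y a - z a) := by
        rw [Finset.sum_sub_distrib]
        have := part (M + 1)
        linarith only [this]
      have h3 := mul_le_mul_of_nonneg_right (hC M (by omega)) h2
      rw [Finset.sum_range_succ] at h3 ⊢
      linarith only [h1, h3]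
  have hfin : ∑ a ∈ range K, c a * (y a - z a) ≤ 0 := by
    have := key K le_rfl (∑ a ∈ range K, |c a|) (fun a ha =>
      (le_abs_self _).trans (Finset.single_le_sum (f := fun a => |c a|) (fun _ _ => abs_nonneg _)
        (Finset.mem_range.2 ha)))
    rwa [Finset.sum_sub_distrib, sz, sub_self, mul_zero] at this
  have pt : ∀ k ∈ range K, Real.negMulLog (y k) ≤
      Real.negMulLog (z k) + c k * (y k - z k) - (y k - z k) := by
    intro k hk
    have hzk := zpos k (Finset.mem_range.1 hk)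
    simp only [Real.negMulLog, hc]
    rcases (y0 k).eq_or_lt with hyk | hyk
    · rw [← hyk]
      simp only [neg_zero, Real.log_zero, mul_zero, neg_mul, zero_sub, mul_neg, neg_neg, sub_neg_eq_add, ge_iff_le]
      have := hzk.le
      linarith only [hzk]
    · have h1 := Real.log_le_sub_one_of_pos (div_pos hzk hyk)
      rw [Real.log_div hzk.ne' hyk.ne'] at h1
      have h2 := mul_le_mul_of_nonneg_left h1 hyk.le
      have h3 : y k * (z k / y k - 1) = z k - y k := by (clear * - hyk; field_simp)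
      rw [h3] at h2
      nlinarith only [h2]
  calc ∑ k ∈ range K, Real.negMulLog (y k) ≤
      ∑ k ∈ range K, (Real.negMulLog (z k) + c k * (y k - z k) - (y k - z k)) :=
        Finset.sum_le_sum pt
    _ = ∑ k ∈ range K, Real.negMulLog (z k) + ∑ k ∈ range K, c k * (y k - z k) -
        (∑ k ∈ range K, y k - ∑ k ∈ range K, z k) := by
        rw [Finset.sum_sub_distrib, Finset.sum_add_distrib, Finset.sum_sub_distrib]
    _ ≤ _ := by rw [sz]; linarith only [hfin]

theorem out_sum (h0 : 0 ≤ η) (h1 : η ≤ 1) {p q : ℕ → ℝ} {N : ℕ} (hp : ∀ k, N ≤ k → p k = 0)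
    (hq : ∀ k, N ≤ k → q k = 0) : ∑ k ∈ range (2 * N), out η p q k =
      (∑ i ∈ range N, p i) * ∑ j ∈ range N, q j := by
  simp only [out_fin hp hq]
  rw [Finset.sum_comm, Finset.sum_mul]
  apply Finset.sum_congr rfl
  intro i hi
  rw [Finset.sum_comm, Finset.mul_sum]
  apply Finset.sum_congr rfl
  intro j hj
  rw [Finset.mem_range] at hi hj
  rw [← Finset.sum_mul, sum_ker_range h0 h1 (2 * N) i j (by omega), one_mul]

theorem out_zero_ge {p q : ℕ → ℝ} {N : ℕ} (hp : ∀ k, N ≤ k → p k = 0)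
    (hq : ∀ k, N ≤ k → q k = 0) (k : ℕ) (hk : 2 * N ≤ k) : out η p q k = 0 := by
  rw [out_fin hp hq]
  apply Finset.sum_eq_zero
  intro i hi
  apply Finset.sum_eq_zero
  intro j hj
  rw [Finset.mem_range] at hi hj
  rw [ker_zero_of_lt (by omega), zero_mul]

theorem Hs_out_le (h0 : 0 ≤ η) (h1 : η ≤ 1) {p q : ℕ → ℝ} (p0 : ∀ k, 0 ≤ p k)
    (q0 : ∀ k, 0 ≤ q k) {N : ℕ} (hp : ∀ k, N ≤ k → p k = 0) (hq : ∀ k, N ≤ k → q k = 0)
    {σ τ : Equiv.Perm ℕ} (hσ : ∀ i, i ∈ range N ↔ σ i ∈ range N)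
    (hτ : ∀ i, i ∈ range N ↔ τ i ∈ range N) (ap : Antitone (p ∘ σ)) (aq : Antitone (q ∘ τ)) :
    Hs (out η (p ∘ σ) (q ∘ τ)) ≤ Hs (out η p q) := by
  have cp := comp_zero hp hσ
  have cq := comp_zero hq hτ
  apply entropy_le (x := out η p q) (y := out η (p ∘ σ) (q ∘ τ)) (out_nonneg η p0 q0)
    (out_nonneg η (fun k => p0 _) (fun k => q0 _)) (N := 2 * N) (out_zero_ge hp hq)
    (out_zero_ge cp cq) ?_ (out_rearrange h0 h1 p0 q0 hp hq hσ hτ ap aq)
  rw [out_sum h0 h1 hp hq, out_sum h0 h1 cp cq]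
  congr 1
  · exact (Finset.sum_equiv σ hσ (fun _ _ => rfl)).symm
  · exact (Finset.sum_equiv τ hτ (fun _ _ => rfl)).symm

theorem exists_bound {p : ℕ → ℝ} (fp : (Function.support p).Finite) :
    ∃ N, ∀ k, N ≤ k → p k = 0 := by
  obtain ⟨N, hN⟩ := fp.bddAbove
  refine ⟨N + 1, fun k hk => ?_⟩
  by_contra h
  have h2 := hN (Function.mem_support.2 h)
  omega

theorem isProb_comp {p : ℕ → ℝ} (hp : IsProb p) (σ : Equiv.Perm ℕ) : IsProb (p ∘ σ) :=
  ⟨fun k => hp.1 _, (Equiv.hasSum_iff σ).2 hp.2⟩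

/-- the linear entropy inequality for all finitely supported number distributions. -/
theorem lin_one_all (h0 : 0 ≤ η) (h1 : η ≤ 1) (r s : ℝ) (hr : 0 < r) (hs : 0 < s)
    (p q : ℕ → ℝ) (hp : IsProb p) (hq : IsProb q)
    (fp : (Function.support p).Finite) (fq : (Function.support q).Finite) :
    η * theta r * (Hs p - Real.log (1 + r)) + (1 - η) * theta s * (Hs q - Real.log (1 + s)) ≤
      theta (η * r + (1 - η) * s) *
        (Hs (out η p q) - Real.log (1 + (η * r + (1 - η) * s))) := by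
  obtain ⟨N₁, hN₁⟩ := exists_bound fp
  obtain ⟨N₂, hN₂⟩ := exists_bound fq
  set N := max N₁ N₂ with hN
  have hpN : ∀ k, N ≤ k → p k = 0 := fun k hk => hN₁ k ((le_max_left _ _).trans hk)
  have hqN : ∀ k, N ≤ k → q k = 0 := fun k hk => hN₂ k ((le_max_right _ _).trans hk)
  obtain ⟨σ, hσ, ap⟩ := exists_sort hp.1 hpN
  obtain ⟨τ, hτ, aq⟩ := exists_sort hq.1 hqN
  have f : ∀ {u : ℕ → ℝ}, (∀ k, N ≤ k → u k = 0) → (Function.support u).Finite := by
    intro u hu
    apply (range N).finite_toSet.subset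
    intro k hk
    rw [Finset.mem_coe, Finset.mem_range]
    by_contra h
    exact hk (hu k (not_lt.1 h))
  have key := lin_all h0 h1 r s hr hs (p ∘ σ) (q ∘ τ) (isProb_comp hp σ) (isProb_comp hq τ)
    (f (comp_zero hpN hσ)) (f (comp_zero hqN hτ)) ap aq
  have e1 : Hs (p ∘ σ) = Hs p := σ.tsum_eq (fun k => Real.negMulLog (p k))
  have e2 : Hs (q ∘ τ) = Hs q := τ.tsum_eq (fun k => Real.negMulLog (q k))
  rw [e1, e2] at key
  have h1' : 0 ≤ 1 - η := by linarith only [h1]
  have hc : 0 < η * r + (1 - η) * s := by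
    rcases h0.eq_or_lt with h | h
    · rw [← h]; simpa using hs
    · have := mul_pos h hr
      have := mul_nonneg h1' hs.le
      (clear h0 p q hp hq fp fq N₁ hN₁ N₂ hN₂ N hN hpN hqN σ hσ ap τ hτ aq f key e1 e2; linarith)
  refine key.trans (mul_le_mul_of_nonneg_left ?_ (theta_pos hc).le)
  have := Hs_out_le h0 h1 hp.1 hq.1 hpN hqN hσ hτ ap aq
  linarith only [this]

end

end Vale.Agent.P369

end
end
end

section

section

section

/-!
The entropy photon-number inequality for number-diagonal inputs.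
-/

namespace Vale.Agent.P369

open scoped InnerProductSpace

noncomputable section

theorem epni_classical_all {η : ℝ} (h0 : 0 ≤ η) (h1 : η ≤ 1) {n : ℕ} (hn : 0 < n)
    {p q : Conf n → ℝ} (hp : IsProb p) (hq : IsProb q)
    (Ep : Summable fun k : Conf n => (∑ j, (k j : ℝ)) * p k)
    (Eq : Summable fun k : Conf n => (∑ j, (k j : ℝ)) * q k) :
    η * Function.invFunOn g (Set.Ici 0) (Hs p / n) +
      (1 - η) * Function.invFunOn g (Set.Ici 0) (Hs q / n) ≤
      Function.invFunOn g (Set.Ici 0) (Hs (outn η p q) / n) :=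
  epni_inv_all h0 h1 (fun i j => (hasSum_ker h0 h1 i j).tsum_eq) (lin_one_all h0 h1) hn hp hq Ep Eq

variable {H : Type} [NormedAddCommGroup H] [InnerProductSpace ℂ H]
variable {K : Type} [NormedAddCommGroup K] [InnerProductSpace ℂ K]
variable {n : ℕ} {η : ℝ}

theorem epni_number [CompleteSpace H] [CompleteSpace K] (hn : 1 ≤ n) (h0 : 0 ≤ η) (h1 : η ≤ 1)
    (e : Conf n → H) (he : Sys.IsNumberBasis e)
    (f : Conf n → Conf n → K) (hf : Sys.IsNumberBasis fun x : Conf n × Conf n => f x.1 x.2)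
    (ρA ρB : H →L[ℂ] H) (hA : Sys.IsState e ρA) (hB : Sys.IsState e ρB)
    (eA : Sys.FiniteEnergy e ρA) (eB : Sys.FiniteEnergy e ρB) (pA : Sys.IsNumberDiagonal e ρA)
    (pB : Sys.IsNumberDiagonal e ρB) :
    (∃ ρC : H →L[ℂ] H, Sys.IsOutput η e f ρA ρB ρC) ∧
    ∀ ρC : H →L[ℂ] H, Sys.IsOutput η e f ρA ρB ρC → Sys.IsState e ρC ∧ Sys.FiniteEnergy e ρC ∧
      η * Sys.photonNumber e ρA + (1 - η) * Sys.photonNumber e ρB ≤ Sys.photonNumber e ρC := by
  obtain ⟨T, hT0⟩ := exists_repr he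
  have hT : ∀ k, T (e k) = ket k := hT0
  obtain ⟨T2, hT2⟩ := exists_repr hf
  have hT2' : ∀ k l, T2 (f k l) = ket2 k l := fun k l => hT2 (k, l)
  obtain ⟨p, hp⟩ := pA
  obtain ⟨q, hq⟩ := pB
  have Pp := isProb_sys he.1 hA hp
  have Pq := isProb_sys he.1 hB hq
  have diag : ∀ {ρ : H →L[ℂ] H} {d : Conf n → ℝ}, (∀ k, ρ (e k) = (d k : ℂ) • e k) →
      ∀ k, cj T ρ (ket k) = (d k : ℂ) • ket k := by
    intro ρ d h k
    rw [cj_apply, ← hT k, T.symm_apply_apply, h, map_smul]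
  have hp' := diag hp
  have hq' := diag hq
  constructor
  · obtain ⟨ρC', hO⟩ := exists_output (n := n) h0 h1 hp' hq' Pp Pq
    exact ⟨_, output_from T hT T2 hT2' hO⟩
  · intro ρC hO
    have hO' := output_to T hT T2 hT2' hO
    have hC' := output_diag h0 h1 hp' hq' Pp Pq hO'
    have hC : ∀ k, ρC (e k) = (outn η p q k : ℂ) • e k := by
      intro k
      have h := hC' k
      rw [cj_apply, ← hT k, T.symm_apply_apply, ← map_smul] at h
      exact T.injective h
    have Po := outn_isProb h0 h1 Pp Pq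
    have sC' := isState_of_diag hC' Po
    have sC : Sys.IsState e ρC := by
      constructor
      · have := cj_isPositive T.symm sC'.1
        have e1 : cj T.symm (cj T ρC) = ρC := by
          ext x
          rw [cj_apply, cj_apply]
          simp only [LinearIsometryEquiv.symm_symm, LinearIsometryEquiv.symm_apply_apply]
        rwa [e1] at this
      · simp only [inner_sys he.1 hC]
        have h2 : HasSum (fun k => ((outn η p q k : ℝ) : ℂ)) ((1 : ℝ) : ℂ) := by
          exact_mod_cast Po.2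
        simpa using h2
    have Ep : Summable fun k : Conf n => (∑ j, (k j : ℝ)) * p k := by
      unfold Sys.FiniteEnergy at eA
      simpa only [inner_sys he.1 hp, Complex.ofReal_re] using eA
    have Eq : Summable fun k : Conf n => (∑ j, (k j : ℝ)) * q k := by
      unfold Sys.FiniteEnergy at eB
      simpa only [inner_sys he.1 hq, Complex.ofReal_re] using eB
    refine ⟨sC, ?_, ?_⟩
    · unfold Sys.FiniteEnergy
      simp only [inner_sys he.1 hC, Complex.ofReal_re]
      exact outn_energy h0 h1 Pp Pq Ep Eq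
    · unfold Sys.photonNumber
      rw [entropy_sys e he.1 ρA hA p hp, entropy_sys e he.1 ρB hB q hq,
        entropy_sys e he.1 ρC sC _ hC]
      exact epni_classical_all h0 h1 (by omega) Pp Pq Ep Eq

end

end Vale.Agent.P369

end
end
end

section

section

/-!
P369V, G5-G7, part c: existence of the output with vacuum second input, in the sequence model.
-/

namespace Vale.Agent.P369V

open scoped InnerProductSpace
open Vale.Agent.P369

noncomputable section

variable {n : ℕ} {η : ℝ}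

theorem g6_exists_iso {F : Type} [NormedAddCommGroup F] [InnerProductSpace ℂ F] [CompleteSpace F]
    (v : Conf n → F) (hv : Orthonormal ℂ v) : ∃ V : Fock n →ₗᵢ[ℂ] F, ∀ k, V (ket k) = v k := by
  refine ⟨hv.orthogonalFamily.linearIsometry, fun k => ?_⟩
  unfold ket
  rw [OrthogonalFamily.linearIsometry_apply_single]
  simp

theorem g6_orth (l : Conf n) : Orthonormal ℂ (fun k : Conf n => (ket2 k l : Fock2 n)) := by
  rw [orthonormal_iff_ite]
  intro k k'
  rw [inner_ket2, ket2_apply]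
  by_cases h : k = k' <;> simp [h]

theorem g6_adj {V : Fock n →ₗᵢ[ℂ] Fock2 n} {l : Conf n} (hV : ∀ k, V (ket k) = ket2 k l)
    (x : Fock2 n) (k : Conf n) :
    (ContinuousLinearMap.adjoint V.toContinuousLinearMap x) k = x (k, l) := by
  rw [← inner_ket, ContinuousLinearMap.adjoint_inner_right]
  have : V.toContinuousLinearMap (ket k) = ket2 k l := hV k
  rw [this, inner_ket2]

theorem g6_product {ρA ρB : Fock n →L[ℂ] Fock n} (hA : P369.IsState ρA)
    (hB : P369.IsState ρB) (hB0 : ρB (ket 0) = ket 0) :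
    ∃ ρAB : Fock2 n →L[ℂ] Fock2 n, ρAB.IsPositive ∧ P369.IsProduct ρA ρB ρAB := by
  obtain ⟨V, hV⟩ := g6_exists_iso (fun k : Conf n => (ket2 k 0 : Fock2 n)) (g6_orth 0)
  refine ⟨V.toContinuousLinearMap ∘L ρA ∘L (ContinuousLinearMap.adjoint V.toContinuousLinearMap),
    hA.1.conj_adjoint _, ?_⟩
  intro k l k' l'
  have hadj : ∀ a b : Conf n, ContinuousLinearMap.adjoint V.toContinuousLinearMap (ket2 a b) =
      if b = 0 then ket a else 0 := by
    intro a b
    apply fock_ext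
    intro m
    rw [g6_adj hV, ket2_apply]
    by_cases hb : b = 0
    · subst hb
      rw [if_pos rfl, ket_apply]
      by_cases hm : m = a <;> simp [hm]
    · rw [if_neg hb, if_neg (fun h => hb h.2.symm)]
      rfl
  have e1 : ⟪ket2 k l, (V.toContinuousLinearMap ∘L ρA ∘L
      (ContinuousLinearMap.adjoint V.toContinuousLinearMap)) (ket2 k' l')⟫_ℂ =
      ⟪ContinuousLinearMap.adjoint V.toContinuousLinearMap (ket2 k l),
        ρA (ContinuousLinearMap.adjoint V.toContinuousLinearMap (ket2 k' l'))⟫_ℂ := by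
    rw [ContinuousLinearMap.adjoint_inner_left]
    rfl
  rw [e1, hadj, hadj, g5_vac_inner hB hB0]
  by_cases hl : l = 0
  · by_cases hl' : l' = 0
    · simp [hl, hl']
    · simp [hl, hl']
  · simp only [hl, ↓reduceIte, inner_zero_left, false_and, mul_zero]

theorem g6_key {B : Conf n → (Fock n →L[ℂ] Fock n)} (sB : Summable B) (x y : Fock n) :
    HasSum (fun l => ⟪x, B l y⟫_ℂ) ⟪x, (∑' l, B l) y⟫_ℂ := by
  have h2 := (ContinuousLinearMap.apply ℂ (Fock n) y).hasSum sB.hasSum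
  exact (innerSL ℂ x).hasSum h2

theorem g6_tsum_pos {B : Conf n → (Fock n →L[ℂ] Fock n)} (sB : Summable B)
    (pB : ∀ l, (B l).IsPositive) : (∑' l, B l).IsPositive := by
  refine ⟨fun x y => ?_, fun x => ?_⟩
  · have h2 := g6_key sB x y
    have h3 := Complex.hasSum_conj'.mpr (g6_key sB y x)
    have h4 : ∀ l, (starRingEnd ℂ) ⟪y, B l x⟫_ℂ = ⟪x, B l y⟫_ℂ := by
      intro l
      rw [inner_conj_symm]
      exact (pB l).inner_left_eq_inner_right x y
    simp only [h4] at h3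
    have h5 := h3.unique h2
    rw [inner_conj_symm] at h5
    exact h5
  · have h2 := Complex.hasSum_re (g6_key sB x x)
    have h3 : 0 ≤ (⟪x, (∑' l, B l) x⟫_ℂ).re :=
      h2.nonneg fun l => (pB l).re_inner_nonneg_right x
    change 0 ≤ (⟪(∑' l, B l) x, x⟫_ℂ).re
    rw [← inner_conj_symm, Complex.conj_re]
    exact h3

/-- the blocks of an operator on the two groups of modes -/
theorem g6_block {T : Fock2 n →L[ℂ] Fock2 n} (pT : T.IsPositive) (l : Conf n) :
    ∃ B : Fock n →L[ℂ] Fock n, B.IsPositive ∧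
      ∀ m m' : Conf n, ⟪ket m, B (ket m')⟫_ℂ = ⟪ket2 m l, T (ket2 m' l)⟫_ℂ := by
  obtain ⟨W, hW⟩ := g6_exists_iso (fun k : Conf n => (ket2 k l : Fock2 n)) (g6_orth l)
  refine ⟨(ContinuousLinearMap.adjoint W.toContinuousLinearMap) ∘L T ∘L W.toContinuousLinearMap,
    pT.adjoint_conj _, fun m m' => ?_⟩
  have e1 : ⟪ket m, ((ContinuousLinearMap.adjoint W.toContinuousLinearMap) ∘L T ∘L
      W.toContinuousLinearMap) (ket m')⟫_ℂ = ⟪W (ket m), T (W (ket m'))⟫_ℂ := by
    change ⟪ket m, ContinuousLinearMap.adjoint W.toContinuousLinearMap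
      (T (W.toContinuousLinearMap (ket m')))⟫_ℂ = _
    rw [ContinuousLinearMap.adjoint_inner_right]
    rfl
  rw [e1, hW, hW]

theorem g6_summable (h0 : 0 ≤ η) (h1 : η ≤ 1) {p : Conf n → ℝ} (Pp : IsProb p) :
    Summable (fun x : Conf n × Conf n =>
      ampn (Real.sqrt η) (Real.sqrt (1 - η)) x.2 x.1 (x.2 + x.1) 0 ^ 2 * p (x.2 + x.1)) := by
  have F0 : ∀ m l : Conf n, 0 ≤ ampn (Real.sqrt η) (Real.sqrt (1 - η)) m l (m + l) 0 ^ 2 *
      p (m + l) := fun m l => mul_nonneg (sq_nonneg _) (Pp.1 _)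
  have sF : Summable (fun x : Conf n × Conf n =>
      ampn (Real.sqrt η) (Real.sqrt (1 - η)) x.1 x.2 (x.1 + x.2) 0 ^ 2 * p (x.1 + x.2)) := by
    rw [summable_prod_of_nonneg (fun x => F0 x.1 x.2)]
    refine ⟨fun m => (g5_diag_sum h0 h1 Pp m).summable, ?_⟩
    have := (outn_isProb h0 h1 Pp g5_del_isProb).2.summable
    refine this.congr fun m => ?_
    exact (g5_diag_sum h0 h1 Pp m).tsum_eq.symm
  exact (Equiv.prodComm (Conf n) (Conf n)).summable_iff.mpr sF

theorem g6_exists (h0 : 0 ≤ η) (h1 : η ≤ 1) {ρA ρB : Fock n →L[ℂ] Fock n} (hA : P369.IsState ρA)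
    (hB : P369.IsState ρB) (hB0 : ρB (ket 0) = ket 0) :
    ∃ ρC : Fock n →L[ℂ] Fock n, P369.IsOutput η ρA ρB ρC ∧ ρC.IsPositive := by
  obtain ⟨U, hU⟩ := exists_bs (n := n) h0 h1
  obtain ⟨ρAB, pAB, hP⟩ := g6_product hA hB hB0
  have pT : (cj U ρAB).IsPositive := cj_isPositive U pAB
  choose B pB eB using fun l : Conf n => g6_block pT l
  have eF : ∀ l m : Conf n, (⟪ket m, B l (ket m)⟫_ℂ).re =
      ampn (Real.sqrt η) (Real.sqrt (1 - η)) m l (m + l) 0 ^ 2 * g5_dg ρA (m + l) := by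
    intro l m
    rw [eB, cj_apply, g5_element hU hB hB0 hP, g5_dg_eq hA.1, ← Complex.ofReal_mul,
      Complex.ofReal_re]
    ring
  have sF' := g6_summable h0 h1 (g5_dg_isProb hA)
  have nB : ∀ l, ‖B l‖ ≤ ∑' m, ampn (Real.sqrt η) (Real.sqrt (1 - η)) m l (m + l) 0 ^ 2 *
      g5_dg ρA (m + l) := by
    intro l
    apply g5_norm_le (pB l)
    refine (sF'.prod_factor l).hasSum.congr_fun fun m => ?_
    exact eF l m
  have sB : Summable B := Summable.of_norm_bounded sF'.prod nB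
  refine ⟨∑' l, B l, ⟨U, ρAB, hU, hP, ?_⟩, g6_tsum_pos sB pB⟩
  intro m m'
  refine (g6_key sB (ket m) (ket m')).congr_fun fun l => ?_
  exact (eB l m m').symm

theorem g7_diag (h0 : 0 ≤ η) (h1 : η ≤ 1) {ρA ρB ρC : Fock n →L[ℂ] Fock n} (hA : P369.IsState ρA)
    (hB : P369.IsState ρB) (hB0 : ρB (ket 0) = ket 0) (hO : P369.IsOutput η ρA ρB ρC) (k : Conf n) :
    ⟪ket k, ρC (ket k)⟫_ℂ = ((outn η (g5_dg ρA) (g5_del n) k : ℝ) : ℂ) := by
  have h2 := g5_output hB hB0 hO k k
  have h3 := Complex.hasSum_ofReal.mpr (g5_diag_sum h0 h1 (g5_dg_isProb hA) k)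
  refine h2.unique (h3.congr_fun fun l => ?_)
  rw [g5_dg_eq hA.1, ← Complex.ofReal_mul]
  congr 1
  ring

theorem g7_ext {S T : Fock n →L[ℂ] Fock n} (h : ∀ k l, ⟪ket k, S (ket l)⟫_ℂ = ⟪ket k, T (ket l)⟫_ℂ) :
    S = T := by
  have h1 : ∀ l, S (ket l) = T (ket l) := by
    intro l
    apply fock_ext
    intro k
    rw [← inner_ket, ← inner_ket, h]
  ext1 f
  have h2 : HasSum (fun i => lp.single 2 i (f i)) f := lp.hasSum_single (by norm_num) f
  have h3 : HasSum (fun i => S (lp.single 2 i (f i))) (S f) := S.hasSum h2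
  have h4 : HasSum (fun i => T (lp.single 2 i (f i))) (T f) := T.hasSum h2
  refine h3.unique (h4.congr_fun fun i => ?_)
  have e1 : (lp.single 2 i (f i) : Fock n) = f i • ket i := by
    unfold ket
    rw [← lp.single_smul]
    simp only [smul_eq_mul, mul_one]
  rw [e1, map_smul, map_smul, h1]

theorem g7_state (h0 : 0 ≤ η) (h1 : η ≤ 1) {ρA ρB ρC : Fock n →L[ℂ] Fock n} (hA : P369.IsState ρA)
    (hB : P369.IsState ρB) (hB0 : ρB (ket 0) = ket 0) (hO : P369.IsOutput η ρA ρB ρC) :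
    P369.IsState ρC := by
  obtain ⟨ρC', hO', hC'⟩ := g6_exists h0 h1 hA hB hB0
  have e : ρC = ρC' := by
    apply g7_ext
    intro k l
    exact (g5_output hB hB0 hO k l).unique (g5_output hB hB0 hO' k l)
  constructor
  · rw [e]; exact hC'
  · have h2 := Complex.hasSum_ofReal.mpr
      (outn_isProb h0 h1 (g5_dg_isProb hA) g5_del_isProb).2
    rw [Complex.ofReal_one] at h2
    refine h2.congr_fun fun k => ?_
    exact g7_diag h0 h1 hA hB hB0 hO k

theorem g7_energy (h0 : 0 ≤ η) (h1 : η ≤ 1) {ρA ρB ρC : Fock n →L[ℂ] Fock n} (hA : P369.IsState ρA)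
    (eA : P369.FiniteEnergy ρA)
    (hB : P369.IsState ρB) (hB0 : ρB (ket 0) = ket 0) (hO : P369.IsOutput η ρA ρB ρC) :
    P369.FiniteEnergy ρC := by
  have h2 : Summable fun k : Conf n => (∑ j, (k j : ℝ)) * g5_del n k := by
    refine summable_of_ne_finset_zero (s := {0}) fun k hk => ?_
    unfold g5_del
    rw [if_neg (by simpa using hk), mul_zero]
  have h3 := outn_energy h0 h1 (g5_dg_isProb hA) g5_del_isProb eA h2
  refine h3.congr fun k => ?_
  rw [g7_diag h0 h1 hA hB hB0 hO, Complex.ofReal_re]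

end

end Vale.Agent.P369V
end
end

section

section

/-!
P369V, G5-G7: the output with vacuum second input.
-/

namespace Vale.Agent.P369V

open scoped InnerProductSpace
open Vale.Agent.P369 (Conf)

noncomputable section

variable {n : ℕ} {H K : Type} [NormedAddCommGroup H] [InnerProductSpace ℂ H] [CompleteSpace H]
  [NormedAddCommGroup K] [InnerProductSpace ℂ K] [CompleteSpace K]

theorem g5_state_to {e : Conf n → H} {T : H ≃ₗᵢ[ℂ] P369.Fock n} (hT : ∀ k, T (e k) = P369.ket k)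
    {ρ : H →L[ℂ] H} (hρ : P369.Sys.IsState e ρ) : P369.IsState (P369.cj T ρ) := by
  refine ⟨P369.cj_isPositive T hρ.1, ?_⟩
  simp only [← hT, P369.cj_inner]
  exact hρ.2

theorem g5_state_from {e : Conf n → H} {T : H ≃ₗᵢ[ℂ] P369.Fock n}
    (hT : ∀ k, T (e k) = P369.ket k)
    {ρ : H →L[ℂ] H} (hρ : P369.IsState (P369.cj T ρ)) : P369.Sys.IsState e ρ := by
  constructor
  · have := P369.cj_isPositive T.symm hρ.1
    have e1 : P369.cj T.symm (P369.cj T ρ) = ρ := by
      ext x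
      rw [P369.cj_apply, P369.cj_apply]
      simp
    rwa [e1] at this
  · have h := hρ.2
    simp only [← hT, P369.cj_inner] at h
    exact h

theorem g5_vac_to {e : Conf n → H} {T : H ≃ₗᵢ[ℂ] P369.Fock n} (hT : ∀ k, T (e k) = P369.ket k)
    {ρ : H →L[ℂ] H} (h0 : ρ (e 0) = e 0) : P369.cj T ρ (P369.ket 0) = P369.ket 0 := by
  rw [P369.cj_apply, ← hT, T.symm_apply_apply, h0]

/-- G5: matrix elements of the output -/
theorem output_elem {η : ℝ} (h0 : 0 ≤ η) (h1 : η ≤ 1) {e : Conf n → H} {f : Conf n → Conf n → K}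
    (he : P369.Sys.IsNumberBasis e) (hf : P369.Sys.IsNumberBasis fun x : Conf n × Conf n => f x.1 x.2)
    {ρA ρB ρC : H →L[ℂ] H} (hA : P369.Sys.IsState e ρA)
    (hB : P369.Sys.IsState e ρB) (hB0 : ρB (e 0) = e 0)
    (hO : P369.Sys.IsOutput η e f ρA ρB ρC) (k k' : Conf n) :
    HasSum (fun l : Conf n =>
      ((∏ j, Real.sqrt (((k j + l j).choose (k j) : ℕ) : ℝ) * Real.sqrt (((k' j + l j).choose (k' j) : ℕ) : ℝ) *
        Real.sqrt η ^ (k j) * Real.sqrt η ^ (k' j) * (1 - η) ^ (l j) : ℝ) : ℂ) *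
        ⟪e (k + l), ρA (e (k' + l))⟫_ℂ) ⟪e k, ρC (e k')⟫_ℂ := by
  obtain ⟨T, hT0⟩ := P369.exists_repr he
  have hT : ∀ k, T (e k) = P369.ket k := hT0
  obtain ⟨T2, hT2⟩ := P369.exists_repr hf
  have hT2' : ∀ k l, T2 (f k l) = P369.ket2 k l := fun k l => hT2 (k, l)
  have h := g5_output (g5_state_to hT hB) (g5_vac_to hT hB0) (P369.output_to T hT T2 hT2' hO) k k'
  simp only [g5_prod_eq h1, ← hT, P369.cj_inner] at h
  exact h

/-- G6: existence -/
theorem exists_output_vac {η : ℝ} (h0 : 0 ≤ η) (h1 : η ≤ 1) {e : Conf n → H} {f : Conf n → Conf n → K}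
    (he : P369.Sys.IsNumberBasis e) (hf : P369.Sys.IsNumberBasis fun x : Conf n × Conf n => f x.1 x.2)
    {ρA ρB : H →L[ℂ] H} (hA : P369.Sys.IsState e ρA)
    (hB : P369.Sys.IsState e ρB) (hB0 : ρB (e 0) = e 0) :
    ∃ ρC : H →L[ℂ] H, P369.Sys.IsOutput η e f ρA ρB ρC := by
  obtain ⟨T, hT0⟩ := P369.exists_repr he
  have hT : ∀ k, T (e k) = P369.ket k := hT0
  obtain ⟨T2, hT2⟩ := P369.exists_repr hf
  have hT2' : ∀ k l, T2 (f k l) = P369.ket2 k l := fun k l => hT2 (k, l)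
  obtain ⟨ρC', hO, -⟩ := g6_exists h0 h1 (g5_state_to hT hA) (g5_state_to hT hB) (g5_vac_to hT hB0)
  exact ⟨_, P369.output_from T hT T2 hT2' hO⟩

/-- G7 -/
theorem output_state {η : ℝ} (h0 : 0 ≤ η) (h1 : η ≤ 1) {e : Conf n → H} {f : Conf n → Conf n → K}
    (he : P369.Sys.IsNumberBasis e) (hf : P369.Sys.IsNumberBasis fun x : Conf n × Conf n => f x.1 x.2)
    {ρA ρB ρC : H →L[ℂ] H} (hA : P369.Sys.IsState e ρA) (eA : P369.Sys.FiniteEnergy e ρA)
    (hB : P369.Sys.IsState e ρB) (hB0 : ρB (e 0) = e 0)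
    (hO : P369.Sys.IsOutput η e f ρA ρB ρC) :
    P369.Sys.IsState e ρC ∧ P369.Sys.FiniteEnergy e ρC := by
  obtain ⟨T, hT0⟩ := P369.exists_repr he
  have hT : ∀ k, T (e k) = P369.ket k := hT0
  obtain ⟨T2, hT2⟩ := P369.exists_repr hf
  have hT2' : ∀ k l, T2 (f k l) = P369.ket2 k l := fun k l => hT2 (k, l)
  have hO' := P369.output_to T hT T2 hT2' hO
  have sA := g5_state_to hT hA
  have sB := g5_state_to hT hB
  have vB := g5_vac_to hT hB0
  have eA' : P369.FiniteEnergy (P369.cj T ρA) := by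
    unfold P369.FiniteEnergy
    simp only [← hT, P369.cj_inner]
    exact eA
  refine ⟨g5_state_from hT (g7_state h0 h1 sA sB vB hO'), ?_⟩
  have h := g7_energy h0 h1 sA eA' sB vB hO'
  unfold P369.FiniteEnergy at h
  simp only [← hT, P369.cj_inner] at h
  exact h

end

end Vale.Agent.P369V
end
end

section

section

/-!
P369T, part 2: one mode, the thermal attenuator is an amplifier after a pure loss channel.
-/

namespace Vale.Agent.P369T

open Vale.Agent.P369

noncomputable section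

/-- coefficients of the amplifier of gain `κ` -/
def AA (κ : ℝ) (m m' i : ℕ) : ℝ :=
  κ⁻¹ * (Real.sqrt ((m.choose i : ℕ) : ℝ) * Real.sqrt ((m'.choose i : ℕ) : ℝ) * ((κ - 1) / κ) ^ i *
    (Real.sqrt κ)⁻¹ ^ (m - i) * (Real.sqrt κ)⁻¹ ^ (m' - i))

theorem sqrt_choose_succ {m i : ℕ} (hi : i ≤ m) :
    Real.sqrt ((m : ℝ) + 1) * Real.sqrt (((m + 1).choose i : ℕ) : ℝ) =
      Real.sqrt (((m - i : ℕ) : ℝ) + 1) * Real.sqrt ((m.choose i : ℕ) : ℝ) +
      Real.sqrt (i : ℝ) * Real.sqrt ((m.choose (i - 1) : ℕ) : ℝ) := by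
  have hm : (0 : ℝ) < (m : ℝ) + 1 := by positivity
  have hp : (0 : ℝ) < Real.sqrt ((m : ℝ) + 1) := Real.sqrt_pos.mpr hm
  have hsq : Real.sqrt ((m : ℝ) + 1) * Real.sqrt ((m : ℝ) + 1) = (m : ℝ) + 1 :=
    Real.mul_self_sqrt hm.le
  set C := Real.sqrt (((m + 1).choose i : ℕ) : ℝ) with hC
  -- first: `√(m+1) √C(m,i) = √(m+1-i) √C(m+1,i)`
  have h1 : Real.sqrt ((m : ℝ) + 1) * Real.sqrt ((m.choose i : ℕ) : ℝ) =
      Real.sqrt (((m - i : ℕ) : ℝ) + 1) * C := by
    rw [hC, ← Real.sqrt_mul (by (clear * -; positivity)), ← Real.sqrt_mul (by positivity)]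
    congr 1
    have h3 := Nat.choose_mul_succ_eq m i
    have h4 : m + 1 - i = m - i + 1 := by (clear * - hi; omega)
    rw [h4] at h3
    have h5 : ((m.choose i : ℕ) : ℝ) * ((m : ℝ) + 1) =
        (((m + 1).choose i : ℕ) : ℝ) * (((m - i : ℕ) : ℝ) + 1) := by exact_mod_cast h3
    linarith only [h5]
  have h2 : Real.sqrt ((m : ℝ) + 1) * (Real.sqrt (i : ℝ) * Real.sqrt ((m.choose (i - 1) : ℕ) : ℝ)) =
      (i : ℝ) * C := by
    rcases Nat.eq_zero_or_pos i with h | h
    · subst h; simp only [CharP.cast_eq_zero, Real.sqrt_zero, zero_tsub, Nat.choose_zero_right, Nat.cast_one, Real.sqrt_one, mul_one, mul_zero, zero_mul]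
    · obtain ⟨j, rfl⟩ : ∃ j, i = j + 1 := ⟨i - 1, by omega⟩
      have e : j + 1 - 1 = j := by omega
      rw [e]
      have h3 := Nat.add_one_mul_choose_eq m j
      have h5 : ((m : ℝ) + 1) * ((m.choose j : ℕ) : ℝ) =
          (((m + 1).choose (j + 1) : ℕ) : ℝ) * ((j + 1 : ℕ) : ℝ) := by exact_mod_cast h3
      have h6 : Real.sqrt ((m : ℝ) + 1) * Real.sqrt ((m.choose j : ℕ) : ℝ) =
          C * Real.sqrt ((j + 1 : ℕ) : ℝ) := by
        rw [hC, ← Real.sqrt_mul (by (clear * -; positivity)), ← Real.sqrt_mul (by (clear * -; positivity)), h5]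
      have h7 : Real.sqrt ((j + 1 : ℕ) : ℝ) * Real.sqrt ((j + 1 : ℕ) : ℝ) = ((j + 1 : ℕ) : ℝ) :=
        Real.mul_self_sqrt (by (clear * -; positivity))
      linear_combination (Real.sqrt ((j + 1 : ℕ) : ℝ)) * h6 + C * h7
  have h8 : Real.sqrt (((m - i : ℕ) : ℝ) + 1) * Real.sqrt (((m - i : ℕ) : ℝ) + 1) =
      ((m - i : ℕ) : ℝ) + 1 := Real.mul_self_sqrt (by positivity)
  have h9 : ((m - i : ℕ) : ℝ) = (m : ℝ) - i := by push_cast [hi]; ring
  apply mul_left_cancel₀ hp.ne'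
  rw [h9] at h1 h8 ⊢
  linear_combination C * hsq - h2 - (Real.sqrt ((m : ℝ) - i + 1)) * h1 - C * h8

theorem sqrt_choose_succ' (m' j : ℕ) :
    Real.sqrt ((j : ℝ) + 1) * Real.sqrt ((m'.choose (j + 1) : ℕ) : ℝ) =
      Real.sqrt (m' : ℝ) * Real.sqrt (((m' - 1).choose j : ℕ) : ℝ) := by
  rcases Nat.eq_zero_or_pos m' with h | h
  · subst h; simp only [Nat.choose_zero_succ, CharP.cast_eq_zero, Real.sqrt_zero, mul_zero, zero_tsub, zero_mul]
  · obtain ⟨m, rfl⟩ : ∃ m, m' = m + 1 := ⟨m' - 1, by omega⟩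
    have e : m + 1 - 1 = m := by omega
    rw [e, ← Real.sqrt_mul (by positivity), ← Real.sqrt_mul (by positivity)]
    congr 1
    have h3 := Nat.add_one_mul_choose_eq m j
    have h5 : ((m : ℝ) + 1) * ((m.choose j : ℕ) : ℝ) =
        (((m + 1).choose (j + 1) : ℕ) : ℝ) * ((j : ℝ) + 1) := by exact_mod_cast h3
    push_cast
    linarith only [h5]

/-- amplifier after loss -/
def RR (κ x : ℝ) (m m' k k' : ℕ) : ℝ :=
  ∑ i ∈ Finset.range (m + 1), AA κ m m' i * T1 x 0 (m - i) (m' - i) k k'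

section

variable {κ x : ℝ} (hx0 : 0 ≤ x) (hx1 : x ≤ 1)
include hx0 hx1

theorem loss_rec (m m' k k' : ℕ) :
    Real.sqrt (m + 1) * T1 x 0 (m + 1) m' k k' =
      Real.sqrt x * (Real.sqrt k * T1 x 0 m m' (k - 1) k') := by
  have h := T1_rec hx0 hx1 le_rfl m m' k k'
  have e : kap x 0 = 1 := by unfold kap; ring
  rw [e] at h
  rw [h]; ring

theorem loss_rec' (m m' k k' : ℕ) :
    Real.sqrt (m' + 1) * T1 x 0 m (m' + 1) k k' =
      Real.sqrt x * (Real.sqrt k' * T1 x 0 m m' k (k' - 1)) := by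
  have h := T1_rec' hx0 hx1 le_rfl m m' k k'
  have e : kap x 0 = 1 := by unfold kap; ring
  rw [e] at h
  rw [h]; ring

theorem RR_rec (m m' k k' : ℕ) :
    Real.sqrt (m + 1) * RR κ x (m + 1) m' k k' =
      (Real.sqrt κ)⁻¹ * Real.sqrt x * (Real.sqrt k * RR κ x m m' (k - 1) k') +
      (κ - 1) / κ * (Real.sqrt m' * RR κ x m (m' - 1) k k') := by
  unfold RR
  rw [Finset.mul_sum]
  -- split every term
  have e1 : ∀ i ∈ Finset.range (m + 1 + 1), Real.sqrt (m + 1) *
      (AA κ (m + 1) m' i * T1 x 0 (m + 1 - i) (m' - i) k k') =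
      (if i ≤ m then κ⁻¹ * (Real.sqrt (((m - i : ℕ) : ℝ) + 1) * Real.sqrt ((m.choose i : ℕ) : ℝ) *
        Real.sqrt ((m'.choose i : ℕ) : ℝ) * ((κ - 1) / κ) ^ i *
        (Real.sqrt κ)⁻¹ ^ (m + 1 - i) * (Real.sqrt κ)⁻¹ ^ (m' - i)) * T1 x 0 (m + 1 - i) (m' - i) k k'
        else 0) +
      κ⁻¹ * (Real.sqrt (i : ℝ) * Real.sqrt ((m.choose (i - 1) : ℕ) : ℝ) *
        Real.sqrt ((m'.choose i : ℕ) : ℝ) * ((κ - 1) / κ) ^ i *
        (Real.sqrt κ)⁻¹ ^ (m + 1 - i) * (Real.sqrt κ)⁻¹ ^ (m' - i)) * T1 x 0 (m + 1 - i) (m' - i) k k' := by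
    intro i hi
    rw [Finset.mem_range] at hi
    unfold AA
    by_cases him : i ≤ m
    · rw [if_pos him]
      have := sqrt_choose_succ him
      linear_combination (κ⁻¹ * (Real.sqrt ((m'.choose i : ℕ) : ℝ) * ((κ - 1) / κ) ^ i *
        (Real.sqrt κ)⁻¹ ^ (m + 1 - i) * (Real.sqrt κ)⁻¹ ^ (m' - i)) *
        T1 x 0 (m + 1 - i) (m' - i) k k') * this
    · have hi' : i = m + 1 := by omega
      rw [if_neg him]
      subst hi'
      have e2 : m + 1 - 1 = m := by omega
      rw [e2, Nat.choose_self, Nat.choose_self]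
      push_cast
      ring
  rw [Finset.sum_congr rfl e1, Finset.sum_add_distrib]
  congr 1
  · rw [Finset.sum_range_succ, if_neg (by omega), add_zero, Finset.mul_sum, Finset.mul_sum]
    apply Finset.sum_congr rfl
    intro i hi
    rw [Finset.mem_range] at hi
    rw [if_pos (by omega)]
    have e2 : m + 1 - i = (m - i) + 1 := by omega
    rw [e2, pow_succ]
    have h := loss_rec hx0 hx1 (m - i) (m' - i) k k'
    unfold AA
    linear_combination (κ⁻¹ * (Real.sqrt ((m.choose i : ℕ) : ℝ) *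
        Real.sqrt ((m'.choose i : ℕ) : ℝ) * ((κ - 1) / κ) ^ i *
        ((Real.sqrt κ)⁻¹ ^ (m - i) * (Real.sqrt κ)⁻¹) * (Real.sqrt κ)⁻¹ ^ (m' - i))) * h
  · rw [Finset.sum_range_succ']
    simp only [Nat.cast_zero, Real.sqrt_zero, zero_mul, mul_zero, add_zero]
    rw [Finset.mul_sum, Finset.mul_sum]
    apply Finset.sum_congr rfl
    intro j hj
    have e2 : m + 1 - (j + 1) = m - j := by omega
    have e3 : m' - (j + 1) = m' - 1 - j := by omega
    have e4 : j + 1 - 1 = j := by (clear * -; omega)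
    rw [e2, e3, e4, pow_succ]
    have h := sqrt_choose_succ' m' j
    unfold AA
    push_cast
    linear_combination (κ⁻¹ * (Real.sqrt ((m.choose j : ℕ) : ℝ) * (((κ - 1) / κ) ^ j * ((κ - 1) / κ)) *
        (Real.sqrt κ)⁻¹ ^ (m - j) * (Real.sqrt κ)⁻¹ ^ (m' - 1 - j)) *
        T1 x 0 (m - j) (m' - 1 - j) k k') * h

theorem RR_rec' (m' k k' : ℕ) :
    Real.sqrt (m' + 1) * RR κ x 0 (m' + 1) k k' =
      (Real.sqrt κ)⁻¹ * Real.sqrt x * (Real.sqrt k' * RR κ x 0 m' k (k' - 1)) := by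
  unfold RR AA
  simp only [zero_add, Finset.range_one, Finset.sum_singleton, Nat.choose_zero_right, Nat.cast_one,
    Real.sqrt_one, pow_zero, Nat.sub_zero, mul_one, one_mul, Nat.sub_self]
  have h := loss_rec' hx0 hx1 0 m' k k'
  rw [pow_succ]
  linear_combination (κ⁻¹ * ((Real.sqrt κ)⁻¹ ^ m' * (Real.sqrt κ)⁻¹)) * h

end

theorem T1_eq_RR {η r : ℝ} (h0 : 0 ≤ η) (h1 : η ≤ 1) (hr : 0 ≤ r) (m m' k k' : ℕ) :
    T1 η r m m' k k' = RR (kap η r) (η / kap η r) m m' k k' := by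
  have hκ0 := kap_pos h1 hr
  have hκ : 1 ≤ kap η r := by
    unfold kap
    have : 0 ≤ (1 - η) * r := mul_nonneg (by linarith) hr
    linarith only [this]
  have hx0 : 0 ≤ η / kap η r := div_nonneg h0 hκ0.le
  have hx1 : η / kap η r ≤ 1 := by rw [div_le_one hκ0]; linarith only [h1, hκ]
  have hsx : (Real.sqrt (kap η r))⁻¹ * Real.sqrt (η / kap η r) = Real.sqrt η / kap η r := by
    rw [Real.sqrt_div h0]
    have h3 : Real.sqrt (kap η r) * Real.sqrt (kap η r) = kap η r := Real.mul_self_sqrt hκ0.le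
    have h4 : Real.sqrt (kap η r) ≠ 0 := (Real.sqrt_pos.mpr hκ0).ne'
    rw [eq_div_iff hκ0.ne']
    field_simp
    rw [pow_two, h3]
    ring
  induction m generalizing m' k k' with
  | zero =>
    induction m' generalizing k k' with
    | zero =>
      rw [T1_zero h0 h1 hr]
      unfold RR AA
      simp only [zero_add, Finset.range_one, Finset.sum_singleton, Nat.choose_zero_right,
        Nat.cast_one, Real.sqrt_one, pow_zero, mul_one, Nat.sub_self]
      rw [T1_zero hx0 hx1 le_rfl]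
      have e : kap (η / kap η r) 0 = 1 := by unfold kap; ring
      rw [e]
      split_ifs
      · simp
      · simp
    | succ m' ih =>
      have hp : (0 : ℝ) < Real.sqrt ((m' : ℝ) + 1) := Real.sqrt_pos.mpr (by positivity)
      apply mul_left_cancel₀ hp.ne'
      rw [T1_rec' h0 h1 hr, RR_rec' hx0 hx1, ih, hsx]
      simp only [CharP.cast_eq_zero, Real.sqrt_zero, zero_tsub, zero_mul, mul_zero, add_zero]
  | succ m ih =>
    have hp : (0 : ℝ) < Real.sqrt ((m : ℝ) + 1) := Real.sqrt_pos.mpr (by (clear * -; positivity))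
    apply mul_left_cancel₀ hp.ne'
    rw [T1_rec h0 h1 hr, RR_rec hx0 hx1, ih, ih, hsx]

end

end Vale.Agent.P369T
end
end

section

section

/-!
P369T, part 3: `n` modes.
-/

namespace Vale.Agent.P369T

open Vale.Agent.P369
open Vale.Agent.P369V
open scoped InnerProductSpace

noncomputable section

theorem hasSum_pi_prod {n : ℕ} {F : Fin n → ℕ → ℝ} {a : Fin n → ℝ} (h : ∀ j, HasSum (F j) (a j)) :
    HasSum (fun b : Fin n → ℕ => ∏ j, F j (b j)) (∏ j, a j) := by
  induction n with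
  | zero =>
    simp only [Finset.univ_eq_empty, Finset.prod_empty]
    exact hasSum_unique (fun _ : Fin 0 → ℕ => (1 : ℝ))
  | succ n ih =>
    have h1 := h 0
    have h2 := ih (F := fun j => F j.succ) (a := fun j => a j.succ) (fun j => h j.succ)
    have h3 : Summable fun x : ℕ × (Fin n → ℕ) => F 0 x.1 * ∏ j, F (Fin.succ j) (x.2 j) := by
      have h1n : Summable fun x : ℕ => ‖F 0 x‖ := h1.summable.norm
      have h2n : Summable fun x : Fin n → ℕ => ‖∏ j, F (Fin.succ j) (x j)‖ := h2.summable.norm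
      exact summable_mul_of_summable_norm (f := fun x => F 0 x)
        (g := fun x : Fin n → ℕ => ∏ j, F (Fin.succ j) (x j)) h1n h2n
    have h4 := h1.mul h2 h3
    rw [Fin.prod_univ_succ]
    rw [← (Fin.consEquiv (fun _ => ℕ)).hasSum_iff]
    refine h4.congr_fun fun x => ?_
    simp only [Function.comp, Fin.consEquiv]
    rw [Fin.prod_univ_succ]
    simp only [Equiv.coe_fn_mk, Fin.cons_zero, Fin.cons_succ]

variable {n : ℕ}

/-- product thermal distribution -/
def thn (r : ℝ) (k : Conf n) : ℝ := ∏ j, th r (k j)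

theorem thn_isProb {r : ℝ} (hr : 0 ≤ r) : IsProb (thn (n := n) r) := by
  constructor
  · intro k
    exact Finset.prod_nonneg fun j _ => th_nonneg hr (k j)
  · have := hasSum_pi_prod (n := n) (F := fun _ => th r) (a := fun _ => 1) (fun _ => hasSum_th hr)
    simp only [Finset.prod_const_one] at this
    exact this

theorem thn_energy {r : ℝ} (hr : 0 ≤ r) :
    Summable fun k : Conf n => (∑ j, (k j : ℝ)) * thn r k := by
  simp only [Finset.sum_mul]
  apply summable_sum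
  intro j _
  have h : ∀ i : Fin n, HasSum (fun k : ℕ => if i = j then (k : ℝ) * th r k else th r k)
      (if i = j then ∑' k : ℕ, (k : ℝ) * th r k else 1) := by
    intro i
    by_cases hi : i = j
    · simp only [hi, if_true]
      exact (summable_mul_th hr).hasSum
    · simp only [hi, if_false]
      exact hasSum_th hr
  refine (hasSum_pi_prod h).summable.congr fun k => ?_
  unfold thn
  rw [← Finset.mul_prod_erase Finset.univ _ (Finset.mem_univ j),
    ← Finset.mul_prod_erase Finset.univ (fun j => th r (k j)) (Finset.mem_univ j)]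
  simp only [if_true]
  rw [mul_assoc]
  congr 2
  apply Finset.prod_congr rfl
  intro i hi
  rw [if_neg (Finset.ne_of_mem_erase hi)]

/-- the `n`-mode thermal attenuator, in matrix elements -/
def Tn (η r : ℝ) (m m' k k' : Conf n) : ℝ := ∏ j, T1 η r (m j) (m' j) (k j) (k' j)

/-- coefficients of the amplifier of gain `κ`, `n` modes -/
def AAn (κ : ℝ) (m m' i : Conf n) : ℝ := ∏ j, AA κ (m j) (m' j) (i j)

theorem Tn_eq {η r : ℝ} (h0 : 0 ≤ η) (h1 : η ≤ 1) (hr : 0 ≤ r) (m m' k k' : Conf n) :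
    Tn η r m m' k k' = ∑ i ∈ below m, AAn (kap η r) m m' i *
      Tn (η / kap η r) 0 (m - i) (m' - i) k k' := by
  unfold Tn AAn
  rw [Finset.prod_congr rfl fun j _ => T1_eq_RR h0 h1 hr (m j) (m' j) (k j) (k' j)]
  unfold RR
  rw [Finset.prod_univ_sum]
  apply Finset.sum_congr rfl
  intro i _
  rw [← Finset.prod_mul_distrib]
  rfl

theorem Tn_hasSum {η r : ℝ} (h0 : 0 ≤ η) (h1 : η ≤ 1) (hr : 0 ≤ r) (m m' k k' : Conf n) :
    HasSum (fun b : Conf n => thn r b * (ampn (Real.sqrt η) (Real.sqrt (1 - η)) m (k + b - m) k b *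
      ampn (Real.sqrt η) (Real.sqrt (1 - η)) m' (k + b - m) k' b)) (Tn η r m m' k k') := by
  have h := hasSum_pi_prod (n := n) (fun j => T1_hasSum h0 h1 hr (m j) (m' j) (k j) (k' j))
  refine h.congr_fun fun b => ?_
  unfold thn ampn
  rw [← Finset.prod_mul_distrib, ← Finset.prod_mul_distrib]
  rfl

end

end Vale.Agent.P369T
end
end

section

section

/-!
P369T, part 4: matrix elements of the output for a number-diagonal second input
(sequence model).
-/

namespace Vale.Agent.P369T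

open Vale.Agent.P369
open Vale.Agent.P369V
open scoped InnerProductSpace

noncomputable section

variable {n : ℕ}

theorem sum_below_reflect {β : Type} [AddCommMonoid β] (T : Conf n) (f : Conf n → Conf n → β) :
    ∑ k ∈ below T, f k (T - k) = ∑ b ∈ below T, f (T - b) b := by
  have hm : ∀ k ∈ below T, T - k ∈ below T := by
    intro k hk
    rw [mem_below] at hk ⊢
    intro j
    simp only [Pi.sub_apply]
    omega
  have hi : ∀ k ∈ below T, T - (T - k) = k := by
    intro k hk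
    rw [mem_below] at hk
    funext j
    have := hk j
    simp only [Pi.sub_apply]
    omega
  refine Finset.sum_bij' (fun k _ => T - k) (fun b _ => T - b) hm hm hi hi ?_
  intro k hk
  rw [hi k hk]

section

variable {η : ℝ}

/-- the term with `b` photons in the second input -/
def Psi (η : ℝ) (q : Conf n → ℝ) (R : Conf n → Conf n → ℂ) (m m' l b : Conf n) : ℂ :=
  ((q b * (ampn (Real.sqrt η) (Real.sqrt (1 - η)) m l (m + l - b) b *
    ampn (Real.sqrt η) (Real.sqrt (1 - η)) m' l (m' + l - b) b) : ℝ) : ℂ) *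
    R (m + l - b) (m' + l - b)

theorem level_product {ρA ρB : Fock n →L[ℂ] Fock n} {ρAB : Fock2 n →L[ℂ] Fock2 n}
    {q : Conf n → ℝ} (hB : ∀ k, ρB (ket k) = (q k : ℂ) • ket k)
    (h : P369.IsProduct ρA ρB ρAB) (m' l k b : Conf n) :
    (ρAB (levelVec (ampn (Real.sqrt η) (Real.sqrt (1 - η)) m' l) (m' + l))) (k, b) =
      ((q b * ampn (Real.sqrt η) (Real.sqrt (1 - η)) m' l (m' + l - b) b : ℝ) : ℂ) *
        ⟪ket k, ρA (ket (m' + l - b))⟫_ℂ := by
  have hq : ∀ b b' : Conf n, ⟪ket b, ρB (ket b')⟫_ℂ = if b = b' then (q b : ℂ) else 0 := by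
    intro b b'
    rw [hB, inner_smul_right, inner_ket, ket_apply]
    by_cases hb : b = b'
    · subst hb; simp
    · simp [hb]
  unfold levelVec
  rw [map_sum, sum_apply2]
  have e : ∀ k' ∈ below (m' + l),
      (ρAB (((ampn (Real.sqrt η) (Real.sqrt (1 - η)) m' l k' (m' + l - k') : ℝ) : ℂ) •
        ket2 k' (m' + l - k'))) (k, b) =
      (fun k' b' => ((ampn (Real.sqrt η) (Real.sqrt (1 - η)) m' l k' b' : ℝ) : ℂ) *
        (⟪ket k, ρA (ket k')⟫_ℂ * (if b = b' then (q b : ℂ) else 0))) k' (m' + l - k') := by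
    intro k' _
    rw [map_smul, lp.coeFn_smul, Pi.smul_apply, ← inner_ket2, h, hq, smul_eq_mul]
  rw [Finset.sum_congr rfl e, sum_below_reflect (m' + l) (fun k' b' =>
    ((ampn (Real.sqrt η) (Real.sqrt (1 - η)) m' l k' b' : ℝ) : ℂ) *
        (⟪ket k, ρA (ket k')⟫_ℂ * (if b = b' then (q b : ℂ) else 0)))]
  simp only [mul_ite, mul_zero]
  rw [Finset.sum_ite_eq]
  split_ifs with hb
  · push_cast; ring
  · rw [ampn_hom (n := n)]
    · simp only [mul_zero, Complex.ofReal_zero, zero_mul]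
    · intro h'
      apply hb
      exact (mem_below_of_add ((add_comm _ _).trans h'.symm)).1

theorem element_b {U : Fock2 n ≃ₗᵢ[ℂ] Fock2 n} (hU : P369.IsBeamSplitter η U)
    {ρA ρB : Fock n →L[ℂ] Fock n} {ρAB : Fock2 n →L[ℂ] Fock2 n}
    {q : Conf n → ℝ} (hB : ∀ k, ρB (ket k) = (q k : ℂ) • ket k)
    (h : P369.IsProduct ρA ρB ρAB) (m m' l : Conf n) :
    ⟪ket2 m l, U (ρAB (U.symm (ket2 m' l)))⟫_ℂ =
      ∑ b ∈ below (m + l), Psi η q (fun k k' => ⟪ket k, ρA (ket k')⟫_ℂ) m m' l b := by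
  have h1 : ⟪ket2 m l, U (ρAB (U.symm (ket2 m' l)))⟫_ℂ =
      ⟪U.symm (ket2 m l), ρAB (U.symm (ket2 m' l))⟫_ℂ := by
    rw [← LinearIsometryEquiv.inner_map_map U (U.symm (ket2 m l)),
      LinearIsometryEquiv.apply_symm_apply]
  rw [h1, symm_apply hU, symm_apply hU, inner_levelVec]
  rw [sum_below_reflect (m + l) (fun k b =>
    ((ampn (Real.sqrt η) (Real.sqrt (1 - η)) m l k b : ℝ) : ℂ) *
      (ρAB (levelVec (ampn (Real.sqrt η) (Real.sqrt (1 - η)) m' l) (m' + l))) (k, b))]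
  apply Finset.sum_congr rfl
  intro b _
  rw [level_product hB h]
  unfold Psi
  push_cast
  ring

/-- the diagonal terms are summable -/
theorem hasSum_diag_b (h0 : 0 ≤ η) (h1 : η ≤ 1) {p q : Conf n → ℝ} (hp : IsProb p)
    (hq : IsProb q) (m : Conf n) :
    HasSum (fun x : Conf n × Conf n => q x.2 *
      (ampn (Real.sqrt η) (Real.sqrt (1 - η)) m x.1 (m + x.1 - x.2) x.2) ^ 2 * p (m + x.1 - x.2))
      (outn η p q m) := by
  have hker : ∀ i j, ∑' k, ker η k i j = 1 := fun i j => (hasSum_ker h0 h1 i j).tsum_eq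
  have hk := kern_isKer hker n
  have hf : HasSum (fun x : Conf n × Conf n => kern η m x.1 x.2 * (p x.1 * q x.2))
      (outn η p q m) :=
    (summable_outG (K := kern η) hk.nonneg
      (fun k l => by
        rw [← hk.one k l]
        exact (summable_of_hasFiniteSupport (hk.fin k l)).hasSum)
      hp.1 hq.1 hp.2.summable hq.2.summable m).hasSum
  set F : Conf n × Conf n → ℝ := fun x => q x.2 *
      (ampn (Real.sqrt η) (Real.sqrt (1 - η)) m x.1 (m + x.1 - x.2) x.2) ^ 2 * p (m + x.1 - x.2)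
      with hF
  have hle : ∀ x : Function.support F, ∀ j, x.1.2 j ≤ m j + x.1.1 j := by
    intro x j
    by_contra hc
    apply x.2
    simp only [hF]
    rw [ampn_hom, zero_pow (by norm_num)]
    · ring
    · intro h'
      have := congrFun h' j
      simp only [Pi.add_apply, Pi.sub_apply] at this
      omega
  have hb := hasSum_iff_hasSum_of_ne_zero_bij (g := F) (a := outn η p q m)
      (f := fun x : Conf n × Conf n => kern η m x.1 x.2 * (p x.1 * q x.2))
      (fun x : Function.support F => (m + x.1.1 - x.1.2, x.1.2)) ?_ ?_ ?_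
  · exact hb.mp hf
  · intro x y hxy
    have hx := hle x
    have hy := hle y
    simp only [Prod.ext_iff] at hxy
    obtain ⟨e1, e2⟩ := hxy
    apply Subtype.ext
    apply Prod.ext
    · funext j
      have a1 := congrFun e1 j
      have a2 := hx j
      have a3 := hy j
      have a4 := congrFun e2 j
      simp only [Pi.add_apply, Pi.sub_apply] at a1
      omega
    · exact e2
  · rintro ⟨k, b⟩ hx
    rw [Function.mem_support] at hx
    simp only at hx
    have hkern := left_ne_zero_of_mul hx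
    have hle' : ∀ j, m j ≤ k j + b j := by
      intro j
      by_contra h
      apply hkern
      unfold kern
      apply Finset.prod_eq_zero (Finset.mem_univ j)
      unfold ker
      rw [if_neg h]
    have e1 : m + (k + b - m) = k + b := by
      funext j
      have := hle' j
      simp only [Pi.add_apply, Pi.sub_apply]
      omega
    have e2 : k + b - b = k := by funext j; simp only [Pi.sub_apply, Pi.add_apply, add_tsub_cancel_right]
    refine ⟨⟨(k + b - m, b), ?_⟩, ?_⟩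
    · rw [Function.mem_support]
      simp only [hF]
      rw [e1, e2, ← kern_eq_sq e1]
      intro h'
      apply hx
      linear_combination h'
    · simp only
      rw [e1, e2]
  · intro x
    simp only [hF]
    have e1 : m + x.1.1 = (m + x.1.1 - x.1.2) + x.1.2 := by
      funext j
      have := hle x j
      simp only [Pi.add_apply, Pi.sub_apply]
      omega
    rw [kern_eq_sq e1]
    ring

theorem summable_Psi (h0 : 0 ≤ η) (h1 : η ≤ 1) {ρA : Fock n →L[ℂ] Fock n} (hA : P369.IsState ρA)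
    {q : Conf n → ℝ} (hq : IsProb q) (m m' : Conf n) :
    Summable fun x : Conf n × Conf n =>
      Psi η q (fun k k' => ⟪ket k, ρA (ket k')⟫_ℂ) m m' x.1 x.2 := by
  have hp := g5_dg_isProb hA
  have s1 := (hasSum_diag_b h0 h1 hp hq m).summable
  have s2 := (hasSum_diag_b h0 h1 hp hq m').summable
  refine Summable.of_norm_bounded (s1.add s2) fun x => ?_
  unfold Psi
  set a := ampn (Real.sqrt η) (Real.sqrt (1 - η)) m x.1 (m + x.1 - x.2) x.2
  set b := ampn (Real.sqrt η) (Real.sqrt (1 - η)) m' x.1 (m' + x.1 - x.2) x.2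
  set k := m + x.1 - x.2
  set k' := m' + x.1 - x.2
  have hc := g5_cauchy hA.1 (ket k) (ket k')
  have hr : g5_dg ρA k = (⟪ket k, ρA (ket k)⟫_ℂ).re := rfl
  have hr' : g5_dg ρA k' = (⟪ket k', ρA (ket k')⟫_ℂ).re := rfl
  rw [← hr, ← hr'] at hc
  set r := ‖⟪ket k, ρA (ket k')⟫_ℂ‖
  have hr0 : 0 ≤ r := norm_nonneg _
  have hk0 := hp.1 k
  have hk0' := hp.1 k'
  rw [norm_mul, Complex.norm_real, Real.norm_eq_abs, abs_mul, abs_of_nonneg (hq.1 x.2), abs_mul]
  have h5 : |a| * |b| * r ≤ a ^ 2 * g5_dg ρA k + b ^ 2 * g5_dg ρA k' := by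
    have h6 : (|a| * |b| * r) ^ 2 ≤ (a ^ 2 * g5_dg ρA k) * (b ^ 2 * g5_dg ρA k') := by
      have : (|a| * |b| * r) ^ 2 = a ^ 2 * b ^ 2 * r ^ 2 := by
        rw [mul_pow, mul_pow, sq_abs, sq_abs]
      rw [this]
      nlinarith only [hc, mul_nonneg (sq_nonneg a) (sq_nonneg b)]
    have h7 : 0 ≤ a ^ 2 * g5_dg ρA k := mul_nonneg (sq_nonneg _) hk0
    have h8 : 0 ≤ b ^ 2 * g5_dg ρA k' := mul_nonneg (sq_nonneg _) hk0'
    have h9 : 0 ≤ |a| * |b| * r := by (clear * -; positivity)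
    nlinarith only [h6, h7, h8]
  have h10 : q x.2 * (|a| * |b|) * r = q x.2 * (|a| * |b| * r) := by ring
  rw [h10]
  have := mul_le_mul_of_nonneg_left h5 (hq.1 x.2)
  calc _ ≤ _ := this
    _ = _ := by ring

theorem hasSum_Psi (h0 : 0 ≤ η) (h1 : η ≤ 1) {ρA ρB ρC : Fock n →L[ℂ] Fock n}
    (hA : P369.IsState ρA) {q : Conf n → ℝ} (hq : IsProb q)
    (hB : ∀ k, ρB (ket k) = (q k : ℂ) • ket k) (hO : P369.IsOutput η ρA ρB ρC) (m m' : Conf n) :
    HasSum (fun x : Conf n × Conf n =>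
      Psi η q (fun k k' => ⟪ket k, ρA (ket k')⟫_ℂ) m m' x.1 x.2) ⟪ket m, ρC (ket m')⟫_ℂ := by
  obtain ⟨U, ρAB, hU, hP, hM⟩ := hO
  have hs := summable_Psi h0 h1 hA hq m m'
  have h2 := hs.hasSum
  have h3 := h2.prod_fiberwise (g := fun l =>
    ∑ b ∈ below (m + l), Psi η q (fun k k' => ⟪ket k, ρA (ket k')⟫_ℂ) m m' l b) ?_
  · have h4 : HasSum (fun l => ∑ b ∈ below (m + l),
        Psi η q (fun k k' => ⟪ket k, ρA (ket k')⟫_ℂ) m m' l b) ⟪ket m, ρC (ket m')⟫_ℂ :=
      (hM m m').congr_fun fun l => (element_b hU hB hP m m' l).symm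
    rw [← h3.unique h4]
    exact h2
  · intro l
    apply hasSum_sum_of_ne_finset_zero
    intro b hb
    unfold Psi
    rw [ampn_hom (m := m) (l' := l)]
    · simp only [zero_mul, mul_zero, Complex.ofReal_zero]
    · intro h'
      apply hb
      exact (mem_below_of_add ((add_comm _ _).trans h'.symm)).1

/-- the output as a sum over the matrix elements of the first input -/
theorem hasSum_out (h0 : 0 ≤ η) (h1 : η ≤ 1) {ρA ρB ρC : Fock n →L[ℂ] Fock n}
    (hA : P369.IsState ρA) {q : Conf n → ℝ} (hq : IsProb q)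
    (hB : ∀ k, ρB (ket k) = (q k : ℂ) • ket k) (hO : P369.IsOutput η ρA ρB ρC) (m m' : Conf n) :
    HasSum (fun x : (Conf n × Conf n) × Conf n =>
      ((q x.2 * (ampn (Real.sqrt η) (Real.sqrt (1 - η)) m (x.1.1 + x.2 - m) x.1.1 x.2 *
        ampn (Real.sqrt η) (Real.sqrt (1 - η)) m' (x.1.1 + x.2 - m) x.1.2 x.2) : ℝ) : ℂ) *
        ⟪ket x.1.1, ρA (ket x.1.2)⟫_ℂ) ⟪ket m, ρC (ket m')⟫_ℂ := by
  have hs := hasSum_Psi h0 h1 hA hq hB hO m m'
  set F : Conf n × Conf n → ℂ := fun x =>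
      Psi η q (fun k k' => ⟪ket k, ρA (ket k')⟫_ℂ) m m' x.1 x.2 with hF
  have hle : ∀ x : Function.support F, (∀ j, x.1.2 j ≤ m j + x.1.1 j) ∧
      (∀ j, x.1.2 j ≤ m' j + x.1.1 j) := by
    intro x
    constructor
    · intro j
      by_contra hc
      apply x.2
      simp only [hF, Psi]
      rw [ampn_hom (m := m)]
      · simp only [zero_mul, mul_zero, Complex.ofReal_zero]
      · intro h'
        have := congrFun h' j
        simp only [Pi.add_apply, Pi.sub_apply] at this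
        omega
    · intro j
      by_contra hc
      apply x.2
      simp only [hF, Psi]
      rw [ampn_hom (m := m')]
      · simp only [mul_zero, Complex.ofReal_zero, zero_mul]
      · intro h'
        have := congrFun h' j
        simp only [Pi.add_apply, Pi.sub_apply] at this
        omega
  have hb := hasSum_iff_hasSum_of_ne_zero_bij (g := F) (a := ⟪ket m, ρC (ket m')⟫_ℂ)
      (f := fun x : (Conf n × Conf n) × Conf n =>
      ((q x.2 * (ampn (Real.sqrt η) (Real.sqrt (1 - η)) m (x.1.1 + x.2 - m) x.1.1 x.2 *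
        ampn (Real.sqrt η) (Real.sqrt (1 - η)) m' (x.1.1 + x.2 - m) x.1.2 x.2) : ℝ) : ℂ) *
        ⟪ket x.1.1, ρA (ket x.1.2)⟫_ℂ)
      (fun x : Function.support F => ((m + x.1.1 - x.1.2, m' + x.1.1 - x.1.2), x.1.2)) ?_ ?_ ?_
  · exact hb.mpr hs
  · intro x y hxy
    have hx := (hle x).1
    have hy := (hle y).1
    simp only [Prod.ext_iff] at hxy
    obtain ⟨⟨e1, -⟩, e2⟩ := hxy
    apply Subtype.ext
    apply Prod.ext
    · funext j
      have a1 := congrFun e1 j
      have a2 := hx j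
      have a3 := hy j
      have a4 := congrFun e2 j
      simp only [Pi.add_apply, Pi.sub_apply] at a1
      omega
    · exact e2
  · rintro ⟨⟨k, k'⟩, b⟩ hx
    rw [Function.mem_support] at hx
    simp only at hx
    have hne := left_ne_zero_of_mul hx
    rw [Complex.ofReal_ne_zero] at hne
    have hne1 := left_ne_zero_of_mul (right_ne_zero_of_mul hne)
    have hne2 := right_ne_zero_of_mul (right_ne_zero_of_mul hne)
    have e1 : m + (k + b - m) = k + b := by
      by_contra h'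
      exact hne1 (ampn_hom h')
    have e2 : m' + (k + b - m) = k' + b := by
      by_contra h'
      exact hne2 (ampn_hom h')
    have e3 : k + b - b = k := by funext j; simp only [Pi.sub_apply, Pi.add_apply, add_tsub_cancel_right]
    have e4 : k' + b - b = k' := by funext j; simp only [Pi.sub_apply, Pi.add_apply, add_tsub_cancel_right]
    refine ⟨⟨(k + b - m, b), ?_⟩, ?_⟩
    · rw [Function.mem_support]
      simp only [hF, Psi]
      rw [e1, e2, e3, e4]
      exact hx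
    · simp only
      rw [e1, e2, e3, e4]
  · intro x
    have h5 := hle x
    simp only [hF, Psi]
    have e1 : (m + x.1.1 - x.1.2) + x.1.2 - m = x.1.1 := by
      funext j
      have := h5.1 j
      simp only [Pi.add_apply, Pi.sub_apply]
      omega
    rw [e1]

end

end

end Vale.Agent.P369T
end
end

section

section

/-!
P369T, part 5: existence of the output and its elementary properties for a number-diagonal
second input; the thermal case is an amplifier after a pure loss channel (sequence model).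
-/

namespace Vale.Agent.P369T

open Vale.Agent.P369
open Vale.Agent.P369V
open scoped InnerProductSpace

noncomputable section

variable {n : ℕ} {η : ℝ}

/-! ### sums of operators -/

section sums

variable {E : Type} [NormedAddCommGroup E] [InnerProductSpace ℂ E] [CompleteSpace E]

omit [CompleteSpace E] in
theorem t5_key {ι : Type} {B : ι → (E →L[ℂ] E)} (sB : Summable B) (x y : E) :
    HasSum (fun l => ⟪x, B l y⟫_ℂ) ⟪x, (∑' l, B l) y⟫_ℂ := by
  have h2 := (ContinuousLinearMap.apply ℂ E y).hasSum sB.hasSum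
  exact (innerSL ℂ x).hasSum h2

omit [CompleteSpace E] in
theorem t5_tsum_pos {ι : Type} {B : ι → (E →L[ℂ] E)} (sB : Summable B)
    (pB : ∀ l, (B l).IsPositive) : (∑' l, B l).IsPositive := by
  refine ⟨fun x y => ?_, fun x => ?_⟩
  · have h2 := t5_key sB x y
    have h3 := Complex.hasSum_conj'.mpr (t5_key sB y x)
    have h4 : ∀ l, (starRingEnd ℂ) ⟪y, B l x⟫_ℂ = ⟪x, B l y⟫_ℂ := by
      intro l
      rw [inner_conj_symm]
      exact (pB l).inner_left_eq_inner_right x y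
    simp only [h4] at h3
    have h5 := h3.unique h2
    rw [inner_conj_symm] at h5
    exact h5
  · have h2 := Complex.hasSum_re (t5_key sB x x)
    have h3 : 0 ≤ (⟪x, (∑' l, B l) x⟫_ℂ).re :=
      h2.nonneg fun l => (pB l).re_inner_nonneg_right x
    change 0 ≤ (⟪(∑' l, B l) x, x⟫_ℂ).re
    rw [← inner_conj_symm, Complex.conj_re]
    exact h3

end sums

/-- the product state -/
theorem t5_product {ρA ρB : Fock n →L[ℂ] Fock n} (hA : P369.IsState ρA)
    {q : Conf n → ℝ} (hq : IsProb q) (hB : ∀ k, ρB (ket k) = (q k : ℂ) • ket k) :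
    ∃ ρAB : Fock2 n →L[ℂ] Fock2 n, ρAB.IsPositive ∧ P369.IsProduct ρA ρB ρAB := by
  choose V hV using fun l : Conf n => g6_exists_iso (fun k : Conf n => (ket2 k l : Fock2 n)) (g6_orth l)
  set B : Conf n → (Fock2 n →L[ℂ] Fock2 n) := fun l => ((q l : ℝ) : ℂ) •
    ((V l).toContinuousLinearMap ∘L ρA ∘L
      (ContinuousLinearMap.adjoint (V l).toContinuousLinearMap)) with hBdef
  have pB : ∀ l, (B l).IsPositive := by
    intro l
    have h1 := hA.1.conj_adjoint (V l).toContinuousLinearMap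
    exact h1.smul_of_nonneg (by
      have := hq.1 l
      exact_mod_cast this)
  have nB : ∀ l, ‖B l‖ ≤ q l * ‖ρA‖ := by
    intro l
    simp only [hBdef]
    rw [norm_smul, Complex.norm_real, Real.norm_of_nonneg (hq.1 l)]
    apply mul_le_mul_of_nonneg_left _ (hq.1 l)
    have h1 : ‖(V l).toContinuousLinearMap‖ ≤ 1 := (V l).norm_toContinuousLinearMap_le
    have h2 : ‖ContinuousLinearMap.adjoint (V l).toContinuousLinearMap‖ ≤ 1 := by
      rw [LinearIsometryEquiv.norm_map]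
      exact h1
    calc ‖(V l).toContinuousLinearMap ∘L ρA ∘L
          (ContinuousLinearMap.adjoint (V l).toContinuousLinearMap)‖
        ≤ ‖(V l).toContinuousLinearMap‖ * ‖ρA ∘L
          (ContinuousLinearMap.adjoint (V l).toContinuousLinearMap)‖ :=
          ContinuousLinearMap.opNorm_comp_le _ _
      _ ≤ 1 * (‖ρA‖ * ‖ContinuousLinearMap.adjoint (V l).toContinuousLinearMap‖) := by
          apply mul_le_mul h1 (ContinuousLinearMap.opNorm_comp_le _ _) (norm_nonneg _) zero_le_one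
      _ ≤ 1 * (‖ρA‖ * 1) := by
          apply mul_le_mul_of_nonneg_left _ zero_le_one
          exact mul_le_mul_of_nonneg_left h2 (norm_nonneg _)
      _ = ‖ρA‖ := by ring
  have sB : Summable B := Summable.of_norm_bounded (hq.2.summable.mul_right _) nB
  refine ⟨∑' l, B l, t5_tsum_pos sB pB, ?_⟩
  intro k l k' l'
  have hadj : ∀ c a b : Conf n, ContinuousLinearMap.adjoint (V c).toContinuousLinearMap (ket2 a b) =
      if b = c then ket a else 0 := by
    intro c a b
    apply fock_ext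
    intro m
    rw [g6_adj (hV c), ket2_apply]
    by_cases hb : b = c
    · subst hb
      rw [if_pos rfl, ket_apply]
      by_cases hm : m = a <;> simp [hm]
    · rw [if_neg hb, if_neg (fun h => hb h.2.symm)]
      rfl
  have e1 : ∀ c, ⟪ket2 k l, B c (ket2 k' l')⟫_ℂ =
      if l = c then (if l' = c then (q c : ℂ) * ⟪ket k, ρA (ket k')⟫_ℂ else 0) else 0 := by
    intro c
    have : ⟪ket2 k l, B c (ket2 k' l')⟫_ℂ = (q c : ℂ) *
      ⟪ContinuousLinearMap.adjoint (V c).toContinuousLinearMap (ket2 k l),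
        ρA (ContinuousLinearMap.adjoint (V c).toContinuousLinearMap (ket2 k' l'))⟫_ℂ := by
      rw [ContinuousLinearMap.adjoint_inner_left]
      simp only [hBdef]
      rw [smul_apply, inner_smul_right]
      rfl
    rw [this, hadj, hadj]
    by_cases h1 : l = c
    · by_cases h2 : l' = c
      · simp only [h1, ↓reduceIte, h2]
      · simp only [h1, ↓reduceIte, h2, map_zero, inner_zero_right, mul_zero]
    · simp only [h1, ↓reduceIte, inner_zero_left, mul_zero]
  have h2 := t5_key sB (ket2 k l) (ket2 k' l')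
  have h3 : HasSum (fun c => ⟪ket2 k l, B c (ket2 k' l')⟫_ℂ)
      (if l' = l then (q l : ℂ) * ⟪ket k, ρA (ket k')⟫_ℂ else 0) := by
    refine (hasSum_ite_eq l (if l' = l then (q l : ℂ) * ⟪ket k, ρA (ket k')⟫_ℂ else 0)).congr_fun ?_
    intro c
    rw [e1]
    by_cases h1 : l = c
    · subst h1; simp
    · rw [if_neg h1, if_neg (fun h => h1 h.symm)]
  rw [h2.unique h3, hB, inner_smul_right, inner_ket_ket]
  by_cases h1 : l = l'
  · subst h1; simp [mul_comm]
  · rw [if_neg h1, if_neg (fun h => h1 h.symm)]; simp only [mul_zero]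

/-- existence of the output -/
theorem t5_exists (h0 : 0 ≤ η) (h1 : η ≤ 1) {ρA ρB : Fock n →L[ℂ] Fock n} (hA : P369.IsState ρA)
    {q : Conf n → ℝ} (hq : IsProb q) (hB : ∀ k, ρB (ket k) = (q k : ℂ) • ket k) :
    ∃ ρC : Fock n →L[ℂ] Fock n, P369.IsOutput η ρA ρB ρC ∧ ρC.IsPositive := by
  obtain ⟨U, hU⟩ := exists_bs (n := n) h0 h1
  obtain ⟨ρAB, pAB, hP⟩ := t5_product hA hq hB
  have pT : (cj U ρAB).IsPositive := cj_isPositive U pAB
  choose B pB eB using fun l : Conf n => g6_block pT l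
  have hp := g5_dg_isProb hA
  -- the nonnegative weights
  set D : Conf n × (Conf n × Conf n) → ℝ := fun x => q x.2.2 *
      (ampn (Real.sqrt η) (Real.sqrt (1 - η)) x.1 x.2.1 (x.1 + x.2.1 - x.2.2) x.2.2) ^ 2 *
        g5_dg ρA (x.1 + x.2.1 - x.2.2) with hD
  have D0 : ∀ x, 0 ≤ D x := fun x => mul_nonneg (mul_nonneg (hq.1 _) (sq_nonneg _)) (hp.1 _)
  have sD : Summable D := by
    rw [summable_prod_of_nonneg D0]
    refine ⟨fun m => (hasSum_diag_b h0 h1 hp hq m).summable, ?_⟩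
    refine (outn_isProb h0 h1 hp hq).2.summable.congr fun m => ?_
    exact (hasSum_diag_b h0 h1 hp hq m).tsum_eq.symm
  -- reorder
  set D' : Conf n × (Conf n × Conf n) → ℝ := fun x => D (x.2.1, (x.1, x.2.2)) with hD'
  have sD' : Summable D' := by
    have e : Function.Injective (fun x : Conf n × (Conf n × Conf n) =>
        ((x.2.1, (x.1, x.2.2)) : Conf n × (Conf n × Conf n))) := by
      rintro ⟨a, b, c⟩ ⟨a', b', c'⟩ h
      simp only [Prod.mk.injEq] at h ⊢
      exact ⟨h.2.1, h.1, h.2.2⟩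
    exact sD.comp_injective e
  have eF : ∀ l m : Conf n, HasSum (fun b => D (m, (l, b))) (⟪ket m, B l (ket m)⟫_ℂ).re := by
    intro l m
    rw [eB, cj_apply, element_b hU hB hP]
    have h3 : ∀ b, Psi η q (fun k k' => ⟪ket k, ρA (ket k')⟫_ℂ) m m l b = ((D (m, (l, b)) : ℝ) : ℂ) := by
      intro b
      simp only [Psi, hD, g5_dg_eq hA.1]
      push_cast
      ring
    simp only [h3]
    rw [← Complex.ofReal_sum, Complex.ofReal_re]
    apply hasSum_sum_of_ne_finset_zero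
    intro b hb
    simp only [hD]
    rw [ampn_hom, zero_pow (by norm_num)]
    · ring
    · intro h'
      apply hb
      exact (mem_below_of_add ((add_comm _ _).trans h'.symm)).1
  have tB : ∀ l, HasSum (fun m : Conf n => (⟪ket m, B l (ket m)⟫_ℂ).re)
      (∑' y : Conf n × Conf n, D' (l, y)) := by
    intro l
    refine (sD'.prod_factor l).hasSum.prod_fiberwise fun m => ?_
    exact eF l m
  have nB : ∀ l, ‖B l‖ ≤ ∑' y : Conf n × Conf n, D' (l, y) := fun l => g5_norm_le (pB l) (tB l)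
  have sB : Summable B := Summable.of_norm_bounded sD'.prod nB
  refine ⟨∑' l, B l, ⟨U, ρAB, hU, hP, ?_⟩, t5_tsum_pos sB pB⟩
  intro m m'
  refine (t5_key sB (ket m) (ket m')).congr_fun fun l => ?_
  exact (eB l m m').symm

/-- the diagonal of the output -/
theorem t5_diag (h0 : 0 ≤ η) (h1 : η ≤ 1) {ρA ρB ρC : Fock n →L[ℂ] Fock n} (hA : P369.IsState ρA)
    {q : Conf n → ℝ} (hq : IsProb q) (hB : ∀ k, ρB (ket k) = (q k : ℂ) • ket k)
    (hO : P369.IsOutput η ρA ρB ρC) (k : Conf n) :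
    ⟪ket k, ρC (ket k)⟫_ℂ = ((outn η (g5_dg ρA) q k : ℝ) : ℂ) := by
  have h2 := hasSum_Psi h0 h1 hA hq hB hO k k
  have h3 := Complex.hasSum_ofReal.mpr (hasSum_diag_b h0 h1 (g5_dg_isProb hA) hq k)
  refine h2.unique (h3.congr_fun fun x => ?_)
  simp only [Psi, g5_dg_eq hA.1]
  push_cast
  ring

theorem t5_state (h0 : 0 ≤ η) (h1 : η ≤ 1) {ρA ρB ρC : Fock n →L[ℂ] Fock n} (hA : P369.IsState ρA)
    {q : Conf n → ℝ} (hq : IsProb q) (hB : ∀ k, ρB (ket k) = (q k : ℂ) • ket k)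
    (hO : P369.IsOutput η ρA ρB ρC) : P369.IsState ρC := by
  obtain ⟨ρC', hO', hC'⟩ := t5_exists h0 h1 hA hq hB
  have e : ρC = ρC' := by
    apply g7_ext
    intro k l
    exact (hasSum_Psi h0 h1 hA hq hB hO k l).unique (hasSum_Psi h0 h1 hA hq hB hO' k l)
  constructor
  · rw [e]; exact hC'
  · have h2 := Complex.hasSum_ofReal.mpr
      (outn_isProb h0 h1 (g5_dg_isProb hA) hq).2
    rw [Complex.ofReal_one] at h2
    refine h2.congr_fun fun k => ?_
    exact t5_diag h0 h1 hA hq hB hO k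

theorem t5_energy (h0 : 0 ≤ η) (h1 : η ≤ 1) {ρA ρB ρC : Fock n →L[ℂ] Fock n}
    (hA : P369.IsState ρA) (eA : P369.FiniteEnergy ρA)
    {q : Conf n → ℝ} (hq : IsProb q) (eq : Summable fun k : Conf n => (∑ j, (k j : ℝ)) * q k)
    (hB : ∀ k, ρB (ket k) = (q k : ℂ) • ket k)
    (hO : P369.IsOutput η ρA ρB ρC) : P369.FiniteEnergy ρC := by
  have h3 := outn_energy h0 h1 (g5_dg_isProb hA) hq eA eq
  refine h3.congr fun k => ?_
  rw [t5_diag h0 h1 hA hq hB hO, Complex.ofReal_re]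

/-- the output for a thermal second input as a sum over the elements of the first input -/
theorem t5_hasSum_Tn {r : ℝ} (h0 : 0 ≤ η) (h1 : η ≤ 1) (hr : 0 ≤ r)
    {ρA ρB ρC : Fock n →L[ℂ] Fock n} (hA : P369.IsState ρA)
    (hB : ∀ k, ρB (ket k) = (thn r k : ℂ) • ket k)
    (hO : P369.IsOutput η ρA ρB ρC) (m m' : Conf n) :
    HasSum (fun x : Conf n × Conf n => ((Tn η r m m' x.1 x.2 : ℝ) : ℂ) *
      ⟪ket x.1, ρA (ket x.2)⟫_ℂ) ⟪ket m, ρC (ket m')⟫_ℂ := by
  have h2 := hasSum_out h0 h1 hA (thn_isProb hr) hB hO m m'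
  have h4 : ∀ x : Conf n × Conf n, HasSum (fun b : Conf n =>
      ((thn r b * (ampn (Real.sqrt η) (Real.sqrt (1 - η)) m (x.1 + b - m) x.1 b *
        ampn (Real.sqrt η) (Real.sqrt (1 - η)) m' (x.1 + b - m) x.2 b) : ℝ) : ℂ) *
        ⟪ket x.1, ρA (ket x.2)⟫_ℂ)
      (((Tn η r m m' x.1 x.2 : ℝ) : ℂ) * ⟪ket x.1, ρA (ket x.2)⟫_ℂ) := by
    intro x
    have h5 : HasSum (fun b : Conf n =>
      ((thn r b * (ampn (Real.sqrt η) (Real.sqrt (1 - η)) m (x.1 + b - m) x.1 b *
        ampn (Real.sqrt η) (Real.sqrt (1 - η)) m' (x.1 + b - m) x.2 b) : ℝ) : ℂ))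
      ((Tn η r m m' x.1 x.2 : ℝ) : ℂ) :=
      Complex.hasSum_ofReal.mpr (Tn_hasSum h0 h1 hr m m' x.1 x.2)
    exact h5.mul_right _
  exact HasSum.prod_fiberwise h2 h4

/-- a thermal attenuator is an amplifier after a pure loss channel -/
theorem t5_decomp {r : ℝ} (h0 : 0 ≤ η) (h1 : η ≤ 1) (hr : 0 ≤ r)
    {ρA ρB ρC ρ0 σ : Fock n →L[ℂ] Fock n} (hA : P369.IsState ρA)
    (hB : ∀ k, ρB (ket k) = (thn r k : ℂ) • ket k)
    (hO : P369.IsOutput η ρA ρB ρC)
    (hB0 : ∀ k, ρ0 (ket k) = (thn 0 k : ℂ) • ket k)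
    (hO0 : P369.IsOutput (η / kap η r) ρA ρ0 σ) (m m' : Conf n) :
    ⟪ket m, ρC (ket m')⟫_ℂ = ∑ i ∈ below m, ((AAn (kap η r) m m' i : ℝ) : ℂ) *
      ⟪ket (m - i), σ (ket (m' - i))⟫_ℂ := by
  have hκ0 := kap_pos h1 hr
  have hx0 : 0 ≤ η / kap η r := div_nonneg h0 hκ0.le
  have hx1 : η / kap η r ≤ 1 := by
    rw [div_le_one hκ0]
    unfold kap
    have : 0 ≤ (1 - η) * r := mul_nonneg (by linarith only [h1]) hr
    (clear * - h1 this; linarith)
  have h2 := t5_hasSum_Tn h0 h1 hr hA hB hO m m'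
  have h3 : HasSum (fun x : Conf n × Conf n => ∑ i ∈ below m, ((AAn (kap η r) m m' i : ℝ) : ℂ) *
      (((Tn (η / kap η r) 0 (m - i) (m' - i) x.1 x.2 : ℝ) : ℂ) * ⟪ket x.1, ρA (ket x.2)⟫_ℂ))
      (∑ i ∈ below m, ((AAn (kap η r) m m' i : ℝ) : ℂ) *
      ⟪ket (m - i), σ (ket (m' - i))⟫_ℂ) := by
    apply hasSum_sum
    intro i _
    exact (t5_hasSum_Tn hx0 hx1 le_rfl hA hB0 hO0 (m - i) (m' - i)).mul_left _
  refine h2.unique (h3.congr_fun fun x => ?_)
  rw [Tn_eq h0 h1 hr]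
  push_cast
  rw [Finset.sum_mul]
  apply Finset.sum_congr rfl
  intro i _
  ring

end

end Vale.Agent.P369T
end
end

section

section

/-!
P369T, part 6: the output for a thermal second input, for every model of the Fock space.
-/

namespace Vale.Agent.P369T

open Vale.Agent.P369 (Conf)
open Vale.Agent.P369V
open scoped InnerProductSpace

noncomputable section

variable {n : ℕ} {H K : Type} [NormedAddCommGroup H] [InnerProductSpace ℂ H] [CompleteSpace H]
  [NormedAddCommGroup K] [InnerProductSpace ℂ K] [CompleteSpace K]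

theorem thn_zero (k : Conf n) : thn 0 k = if k = 0 then 1 else 0 := by
  unfold thn
  by_cases h : k = 0
  · subst h
    rw [if_pos rfl]
    apply Finset.prod_eq_one
    intro j _
    simp [th]
  · rw [if_neg h]
    have : ∃ j, k j ≠ 0 := by
      by_contra hc
      push Not at hc
      exact h (funext hc)
    obtain ⟨j, hj⟩ := this
    apply Finset.prod_eq_zero (Finset.mem_univ j)
    simp [th, hj]

omit [CompleteSpace H] in
theorem diag_to {e : Conf n → H} {T : H ≃ₗᵢ[ℂ] P369.Fock n} (hT : ∀ k, T (e k) = P369.ket k)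
    {ρ : H →L[ℂ] H} {q : Conf n → ℝ} (h : ∀ k, ρ (e k) = (q k : ℂ) • e k) (k : Conf n) :
    P369.cj T ρ (P369.ket k) = (q k : ℂ) • P369.ket k := by
  rw [P369.cj_apply, ← hT, T.symm_apply_apply, h, map_smul]

omit [CompleteSpace H] in
theorem t6_energy_to {e : Conf n → H} {T : H ≃ₗᵢ[ℂ] P369.Fock n} (hT : ∀ k, T (e k) = P369.ket k)
    {ρ : H →L[ℂ] H} : P369.FiniteEnergy (P369.cj T ρ) ↔ P369.Sys.FiniteEnergy e ρ := by
  unfold P369.FiniteEnergy P369.Sys.FiniteEnergy
  simp only [← hT, P369.cj_inner]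

/-- thermal second input: existence, state, energy, and the decomposition -/
theorem thermal_setup {η r : ℝ} (h0 : 0 ≤ η) (h1 : η ≤ 1) (hr : 0 ≤ r)
    {e : Conf n → H} {f : Conf n → Conf n → K}
    (he : P369.Sys.IsNumberBasis e) (hf : P369.Sys.IsNumberBasis fun x : Conf n × Conf n => f x.1 x.2)
    {ρA ρB : H →L[ℂ] H} (hA : P369.Sys.IsState e ρA) (eA : P369.Sys.FiniteEnergy e ρA)
    (hB : ∀ k, ρB (e k) = (thn r k : ℂ) • e k) :
    (∃ ρC : H →L[ℂ] H, P369.Sys.IsOutput η e f ρA ρB ρC) ∧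
    ∀ ρC : H →L[ℂ] H, P369.Sys.IsOutput η e f ρA ρB ρC → P369.Sys.IsState e ρC ∧
      P369.Sys.FiniteEnergy e ρC ∧
      ∃ ρ0 σ : H →L[ℂ] H, P369.Sys.IsState e ρ0 ∧ ρ0 (e 0) = e 0 ∧
        P369.Sys.IsOutput (η / kap η r) e f ρA ρ0 σ ∧ P369.Sys.IsState e σ ∧
        P369.Sys.FiniteEnergy e σ ∧
        ∀ m m' : Conf n, ⟪e m, ρC (e m')⟫_ℂ = ∑ i ∈ P369.below m,
          ((AAn (kap η r) m m' i : ℝ) : ℂ) * ⟪e (m - i), σ (e (m' - i))⟫_ℂ := by
  obtain ⟨T, hT0⟩ := P369.exists_repr he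
  have hT : ∀ k, T (e k) = P369.ket k := hT0
  obtain ⟨T2, hT2⟩ := P369.exists_repr hf
  have hT2' : ∀ k l, T2 (f k l) = P369.ket2 k l := fun k l => hT2 (k, l)
  have hTs : ∀ k, T.symm (P369.ket k) = e k := by
    intro k; rw [← hT, T.symm_apply_apply]
  have sA := g5_state_to hT hA
  have eA' : P369.FiniteEnergy (P369.cj T ρA) := (t6_energy_to hT).mpr eA
  have hB' := diag_to hT hB
  have hq := thn_isProb (n := n) hr
  have hq0 := thn_isProb (n := n) le_rfl
  have hκ0 := kap_pos h1 hr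
  have hx0 : 0 ≤ η / kap η r := div_nonneg h0 hκ0.le
  have hx1 : η / kap η r ≤ 1 := by
    rw [div_le_one hκ0]
    unfold kap
    have : 0 ≤ (1 - η) * r := mul_nonneg (by (clear * - h1; linarith)) hr
    linarith only [h1, this]
  have hc : ∀ S : H →L[ℂ] H, P369.cj T.symm (P369.cj T S) = S := by
    intro S
    ext x
    rw [P369.cj_apply, P369.cj_apply]
    simp
  have hc' : ∀ S : P369.Fock n →L[ℂ] P369.Fock n, P369.cj T (P369.cj T.symm S) = S := by
    intro S
    ext1 x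
    rw [P369.cj_apply, P369.cj_apply]
    simp
  refine ⟨?_, ?_⟩
  · obtain ⟨ρC', hO, -⟩ := t5_exists h0 h1 sA hq hB'
    exact ⟨_, P369.output_from T hT T2 hT2' hO⟩
  · intro ρC hO
    have hO' := P369.output_to T hT T2 hT2' hO
    have sC := t5_state h0 h1 sA hq hB' hO'
    have eC := t5_energy h0 h1 sA eA' hq (thn_energy hr) hB' hO'
    refine ⟨g5_state_from hT sC, (t6_energy_to hT).mp eC, ?_⟩
    -- the vacuum
    obtain ⟨ρ0', hρ0'⟩ : ∃ ρ0' : P369.Fock n →L[ℂ] P369.Fock n,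
        ∀ k, ρ0' (P369.ket k) = ((thn 0 k : ℝ) : ℂ) • P369.ket k := by
      have hd : ∀ k : Conf n, ‖((thn 0 k : ℝ) : ℂ)‖ ≤ 1 := by
        intro k
        rw [Complex.norm_real, thn_zero]
        split_ifs <;> simp
      refine ⟨P369.diagOp (fun k : Conf n => ((thn 0 k : ℝ) : ℂ)) hd, fun k => ?_⟩
      apply P369.fock_ext
      intro a
      rw [P369.diagOp_apply, lp.coeFn_smul, Pi.smul_apply, P369.ket_apply]
      by_cases ha : a = k
      · subst ha; simp
      · simp [ha]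
    have s0 : P369.IsState ρ0' := P369.isState_of_diag hρ0' hq0
    obtain ⟨σ', hOσ, -⟩ := t5_exists hx0 hx1 sA hq0 hρ0'
    have sσ := t5_state hx0 hx1 sA hq0 hρ0' hOσ
    have eσ := t5_energy hx0 hx1 sA eA' hq0 (thn_energy le_rfl) hρ0' hOσ
    have hdec := t5_decomp h0 h1 hr sA hB' hO' hρ0' hOσ
    refine ⟨P369.cj T.symm ρ0', P369.cj T.symm σ', ?_, ?_, ?_, ?_, ?_, ?_⟩
    · apply g5_state_from hT
      rw [hc']
      exact s0
    · rw [P369.cj_apply, LinearIsometryEquiv.symm_symm, hT, hρ0', thn_zero, if_pos rfl]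
      simp only [Complex.ofReal_one, one_smul, hTs]
    · apply P369.output_from T hT T2 hT2'
      rw [hc']
      exact hOσ
    · apply g5_state_from hT
      rw [hc']
      exact sσ
    · rw [← t6_energy_to hT, hc']
      exact eσ
    · intro m m'
      have h := hdec m m'
      rw [← hT, ← hT, P369.cj_inner] at h
      rw [h]
      apply Finset.sum_congr rfl
      intro i _
      rw [← hTs, ← hTs, P369.cj_inner]

end

end Vale.Agent.P369T
end
end

section

section

/-!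
P369V, A6: the scalar isoperimetric inequality.
-/

namespace Vale.Agent.P369V

open MeasureTheory Set Filter
open scoped Topology

theorem a6_hasDerivAt_g {x : ℝ} (hx : 0 < x) :
    HasDerivAt P369.g (Real.log (1 + 1 / x)) x := by
  have h1 : HasDerivAt (fun y : ℝ => (y + 1) * Real.log (y + 1)) (Real.log (x + 1) + 1) x := by
    have h := (Real.hasDerivAt_mul_log (x := x + 1) (by positivity)).comp x
      ((hasDerivAt_id x).add_const 1)
    simpa only [id_eq, Function.comp_def, mul_one] using h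
  have h2 : HasDerivAt (fun y : ℝ => y * Real.log y) (Real.log x + 1) x :=
    Real.hasDerivAt_mul_log hx.ne'
  have h3 : HasDerivAt P369.g (Real.log (x + 1) + 1 - (Real.log x + 1)) x := h1.sub h2
  convert! h3 using 1
  have e : 1 + 1 / x = (x + 1) / x := by field_simp
  rw [e, Real.log_div (by positivity) hx.ne']
  ring

theorem a6_continuous_g : Continuous P369.g := by
  unfold P369.g
  have h : Continuous fun x : ℝ => x * Real.log x := Real.continuous_mul_log
  exact (h.comp (continuous_id.add continuous_const)).sub h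

theorem a6_g_zero : P369.g 0 = 0 := by simp [P369.g]

/-- continuity of parametric integrals -/
theorem a6_param {F : ℝ → ℝ → ℝ} {a b : ℝ} (hab : a ≤ b)
    (hF : ContinuousOn (Function.uncurry F) (Ioc (0 : ℝ) 1 ×ˢ Icc a b)) :
    ContinuousOn (fun t => ∫ l in a..b, F t l) (Ioc 0 1) := by
  intro t0 ht0
  have hslice : ∀ t ∈ Ioc (0 : ℝ) 1, ContinuousOn (F t) (Icc a b) := fun t ht =>
    hF.comp (f := fun l => (t, l)) (by fun_prop) (fun l hl => ⟨ht, hl⟩)
  have hcomp : IsCompact (Icc (t0 / 2) 1 ×ˢ Icc a b) := isCompact_Icc.prod isCompact_Icc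
  have hsub : Icc (t0 / 2) 1 ×ˢ Icc a b ⊆ Ioc (0 : ℝ) 1 ×ˢ Icc a b := by
    rintro ⟨t, l⟩ ⟨ht, hl⟩
    exact ⟨⟨by linarith only [ht.1, ht0.1], ht.2⟩, hl⟩
  obtain ⟨C, hC⟩ := hcomp.exists_bound_of_continuousOn (hF.mono hsub)
  have hnb : ∀ᶠ t in 𝓝[Ioc 0 1] t0, t ∈ Icc (t0 / 2) 1 := by
    have h1 : ∀ᶠ t in 𝓝[Ioc 0 1] t0, t0 / 2 < t :=
      mem_nhdsWithin_of_mem_nhds (lt_mem_nhds (by linarith only [ht0.1]))
    filter_upwards [h1, self_mem_nhdsWithin] with t h2 h3
    exact ⟨h2.le, h3.2⟩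
  refine intervalIntegral.continuousWithinAt_of_dominated_interval (bound := fun _ => C) ?_ ?_
    intervalIntegrable_const ?_
  · filter_upwards [self_mem_nhdsWithin] with t ht
    rw [uIoc_of_le hab]
    exact ((hslice t ht).mono Ioc_subset_Icc_self).aestronglyMeasurable measurableSet_Ioc
  · filter_upwards [hnb] with t ht
    refine Eventually.of_forall fun l hl => ?_
    rw [uIoc_of_le hab] at hl
    exact hC (t, l) ⟨ht, Ioc_subset_Icc_self hl⟩
  · refine Eventually.of_forall fun l hl => ?_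
    rw [uIoc_of_le hab] at hl
    exact (hF.comp (f := fun t => (t, l)) (by fun_prop)
      (fun t ht => ⟨ht, Ioc_subset_Icc_self hl⟩)) t0 ht0

theorem a6_int_frac {R : ℝ} (hR : 0 < R) :
    ∫ ν in (0 : ℝ)..1, ν / (ν + R) = 1 - R * Real.log (1 + 1 / R) := by
  have h1 : ∀ x ∈ uIcc (0 : ℝ) 1, HasDerivAt (fun ν => ν - R * Real.log (ν + R)) (x / (x + R)) x := by
    intro x hx
    rw [uIcc_of_le zero_le_one] at hx
    have hxR : 0 < x + R := by linarith only [hR, hx.1]
    have h2 : HasDerivAt (fun ν => Real.log (ν + R)) (1 / (x + R)) x :=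
      ((hasDerivAt_id x).add_const R).log hxR.ne'
    have h3 := (hasDerivAt_id x).sub (h2.const_mul R)
    convert! h3 using 1
    field_simp
    ring
  have hc : ContinuousOn (fun ν : ℝ => ν / (ν + R)) (uIcc 0 1) := by
    rw [uIcc_of_le zero_le_one]
    refine continuousOn_id.div (by fun_prop) fun x hx => ?_
    have : 0 < x + R := by linarith only [hR, hx.1]
    exact this.ne'
  rw [intervalIntegral.integral_eq_sub_of_hasDerivAt h1 hc.intervalIntegrable]
  have e : 1 + 1 / R = (1 + R) / R := by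
    field_simp
    ring
  rw [e, Real.log_div (by positivity) hR.ne', zero_add]
  ring

/-- A6 (scalar ISO), from A2-A5 -/
theorem iso_scalar {g : ℝ → ℝ → ℝ} {S : ℝ → ℝ} {R : ℝ} (hR : 0 < R)
    (hcont : ContinuousOn (Function.uncurry g) (Ioc (0 : ℝ) 1 ×ˢ Icc (0 : ℝ) 1))
    (hpos : ∀ t ∈ Ioc (0 : ℝ) 1, ∀ ν ∈ Icc (0 : ℝ) 1, 0 < g t ν)
    (hconv : ∀ t ∈ Ioc (0 : ℝ) 1, ∀ ν₀ ∈ Ioc (0 : ℝ) 1, ∀ ν₁ ∈ Ioc (0 : ℝ) 1, ∀ w₀ w₁ s : ℝ,
      0 ≤ w₀ → 0 ≤ w₁ → 0 ≤ s → s ≤ 1 →
      ((1 - s) * w₀ + s * w₁) ^ 2 * (g t ((1 - s) * ν₀ + s * ν₁) / ((1 - s) * ν₀ + s * ν₁)) ≤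
        (1 - s) * (w₀ ^ 2 * (g t ν₀ / ν₀)) + s * (w₁ ^ 2 * (g t ν₁ / ν₁)))
    (hdp : ∀ t ∈ Ioc (0 : ℝ) 1, ∀ ν ∈ Ioc (0 : ℝ) 1, ∀ r : ℝ, 0 ≤ r →
      (ν + t * r) ^ 2 * (g t ν / ν) ≤ (1 - t) * ν + t * ((ν + r) ^ 2 * (g 1 ν / ν)))
    (hsa : ∀ l ∈ Ioc (0 : ℝ) 1, ∀ x y : ℝ, 0 < x → 0 < y → x + y ≤ 1 →
      x * g x (x * l) + y * g y (y * l) ≤ (x + y) * g (x + y) ((x + y) * l))
    (hS0 : ∀ t ∈ Ioc (0 : ℝ) 1, 0 ≤ S t) (hSc : ContinuousOn S (Ioc 0 1))
    (hSd : ∀ t ∈ Ioo (0 : ℝ) 1, HasDerivAt S ((1 - ∫ ν in (0 : ℝ)..1, g t ν) / t) t)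
    (hJ : 1 - ∫ ν in (0 : ℝ)..1, g 1 ν = R * Real.log (1 + 1 / R)) :
    P369.g R ≤ S 1 := by
  have h1I : (1 : ℝ) ∈ Ioc (0 : ℝ) 1 := ⟨one_pos, le_rfl⟩
  have hslice : ∀ t ∈ Ioc (0 : ℝ) 1, ContinuousOn (g t) (Icc 0 1) := fun t ht =>
    hcont.comp (f := fun l => (t, l)) (by fun_prop) (fun l hl => ⟨ht, hl⟩)
  have hg1 := hslice 1 h1I
  have hint : ∫ ν in (0 : ℝ)..1, g 1 ν = ∫ ν in (0 : ℝ)..1, ν / (ν + R) := by
    rw [a6_int_frac hR]; linarith
  obtain ⟨θ, hθ, hθ1, hθ2⟩ := exists_theta hR hg1 (hpos 1 h1I 0 ⟨le_rfl, zero_le_one⟩) hint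
  have hθ0 : 0 < θ := hθ.1
  have hθI : θ ∈ Ioc (0 : ℝ) 1 := ⟨hθ.1, hθ.2.le⟩
  have hθR : 0 < θ + R := by linarith only [hR, hθ0]
  -- the three ingredients
  set a : ℝ → ℝ := fun t => ∫ l in (0 : ℝ)..θ, g t (t * l) with ha
  set a0 : ℝ := ∫ l in (0 : ℝ)..θ, l / (l + R) with ha0
  set q : ℝ → ℝ := fun t => t * (θ + R) ^ 2 * g t (t * θ) / θ with hq
  set T : ℝ := ∫ ν in θ..1, (g 1 ν - ν / (ν + R)) with hT
  have hmap : ∀ t ∈ Ioc (0 : ℝ) 1, ∀ l ∈ Icc (0 : ℝ) 1, t * l ∈ Icc (0 : ℝ) 1 := fun t ht l hl =>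
    ⟨mul_nonneg ht.1.le hl.1, mul_le_one₀ ht.2 hl.1 hl.2⟩
  have hFc : ContinuousOn (Function.uncurry fun t l => g t (t * l))
      (Ioc (0 : ℝ) 1 ×ˢ Icc (0 : ℝ) θ) := by
    refine hcont.comp (f := fun p : ℝ × ℝ => (p.1, p.1 * p.2)) (by fun_prop) ?_
    rintro ⟨t, l⟩ ⟨ht, hl⟩
    exact ⟨ht, hmap t ht l ⟨hl.1, hl.2.trans hθ.2.le⟩⟩
  have hac : ContinuousOn a (Ioc 0 1) := a6_param hθ0.le hFc
  have hqc : ContinuousOn q (Ioc 0 1) := by
    have h1 : ContinuousOn (fun t => g t (t * θ)) (Ioc 0 1) :=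
      hcont.comp (f := fun t : ℝ => (t, t * θ)) (by fun_prop)
        (fun t ht => ⟨ht, hmap t ht θ ⟨hθ0.le, hθ.2.le⟩⟩)
    have h2 : ContinuousOn (fun t : ℝ => t * (θ + R) ^ 2) (Ioc 0 1) := by fun_prop
    exact (h2.mul h1).div_const θ
  have hsl : ∀ t ∈ Ioc (0 : ℝ) 1, ContinuousOn (fun l => g t (t * l)) (Icc 0 θ) := fun t ht =>
    hFc.comp (f := fun l => (t, l)) (by fun_prop) (fun l hl => ⟨ht, hl⟩)
  have hii : ∀ t ∈ Ioc (0 : ℝ) 1, IntervalIntegrable (fun l => g t (t * l)) volume 0 θ := fun t ht => by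
    have := hsl t ht
    rw [← uIcc_of_le hθ0.le] at this
    exact this.intervalIntegrable
  -- superadditivity of `A(t) = t a(t)`
  set A : ℝ → ℝ := fun t => t * a t with hA
  have hAc : ContinuousOn A (Ioc 0 1) := continuousOn_id.mul hac
  have ha_nonneg : ∀ t ∈ Ioc (0 : ℝ) 1, 0 ≤ a t := fun t ht =>
    intervalIntegral.integral_nonneg hθ0.le fun l hl =>
      (hpos t ht _ (hmap t ht l ⟨hl.1, hl.2.trans hθ.2.le⟩)).le
  have hA0 : ∀ t ∈ Ioc (0 : ℝ) 1, 0 ≤ A t := fun t ht => mul_nonneg ht.1.le (ha_nonneg t ht)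
  have hAs : ∀ x y, 0 < x → 0 < y → x + y ≤ 1 → A x + A y ≤ A (x + y) := by
    intro x y hx hy hxy
    have hxI : x ∈ Ioc (0 : ℝ) 1 := ⟨hx, by linarith only [hy, hxy]⟩
    have hyI : y ∈ Ioc (0 : ℝ) 1 := ⟨hy, by linarith only [hx, hxy]⟩
    have hxyI : x + y ∈ Ioc (0 : ℝ) 1 := ⟨by linarith only [hx, hy], hxy⟩
    have e1 : A x + A y = ∫ l in (0 : ℝ)..θ, (x * g x (x * l) + y * g y (y * l)) := by
      rw [intervalIntegral.integral_add ((hii x hxI).const_mul x) ((hii y hyI).const_mul y),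
        intervalIntegral.integral_const_mul, intervalIntegral.integral_const_mul]
    have e2 : A (x + y) = ∫ l in (0 : ℝ)..θ, (x + y) * g (x + y) ((x + y) * l) := by
      rw [intervalIntegral.integral_const_mul]
    rw [e1, e2]
    refine intervalIntegral.integral_mono_on_of_le_Ioo hθ0.le
      (((hii x hxI).const_mul x).add ((hii y hyI).const_mul y)) ((hii _ hxyI).const_mul _)
      fun l hl => ?_
    exact hsa l ⟨hl.1, by linarith only [hl.2, hθ.2]⟩ x y hx hy hxy
  have hq0 : ∀ t ∈ Ioc (0 : ℝ) 1, 0 ≤ q t := fun t ht => by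
    have h1 := (hpos t ht _ (hmap t ht θ ⟨hθ0.le, hθ.2.le⟩)).le
    have h2 := ht.1.le
    change 0 ≤ t * (θ + R) ^ 2 * g t (t * θ) / θ
    (clear * - h2 hθ0 hR h1; positivity)
  have hqs : ∀ x y, 0 < x → 0 < y → x + y ≤ 1 → q x + q y ≤ q (x + y) := by
    intro x y hx hy hxy
    have h1 := hsa θ hθI x y hx hy hxy
    have h2 : 0 ≤ (θ + R) ^ 2 / θ := by positivity
    have h3 := mul_le_mul_of_nonneg_left h1 h2
    calc q x + q y = (θ + R) ^ 2 / θ * (x * g x (x * θ) + y * g y (y * θ)) := by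
          rw [hq]; ring
      _ ≤ (θ + R) ^ 2 / θ * ((x + y) * g (x + y) ((x + y) * θ)) := h3
      _ = q (x + y) := by rw [hq]; ring
  have hq1 : q 1 = θ + R := by
    change 1 * (θ + R) ^ 2 * g 1 (1 * θ) / θ = θ + R
    rw [one_mul, one_mul, hθ1]
    (clear * - hθ0 hR; field_simp)
  have hA1 : A 1 - a0 + T = 0 := by
    have hc1 : ContinuousOn (fun ν => g 1 ν - ν / (ν + R)) (Icc 0 1) := by
      refine hg1.sub (continuousOn_id.div (by fun_prop) fun x hx => ?_)
      have : 0 < x + R := by linarith only [hR, hx.1]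
      exact this.ne'
    have hfr : ∀ b ∈ Icc (0 : ℝ) 1, IntervalIntegrable (fun ν : ℝ => ν / (ν + R)) volume 0 b := by
      intro b hb
      refine ContinuousOn.intervalIntegrable ?_
      rw [uIcc_of_le hb.1]
      refine continuousOn_id.div (by fun_prop) fun x hx => ?_
      have : 0 < x + R := by linarith only [hR, hx.1]
      exact this.ne'
    have i1 : IntervalIntegrable (fun ν => g 1 ν - ν / (ν + R)) volume 0 θ :=
      ContinuousOn.intervalIntegrable (by
        rw [uIcc_of_le hθ0.le]; exact hc1.mono (Icc_subset_Icc_right hθ.2.le))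
    have i2 : IntervalIntegrable (fun ν => g 1 ν - ν / (ν + R)) volume θ 1 :=
      ContinuousOn.intervalIntegrable (by
        rw [uIcc_of_le hθ.2.le]; exact hc1.mono (Icc_subset_Icc_left hθ0.le))
    have i3 : IntervalIntegrable (g 1) volume 0 θ :=
      ContinuousOn.intervalIntegrable (by
        rw [uIcc_of_le hθ0.le]; exact hg1.mono (Icc_subset_Icc_right hθ.2.le))
    have i4 : IntervalIntegrable (g 1) volume 0 1 :=
      ContinuousOn.intervalIntegrable (by rw [uIcc_of_le zero_le_one]; exact hg1)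
    have e1 : A 1 = ∫ l in (0 : ℝ)..θ, g 1 l := by
      change 1 * (∫ l in (0 : ℝ)..θ, g 1 (1 * l)) = _
      simp only [one_mul]
    have e2 : A 1 - a0 = ∫ ν in (0 : ℝ)..θ, (g 1 ν - ν / (ν + R)) := by
      rw [e1, ha0, ← intervalIntegral.integral_sub i3 (hfr θ ⟨hθ0.le, hθ.2.le⟩)]
    rw [e2, hT, intervalIntegral.integral_add_adjacent_intervals i1 i2,
      intervalIntegral.integral_sub i4 (hfr 1 ⟨zero_le_one, le_rfl⟩), hint, sub_self]
  -- the estimate for every `ε`
  have key : ∀ ε ∈ Ioo (0 : ℝ) 1,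
      P369.g R - P369.g (ε * R) - ε * A 1 - ε ^ 2 * (Om θ R ε / ε) * (θ + R) ≤ S 1 := by
    intro ε hε
    have hε0 : 0 < ε := hε.1
    have hsubI : Icc ε 1 ⊆ Ioc (0 : ℝ) 1 := fun t ht => ⟨lt_of_lt_of_le hε0 ht.1, ht.2⟩
    set φ : ℝ → ℝ := fun t => -(a t - a0) - Om θ R t / t * (q t - t * q 1) - T with hφ
    have hOm : AntitoneOn (fun t => Om θ R t / t) (Icc ε 1) :=
      (Om_div_antitone hθ0 hR.le).mono hsubI
    have iOm : IntervalIntegrable (fun t => Om θ R t / t) volume ε 1 := by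
      refine AntitoneOn.intervalIntegrable ?_
      rw [uIcc_of_le hε.2.le]; exact hOm
    have cq : ContinuousOn (fun t => q t - t * q 1) (uIcc ε 1) := by
      rw [uIcc_of_le hε.2.le]
      exact (hqc.mono hsubI).sub (by fun_prop)
    have i2 : IntervalIntegrable (fun t => Om θ R t / t * (q t - t * q 1)) volume ε 1 :=
      iOm.mul_continuousOn cq
    have i1 : IntervalIntegrable (fun t => a t - a0) volume ε 1 := by
      refine ContinuousOn.intervalIntegrable ?_
      rw [uIcc_of_le hε.2.le]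
      exact (hac.mono hsubI).sub continuousOn_const
    have i1n : IntervalIntegrable (fun t => -(a t - a0)) volume ε 1 := i1.neg
    have iφ : IntervalIntegrable φ volume ε 1 := (i1n.sub i2).sub intervalIntegrable_const
    have hD : (∫ t in ε..1, φ t) ≤ (S 1 - P369.g (1 * R)) - (S ε - P369.g (ε * R)) := by
      refine intervalIntegral.integral_le_sub_of_hasDeriv_right_of_le (g := fun t =>
        S t - P369.g (t * R)) (g' := fun t => (1 - ∫ ν in (0 : ℝ)..1, g t ν) / t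
          - Real.log (1 + 1 / (t * R)) * R) hε.2.le ?_ ?_ ?_ ?_
      · refine (hSc.mono hsubI).sub ?_
        exact (a6_continuous_g.comp (continuous_id.mul continuous_const)).continuousOn
      · intro t ht
        have ht' : t ∈ Ioo (0 : ℝ) 1 := ⟨lt_trans hε0 ht.1, ht.2⟩
        have h1 : HasDerivAt (fun s : ℝ => s * R) R t := by
          simpa only [id_eq, one_mul] using (hasDerivAt_id t).mul_const R
        have h2 : HasDerivAt (fun s : ℝ => P369.g (s * R)) (Real.log (1 + 1 / (t * R)) * R) t :=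
          HasDerivAt.comp (h := fun s : ℝ => s * R) (h₂ := P369.g) t
            (a6_hasDerivAt_g (mul_pos ht'.1 hR)) h1
        exact ((hSd t ht').sub h2).hasDerivWithinAt
      · exact (intervalIntegrable_iff_integrableOn_Icc_of_le hε.2.le).1 iφ
      · intro t ht
        have ht' : t ∈ Ioo (0 : ℝ) 1 := ⟨lt_trans hε0 ht.1, ht.2⟩
        have htI : t ∈ Ioc (0 : ℝ) 1 := ⟨ht'.1, ht'.2.le⟩
        have h1 := pointwise_bound hR hθ ht' (hslice t htI) hg1 (hconv t htI) (hdp t htI) hθ1 hθ2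
        rw [hφ]
        simp only
        rw [hq1]
        linarith only [h1]
    have e1 : (∫ t in ε..1, φ t) = -(∫ t in ε..1, (a t - a0))
        - (∫ t in ε..1, Om θ R t / t * (q t - t * q 1)) - (1 - ε) * T := by
      rw [hφ, intervalIntegral.integral_sub (i1n.sub i2) intervalIntegrable_const,
        intervalIntegral.integral_sub i1n i2, intervalIntegral.integral_neg,
        intervalIntegral.integral_const, smul_eq_mul]
    have hs1 := super_int hqc hq0 hqs hε0 hε.2.le hOm (by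
      have := Om_nonneg hθ0 hR.le h1I
      simpa only [div_one, ge_iff_le] using this)
    have hw1 : AntitoneOn (fun t : ℝ => 1 / t) (Icc ε 1) := fun x hx y hy hxy =>
      one_div_le_one_div_of_le (lt_of_lt_of_le hε0 hx.1) hxy
    have hs2 := super_int hAc hA0 hAs hε0 hε.2.le hw1 (by norm_num)
    have e2 : (∫ t in ε..1, 1 / t * (A t - t * A 1)) = ∫ t in ε..1, (a t - A 1) := by
      refine intervalIntegral.integral_congr fun t ht => ?_
      rw [uIcc_of_le hε.2.le] at ht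
      have ht0 : t ≠ 0 := (lt_of_lt_of_le hε0 ht.1).ne'
      change 1 / t * (t * a t - t * A 1) = a t - A 1
      (clear * - ht0; field_simp)
    have e3 : (∫ t in ε..1, (a t - a0)) = (∫ t in ε..1, (a t - A 1)) + (1 - ε) * (A 1 - a0) := by
      have i3 : IntervalIntegrable (fun t => a t - A 1) volume ε 1 := by
        refine ContinuousOn.intervalIntegrable ?_
        rw [uIcc_of_le hε.2.le]
        exact (hac.mono hsubI).sub continuousOn_const
      have h1 : (∫ t in ε..1, (a t - a0)) = ∫ t in ε..1, ((a t - A 1) + (A 1 - a0)) := by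
        congr 1
        funext t
        ring
      rw [h1, intervalIntegral.integral_add i3 intervalIntegrable_const,
        intervalIntegral.integral_const, smul_eq_mul]
    rw [e2] at hs2
    rw [hq1] at hs1 e1
    have hε1 : ε ^ 2 * (1 / ε) * A 1 = ε * A 1 := by (clear * - hε0; field_simp)
    rw [hε1] at hs2
    have hSε := hS0 ε ⟨hε0, hε.2.le⟩
    rw [one_mul, e1, e3] at hD
    have hT' : A 1 - a0 = -T := by linarith only [hA1]
    rw [hT'] at hD
    nlinarith only [hD, hs1, hs2, hSε]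
  -- the limit `ε → 0`
  have hlim : Tendsto (fun ε : ℝ => P369.g R - P369.g (ε * R) - ε * A 1
      - ε ^ 2 * (Om θ R ε / ε) * (θ + R)) (𝓝[>] 0)
      (𝓝 (P369.g R - P369.g (0 * R) - 0 * A 1 - 0 * (θ + R))) := by
    have h1 : Tendsto (fun ε : ℝ => P369.g R - P369.g (ε * R) - ε * A 1) (𝓝[>] 0)
        (𝓝 (P369.g R - P369.g (0 * R) - 0 * A 1)) := by
      refine Tendsto.mono_left ?_ nhdsWithin_le_nhds
      have : Continuous (fun ε : ℝ => P369.g R - P369.g (ε * R) - ε * A 1) :=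
        (continuous_const.sub (a6_continuous_g.comp (continuous_id.mul continuous_const))).sub
          (continuous_id.mul continuous_const)
      exact this.tendsto 0
    exact h1.sub ((tendsto_Om hθ0 hR.le).mul_const _)
  rw [zero_mul, a6_g_zero, zero_mul, zero_mul, sub_zero, sub_zero, sub_zero] at hlim
  refine le_of_tendsto hlim ?_
  filter_upwards [Ioo_mem_nhdsGT (zero_lt_one (α := ℝ))] with ε hε
  exact key ε hε

end Vale.Agent.P369V
end
end

section

section

/-!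
P369V, F1: the isoperimetric inequality for faithful states with a photon number cutoff.
-/

namespace Vale.Agent.P369V

open Matrix MeasureTheory Set
open scoped Kronecker InnerProductSpace ComplexOrder

noncomputable section

variable {n M : ℕ}

theorem f1_gf_div {ν : ℝ} (hν : 0 < ν) (hn : 1 ≤ n) (ρ : Matrix (Cf n M) (Cf n M) ℂ) :
    gf n M ν ρ / ν = (ctop n M ρ / ν + FF n M ν ρ) / n := by
  have hn' : (n : ℝ) ≠ 0 := by
    have : (0 : ℝ) < n := by exact_mod_cast (lt_of_lt_of_le Nat.zero_lt_one hn)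
    exact this.ne'
  unfold gf
  field_simp

theorem f1_gf_pos {ν : ℝ} (hν : ν ∈ Icc (0 : ℝ) 1) (hn : 1 ≤ n) {ρ : Matrix (Cf n M) (Cf n M) ℂ}
    (hρ : ρ.PosDef) : 0 < gf n M ν ρ := by
  have hn' : (0 : ℝ) < n := by exact_mod_cast (lt_of_lt_of_le Nat.zero_lt_one hn)
  have h1 := ctop_pos hn hρ
  have h2 := FF_nonneg hν hρ
  unfold gf
  have : 0 ≤ ν * FF n M ν ρ := mul_nonneg hν.1 h2
  (clear * - h1 this hn; positivity)

theorem f1_cs {c ν₀ ν₁ w₀ w₁ s : ℝ} (hc : 0 ≤ c) (h0 : 0 < ν₀) (h1 : 0 < ν₁) (hs0 : 0 ≤ s) (hs1 : s ≤ 1) :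
    ((1 - s) * w₀ + s * w₁) ^ 2 * (c / ((1 - s) * ν₀ + s * ν₁)) ≤
      (1 - s) * (w₀ ^ 2 * (c / ν₀)) + s * (w₁ ^ 2 * (c / ν₁)) := by
  have hs : 0 ≤ 1 - s := by linarith only [hs1]
  have hν : 0 < (1 - s) * ν₀ + s * ν₁ := by
    rcases hs0.eq_or_lt with h | h
    · rw [← h]; simpa only [sub_zero, one_mul, zero_mul, add_zero] using h0
    · have : 0 < s * ν₁ := mul_pos h h1
      have : 0 ≤ (1 - s) * ν₀ := mul_nonneg hs h0.le
      (clear c w₀ w₁ hc hs0; linarith)
  have key : ((1 - s) * w₀ + s * w₁) ^ 2 / ((1 - s) * ν₀ + s * ν₁) ≤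
      (1 - s) * (w₀ ^ 2 / ν₀) + s * (w₁ ^ 2 / ν₁) := by
    rw [div_le_iff₀ hν]
    have e : ((1 - s) * (w₀ ^ 2 / ν₀) + s * (w₁ ^ 2 / ν₁)) * ((1 - s) * ν₀ + s * ν₁) -
        ((1 - s) * w₀ + s * w₁) ^ 2 = (1 - s) * s * ((w₀ * ν₁ - w₁ * ν₀) ^ 2 / (ν₀ * ν₁)) := by
      field_simp
      ring
    have : 0 ≤ (1 - s) * s * ((w₀ * ν₁ - w₁ * ν₀) ^ 2 / (ν₀ * ν₁)) := by positivity
    linarith
  calc ((1 - s) * w₀ + s * w₁) ^ 2 * (c / ((1 - s) * ν₀ + s * ν₁))
      = c * (((1 - s) * w₀ + s * w₁) ^ 2 / ((1 - s) * ν₀ + s * ν₁)) := by ring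
    _ ≤ c * ((1 - s) * (w₀ ^ 2 / ν₀) + s * (w₁ ^ 2 / ν₁)) := mul_le_mul_of_nonneg_left key hc
    _ = _ := by ring

theorem f1_conv (hn : 1 ≤ n) {ρ : Matrix (Cf n M) (Cf n M) ℂ} (hρ : ρ.PosDef) {ν₀ ν₁ w₀ w₁ s : ℝ}
    (h0 : ν₀ ∈ Ioc (0 : ℝ) 1) (h1 : ν₁ ∈ Ioc (0 : ℝ) 1) (hs0 : 0 ≤ s) (hs1 : s ≤ 1) :
    ((1 - s) * w₀ + s * w₁) ^ 2 * (gf n M ((1 - s) * ν₀ + s * ν₁) ρ / ((1 - s) * ν₀ + s * ν₁)) ≤
      (1 - s) * (w₀ ^ 2 * (gf n M ν₀ ρ / ν₀)) + s * (w₁ ^ 2 * (gf n M ν₁ ρ / ν₁)) := by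
  have hn' : (0 : ℝ) < n := by exact_mod_cast (lt_of_lt_of_le Nat.zero_lt_one hn)
  have hs : 0 ≤ 1 - s := by linarith only [hs1]
  have hν : 0 < (1 - s) * ν₀ + s * ν₁ := by
    rcases hs0.eq_or_lt with h | h
    · rw [← h]; simpa only [sub_zero, one_mul, zero_mul, add_zero] using h0.1
    · have : 0 < s * ν₁ := mul_pos h h1.1
      have : 0 ≤ (1 - s) * ν₀ := mul_nonneg hs h0.1.le
      linarith
  rw [f1_gf_div hν hn, f1_gf_div h0.1 hn, f1_gf_div h1.1 hn]
  have hc := f1_cs (c := ctop n M ρ) (w₀ := w₀) (w₁ := w₁) (ctop_pos hn hρ).le h0.1 h1.1 hs0 hs1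
  have hF : ((1 - s) * w₀ + s * w₁) ^ 2 * FF n M ((1 - s) * ν₀ + s * ν₁) ρ ≤
      (1 - s) * (w₀ ^ 2 * FF n M ν₀ ρ) + s * (w₁ ^ 2 * FF n M ν₁ ρ) := by
    unfold FF
    rw [Finset.mul_sum, Finset.mul_sum, Finset.mul_sum, Finset.mul_sum, Finset.mul_sum,
      ← Finset.sum_add_distrib]
    apply Finset.sum_le_sum
    intro j _
    exact Qf_joint_convex hρ _ ⟨h0.1.le, h0.2⟩ ⟨h1.1.le, h1.2⟩ hs0 hs1
  have e1 : ((1 - s) * w₀ + s * w₁) ^ 2 *
      ((ctop n M ρ / ((1 - s) * ν₀ + s * ν₁) + FF n M ((1 - s) * ν₀ + s * ν₁) ρ) / n) =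
      (((1 - s) * w₀ + s * w₁) ^ 2 * (ctop n M ρ / ((1 - s) * ν₀ + s * ν₁)) +
        ((1 - s) * w₀ + s * w₁) ^ 2 * FF n M ((1 - s) * ν₀ + s * ν₁) ρ) / n := by ring
  have e2 : (1 - s) * (w₀ ^ 2 * ((ctop n M ρ / ν₀ + FF n M ν₀ ρ) / n)) +
      s * (w₁ ^ 2 * ((ctop n M ρ / ν₁ + FF n M ν₁ ρ) / n)) =
      ((1 - s) * (w₀ ^ 2 * (ctop n M ρ / ν₀)) + s * (w₁ ^ 2 * (ctop n M ρ / ν₁)) +
        ((1 - s) * (w₀ ^ 2 * FF n M ν₀ ρ) + s * (w₁ ^ 2 * FF n M ν₁ ρ))) / n := by ring
  rw [e1, e2]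
  exact div_le_div_of_nonneg_right (add_le_add hc hF) hn'.le

theorem f1_continuous_loss (ρ : Matrix (Cf n M) (Cf n M) ℂ) :
    Continuous (fun t : ℝ => loss n M t ρ) := by
  have h := continuous_loss (n := n) (M := M)
  have h2 : Continuous (fun t : ℝ => ((t, ρ) : ℝ × Matrix (Cf n M) (Cf n M) ℂ)) := by fun_prop
  have h3 := h.comp h2
  simpa only [Function.comp_def] using h3

theorem f1_cont (hn : 1 ≤ n) {ρ : Matrix (Cf n M) (Cf n M) ℂ} (hρ : ρ.PosDef) :
    ContinuousOn (Function.uncurry (fun t ν : ℝ => gf n M ν (loss n M t ρ)))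
      (Ioc (0 : ℝ) 1 ×ˢ Icc (0 : ℝ) 1) := by
  have hL : Continuous (fun p : ℝ × ℝ => loss n M p.1 ρ) := (f1_continuous_loss ρ).comp continuous_fst
  have hF : ∀ j : Fin n, ContinuousOn (fun p : ℝ × ℝ => Qf p.2 (loss n M p.1 ρ)
      (ann n M j * loss n M p.1 ρ - loss n M p.1 ρ * ann n M j)) (Ioc (0 : ℝ) 1 ×ˢ Icc (0 : ℝ) 1) := by
    intro j
    have hm : Continuous (fun p : ℝ × ℝ =>
        ((p.2, loss n M p.1 ρ, ann n M j * loss n M p.1 ρ - loss n M p.1 ρ * ann n M j) :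
          ℝ × Matrix (Cf n M) (Cf n M) ℂ × Matrix (Cf n M) (Cf n M) ℂ)) := by
      refine continuous_snd.prodMk (hL.prodMk ?_)
      exact (continuous_const.matrix_mul hL).sub (hL.matrix_mul continuous_const)
    have := (continuousOn_Qf (ι := Cf n M)).comp hm.continuousOn (s := Ioc (0 : ℝ) 1 ×ˢ Icc (0 : ℝ) 1) (by
      intro p hp
      exact ⟨hp.2, loss_posDef hp.1.1 hp.1.2 hρ, trivial⟩)
    exact this
  have hC : Continuous (fun p : ℝ × ℝ => ctop n M (loss n M p.1 ρ)) := by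
    unfold ctop
    apply continuous_finsetSum
    intro j _
    apply continuous_finsetSum
    intro k _
    split_ifs
    · exact continuous_const.mul (Complex.continuous_re.comp (hL.matrix_elem k k))
    · exact continuous_const
  unfold Function.uncurry gf FF
  apply ContinuousOn.div_const
  apply hC.continuousOn.add
  apply continuous_snd.continuousOn.mul
  exact continuousOn_finsetSum _ fun j _ => hF j

theorem f1_HH (hn : 1 ≤ n) {ρ : Matrix (Cf n M) (Cf n M) ℂ} (hρ : ρ.PosDef) (ht : ρ.trace = 1)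
    {t l : ℝ} (ht0 : t ∈ Ioc (0 : ℝ) 1) (hl : l ∈ Ioc (0 : ℝ) 1) :
    n * l * (t * gf n M (t * l) (loss n M t ρ)) =
      HH n M (t * l) (loss n M t ρ) - t * en n M ρ + n * l * t := by
  have hn' : (n : ℝ) ≠ 0 := by
    have : (0 : ℝ) < n := by exact_mod_cast (lt_of_lt_of_le Nat.zero_lt_one hn)
    exact this.ne'
  have hν : t * l ∈ Icc (0 : ℝ) 1 := ⟨mul_nonneg ht0.1.le hl.1.le, mul_le_one₀ ht0.2 hl.1.le hl.2⟩
  have h1 := HH_eq (n := n) (M := M) hν (loss_posDef ht0.1 ht0.2 hρ)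
    (by rw [trace_loss ht0.1.le ht0.2, ht])
  rw [h1, en_loss ht0.1.le ht0.2]
  unfold gf
  field_simp
  ring

theorem f1_super {ρ : Matrix (Cf n M) (Cf n M) ℂ} (hρ : ρ.PosDef) {l x y : ℝ}
    (hl : l ∈ Ioc (0 : ℝ) 1) (hx : 0 < x) (hy : 0 < y) (hxy : x + y ≤ 1) :
    HH n M (x * l) (loss n M x ρ) + HH n M (y * l) (loss n M y ρ) ≤
      HH n M ((x + y) * l) (loss n M (x + y) ρ) := by
  have hs : 0 < x + y := by linarith only [hx, hy]
  have hx' : 0 < x / (x + y) := by (clear * - hx hy; positivity)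
  have hx1 : x / (x + y) < 1 := by rw [div_lt_one hs]; linarith only [hy]
  have e1 : (1 : ℝ) - x / (x + y) = y / (x + y) := by field_simp; ring
  have h := HH_step (n := n) (M := M) (x := x / (x + y)) (l := (x + y) * l) hx'.le hx1.le
    ⟨by have := hl.1; positivity, mul_le_one₀ hxy hl.1.le hl.2⟩
    (loss_posDef hs hxy hρ) hx' hx1
  rw [e1, loss_loss hs.le hxy hx'.le hx1.le, loss_loss hs.le hxy (by positivity) (by rw [← e1]; linarith only [hx'])] at h
  have e2 : x / (x + y) * ((x + y) * l) = x * l := by field_simp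
  have e3 : y / (x + y) * ((x + y) * l) = y * l := by field_simp
  have e4 : (x + y) * (x / (x + y)) = x := by field_simp
  have e5 : (x + y) * (y / (x + y)) = y := by field_simp
  rw [e2, e3, e4, e5] at h
  exact h

theorem f1_hasDerivAt {ρ : Matrix (Cf n M) (Cf n M) ℂ} (hρ : ρ.PosDef)
    {t : ℝ} (ht : t ∈ Ioo (0 : ℝ) 1) :
    HasDerivAt (fun t => ent (loss n M t ρ) / n) (Jm n M (loss n M t ρ) / n / t) t := by
  have hp := loss_posDef (n := n) (M := M) ht.1 ht.2.le hρ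
  have hev : ∀ᶠ s in nhds t, s ∈ Ioo (0 : ℝ) 1 := Ioo_mem_nhds ht.1 ht.2
  have h1 := hasDerivAt_ent (A := fun s => loss n M s ρ)
    (A' := (-(1 / (t : ℂ))) • gen n M (loss n M t ρ)) (t := t)
    (fun i j => by
      have := hasDerivAt_loss ρ ht i j
      simpa only [one_div, Matrix.smul_apply, smul_eq_mul, neg_mul] using this)
    hp
    (hev.mono fun s hs => (loss_posDef (n := n) (M := M) hs.1 hs.2.le hρ).isHermitian)
    (hev.mono fun s hs => by
      rw [trace_loss hs.1.le hs.2.le, trace_loss ht.1.le ht.2.le])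
  have h2 := h1.div_const (n : ℝ)
  have e : -(((-(1 / (t : ℂ))) • gen n M (loss n M t ρ)) * cfc Real.log (loss n M t ρ)).trace.re / n =
      Jm n M (loss n M t ρ) / n / t := by
    rw [Matrix.smul_mul, Matrix.trace_smul, smul_eq_mul]
    have : ((-(1 / (t : ℂ))) * (gen n M (loss n M t ρ) * cfc Real.log (loss n M t ρ)).trace).re =
        -(1 / t) * (gen n M (loss n M t ρ) * cfc Real.log (loss n M t ρ)).trace.re := by
      have e2 : (-(1 / (t : ℂ))) = ((-(1 / t) : ℝ) : ℂ) := by push_cast; ring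
      rw [e2, Complex.re_ofReal_mul]
    rw [this]
    unfold Jm
    ring
  rw [e] at h2
  exact h2

theorem f1_continuousOn {ρ : Matrix (Cf n M) (Cf n M) ℂ} (hρ : ρ.PosSemidef) :
    ContinuousOn (fun t => ent (loss n M t ρ) / n) univ := by
  apply ContinuousOn.div_const
  exact continuousOn_ent (f1_continuous_loss ρ).continuousOn (fun t _ => loss_posSemidef hρ)

/-- F1: ISO, for all faithful states -/
theorem iso (hn : 1 ≤ n) {ρ : Matrix (Cf n M) (Cf n M) ℂ} (hρ : ρ.PosDef) (ht : ρ.trace = 1) {R : ℝ}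
    (hR : 0 < R) (hJ : Jm n M ρ / n = R * Real.log (1 + 1 / R)) : P369.g R ≤ ent ρ / n := by
  have hn' : (0 : ℝ) < n := by exact_mod_cast (lt_of_lt_of_le Nat.zero_lt_one hn)
  have htr : ∀ t ∈ Ioc (0 : ℝ) 1, (loss n M t ρ).trace = 1 := fun t h => by
    rw [trace_loss h.1.le h.2, ht]
  have key := iso_scalar (g := fun t ν : ℝ => gf n M ν (loss n M t ρ))
    (S := fun t => ent (loss n M t ρ) / n) (R := R) hR (f1_cont hn hρ)
    (fun t h ν hν => f1_gf_pos hν hn (loss_posDef h.1 h.2 hρ))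
    (fun t h ν₀ h0 ν₁ h1 w₀ w₁ s _ _ hs0 hs1 => f1_conv hn (loss_posDef h.1 h.2 hρ) h0 h1 hs0 hs1)
    (fun t h ν hν r hr => by
      rw [f1_gf_div hν.1 hn, f1_gf_div hν.1 hn, loss_one]
      have h1 := dp (n := n) (M := M) h hν hr hρ ht
      have h2 := div_le_div_of_nonneg_right h1 hn'.le
      have e1 : (ν + t * r) ^ 2 * (ctop n M (loss n M t ρ) / ν + FF n M ν (loss n M t ρ)) / n =
        (ν + t * r) ^ 2 * ((ctop n M (loss n M t ρ) / ν + FF n M ν (loss n M t ρ)) / n) := by ring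
      have e2 : ((1 - t) * ν * n + t * ((ν + r) ^ 2 * (ctop n M ρ / ν + FF n M ν ρ))) / n =
        (1 - t) * ν + t * ((ν + r) ^ 2 * ((ctop n M ρ / ν + FF n M ν ρ) / n)) := by
        field_simp
      rw [e1, e2] at h2
      exact h2)
    (fun l hl x y hx hy hxy => by
      have h1 := f1_HH (n := n) (M := M) hn hρ ht (t := x) (l := l) ⟨hx, by linarith only [hy, hxy]⟩ hl
      have h2 := f1_HH (n := n) (M := M) hn hρ ht (t := y) (l := l) ⟨hy, by linarith only [hx, hxy]⟩ hl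
      have h3 := f1_HH (n := n) (M := M) hn hρ ht (t := x + y) (l := l) ⟨by linarith only [hx, hy], hxy⟩ hl
      have h4 := f1_super (n := n) (M := M) hρ hl hx hy hxy
      have hnl : 0 < n * l := mul_pos hn' hl.1
      have h5 : n * l * (x * gf n M (x * l) (loss n M x ρ) + y * gf n M (y * l) (loss n M y ρ)) ≤
          n * l * ((x + y) * gf n M ((x + y) * l) (loss n M (x + y) ρ)) := by
        rw [mul_add, h1, h2, h3]
        linarith only [h4]
      exact le_of_mul_le_mul_left h5 hnl)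
    (fun t h => div_nonneg (ent_nonneg (loss_posSemidef hρ.posSemidef) (htr t h)) hn'.le)
    ((f1_continuousOn hρ.posSemidef).mono (subset_univ _))
    (fun t h => by
      have h1 := f1_hasDerivAt (n := n) (M := M) hρ h
      rw [Jm_eq hn (loss_posDef h.1 h.2.le hρ) (htr t ⟨h.1, h.2.le⟩), mul_div_cancel_left₀ _ hn'.ne'] at h1
      exact h1)
    (by
      rw [Jm_eq hn hρ ht, mul_div_cancel_left₀ _ hn'.ne'] at hJ
      rw [← hJ]
      simp only [loss_one])
  simpa only [loss_one] using key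

end

end Vale.Agent.P369V
end
end

section

section

/-!
P369A, modules E3 and E4 (helper630): entropy of a compression, and the limit of the entropies of
the compressions of an infinite matrix of finite energy.
-/

namespace Vale.Agent.P369A

open Matrix MeasureTheory Set Filter
open Vale.Agent.P369 (Conf up down)
open Vale.Agent.P369V
open scoped ComplexOrder Topology InnerProductSpace

noncomputable section

/-! ### finite matrices -/

/-- E3: the entropy of a principal block is at most the entropy plus the missing trace -/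
theorem ent_submatrix_le {ι κ : Type} [Fintype ι] [DecidableEq ι] [Fintype κ] [DecidableEq κ]
    {A : Matrix ι ι ℂ} (hA : A.PosSemidef) (h1 : A.trace.re ≤ 1) {e : κ → ι}
    (he : Function.Injective e) :
    ent (A.submatrix e e) ≤ ent A + (A.trace.re - (A.submatrix e e).trace.re) := by
  classical
  have hb : Orthonormal ℂ (fun i : ι => EuclideanSpace.single i (1 : ℂ)) :=
    EuclideanSpace.orthonormal_single
  have hd : Dense (Submodule.span ℂ (Set.range fun i : ι => EuclideanSpace.single i (1 : ℂ)) :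
      Set (EuclideanSpace ℂ ι)) := by
    have h2 : Submodule.span ℂ (Set.range fun i : ι => EuclideanSpace.single i (1 : ℂ)) = ⊤ := by
      have h3 := (EuclideanSpace.basisFun ι ℂ).toBasis.span_eq
      rw [OrthonormalBasis.coe_toBasis] at h3
      have h4 : (⇑(EuclideanSpace.basisFun ι ℂ)) = fun i => EuclideanSpace.single i (1 : ℂ) := by
        funext i; exact EuclideanSpace.basisFun_apply _ _ _
      rwa [h4] at h3
    rw [h2]
    exact dense_univ
  have hT := g4_clm_nonneg hA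
  have ht : HasSum (fun k : ι => (⟪EuclideanSpace.single k (1 : ℂ),
      (toEuclideanCLM (n := ι) (𝕜 := ℂ) A) (EuclideanSpace.single k 1)⟫_ℂ).re) A.trace.re := by
    have h2 := hasSum_fintype (fun k : ι => (⟪EuclideanSpace.single k (1 : ℂ),
      (toEuclideanCLM (n := ι) (𝕜 := ℂ) A) (EuclideanSpace.single k 1)⟫_ℂ).re)
    have h3 : ∑ k : ι, (⟪EuclideanSpace.single k (1 : ℂ),
      (toEuclideanCLM (n := ι) (𝕜 := ℂ) A) (EuclideanSpace.single k 1)⟫_ℂ).re = A.trace.re := by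
      simp only [g4_clm_inner, Matrix.trace, Matrix.diag_apply, Complex.re_sum]
    rwa [h3] at h2
  have h2 := ga_T2 hb hd hT ht h1 (fun k : κ => EuclideanSpace.single (e k) (1 : ℂ))
  have h3 : gaC (fun k : κ => EuclideanSpace.single (e k) (1 : ℂ))
      (toEuclideanCLM (n := ι) (𝕜 := ℂ) A) = A.submatrix e e := by
    ext i j
    simp only [gaC, Matrix.of_apply, g4_clm_inner, Matrix.submatrix_apply]
  rw [h3] at h2
  refine h2.trans (add_le_add ?_ le_rfl)
  rw [g4_ent_eq_clm hA.1]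
  have h4 := ga_eta_nonneg hb hd hT ht h1
  have h5 : ∀ i : ι, 0 ≤ (⟪EuclideanSpace.single i (1 : ℂ), cfc Real.negMulLog
      (toEuclideanCLM (n := ι) (𝕜 := ℂ) A) (EuclideanSpace.single i 1)⟫_ℂ).re := fun i =>
    ((ContinuousLinearMap.nonneg_iff_isPositive _).1 h4).re_inner_nonneg_right _
  calc _ = ∑ i ∈ Finset.univ.map ⟨e, he⟩, (⟪EuclideanSpace.single i (1 : ℂ), cfc Real.negMulLog
      (toEuclideanCLM (n := ι) (𝕜 := ℂ) A) (EuclideanSpace.single i 1)⟫_ℂ).re := by
        rw [Finset.sum_map]; rfl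
    _ ≤ _ := Finset.sum_le_sum_of_subset_of_nonneg (Finset.subset_univ _) fun i _ _ => h5 i

/-- entropy of a positive semidefinite matrix of trace at most one -/
theorem ent_nonneg' {ι : Type} [Fintype ι] [DecidableEq ι] {A : Matrix ι ι ℂ} (hA : A.PosSemidef)
    (h1 : A.trace.re ≤ 1) : 0 ≤ ent A := by
  have h := ent_submatrix_le hA h1 (κ := Empty) (e := fun x => x.elim) (fun x => x.elim)
  rw [ga_ent_eq hA.1]
  have h2 : ∀ i, hA.1.eigenvalues i ≤ 1 := by
    intro i
    have h3 : A.trace.re = ∑ j, hA.1.eigenvalues j := by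
      rw [hA.1.trace_eq_sum_eigenvalues, Complex.re_sum]
      exact Finset.sum_congr rfl fun a _ => Complex.ofReal_re _
    have h4 := Finset.single_le_sum (f := fun j => hA.1.eigenvalues j)
      (fun j _ => hA.eigenvalues_nonneg j) (Finset.mem_univ i)
    linarith only [h1, h3, h4]
  exact Finset.sum_nonneg fun i _ => Real.negMulLog_nonneg (hA.eigenvalues_nonneg i) (h2 i)

/-! ### sums over the configurations with at most `X` photons -/

variable {n : ℕ}

/-- the finset of configurations with at most `X` photons -/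
def ctF (n X : ℕ) : Finset (Conf n) := Finset.univ.map ⟨(Subtype.val : Ct n X → Conf n),
  Subtype.val_injective⟩

theorem mem_ctF {X : ℕ} {x : Conf n} : x ∈ ctF n X ↔ ∑ j, x j ≤ X := by
  unfold ctF
  simp only [Finset.mem_map, Finset.mem_univ, Function.Embedding.coeFn_mk, true_and, Subtype.exists, exists_prop, exists_eq_right]

theorem sum_ctF {E : Type} [AddCommMonoid E] (X : ℕ) (g : Conf n → E) :
    ∑ x ∈ ctF n X, g x = ∑ x : Ct n X, g x.1 := by
  unfold ctF
  rw [Finset.sum_map]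
  rfl

theorem ctF_mono : Monotone (ctF n) := by
  intro X X' h x hx
  rw [mem_ctF] at hx ⊢
  exact hx.trans h

theorem tendsto_ctF : Tendsto (ctF n) atTop atTop :=
  tendsto_atTop_finset_of_monotone ctF_mono fun x => ⟨∑ j, x j, mem_ctF.2 le_rfl⟩

theorem tendsto_sum_Ct {E : Type} [AddCommMonoid E] [TopologicalSpace E] {g : Conf n → E} {a : E}
    (hg : HasSum g a) : Tendsto (fun X => ∑ x : Ct n X, g x.1) atTop (𝓝 a) := by
  have h := hg.comp tendsto_ctF
  refine h.congr fun X => ?_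
  exact sum_ctF X g

theorem summable_of_Ct {g : Conf n → ℝ} (h0 : ∀ x, 0 ≤ g x) {B : ℝ}
    (hB : ∀ X, ∑ x : Ct n X, g x.1 ≤ B) : Summable g := by
  refine summable_of_sum_le h0 (c := B) fun u => ?_
  obtain ⟨X, hX⟩ := (tendsto_ctF (n := n)).eventually (eventually_ge_atTop u) |>.exists
  exact (Finset.sum_le_sum_of_subset_of_nonneg hX fun x _ _ => h0 x).trans
    ((sum_ctF X g).trans_le (hB X))

theorem sum_Ct_mono {g : Conf n → ℝ} (h0 : ∀ x, 0 ≤ g x) :
    Monotone fun X => ∑ x : Ct n X, g x.1 := by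
  intro X X' h
  simp only [← sum_ctF]
  exact Finset.sum_le_sum_of_subset_of_nonneg (ctF_mono h) fun x _ _ => h0 x

/-! ### the limit -/

theorem diag_nonneg_of_cut {s : Ker n} (hs : ∀ X, (cut X s).PosSemidef) (x : Conf n) :
    0 ≤ (s x x).re := by
  have h := (hs (∑ j, x j)).diag_nonneg (i := (⟨x, le_rfl⟩ : Ct n (∑ j, x j)))
  exact (Complex.le_def.1 h).1

theorem trX_mono {s : Ker n} (hs : ∀ X, (cut X s).PosSemidef) : Monotone (trX s) :=
  sum_Ct_mono (diag_nonneg_of_cut hs)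

theorem enX_mono {s : Ker n} (hs : ∀ X, (cut X s).PosSemidef) : Monotone (enX s) :=
  sum_Ct_mono (g := fun x => (∑ j, (x j : ℝ)) * (s x x).re) fun x =>
    mul_nonneg (Finset.sum_nonneg fun _ _ => Nat.cast_nonneg _) (diag_nonneg_of_cut hs x)

theorem trX_eq (s : Ker n) (X : ℕ) : trX s X = (cut X s).trace.re := by
  simp only [trX, cut, Matrix.trace, Matrix.diag_apply, Complex.re_sum]

theorem diag_le_one {s : Ker n} (hs : ∀ X, (cut X s).PosSemidef) (ht : ∀ X, trX s X ≤ 1)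
    (x : Conf n) : (s x x).re ≤ 1 := by
  refine le_trans ?_ (ht (∑ j, x j))
  exact Finset.single_le_sum (f := fun y : Ct n (∑ j, x j) => (s y.1 y.1).re)
    (fun y _ => diag_nonneg_of_cut hs y.1) (Finset.mem_univ ⟨x, le_rfl⟩)

/-- the inclusion of cutoffs -/
def ctI {X X' : ℕ} (h : X ≤ X') (x : Ct n X) : Ct n X' := ⟨x.1, x.2.trans h⟩

theorem ctI_inj {X X' : ℕ} (h : X ≤ X') : Function.Injective (ctI (n := n) h) := by
  intro x y hxy
  exact Subtype.ext (congrArg (fun z : Ct n X' => z.1) hxy)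

theorem cut_submatrix (s : Ker n) {X X' : ℕ} (h : X ≤ X') :
    (cut X' s).submatrix (ctI h) (ctI h) = cut X s := rfl

theorem summable_eta {s : Ker n} (hs : ∀ X, (cut X s).PosSemidef) (ht : ∀ X, trX s X ≤ 1) {E : ℝ}
    (hE : ∀ X, enX s X ≤ E) : Summable fun x : Conf n => Real.negMulLog (s x x).re := by
  refine P369.summable_negMulLog_of_energy (diag_nonneg_of_cut hs) (diag_le_one hs ht)
    (E := fun x : Conf n => ∑ j, (x j : ℝ)) ?_ (P369.summable_exp_tot n)
  refine summable_of_Ct (fun x => ?_) hE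
  exact mul_nonneg (Finset.sum_nonneg fun _ _ => Nat.cast_nonneg _) (diag_nonneg_of_cut hs x)

/-- upper bound for the entropy of a bigger compression -/
theorem ent_cut_le_cut {s : Ker n} (hs : ∀ X, (cut X s).PosSemidef) {X X' : ℕ} (h : X ≤ X') :
    ent (cut X' s) ≤ ent (cut X s) + (∑ x : Ct n X', Real.negMulLog (s x.1 x.1).re -
      ∑ x : Ct n X, Real.negMulLog (s x.1 x.1).re) := by
  classical
  have h1 := ent_le_block_emb (hs X') (ctI h) (ctI_inj h)
  rw [cut_submatrix] at h1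
  refine h1.trans (add_le_add le_rfl (le_of_eq ?_))
  rw [← sum_ctF X (fun x => Real.negMulLog (s x x).re),
    ← sum_ctF X' (fun x => Real.negMulLog (s x x).re), eq_sub_iff_add_eq]
  have h2 : ∑ i : Ct n X', (if i ∈ Set.range (ctI (n := n) h) then 0 else
      Real.negMulLog (cut X' s i i).re) = ∑ x ∈ ctF n X', (if x ∈ ctF n X then 0 else
      Real.negMulLog (s x x).re) := by
    rw [sum_ctF]
    refine Finset.sum_congr rfl fun x _ => ?_
    have h3 : x ∈ Set.range (ctI (n := n) h) ↔ x.1 ∈ ctF n X := by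
      rw [mem_ctF]
      constructor
      · rintro ⟨y, rfl⟩; exact y.2
      · intro hx; exact ⟨⟨x.1, hx⟩, rfl⟩
    by_cases hx : x.1 ∈ ctF n X
    · rw [if_pos (h3.2 hx), if_pos hx]
    · rw [if_neg (fun h4 => hx (h3.1 h4)), if_neg hx]; rfl
  rw [h2]
  have h4 : ∑ x ∈ ctF n X, Real.negMulLog (s x x).re = ∑ x ∈ ctF n X', (if x ∈ ctF n X then
      Real.negMulLog (s x x).re else 0) := by
    rw [← Finset.sum_filter]
    refine Finset.sum_congr ?_ fun _ _ => rfl
    ext x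
    rw [Finset.mem_filter]
    exact ⟨fun hx => ⟨ctF_mono h hx, hx⟩, fun hx => hx.2⟩
  rw [h4, ← Finset.sum_add_distrib]
  refine Finset.sum_congr rfl fun x _ => ?_
  split_ifs <;> simp

/-- lower bound -/
theorem ent_cut_ge_cut {s : Ker n} (hs : ∀ X, (cut X s).PosSemidef) (ht : ∀ X, trX s X ≤ 1)
    {X X' : ℕ} (h : X ≤ X') :
    ent (cut X s) ≤ ent (cut X' s) + (trX s X' - trX s X) := by
  have h1 := ent_submatrix_le (hs X') (by rw [← trX_eq]; exact ht X') (ctI_inj h)
  rw [cut_submatrix, ← trX_eq, ← trX_eq] at h1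
  exact h1

/-- E4 -/
theorem ent_limit {s : Ker n} (hs : ∀ X, (cut X s).PosSemidef) (ht : ∀ X, trX s X ≤ 1) {E : ℝ}
    (hE : ∀ X, enX s X ≤ E) :
    Tendsto (fun X => ent (cut X s)) atTop (𝓝 (Sl s)) ∧ 0 ≤ Sl s ∧
      ∀ X, ent (cut X s) ≤ Sl s + (1 - trX s X) := by
  have h0 : ∀ X, 0 ≤ ent (cut X s) := fun X =>
    ent_nonneg' (hs X) (by rw [← trX_eq]; exact ht X)
  set η : Conf n → ℝ := fun x => Real.negMulLog (s x x).re with hη
  have hsum := summable_eta hs ht hE
  have hη0 : ∀ x, 0 ≤ η x := fun x =>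
    Real.negMulLog_nonneg (diag_nonneg_of_cut hs x) (diag_le_one hs ht x)
  have hh := tendsto_sum_Ct hsum.hasSum
  have hb : Antitone fun X => ent (cut X s) - ∑ x : Ct n X, η x.1 := by
    intro X X' h
    have := ent_cut_le_cut hs h
    simp only [hη]
    linarith only [this]
  have hbd : BddBelow (Set.range fun X => ent (cut X s) - ∑ x : Ct n X, η x.1) := by
    refine ⟨-∑' x, η x, ?_⟩
    rintro _ ⟨X, rfl⟩
    have h1 : ∑ x : Ct n X, η x.1 ≤ ∑' x, η x := by
      rw [← sum_ctF]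
      exact hsum.sum_le_tsum _ fun x _ => hη0 x
    have := h0 X
    simp only
    linarith
  have hlim := tendsto_atTop_ciInf hb hbd
  have hT : ∃ S, Tendsto (fun X => ent (cut X s)) atTop (𝓝 S) := by
    refine ⟨_, (hlim.add hh).congr fun X => ?_⟩
    simp only [hη]
    ring
  have hS : Tendsto (fun X => ent (cut X s)) atTop (𝓝 (Sl s)) := tendsto_nhds_limUnder hT
  refine ⟨hS, ge_of_tendsto' hS h0, fun X => ?_⟩
  have h2 : ∀ᶠ X' in atTop, ent (cut X s) - (1 - trX s X) ≤ ent (cut X' s) := by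
    filter_upwards [eventually_ge_atTop X] with X' hX'
    have h3 := ent_cut_ge_cut hs ht hX'
    have h4 := ht X'
    linarith only [h3, h4]
  have := ge_of_tendsto hS h2
  linarith only [this]

/-- consequences for a faithful state -/
theorem Reg.tr_le {s : Ker n} {E : ℝ} (h : Reg s E) (X : ℕ) : trX s X ≤ 1 :=
  (trX_mono fun X => (h.pos X).posSemidef).ge_of_tendsto h.tr X

theorem Reg.en_le {s : Ker n} {E : ℝ} (h : Reg s E) (X : ℕ) : enX s X ≤ E :=
  (enX_mono fun X => (h.pos X).posSemidef).ge_of_tendsto h.en X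

theorem Reg.limit {s : Ker n} {E : ℝ} (h : Reg s E) :
    Tendsto (fun X => ent (cut X s)) atTop (𝓝 (Sl s)) :=
  (ent_limit (fun X => (h.pos X).posSemidef) h.tr_le h.en_le).1

theorem Reg.Sl_nonneg {s : Ker n} {E : ℝ} (h : Reg s E) : 0 ≤ Sl s :=
  (ent_limit (fun X => (h.pos X).posSemidef) h.tr_le h.en_le).2.1

theorem Reg.ent_le {s : Ker n} {E : ℝ} (h : Reg s E) (X : ℕ) :
    ent (cut X s) ≤ Sl s + (1 - trX s X) :=
  (ent_limit (fun X => (h.pos X).posSemidef) h.tr_le h.en_le).2.2 X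

end

end Vale.Agent.P369A
end
end

section

section

/-!
P369V, F2: the inequality for all states with a photon number cutoff.
-/

namespace Vale.Agent.P369V

open Matrix MeasureTheory Set Filter
open scoped Kronecker InnerProductSpace ComplexOrder Topology

noncomputable section

variable {n M : ℕ}

theorem f2_gf_cont (hn : 1 ≤ n) {ρ : Matrix (Cf n M) (Cf n M) ℂ} (hρ : ρ.PosDef) :
    ContinuousOn (fun ν : ℝ => gf n M ν ρ) (Icc (0 : ℝ) 1) := by
  have h1 := f1_cont (n := n) (M := M) hn hρ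
  have h2 : ContinuousOn (fun ν : ℝ => ((1 : ℝ), ν)) (Icc (0 : ℝ) 1) := by fun_prop
  have h3 := h1.comp h2 (fun ν hν => ⟨⟨zero_lt_one, le_rfl⟩, hν⟩)
  refine h3.congr fun ν _ => ?_
  simp only [Function.comp_def, Function.uncurry, loss_one]

theorem f2_J_lt_one (hn : 1 ≤ n) {ρ : Matrix (Cf n M) (Cf n M) ℂ} (hρ : ρ.PosDef) (ht : ρ.trace = 1) :
    Jm n M ρ / n < 1 := by
  have hn' : (0 : ℝ) < n := by exact_mod_cast (lt_of_lt_of_le Nat.zero_lt_one hn)
  rw [Jm_eq hn hρ ht, mul_div_cancel_left₀ _ hn'.ne']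
  have h1 : 0 < ∫ ν in (0 : ℝ)..1, gf n M ν ρ := by
    apply intervalIntegral.intervalIntegral_pos_of_pos_on
    · apply ContinuousOn.intervalIntegrable
      rw [uIcc_of_le zero_le_one]
      exact f2_gf_cont hn hρ
    · intro x hx
      exact f1_gf_pos ⟨hx.1.le, hx.2.le⟩ hn hρ
    · exact zero_lt_one
  (clear * - h1; linarith)

theorem f2_posDef (hn : 1 ≤ n) {ρ : Matrix (Cf n M) (Cf n M) ℂ} (hρ : ρ.PosDef) (ht : ρ.trace = 1)
    {N : ℝ} (hN : 0 ≤ N) (hg : P369.g N ≤ ent ρ / n) {η : ℝ} (hη : η ∈ Ioc (0 : ℝ) 1) :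
    P369.g (η * N) ≤ ent (loss n M η ρ) / n := by
  have hn' : (0 : ℝ) < n := by exact_mod_cast (lt_of_lt_of_le Nat.zero_lt_one hn)
  have htr : ∀ t ∈ Ioc (0 : ℝ) 1, (loss n M t ρ).trace = 1 := fun t h => by
    rw [trace_loss h.1.le h.2, ht]
  exact ode_compare (S := fun t => ent (loss n M t ρ) / n) (J := fun t => Jm n M (loss n M t ρ) / n)
    (fun t h => div_nonneg (ent_nonneg (loss_posSemidef hρ.posSemidef) (htr t h)) hn'.le)
    ((f1_continuousOn hρ.posSemidef).mono (subset_univ _))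
    (fun t h => f1_hasDerivAt hρ h)
    (fun t h => f2_J_lt_one hn (loss_posDef h.1 h.2 hρ) (htr t h))
    (fun t h R hR hJ => iso hn (loss_posDef h.1 h.2 hρ) (htr t h) hR hJ)
    hN (by simpa only [loss_one] using hg) hη

/-- faithful approximation -/
def f2A (ρ : Matrix (Cf n M) (Cf n M) ℂ) (ε : ℝ) : Matrix (Cf n M) (Cf n M) ℂ :=
  (((1 + ε * Fintype.card (Cf n M))⁻¹ : ℝ) : ℂ) • (ρ + ((ε : ℝ) : ℂ) • (1 : Matrix (Cf n M) (Cf n M) ℂ))

theorem f2A_zero (ρ : Matrix (Cf n M) (Cf n M) ℂ) : f2A ρ 0 = ρ := by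
  simp only [f2A, Fintype.card_pi, Fintype.card_fin, Finset.prod_const, Finset.card_univ, Nat.cast_pow, Nat.cast_add, Nat.cast_one, zero_mul, add_zero, inv_one, Complex.ofReal_one, Complex.ofReal_zero, zero_smul, one_smul]

theorem f2A_continuousOn (ρ : Matrix (Cf n M) (Cf n M) ℂ) : ContinuousOn (f2A ρ) (Ici 0) := by
  have h1 : ContinuousOn (fun ε : ℝ => (((1 + ε * Fintype.card (Cf n M))⁻¹ : ℝ) : ℂ)) (Ici 0) := by
    apply Complex.continuous_ofReal.comp_continuousOn
    apply ContinuousOn.inv₀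
    · fun_prop
    · intro x hx
      have hx' : (0 : ℝ) ≤ x := hx
      positivity
  have h2 : ContinuousOn (fun ε : ℝ => ρ + ((ε : ℝ) : ℂ) • (1 : Matrix (Cf n M) (Cf n M) ℂ)) (Ici 0) := by
    apply Continuous.continuousOn
    exact continuous_const.add (Complex.continuous_ofReal.smul continuous_const)
  exact h1.smul h2

theorem f2A_posSemidef {ρ : Matrix (Cf n M) (Cf n M) ℂ} (hρ : ρ.PosSemidef) {ε : ℝ} (hε : 0 ≤ ε) :
    (f2A ρ ε).PosSemidef := by
  unfold f2A
  apply Matrix.PosSemidef.smul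
  · exact hρ.add (Matrix.PosSemidef.one.smul (by exact_mod_cast hε))
  · have : (0 : ℝ) ≤ (1 + ε * Fintype.card (Cf n M))⁻¹ := by positivity
    exact_mod_cast this

theorem f2A_posDef {ρ : Matrix (Cf n M) (Cf n M) ℂ} (hρ : ρ.PosSemidef) {ε : ℝ} (hε : 0 < ε) :
    (f2A ρ ε).PosDef := by
  unfold f2A
  have h1 : ((((ε : ℝ) : ℂ) • (1 : Matrix (Cf n M) (Cf n M) ℂ))).PosDef :=
    Matrix.PosDef.one.smul (by exact_mod_cast hε)
  have h2 : (ρ + ((ε : ℝ) : ℂ) • (1 : Matrix (Cf n M) (Cf n M) ℂ)).PosDef :=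
    Matrix.PosDef.posSemidef_add hρ h1
  apply h2.smul
  have : (0 : ℝ) < (1 + ε * Fintype.card (Cf n M))⁻¹ := by positivity
  exact_mod_cast this

theorem f2A_trace {ρ : Matrix (Cf n M) (Cf n M) ℂ} (ht : ρ.trace = 1) {ε : ℝ} (hε : 0 ≤ ε) :
    (f2A ρ ε).trace = 1 := by
  unfold f2A
  rw [Matrix.trace_smul, Matrix.trace_add, Matrix.trace_smul, ht, Matrix.trace_one]
  have h1 : (1 + ε * Fintype.card (Cf n M) : ℝ) ≠ 0 := by positivity
  have h2 : ((1 + ε * Fintype.card (Cf n M) : ℝ) : ℂ) ≠ 0 := by exact_mod_cast h1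
  simp only [smul_eq_mul]
  rw [Complex.ofReal_inv, inv_mul_eq_div, div_eq_one_iff_eq h2]
  push_cast
  ring

/-- F2: finite-dimensional theorem -/
theorem epni_fd (hn : 1 ≤ n) {ρ : Matrix (Cf n M) (Cf n M) ℂ} (hρ : ρ.PosSemidef) (ht : ρ.trace = 1)
    {N : ℝ} (hN : 0 ≤ N) (hg : P369.g N ≤ ent ρ / n) {η : ℝ} (h0 : 0 ≤ η) (h1 : η ≤ 1) :
    P369.g (η * N) ≤ ent (loss n M η ρ) / n := by
  have hn' : (0 : ℝ) < n := by exact_mod_cast (lt_of_lt_of_le Nat.zero_lt_one hn)
  have hnn : 0 ≤ ent (loss n M η ρ) / n :=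
    div_nonneg (ent_nonneg (loss_posSemidef hρ) (by rw [trace_loss h0 h1, ht])) hn'.le
  rcases h0.eq_or_lt with hη | hη
  · rw [← hη, zero_mul, P369.g_zero]
    rwa [← hη] at hnn
  rcases hN.eq_or_lt with hN0 | hN0
  · rw [← hN0, mul_zero, P369.g_zero]
    exact hnn
  have hE : ContinuousOn (fun ε => ent (f2A ρ ε) / n) (Ici 0) :=
    ContinuousOn.div_const (continuousOn_ent (f2A_continuousOn ρ) (fun ε hε => f2A_posSemidef hρ hε)) _
  have hloss : ContinuousOn (fun ε => loss n M η (f2A ρ ε)) (Ici 0) := by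
    have h := continuous_loss (n := n) (M := M)
    have h2 : Continuous (fun σ : Matrix (Cf n M) (Cf n M) ℂ => ((η, σ) : ℝ × Matrix (Cf n M) (Cf n M) ℂ)) := by
      fun_prop
    have h3 := (h.comp h2).comp_continuousOn (f2A_continuousOn ρ)
    simpa only [Function.comp_def] using h3
  have hL : ContinuousOn (fun ε => ent (loss n M η (f2A ρ ε)) / n) (Ici 0) :=
    ContinuousOn.div_const (continuousOn_ent hloss (fun ε hε => loss_posSemidef (f2A_posSemidef hρ hε))) _
  have hmem : (0 : ℝ) ∈ Ici (0 : ℝ) := (le_refl (0 : ℝ))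
  have hE0 : Tendsto (fun ε => ent (f2A ρ ε) / n) (𝓝[>] 0) (𝓝 (ent ρ / n)) := by
    have := (hE 0 hmem).mono_left (nhdsWithin_mono 0 Ioi_subset_Ici_self)
    simpa only [f2A_zero] using this
  have hL0 : Tendsto (fun ε => ent (loss n M η (f2A ρ ε)) / n) (𝓝[>] 0) (𝓝 (ent (loss n M η ρ) / n)) := by
    have := (hL 0 hmem).mono_left (nhdsWithin_mono 0 Ioi_subset_Ici_self)
    simpa only [f2A_zero] using this
  have key : ∀ N' ∈ Ico 0 N, P369.g (η * N') ≤ ent (loss n M η ρ) / n := by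
    intro N' hN'
    have hlt : P369.g N' < ent ρ / n := by
      have := P369.g_strictMono (a := N') (b := N) hN'.1 hN hN'.2
      linarith only [hg, this]
    have hev : ∀ᶠ ε in 𝓝[>] (0 : ℝ), P369.g N' ≤ ent (f2A ρ ε) / n :=
      (hE0.eventually (lt_mem_nhds hlt)).mono fun ε h => le_of_lt h
    have hpos : ∀ᶠ ε in 𝓝[>] (0 : ℝ), 0 < ε := self_mem_nhdsWithin
    refine ge_of_tendsto hL0 ?_
    filter_upwards [hev, hpos] with ε hε1 hε2
    exact f2_posDef hn (f2A_posDef hρ hε2) (f2A_trace ht hε2.le) hN'.1 hε1 ⟨hη, h1⟩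
  have hlim : Tendsto (fun N' => P369.g (η * N')) (𝓝[<] N) (𝓝 (P369.g (η * N))) := by
    have : Continuous (fun N' => P369.g (η * N')) :=
      P369.continuous_g.comp (continuous_const.mul continuous_id)
    exact (this.tendsto N).mono_left nhdsWithin_le_nhds
  refine le_of_tendsto hlim ?_
  have hev : ∀ᶠ N' in 𝓝[<] N, N' ∈ Ico 0 N := Ico_mem_nhdsLT hN0
  exact hev.mono key

end

end Vale.Agent.P369V
end
end

section

section

namespace Vale.Agent.P369V

open Matrix Set Filter Topology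
open scoped InnerProductSpace ComplexOrder
open Vale.Agent.P369 (Conf box mem_box tendsto_box tot)
open Vale.Agent.P369.Sys

noncomputable section

variable {n : ℕ} {H : Type} [NormedAddCommGroup H] [InnerProductSpace ℂ H] [CompleteSpace H]

/-- the finite-dimensional theorem, for the truncations of a state -/
theorem g8_step1 (hn : 1 ≤ n) {η : ℝ} (h0 : 0 ≤ η) (h1 : η ≤ 1) {e : Conf n → H}
    (he : IsNumberBasis e) {ρA : H →L[ℂ] H} (hA : IsState e ρA) (eA : FiniteEnergy e ρA)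
    {N : ℝ} (hN : 0 ≤ N) (hlt : P369.g N < entropy e ρA / n) :
    ∀ᶠ M in atTop, n * P369.g (η * N) * (cutm e M ρA).trace.re ≤ ent (loss n M η (cutm e M ρA)) := by
  have hn' : (0 : ℝ) < n := by exact_mod_cast hn
  have hs := g3_summable he hA eA
  have t1 : Tendsto (fun M => ∑ k ∈ box n M, (⟪e k, P369.negMulLogOp ρA (e k)⟫_ℂ).re) atTop
      (𝓝 (entropy e ρA)) := (show Tendsto (fun s : Finset (Conf n) =>
        ∑ k ∈ s, (⟪e k, P369.negMulLogOp ρA (e k)⟫_ℂ).re) atTop (𝓝 (entropy e ρA))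
        from hs.hasSum).comp (tendsto_box n)
  have t2 := g8_trace_tendsto hA
  have t3 : Tendsto (fun M => (cutm e M ρA).trace.re⁻¹ *
      (∑ k ∈ box n M, (⟪e k, P369.negMulLogOp ρA (e k)⟫_ℂ).re) +
      Real.log (cutm e M ρA).trace.re) atTop (𝓝 (1⁻¹ * entropy e ρA + Real.log 1)) :=
    ((t2.inv₀ one_ne_zero).mul t1).add (t2.log one_ne_zero)
  rw [inv_one, one_mul, Real.log_one, add_zero] at t3
  have hlt' : n * P369.g N < entropy e ρA := by
    rw [lt_div_iff₀ hn'] at hlt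
    (clear hn η h0 h1 he hA eA hN hn' hs t1 t2 t3; linarith)
  filter_upwards [t3.eventually (lt_mem_nhds hlt'), t2.eventually (lt_mem_nhds (zero_lt_one))]
    with M h3 hpos
  set A := cutm e M ρA with hAdef
  set τ := A.trace.re with hτ
  have hps : A.PosSemidef := g8_cutm_posSemidef e M hA.1
  have h4 : ∑ k ∈ box n M, (⟪e k, P369.negMulLogOp ρA (e k)⟫_ℂ).re ≤ ent A := by
    rw [← sum_cv (M := M) (fun k => (⟪e k, P369.negMulLogOp ρA (e k)⟫_ℂ).re)]
    exact g1_ent_cutm_ge he.1 hA.1 M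
  have h5 : ent ((τ⁻¹ : ℝ) • A) = τ⁻¹ * ent A + Real.log τ := by
    rw [g4_ent_smul hps hpos, ← hτ]
    (clear * - hpos; field_simp)
  have h6 : n * P369.g N ≤ ent ((τ⁻¹ : ℝ) • A) := by
    rw [h5]
    have := mul_le_mul_of_nonneg_left h4 (inv_nonneg.mpr hpos.le)
    (clear hn η h0 h1 eA hN hlt hn' hs t1 t2 t3 hlt' hAdef hτ hps h5; linarith)
  have hps2 : ((τ⁻¹ : ℝ) • A).PosSemidef := hps.smul (inv_nonneg.mpr hpos.le)
  have htr : ((τ⁻¹ : ℝ) • A).trace = 1 := by
    rw [Matrix.trace_smul, g8_trace_im hA M, ← hAdef, ← hτ, Complex.real_smul, ← Complex.ofReal_mul,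
      inv_mul_cancel₀ hpos.ne', Complex.ofReal_one]
  have h7 := epni_fd hn hps2 htr hN (by rw [le_div_iff₀ hn']; linarith only [h6]) h0 h1
  rw [le_div_iff₀ hn', g8_loss_smul, g4_ent_smul (loss_posSemidef hps) hpos,
    trace_loss h0 h1, ← hτ] at h7
  have h8 : Real.log τ / τ * τ = Real.log τ := by field_simp
  have h9 : Real.log τ ≤ 0 := Real.log_nonpos hpos.le (g8_trace_le hA M)
  rw [h8] at h7
  have h10 : P369.g (η * N) * n ≤ τ⁻¹ * ent (loss n M η A) := by linarith only [h7, h9]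
  have h11 := mul_le_mul_of_nonneg_right h10 hpos.le
  have h12 : τ⁻¹ * ent (loss n M η A) * τ = ent (loss n M η A) := by (clear * - hpos; field_simp)
  rw [h12] at h11
  linarith only [h11]

omit [CompleteSpace H] in
theorem g8_loss_cutm {η : ℝ} (h1 : η ≤ 1) (e : Conf n → H) (M : ℕ) (T : H →L[ℂ] H)
    (k k' : Cf n M) :
    loss n M η (cutm e M T) k k' = ∑ l ∈ box n M,
      if (∀ j, cv k j + l j ≤ M) ∧ (∀ j, cv k' j + l j ≤ M) then
        ((g8c η (cv k) (cv k') l : ℝ) : ℂ) * ⟪e (cv k + l), T (e (cv k' + l))⟫_ℂ else 0 :=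
  loss_apply' h1 (F := fun a b => ⟪e a, T (e b)⟫_ℂ) (fun _ _ => rfl) k k'

theorem g8_main (hn : 1 ≤ n) {η : ℝ} (h0 : 0 ≤ η) (h1 : η ≤ 1) {e : Conf n → H}
    (he : IsNumberBasis e) {ρA ρC : H →L[ℂ] H} (hA : IsState e ρA) (eA : FiniteEnergy e ρA)
    (hC : IsState e ρC) (eC : FiniteEnergy e ρC)
    (hout : ∀ k k' : Conf n, HasSum (fun l => ((g8c η k k' l : ℝ) : ℂ) *
      ⟪e (k + l), ρA (e (k' + l))⟫_ℂ) ⟪e k, ρC (e k')⟫_ℂ)
    {N : ℝ} (hN : 0 ≤ N) (hlt : P369.g N < entropy e ρA / n) :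
    P369.g (η * N) ≤ entropy e ρC / n := by
  have hn' : (0 : ℝ) < n := by exact_mod_cast hn
  set D : Conf n → ℝ := fun k => (⟪e k, ρC (e k)⟫_ℂ).re with hDdef
  have hD0 : ∀ k, 0 ≤ D k := fun k => g3_nonneg hC k
  have hW : Summable (g8W D) := Summable.add eC (P369.summable_exp_tot n)
  have hg8c : ∀ k k' l : Conf n, 0 ≤ g8c η k k' l := by
    intro k k' l
    unfold g8c
    have : 0 ≤ 1 - η := by linarith only [h1]
    (clear * - h1; positivity)
  -- diagonal bound
  have hdiag : ∀ M (i : Cf n M), (loss n M η (cutm e M ρA) i i).re ≤ D (cv i) := by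
    intro M i
    have hl := g8_loss_cutm h1 e M ρA i i
    rw [hl, Complex.re_sum]
    have hre := Complex.hasSum_re (hout (cv i) (cv i))
    have hnn : ∀ l : Conf n, 0 ≤ (((g8c η (cv i) (cv i) l : ℝ) : ℂ) *
        ⟪e (cv i + l), ρA (e (cv i + l))⟫_ℂ).re := by
      intro l
      rw [Complex.re_ofReal_mul]
      exact mul_nonneg (hg8c _ _ _) (g3_nonneg hA _)
    refine le_trans (Finset.sum_le_sum fun l _ => ?_) (sum_le_hasSum (box n M) (fun l _ => hnn l) hre)
    split_ifs with h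
    · exact le_rfl
    · rw [Complex.zero_re]
      exact hnn l
  have hps : ∀ M, (loss n M η (cutm e M ρA)).PosSemidef := fun M =>
    loss_posSemidef (g8_cutm_posSemidef e M hA.1)
  -- for each `L`
  have hL : ∀ L, n * P369.g (η * N) ≤ ent (cutm e L ρC) +
      (∑' k, g8W D k - ∑ k ∈ box n L, g8W D k) := by
    intro L
    have hLM : Tendsto (fun M => L + M) atTop atTop :=
      tendsto_atTop_mono (fun M => Nat.le_add_left M L) tendsto_id
    have hent : Tendsto (fun M => (loss n (L + M) η (cutm e (L + M) ρA)).submatrix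
        (g8_emb (Nat.le_add_right L M)) (g8_emb (Nat.le_add_right L M))) atTop
        (𝓝 (cutm e L ρC)) := by
      refine tendsto_pi_nhds.mpr fun k => tendsto_pi_nhds.mpr fun k' => ?_
      have h2 := (g8_tendsto (cv k) (cv k') (hout (cv k) (cv k'))).comp hLM
      refine h2.congr fun M => ?_
      exact (g8_loss_cutm h1 e (L + M) ρA (g8_emb (Nat.le_add_right L M) k)
        (g8_emb (Nat.le_add_right L M) k')).symm
    have h3 : Tendsto (fun M => ent ((loss n (L + M) η (cutm e (L + M) ρA)).submatrix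
        (g8_emb (Nat.le_add_right L M)) (g8_emb (Nat.le_add_right L M)))) atTop
        (𝓝 (ent (cutm e L ρC))) :=
      g4_tendsto_ent (fun M => (hps (L + M)).submatrix _) (g8_cutm_posSemidef e L hC.1) hent
    have h4 : Tendsto (fun M => n * P369.g (η * N) * (cutm e (L + M) ρA).trace.re) atTop
        (𝓝 (n * P369.g (η * N) * 1)) := by
      exact ((g8_trace_tendsto hA).comp hLM).const_mul (n * P369.g (η * N))
    rw [mul_one] at h4
    refine le_of_tendsto_of_tendsto h4 (h3.add_const _) ?_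
    have h6 := hLM.eventually (g8_step1 hn h0 h1 he hA eA hN hlt)
    filter_upwards [h6] with M hM
    exact hM.trans (g8_tail hD0 hW (Nat.le_add_right L M) (hps _) (hdiag _))
  -- limit `L → ∞`
  have hlim : Tendsto (fun L => entropy e ρC + (1 - (cutm e L ρC).trace.re) +
      (∑' k, g8W D k - ∑ k ∈ box n L, g8W D k)) atTop
      (𝓝 (entropy e ρC + (1 - 1) + (∑' k, g8W D k - ∑' k, g8W D k))) := by
    refine ((tendsto_const_nhds.sub (g8_trace_tendsto hC)).const_add _).add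
      (tendsto_const_nhds.sub ?_)
    exact (show Tendsto (fun s : Finset (Conf n) => ∑ k ∈ s, g8W D k) atTop
      (𝓝 (∑' k, g8W D k)) from hW.hasSum).comp (tendsto_box n)
  rw [sub_self, add_zero, sub_self, add_zero] at hlim
  have hfin : n * P369.g (η * N) ≤ entropy e ρC := by
    refine ge_of_tendsto' hlim fun L => (hL L).trans ?_
    have := ent_cutm_le he hC eC L
    (clear hn η h0 h1 ρA hA eA hout N hN hlt hn' hDdef hD0 hW hg8c hdiag hps hL hlim; linarith)
  rw [le_div_iff₀ hn']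
  (clear hn' hDdef; linarith)

end

end Vale.Agent.P369V
end
end

section

section

/-!
P369V, G8: the entropy photon-number inequality with vacuum second input.
-/

namespace Vale.Agent.P369V

open Matrix Set Filter Topology
open scoped InnerProductSpace ComplexOrder
open Vale.Agent.P369 (Conf)
open Vale.Agent.P369.Sys

noncomputable section

variable {n : ℕ} {H K : Type} [NormedAddCommGroup H] [InnerProductSpace ℂ H] [CompleteSpace H]
  [NormedAddCommGroup K] [InnerProductSpace ℂ K] [CompleteSpace K]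

theorem g8_entropy_nonneg {e : Conf n → H} (he : IsNumberBasis e) {T : H →L[ℂ] H}
    (hT : IsState e T) : 0 ≤ entropy e T :=
  tsum_nonneg fun k => g3_term_nonneg he hT k

theorem g8_entropy_vac {e : Conf n → H} (he : IsNumberBasis e) {T : H →L[ℂ] H}
    (hT : IsState e T) (h0 : T (e 0) = e 0) : entropy e T = 0 := by
  have hs := g3_hasSum hT
  have h00 : (⟪e 0, T (e 0)⟫_ℂ).re = 1 := by
    rw [h0, inner_self_eq_norm_sq_to_K, he.1.1 0]
    simp only [Complex.coe_algebraMap, Complex.ofReal_one, one_pow, Complex.one_re]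
  have hk : ∀ k : Conf n, k ≠ 0 → (⟪e k, T (e k)⟫_ℂ).re = 0 := by
    intro k hk
    have h1 := sum_le_hasSum {0, k} (fun l _ => g3_nonneg hT l) hs
    rw [Finset.sum_pair (Ne.symm hk), h00] at h1
    have h2 := g3_nonneg hT k
    linarith only [h2, h1]
  have hk2 : ∀ k : Conf n, k ≠ 0 → T (e k) = 0 := by
    intro k hk'
    apply g5_apply_eq_zero hT.1
    have h3 := hT.1.inner_nonneg_right (e k)
    rw [Complex.nonneg_iff] at h3
    apply Complex.ext
    · rw [hk k hk']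
      rfl
    · rw [← h3.2]
      rfl
  unfold entropy
  have h4 : ∀ k : Conf n, (⟪e k, P369.negMulLogOp T (e k)⟫_ℂ).re = 0 := by
    intro k
    by_cases h : k = 0
    · subst h
      rw [P369.negMulLogOp_eigen hT.1.isSelfAdjoint (x := 1) (by rw [h0]; simp)]
      simp
    · rw [P369.negMulLogOp_eigen hT.1.isSelfAdjoint (x := 0) (by rw [hk2 k h]; simp only [Complex.ofReal_zero, zero_smul])]
      simp
  rw [tsum_congr h4, tsum_zero]

theorem g8_photonNumber {e : Conf n → H} (he : IsNumberBasis e) {T : H →L[ℂ] H}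
    (hT : IsState e T) : 0 ≤ photonNumber e T ∧ P369.g (photonNumber e T) = entropy e T / n :=
  P369.invFunOn_g (div_nonneg (g8_entropy_nonneg he hT) (Nat.cast_nonneg n))

theorem g8_photonNumber_vac {e : Conf n → H} (he : IsNumberBasis e) {T : H →L[ℂ] H}
    (hT : IsState e T) (h0 : T (e 0) = e 0) : photonNumber e T = 0 := by
  obtain ⟨h1, h2⟩ := g8_photonNumber he hT
  rw [g8_entropy_vac he hT h0, zero_div] at h2
  refine le_antisymm ?_ h1
  rw [← P369.g_le_iff h1 le_rfl, h2, P369.g_zero]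

/-- G8: final -/
theorem epni_vacuum (hn : 1 ≤ n) {η : ℝ} (h0 : 0 ≤ η) (h1 : η ≤ 1)
    (e : Conf n → H) (he : P369.Sys.IsNumberBasis e)
    (f : Conf n → Conf n → K) (hf : P369.Sys.IsNumberBasis fun x : Conf n × Conf n => f x.1 x.2)
    (ρA ρB : H →L[ℂ] H) (hA : P369.Sys.IsState e ρA) (eA : P369.Sys.FiniteEnergy e ρA)
    (hB : P369.Sys.IsState e ρB) (hB0 : ρB (e 0) = e 0) :
    (∃ ρC : H →L[ℂ] H, P369.Sys.IsOutput η e f ρA ρB ρC) ∧
    ∀ ρC : H →L[ℂ] H, P369.Sys.IsOutput η e f ρA ρB ρC → P369.Sys.IsState e ρC ∧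
      P369.Sys.FiniteEnergy e ρC ∧
      η * P369.Sys.photonNumber e ρA + (1 - η) * P369.Sys.photonNumber e ρB ≤
        P369.Sys.photonNumber e ρC := by
  refine ⟨exists_output_vac h0 h1 he hf hA hB hB0, fun ρC hO => ?_⟩
  obtain ⟨hC, eC⟩ := output_state h0 h1 he hf hA eA hB hB0 hO
  refine ⟨hC, eC, ?_⟩
  rw [g8_photonNumber_vac he hB hB0, mul_zero, add_zero]
  obtain ⟨hNA, hgA⟩ := g8_photonNumber he hA
  obtain ⟨hNC, hgC⟩ := g8_photonNumber he hC
  rw [← P369.g_le_iff (mul_nonneg h0 hNA) hNC, hgC]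
  have hout : ∀ k k' : Conf n, HasSum (fun l => ((g8c η k k' l : ℝ) : ℂ) *
      ⟪e (k + l), ρA (e (k' + l))⟫_ℂ) ⟪e k, ρC (e k')⟫_ℂ := fun k k' =>
    output_elem h0 h1 he hf hA hB hB0 hO k k'
  have hmain : ∀ N, 0 ≤ N → N < photonNumber e ρA → P369.g (η * N) ≤ entropy e ρC / n := by
    intro N hN hlt
    refine g8_main hn h0 h1 he hA eA hC eC hout hN ?_
    rw [← hgA]
    exact P369.g_strictMono hN hNA hlt
  rcases hNA.eq_or_lt with h | h
  · rw [← h, mul_zero, P369.g_zero]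
    exact div_nonneg (g8_entropy_nonneg he hC) (Nat.cast_nonneg n)
  · have hc : Tendsto (fun N => P369.g (η * N)) (𝓝[<] photonNumber e ρA)
        (𝓝 (P369.g (η * photonNumber e ρA))) :=
      ((P369.continuous_g.comp (continuous_const.mul continuous_id)).tendsto _).mono_left
        nhdsWithin_le_nhds
    refine le_of_tendsto hc ?_
    filter_upwards [Ioo_mem_nhdsLT h] with N hN
    exact hmain N hN.1.le hN.2

end

end Vale.Agent.P369V
end
end

section

section

/-!
P369T, T7a: algebra of the amplifier channel on finite matrices.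
-/

namespace Vale.Agent.P369T

open Matrix Set Filter Topology
open scoped InnerProductSpace ComplexOrder
open Vale.Agent.P369 (Conf below mem_below)
open Vale.Agent.P369.Sys
open Vale.Agent.P369V (ent cutm cv Cf)
open Vale.Agent.P369A (Ct cut ampE ext cc)

noncomputable section

variable {n : ℕ}

/-! ### coefficients -/

theorem cc_mul_cc {κ : ℝ} (hκ : 1 ≤ κ) {x y l : Conf n} (hx : ∀ j, l j ≤ x j) (hy : ∀ j, l j ≤ y j) :
    cc κ (x - l) l * cc κ (y - l) l = AAn κ x y l := by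
  have hκ0 : 0 < κ := by linarith
  unfold cc AAn
  rw [← Finset.prod_mul_distrib]
  refine Finset.prod_congr rfl fun j _ => ?_
  unfold AA
  simp only [Pi.sub_apply]
  rw [Nat.sub_add_cancel (hx j), Nat.sub_add_cancel (hy j)]
  have h1 : (κ - 1) / κ = 1 - 1 / κ := by (clear * - hκ; field_simp)
  have h2 : Real.sqrt (1 - 1 / κ) * Real.sqrt (1 - 1 / κ) = 1 - 1 / κ := by
    apply Real.mul_self_sqrt
    rw [sub_nonneg, div_le_one hκ0]
    exact hκ
  have h3 : (Real.sqrt κ)⁻¹ * (Real.sqrt κ)⁻¹ = κ⁻¹ := by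
    rw [← mul_inv, Real.mul_self_sqrt hκ0.le]
  rw [h1]
  have h4 : (1 - 1 / κ) ^ (l j) = Real.sqrt (1 - 1 / κ) ^ (l j) * Real.sqrt (1 - 1 / κ) ^ (l j) := by
    rw [← mul_pow, h2]
  rw [h4, ← h3, pow_succ, pow_succ]
  ring

theorem AAn_eq_zero {κ : ℝ} {x y l : Conf n} (hy : ¬ ∀ j, l j ≤ y j) : AAn κ x y l = 0 := by
  push Not at hy
  obtain ⟨j, hj⟩ := hy
  unfold AAn
  apply Finset.prod_eq_zero (Finset.mem_univ j)
  unfold AA
  rw [Nat.choose_eq_zero_of_lt hj]
  simp only [CharP.cast_eq_zero, Real.sqrt_zero, mul_zero, zero_mul, inv_pow]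

theorem AAn_nonneg {κ : ℝ} (hκ : 1 ≤ κ) (x y l : Conf n) : 0 ≤ AAn κ x y l := by
  unfold AAn
  refine Finset.prod_nonneg fun j _ => ?_
  unfold AA
  have h1 : 0 ≤ (κ - 1) / κ := div_nonneg (by linarith) (by linarith only [hκ])
  have h2 : 0 ≤ κ := by linarith only [hκ]
  (clear * - hκ; positivity)

theorem ampE_eq {κ : ℝ} (hκ : 1 ≤ κ) (s : Conf n → Conf n → ℂ) (x y : Conf n) :
    ampE κ s x y = ∑ i ∈ below x, ((AAn κ x y i : ℝ) : ℂ) * s (x - i) (y - i) := by
  unfold ampE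
  have hsub : Finset.Iic (x ⊓ y) ⊆ below x := by
    intro l hl
    rw [Finset.mem_Iic] at hl
    rw [mem_below]
    exact fun j => (hl j).trans inf_le_left
  rw [← Finset.sum_subset hsub]
  · refine Finset.sum_congr rfl fun l hl => ?_
    rw [Finset.mem_Iic] at hl
    rw [cc_mul_cc hκ (fun j => (hl j).trans inf_le_left) (fun j => (hl j).trans inf_le_right)]
  · intro l hl hl'
    rw [AAn_eq_zero, Complex.ofReal_zero, zero_mul]
    intro h
    apply hl'
    rw [Finset.mem_Iic]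
    intro j
    exact le_inf (mem_below.mp hl j) (h j)

/-! ### linearity -/

theorem ampE_smul (κ : ℝ) (c : ℂ) (s : Conf n → Conf n → ℂ) (x y : Conf n) :
    ampE κ (fun a b => c * s a b) x y = c * ampE κ s x y := by
  unfold ampE
  rw [Finset.mul_sum]
  exact Finset.sum_congr rfl fun l _ => by ring

theorem ampE_add (κ : ℝ) (s t : Conf n → Conf n → ℂ) (x y : Conf n) :
    ampE κ (fun a b => s a b + t a b) x y = ampE κ s x y + ampE κ t x y := by
  unfold ampE
  rw [← Finset.sum_add_distrib]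
  exact Finset.sum_congr rfl fun l _ => by ring

theorem ext_smul {M : ℕ} (c : ℝ) (ρ : Matrix (Cf n M) (Cf n M) ℂ) :
    ext (c • ρ) = fun a b => (c : ℂ) * ext ρ a b := by
  funext a b
  unfold P369A.ext
  split_ifs with h
  · rw [Matrix.smul_apply, Complex.real_smul]
  · simp

theorem ext_add {M : ℕ} (ρ τ : Matrix (Cf n M) (Cf n M) ℂ) :
    ext (ρ + τ) = fun a b => ext ρ a b + ext τ a b := by
  funext a b
  unfold P369A.ext
  split_ifs with h
  · rfl
  · simp

theorem cut_ampE_smul {M : ℕ} (κ : ℝ) (X : ℕ) (c : ℝ) (ρ : Matrix (Cf n M) (Cf n M) ℂ) :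
    cut X (ampE κ (ext (c • ρ))) = c • cut X (ampE κ (ext ρ)) := by
  ext x y
  rw [Matrix.smul_apply, Complex.real_smul]
  unfold cut
  rw [ext_smul, ampE_smul]

theorem cut_ampE_add {M : ℕ} (κ : ℝ) (X : ℕ) (ρ τ : Matrix (Cf n M) (Cf n M) ℂ) :
    cut X (ampE κ (ext (ρ + τ))) = cut X (ampE κ (ext ρ)) + cut X (ampE κ (ext τ)) := by
  ext x y
  rw [Matrix.add_apply]
  unfold cut
  rw [ext_add, ampE_add]

/-! ### positivity -/

/-- Kraus operators -/
def kr (κ : ℝ) (M X : ℕ) (l : Ct n X) : Matrix (Ct n X) (Cf n M) ℂ := fun x m =>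
  if x.1 = cv m + l.1 then ((cc κ (cv m) l.1 : ℝ) : ℂ) else 0

theorem ext_cv {M : ℕ} (ρ : Matrix (Cf n M) (Cf n M) ℂ) (m m' : Cf n M) :
    ext ρ (cv m) (cv m') = ρ m m' := by
  unfold P369A.ext
  rw [dif_pos ⟨fun j => (m j).2, fun j => (m' j).2⟩]
  rfl

theorem ext_zero_left {M : ℕ} (ρ : Matrix (Cf n M) (Cf n M) ℂ) {a b : Conf n}
    (h : ¬ ((∀ j, a j < M + 1) ∧ (∀ j, b j < M + 1))) : ext ρ a b = 0 := by
  unfold P369A.ext
  rw [dif_neg h]

theorem cut_ampE_eq_sum {M : ℕ} (κ : ℝ) (X : ℕ) (ρ : Matrix (Cf n M) (Cf n M) ℂ) :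
    cut X (ampE κ (ext ρ)) = ∑ l : Ct n X, kr κ M X l * ρ * (kr κ M X l)ᴴ := by
  ext x y
  rw [Matrix.sum_apply]
  -- the value of one term
  have key : ∀ l : Ct n X, (kr κ M X l * ρ * (kr κ M X l)ᴴ) x y =
      if l.1 ∈ Finset.Iic (x.1 ⊓ y.1) then ((cc κ (x.1 - l.1) l.1 * cc κ (y.1 - l.1) l.1 : ℝ) : ℂ) *
        ext ρ (x.1 - l.1) (y.1 - l.1) else 0 := by
    intro l
    have h1 : (kr κ M X l * ρ * (kr κ M X l)ᴴ) x y =
        ∑ m', ∑ m, kr κ M X l x m * ρ m m' * star (kr κ M X l y m') := by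
      rw [Matrix.mul_apply]
      refine Finset.sum_congr rfl fun m' _ => ?_
      rw [Matrix.mul_apply, Matrix.conjTranspose_apply, Finset.sum_mul]
    rw [h1]
    by_cases hl : l.1 ≤ x.1 ⊓ y.1
    · rw [if_pos (Finset.mem_Iic.mpr hl)]
      have hlx : l.1 ≤ x.1 := hl.trans inf_le_left
      have hly : l.1 ≤ y.1 := hl.trans inf_le_right
      by_cases hb : (∀ j, (x.1 - l.1) j < M + 1) ∧ (∀ j, (y.1 - l.1) j < M + 1)
      · set a : Cf n M := fun j => ⟨(x.1 - l.1) j, hb.1 j⟩ with ha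
        set b : Cf n M := fun j => ⟨(y.1 - l.1) j, hb.2 j⟩ with hb'
        have hca : cv a = x.1 - l.1 := rfl
        have hcb : cv b = y.1 - l.1 := rfl
        rw [Finset.sum_eq_single b, Finset.sum_eq_single a]
        · unfold kr
          rw [if_pos (by rw [hca]; exact (tsub_add_cancel_of_le hlx).symm),
            if_pos (by rw [hcb]; exact (tsub_add_cancel_of_le hly).symm), hca, hcb,
            Complex.star_def, Complex.conj_ofReal, ← hca, ← hcb, ext_cv]
          push_cast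
          ring
        · intro m _ hm
          unfold kr
          rw [if_neg, zero_mul, zero_mul]
          intro h
          apply hm
          apply Vale.Agent.P369V.cv_injective
          rw [hca, h, add_tsub_cancel_right]
        · intro h; exact absurd (Finset.mem_univ _) h
        · intro m' _ hm
          apply Finset.sum_eq_zero
          intro m _
          have : kr κ M X l y m' = 0 := by
            unfold kr
            rw [if_neg]
            intro h
            apply hm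
            apply Vale.Agent.P369V.cv_injective
            rw [hcb, h, add_tsub_cancel_right]
          rw [this, star_zero, mul_zero]
        · intro h; exact absurd (Finset.mem_univ _) h
      · rw [ext_zero_left ρ hb, mul_zero]
        apply Finset.sum_eq_zero
        intro m' _
        apply Finset.sum_eq_zero
        intro m _
        by_contra hne
        apply hb
        have h2 : x.1 = cv m + l.1 := by
          by_contra h
          apply hne
          unfold kr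
          rw [if_neg h, zero_mul, zero_mul]
        have h3 : y.1 = cv m' + l.1 := by
          by_contra h
          apply hne
          unfold kr
          rw [if_neg h, star_zero, mul_zero]
        rw [h2, h3, add_tsub_cancel_right, add_tsub_cancel_right]
        exact ⟨fun j => (m j).2, fun j => (m' j).2⟩
    · rw [if_neg (fun h => hl (Finset.mem_Iic.mp h))]
      apply Finset.sum_eq_zero
      intro m' _
      apply Finset.sum_eq_zero
      intro m _
      by_contra hne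
      apply hl
      have h2 : x.1 = cv m + l.1 := by
        by_contra h
        apply hne
        unfold kr
        rw [if_neg h, zero_mul, zero_mul]
      have h3 : y.1 = cv m' + l.1 := by
        by_contra h
        apply hne
        unfold kr
        rw [if_neg h, star_zero, mul_zero]
      rw [h2, h3]
      exact le_inf le_add_self le_add_self
  rw [Finset.sum_congr rfl fun l _ => key l]
  unfold cut ampE
  rw [← Finset.sum_filter]
  symm
  refine Finset.sum_bij' (fun (l : Ct n X) _ => l.1)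
    (fun (l : Conf n) (hl : l ∈ Finset.Iic (x.1 ⊓ y.1)) => (⟨l, ?_⟩ : Ct n X)) ?_ ?_ ?_ ?_ ?_
  · rw [Finset.mem_Iic] at hl
    refine le_trans (Finset.sum_le_sum fun j _ => ?_) x.2
    exact (hl j).trans inf_le_left
  · intro l hl
    rw [Finset.mem_filter] at hl
    exact hl.2
  · intro l hl
    rw [Finset.mem_filter]
    exact ⟨Finset.mem_univ _, hl⟩
  · intro l _; rfl
  · intro l _; rfl
  · intro l _; rfl

theorem cut_ampE_posSemidef {M : ℕ} (κ : ℝ) (X : ℕ) {ρ : Matrix (Cf n M) (Cf n M) ℂ}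
    (hρ : ρ.PosSemidef) : (cut X (ampE κ (ext ρ))).PosSemidef := by
  rw [cut_ampE_eq_sum]
  exact Matrix.posSemidef_sum _ fun l _ => hρ.mul_mul_conjTranspose_same _

end

end Vale.Agent.P369T
end
end

section

section

/-!
P369T, T7b: comparison of the amplifier output of a truncated state with the full output.
-/

namespace Vale.Agent.P369T

open Matrix Set Filter Topology
open scoped InnerProductSpace ComplexOrder
open Vale.Agent.P369 (Conf below mem_below tot)
open Vale.Agent.P369.Sys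
open Vale.Agent.P369V (ent cutm cv Cf)
open Vale.Agent.P369A (Ct cut ampE cc)

noncomputable section

variable {n : ℕ}

/-! ### the truncated thermal state -/

theorem th_one_pos (k : ℕ) : 0 < th 1 k := by
  unfold th; positivity

theorem thn_one_pos (k : Conf n) : 0 < thn 1 k :=
  Finset.prod_pos fun j _ => th_one_pos (k j)

/-- the thermal state of mean photon number one, cut to the box -/
def TM (n M : ℕ) : Matrix (Cf n M) (Cf n M) ℂ := Matrix.diagonal fun k => ((thn 1 (cv k) : ℝ) : ℂ)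

theorem TM_posDef (n M : ℕ) : (TM n M).PosDef := by
  unfold TM
  rw [Matrix.posDef_diagonal_iff]
  intro k
  exact_mod_cast thn_one_pos (cv k)

theorem ext_TM {M : ℕ} (a b : Conf n) : P369A.ext (TM n M) a b =
    if a = b ∧ (∀ j, a j < M + 1) then ((thn 1 a : ℝ) : ℂ) else 0 := by
  unfold P369A.ext TM
  by_cases h : (∀ j, a j < M + 1) ∧ (∀ j, b j < M + 1)
  · rw [dif_pos h]
    by_cases hab : a = b
    · subst hab
      rw [if_pos ⟨rfl, h.1⟩, Matrix.diagonal_apply_eq]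
      rfl
    · rw [if_neg (fun h' => hab h'.1), Matrix.diagonal_apply_ne]
      intro h'
      apply hab
      funext j
      have := congrFun h' j
      simpa using this
  · rw [dif_neg h, if_neg]
    rintro ⟨rfl, h'⟩
    exact h ⟨h', h'⟩

theorem amp_th {κ : ℝ} (hκ : 1 ≤ κ) (m : ℕ) :
    ∑ i ∈ Finset.range (m + 1), AA κ m m i * th 1 (m - i) = th (2 * κ - 1) m := by
  have hκ0 : 0 < κ := by linarith
  have h1 : ∀ i ∈ Finset.range (m + 1), AA κ m m i * th 1 (m - i) =
      (κ⁻¹ / 2) * (((κ - 1) / κ) ^ i * (κ⁻¹ / 2) ^ (m - i) * (m.choose i : ℕ)) := by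
    intro i _
    unfold AA th
    have h3 : (Real.sqrt κ)⁻¹ * (Real.sqrt κ)⁻¹ = κ⁻¹ := by
      rw [← mul_inv, Real.mul_self_sqrt hκ0.le]
    have h4 : (κ⁻¹) ^ (m - i) = (Real.sqrt κ)⁻¹ ^ (m - i) * (Real.sqrt κ)⁻¹ ^ (m - i) := by
      rw [← mul_pow, h3]
    have h5 : Real.sqrt ((m.choose i : ℕ) : ℝ) * Real.sqrt ((m.choose i : ℕ) : ℝ) = (m.choose i : ℕ) :=
      Real.mul_self_sqrt (Nat.cast_nonneg _)
    have h6 : (κ⁻¹ / 2) ^ (m - i) = (κ⁻¹) ^ (m - i) / 2 ^ (m - i) := div_pow _ _ _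
    rw [h6, h4]
    rw [one_pow, show (1 : ℝ) + 1 = 2 by norm_num, pow_succ]
    calc _ = κ⁻¹ * ((Real.sqrt ((m.choose i : ℕ) : ℝ) * Real.sqrt ((m.choose i : ℕ) : ℝ)) *
          ((κ - 1) / κ) ^ i * ((Real.sqrt κ)⁻¹ ^ (m - i) * (Real.sqrt κ)⁻¹ ^ (m - i))) *
          (1 / (2 ^ (m - i) * 2)) := by ring
      _ = _ := by rw [h5]; ring
  rw [Finset.sum_congr rfl h1, ← Finset.mul_sum]
  have h2 := (add_pow ((κ - 1) / κ) (κ⁻¹ / 2) m).symm
  rw [h2]
  unfold th
  have h3 : (κ - 1) / κ + κ⁻¹ / 2 = (2 * κ - 1) / (2 * κ) := by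
    field_simp
    ring
  have h4 : 2 * κ - 1 + 1 = 2 * κ := by ring
  rw [h3, h4, div_pow, pow_succ]
  (clear * - hκ; field_simp)

theorem amp_thn {κ : ℝ} (hκ : 1 ≤ κ) (x : Conf n) :
    ∑ i ∈ below x, AAn κ x x i * thn 1 (x - i) = thn (2 * κ - 1) x := by
  unfold thn AAn below
  rw [Finset.prod_congr rfl fun j _ => (amp_th hκ (x j)).symm, Finset.prod_univ_sum]
  refine Finset.sum_congr rfl fun i _ => ?_
  rw [← Finset.prod_mul_distrib]
  rfl

theorem amp_TM_diag {κ : ℝ} (hκ : 1 ≤ κ) (M : ℕ) (x : Conf n) :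
    0 ≤ (ampE κ (P369A.ext (TM n M)) x x).re ∧
      (ampE κ (P369A.ext (TM n M)) x x).re ≤ thn (2 * κ - 1) x := by
  rw [ampE_eq hκ, Complex.re_sum, ← amp_thn hκ]
  have h : ∀ i ∈ below x, (((AAn κ x x i : ℝ) : ℂ) * P369A.ext (TM n M) (x - i) (x - i)).re =
      AAn κ x x i * (if (∀ j, (x - i) j < M + 1) then thn 1 (x - i) else 0) := by
    intro i _
    rw [Complex.re_ofReal_mul, ext_TM]
    congr 1
    by_cases h : ∀ j, (x - i) j < M + 1
    · rw [if_pos ⟨rfl, h⟩, if_pos h, Complex.ofReal_re]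
    · rw [if_neg (fun h' => h h'.2), if_neg h, Complex.zero_re]
  constructor
  · refine Finset.sum_nonneg fun i hi => ?_
    rw [h i hi]
    refine mul_nonneg (AAn_nonneg hκ _ _ _) ?_
    split_ifs
    · exact (thn_one_pos _).le
    · exact le_rfl
  · refine Finset.sum_le_sum fun i hi => ?_
    rw [h i hi]
    refine mul_le_mul_of_nonneg_left ?_ (AAn_nonneg hκ _ _ _)
    split_ifs
    · exact le_rfl
    · exact (thn_one_pos _).le

theorem amp_TM_off {κ : ℝ} (hκ : 1 ≤ κ) (M : ℕ) {x y : Conf n} (hxy : x ≠ y) :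
    ampE κ (P369A.ext (TM n M)) x y = 0 := by
  rw [ampE_eq hκ]
  apply Finset.sum_eq_zero
  intro i hi
  by_cases hy : ∀ j, i j ≤ y j
  · rw [ext_TM, if_neg, mul_zero]
    rintro ⟨h, -⟩
    apply hxy
    have hx := mem_below.mp hi
    funext j
    have := congrFun h j
    simp only [Pi.sub_apply] at this
    have h1 := hx j
    have h2 := hy j
    omega
  · rw [AAn_eq_zero hy, Complex.ofReal_zero, zero_mul]

theorem amp_TM_im {κ : ℝ} (hκ : 1 ≤ κ) (M : ℕ) (x : Conf n) :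
    (ampE κ (P369A.ext (TM n M)) x x).im = 0 := by
  rw [ampE_eq hκ, Complex.im_sum]
  apply Finset.sum_eq_zero
  intro i _
  rw [Complex.im_ofReal_mul, ext_TM]
  split_ifs <;> simp

theorem thn_le_one {r : ℝ} (hr : 0 ≤ r) (x : Conf n) : thn r x ≤ 1 := (thn_isProb hr).le_one x

theorem norm_amp_TM {κ : ℝ} (hκ : 1 ≤ κ) (M : ℕ) (x y : Conf n) :
    ‖ampE κ (P369A.ext (TM n M)) x y‖ ≤ 1 := by
  by_cases hxy : x = y
  · subst hxy
    obtain ⟨h1, h2⟩ := amp_TM_diag hκ M x
    have h3 := thn_le_one (n := n) (r := 2 * κ - 1) (by linarith only [hκ]) x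
    have h4 : ampE κ (P369A.ext (TM n M)) x x = (((ampE κ (P369A.ext (TM n M)) x x).re : ℝ) : ℂ) := by
      apply Complex.ext
      · simp
      · simp [amp_TM_im hκ M x]
    rw [h4, Complex.norm_real, Real.norm_of_nonneg h1]
    linarith only [h2, h3]
  · rw [amp_TM_off hκ M hxy]; simp only [norm_zero, zero_le_one]

/-! ### truncated states -/

variable {H : Type} [NormedAddCommGroup H] [InnerProductSpace ℂ H]

theorem ext_cutm (e : Conf n → H) (M : ℕ) (σ : H →L[ℂ] H) (a b : Conf n) :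
    P369A.ext (cutm e M σ) a b =
      if (∀ j, a j < M + 1) ∧ (∀ j, b j < M + 1) then ⟪e a, σ (e b)⟫_ℂ else 0 := by
  unfold P369A.ext cutm
  by_cases h : (∀ j, a j < M + 1) ∧ (∀ j, b j < M + 1)
  · rw [dif_pos h, if_pos h]
    rfl
  · rw [dif_neg h, if_neg h]

theorem amp_cutm_eq {κ : ℝ} (e : Conf n → H) {M : ℕ} (σ : H →L[ℂ] H) {x y : Conf n}
    (hx : ∀ j, x j ≤ M) (hy : ∀ j, y j ≤ M) :
    ampE κ (P369A.ext (cutm e M σ)) x y = ampE κ (fun a b => ⟪e a, σ (e b)⟫_ℂ) x y := by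
  unfold ampE
  refine Finset.sum_congr rfl fun l _ => ?_
  rw [ext_cutm, if_pos]
  constructor
  · intro j
    have : (x - l) j ≤ x j := Nat.sub_le _ _
    have := hx j
    omega
  · intro j
    have : (y - l) j ≤ y j := Nat.sub_le _ _
    have := hy j
    omega

theorem amp_cutm_diag {κ : ℝ} (hκ : 1 ≤ κ) {e : Conf n → H} (M : ℕ) {σ : H →L[ℂ] H}
    (hσ : ∀ k, 0 ≤ (⟪e k, σ (e k)⟫_ℂ).re) (x : Conf n) :
    (ampE κ (P369A.ext (cutm e M σ)) x x).re ≤ (ampE κ (fun a b => ⟪e a, σ (e b)⟫_ℂ) x x).re := by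
  rw [ampE_eq hκ, ampE_eq hκ, Complex.re_sum, Complex.re_sum]
  refine Finset.sum_le_sum fun i _ => ?_
  rw [Complex.re_ofReal_mul, Complex.re_ofReal_mul]
  refine mul_le_mul_of_nonneg_left ?_ (AAn_nonneg hκ _ _ _)
  rw [ext_cutm]
  split_ifs
  · exact le_rfl
  · rw [Complex.zero_re]; exact hσ _

/-! ### the total photon number cutoff -/

/-- configurations with at most `X` photons -/
def tb (n X : ℕ) : Finset (Conf n) := (Finset.univ : Finset (Ct n X)).map ⟨Subtype.val, Subtype.val_injective⟩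

theorem mem_tb {X : ℕ} {x : Conf n} : x ∈ tb n X ↔ ∑ j, x j ≤ X := by
  unfold tb
  rw [Finset.mem_map]
  constructor
  · rintro ⟨a, -, rfl⟩
    exact a.2
  · intro h
    exact ⟨⟨x, h⟩, Finset.mem_univ _, rfl⟩

theorem sum_tb {β : Type} [AddCommMonoid β] (X : ℕ) (F : Conf n → β) :
    ∑ x : Ct n X, F x.1 = ∑ x ∈ tb n X, F x := by
  unfold tb
  rw [Finset.sum_map]
  rfl

theorem tendsto_tb (n : ℕ) : Tendsto (tb n) atTop atTop := by
  apply tendsto_atTop_finset_of_monotone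
  · intro N M hNM k hk
    rw [mem_tb] at hk ⊢
    exact hk.trans hNM
  · intro k
    exact ⟨∑ j, k j, mem_tb.mpr le_rfl⟩

/-- tail bound of the entropy -/
theorem tb_tail {D W : Conf n → ℝ} (hD : ∀ k, 0 ≤ D k) (hW : W = fun k => tot k * D k + Real.exp (-tot k))
    (hs : Summable W) {Y X : ℕ} (hYX : Y ≤ X) {s : Conf n → Conf n → ℂ} (hB : (cut X s).PosSemidef)
    (hle : ∀ x, (s x x).re ≤ D x) :
    ent (cut X s) ≤ ent (cut Y s) + (∑' k, W k - ∑ k ∈ tb n Y, W k) := by
  classical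
  have hW0 : ∀ k, 0 ≤ W k := fun k => by
    rw [hW]
    exact add_nonneg (mul_nonneg (P369.tot_nonneg k) (hD k)) (Real.exp_pos _).le
  set emb : Ct n Y → Ct n X := fun x => ⟨x.1, x.2.trans hYX⟩ with hemb
  have hinj : Function.Injective emb := fun x y h => Subtype.ext (by simpa only [hemb, Subtype.mk.injEq] using h)
  have hsub : (cut X s).submatrix emb emb = cut Y s := rfl
  have h0 := P369V.ent_le_block_emb hB emb hinj
  rw [hsub] at h0
  refine h0.trans (add_le_add le_rfl ?_)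
  have h1 : ∀ i : Ct n X, (if i ∈ Set.range emb then 0 else
      Real.negMulLog (cut X s i i).re) ≤ (if i.1 ∈ tb n Y then 0 else W i.1) := by
    intro i
    by_cases hi : i ∈ Set.range emb
    · rw [if_pos hi, if_pos]
      obtain ⟨k, rfl⟩ := hi
      exact mem_tb.mpr k.2
    · rw [if_neg hi, if_neg]
      · have h0 : 0 ≤ (cut X s i i).re := by
          have := hB.diag_nonneg (i := i)
          rw [Complex.nonneg_iff] at this
          exact this.1
        refine (P369.negMulLog_le (E := tot i.1) h0).trans ?_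
        rw [hW]
        have := hle i.1
        have h2 : (cut X s i i).re ≤ D i.1 := this
        have h3 := P369.tot_nonneg i.1
        exact add_le_add (mul_le_mul_of_nonneg_left h2 h3) le_rfl
      · intro h
        exact hi ⟨⟨i.1, mem_tb.mp h⟩, rfl⟩
  have h2 := Finset.sum_le_sum (s := Finset.univ) fun i _ => h1 i
  have h3 : ∑ i : Ct n X, (if i.1 ∈ tb n Y then 0 else W i.1) =
      ∑ k ∈ tb n X, (if k ∈ tb n Y then 0 else W k) :=
    sum_tb X (fun k => if k ∈ tb n Y then 0 else W k)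
  have hsub2 : tb n Y ⊆ tb n X := by
    intro k hk
    rw [mem_tb] at hk ⊢
    exact hk.trans hYX
  have h4 : ∑ k ∈ tb n X, (if k ∈ tb n Y then 0 else W k) =
      ∑ k ∈ tb n X, W k - ∑ k ∈ tb n Y, W k := by
    rw [← Finset.sum_sdiff hsub2, ← Finset.sum_sdiff (s₁ := tb n Y) (s₂ := tb n X)
      (f := fun k => W k) hsub2, add_sub_cancel_right]
    rw [Finset.sum_congr rfl (g := fun k => W k)
      (fun k hk => if_neg (Finset.mem_sdiff.mp hk).2)]
    rw [Finset.sum_congr (s₁ := tb n Y) rfl (g := fun _ => (0 : ℝ)) (fun k hk => if_pos hk)]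
    simp only [Finset.sum_const_zero, add_zero]
  have h5 : ∑ k ∈ tb n X, W k ≤ ∑' k, W k := hs.sum_le_tsum _ fun k _ => hW0 k
  rw [h3, h4] at h2
  convert h2.trans (sub_le_sub_right h5 _)

end

end Vale.Agent.P369T
end
end

section

section

/-!
P369T, T7: the entropy photon-number inequality for the amplifier and general states, from the
finite-dimensional theorem.
-/

namespace Vale.Agent.P369T

open Matrix Set Filter Topology
open scoped InnerProductSpace ComplexOrder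
open Vale.Agent.P369 (Conf below mem_below tot)
open Vale.Agent.P369.Sys
open Vale.Agent.P369V (ent cutm cv Cf)
open Vale.Agent.P369A (Ct cut ampE cc)

noncomputable section

variable {n : ℕ} {H : Type} [NormedAddCommGroup H] [InnerProductSpace ℂ H] [CompleteSpace H]

/-- the finite-dimensional amplifier theorem -/
def AmpFd (n : ℕ) (κ : ℝ) : Prop :=
  ∀ (M : ℕ) (ρ : Matrix (Cf n M) (Cf n M) ℂ), ρ.PosDef → ρ.trace = 1 → ∀ N : ℝ, 0 ≤ N →
    P369.g N ≤ ent ρ / n → ∀ ε > 0, ∀ᶠ X in atTop,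
      n * P369.g (κ * (N + 1) - 1) - ε ≤ ent (cut X (ampE κ (P369A.ext ρ)))

omit [CompleteSpace H] in
/-- the perturbation -/
theorem t7_delta (e : Conf n → H) {σ : H →L[ℂ] H} (hσ : IsState e σ) (M : ℕ) :
    ∃ δ : ℝ, 0 < δ ∧ δ ≤ 1 / (M + 1) ∧
      |ent (cutm e M σ + δ • TM n M) - ent (cutm e M σ)| ≤ 1 / (M + 1) := by
  have hps : (cutm e M σ).PosSemidef := P369V.g8_cutm_posSemidef e M hσ.1
  have h1 : Tendsto (fun k : ℕ => cutm e M σ + (1 / ((k : ℝ) + 1)) • TM n M) atTop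
      (𝓝 (cutm e M σ)) := by
    have h2 : Tendsto (fun k : ℕ => (1 / ((k : ℝ) + 1)) • TM n M) atTop (𝓝 ((0 : ℝ) • TM n M)) :=
      tendsto_one_div_add_atTop_nhds_zero_nat.smul_const _
    rw [zero_smul] at h2
    simpa only [one_div, add_zero] using tendsto_const_nhds.add h2
  have h3 := P369V.g4_tendsto_ent (fun k => hps.add ((TM_posDef n M).posSemidef.smul
    (by (clear * -; positivity) : (0 : ℝ) ≤ 1 / ((k : ℝ) + 1)))) hps h1
  have h4 := (Metric.tendsto_atTop.mp h3) (1 / (M + 1)) (by positivity)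
  obtain ⟨K, hK⟩ := h4
  refine ⟨1 / (((max K M : ℕ) : ℝ) + 1), by positivity, ?_, ?_⟩
  · apply one_div_le_one_div_of_le (by positivity)
    have : (M : ℝ) ≤ ((max K M : ℕ) : ℝ) := by exact_mod_cast le_max_right K M
    (clear * - this; linarith)
  · have := hK (max K M) (le_max_left _ _)
    rw [Real.dist_eq] at this
    exact this.le

theorem t7_ent_cut_le {e : Conf n → H} (he : IsNumberBasis e) {T : H →L[ℂ] H}
    (hT : IsState e T) (hE : FiniteEnergy e T) (Y : ℕ) :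
    ent (cut Y fun a b => ⟪e a, T (e b)⟫_ℂ) ≤ entropy e T +
      (1 - ∑ k ∈ tb n Y, (⟪e k, T (e k)⟫_ℂ).re) := by
  have h0 : 0 ≤ T := (ContinuousLinearMap.nonneg_iff_isPositive T).2 hT.1
  have h := P369V.ga_T2 he.1 he.2 h0 (P369V.g3_hasSum hT) le_rfl (fun k : Ct n Y => e k.1)
  have e1 : P369V.gaC (fun k : Ct n Y => e k.1) T = cut Y fun a b => ⟪e a, T (e b)⟫_ℂ := rfl
  rw [e1] at h
  have e2 : (cut Y fun a b => ⟪e a, T (e b)⟫_ℂ).trace.re = ∑ k ∈ tb n Y, (⟪e k, T (e k)⟫_ℂ).re := by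
    rw [← sum_tb Y (fun k => (⟪e k, T (e k)⟫_ℂ).re), Matrix.trace, Complex.re_sum]
    rfl
  rw [e2] at h
  refine h.trans (add_le_add ?_ le_rfl)
  have h2 : ∑ k : Ct n Y, (⟪e k.1, cfc Real.negMulLog T (e k.1)⟫_ℂ).re
      = ∑ k ∈ tb n Y, (⟪e k, P369.negMulLogOp T (e k)⟫_ℂ).re :=
    sum_tb Y (fun k => (⟪e k, P369.negMulLogOp T (e k)⟫_ℂ).re)
  rw [h2]
  exact (P369V.g3_summable he hT hE).sum_le_tsum _ fun k _ => P369V.g3_term_nonneg he hT k

/-- main step -/
theorem t7_main (hn : 1 ≤ n) {κ : ℝ} (hκ : 1 ≤ κ) (hfd : AmpFd n κ)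
    {e : Conf n → H} (he : IsNumberBasis e) {σ ρC : H →L[ℂ] H} (hσ : IsState e σ)
    (eσ : FiniteEnergy e σ) (hC : IsState e ρC) (eC : FiniteEnergy e ρC)
    (hout : ∀ m m' : Conf n, ⟪e m, ρC (e m')⟫_ℂ = ∑ i ∈ below m,
      ((AAn κ m m' i : ℝ) : ℂ) * ⟪e (m - i), σ (e (m' - i))⟫_ℂ)
    {N : ℝ} (hN : 0 ≤ N) (hlt : N = 0 ∨ P369.g N < entropy e σ / n) :
    n * P369.g (κ * (N + 1) - 1) ≤ entropy e ρC := by
  have hn' : (0 : ℝ) < n := by exact_mod_cast hn
  choose δ hδ0 hδ1 hδ2 using fun M : ℕ => t7_delta e hσ M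
  set A : (M : ℕ) → Matrix (Cf n M) (Cf n M) ℂ := fun M => cutm e M σ with hA
  set B : (M : ℕ) → Matrix (Cf n M) (Cf n M) ℂ := fun M => cutm e M σ + δ M • TM n M with hB
  have hAps : ∀ M, (A M).PosSemidef := fun M => P369V.g8_cutm_posSemidef e M hσ.1
  have hBpd : ∀ M, (B M).PosDef := fun M =>
    ((TM_posDef n M).smul (hδ0 M)).posSemidef_add (hAps M)
  -- traces
  set t : ℕ → ℝ := fun M => (TM n M).trace.re with ht
  have htTM : ∀ M, (TM n M).trace = ((t M : ℝ) : ℂ) := by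
    intro M
    apply Complex.ext
    · simp only [ht, Complex.ofReal_re]
    · rw [Complex.ofReal_im]
      unfold TM
      rw [Matrix.trace_diagonal, Complex.im_sum]
      exact Finset.sum_eq_zero fun i _ => Complex.ofReal_im _
  have ht0 : ∀ M, 0 ≤ t M := by
    intro M
    simp only [ht]
    unfold TM
    rw [Matrix.trace_diagonal, Complex.re_sum]
    exact Finset.sum_nonneg fun i _ => by rw [Complex.ofReal_re]; exact (thn_one_pos _).le
  have ht1 : ∀ M, t M ≤ 1 := by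
    intro M
    simp only [ht]
    unfold TM
    rw [Matrix.trace_diagonal, Complex.re_sum]
    have h1 : ∑ i : Cf n M, (((thn 1 (cv i) : ℝ) : ℂ)).re = ∑ k ∈ P369.box n M, thn 1 k := by
      rw [← P369V.sum_cv (M := M) (fun k => thn 1 k)]
      exact Finset.sum_congr rfl fun i _ => Complex.ofReal_re _
    rw [h1]
    exact sum_le_hasSum _ (fun k _ => (thn_one_pos k).le) (thn_isProb (by norm_num)).2
  set τ : ℕ → ℝ := fun M => (A M).trace.re + δ M * t M with hτ
  have hBtr : ∀ M, (B M).trace = ((τ M : ℝ) : ℂ) := by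
    intro M
    simp only [hB, hτ]
    rw [Matrix.trace_add, Matrix.trace_smul, htTM, P369V.g8_trace_im hσ M, Complex.real_smul]
    push_cast
    rfl
  have hτlim : Tendsto τ atTop (𝓝 1) := by
    have h1 : Tendsto (fun M => δ M * t M) atTop (𝓝 0) := by
      refine squeeze_zero (fun M => mul_nonneg (hδ0 M).le (ht0 M)) (fun M => ?_)
        tendsto_one_div_add_atTop_nhds_zero_nat
      calc δ M * t M ≤ δ M * 1 := mul_le_mul_of_nonneg_left (ht1 M) (hδ0 M).le
        _ ≤ _ := by rw [mul_one]; exact hδ1 M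
    have h2 := (P369V.g8_trace_tendsto hσ).add h1
    rw [add_zero] at h2
    exact h2
  have hτpos : ∀ᶠ M in atTop, 0 < τ M := hτlim.eventually (lt_mem_nhds zero_lt_one)
  -- the entropies of the normalized matrices
  have hentB : ∀ᶠ M in atTop, P369.g N ≤ ent (((τ M)⁻¹ : ℝ) • B M) / n := by
    rcases hlt with h0 | hlt
    · filter_upwards [hτpos] with M hM
      rw [h0, P369.g_zero]
      refine div_nonneg (P369V.ent_nonneg ((hBpd M).posSemidef.smul (inv_nonneg.mpr hM.le)) ?_)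
        hn'.le
      rw [Matrix.trace_smul, hBtr, Complex.real_smul, ← Complex.ofReal_mul,
        inv_mul_cancel₀ hM.ne', Complex.ofReal_one]
    · have hs := P369V.g3_summable he hσ eσ
      have t1 : Tendsto (fun M => ∑ k ∈ P369.box n M, (⟪e k, P369.negMulLogOp σ (e k)⟫_ℂ).re) atTop
          (𝓝 (entropy e σ)) := (show Tendsto (fun s : Finset (Conf n) =>
            ∑ k ∈ s, (⟪e k, P369.negMulLogOp σ (e k)⟫_ℂ).re) atTop (𝓝 (entropy e σ))
            from hs.hasSum).comp (P369.tendsto_box n)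
      have t2 : Tendsto (fun M : ℕ => (1 : ℝ) / ((M : ℝ) + 1)) atTop (𝓝 0) :=
        tendsto_one_div_add_atTop_nhds_zero_nat
      have t3 : Tendsto (fun M => (τ M)⁻¹ *
          (∑ k ∈ P369.box n M, (⟪e k, P369.negMulLogOp σ (e k)⟫_ℂ).re - 1 / ((M : ℝ) + 1)) +
          Real.log (τ M)) atTop (𝓝 (1⁻¹ * (entropy e σ - 0) + Real.log 1)) :=
        ((hτlim.inv₀ one_ne_zero).mul (t1.sub t2)).add (hτlim.log one_ne_zero)
      rw [inv_one, one_mul, Real.log_one, add_zero, sub_zero] at t3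
      have hlt' : n * P369.g N < entropy e σ := by
        rw [lt_div_iff₀ hn'] at hlt
        (clear hn κ hκ hfd he ρC hσ eσ hC eC hout hN hn' δ hδ0 hδ1 hδ2 A hA B hB hAps hBpd t ht htTM ht0 ht1 τ hτ hBtr hτlim hτpos hs t1 t2 t3; linarith)
      filter_upwards [t3.eventually (lt_mem_nhds hlt'), hτpos] with M h3 hpos
      have h4 : ∑ k ∈ P369.box n M, (⟪e k, P369.negMulLogOp σ (e k)⟫_ℂ).re ≤ ent (A M) := by
        rw [← P369V.sum_cv (M := M) (fun k => (⟪e k, P369.negMulLogOp σ (e k)⟫_ℂ).re)]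
        exact P369V.g1_ent_cutm_ge he.1 hσ.1 M
      have h5 : ent (((τ M)⁻¹ : ℝ) • B M) = (τ M)⁻¹ * ent (B M) + Real.log (τ M) := by
        rw [P369V.g4_ent_smul (hBpd M).posSemidef hpos, hBtr, Complex.ofReal_re]
        (clear * - hpos; field_simp)
      have h6 : ent (A M) - 1 / ((M : ℝ) + 1) ≤ ent (B M) := by
        have := abs_le.mp (hδ2 M)
        simp only [hA, hB]
        linarith only [this]
      rw [le_div_iff₀ hn', h5]
      have h7 := mul_le_mul_of_nonneg_left ((sub_le_sub_right h4 (1 / ((M : ℝ) + 1))).trans h6)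
        (inv_nonneg.mpr hpos.le)
      (clear hn κ hκ hfd ρC eσ hC eC hout hN hn' hδ0 hδ1 hAps hBpd ht htTM ht0 ht1 hτ hBtr hτlim hτpos hlt hs t1 t2 t3 hlt' h5; linarith)
  -- the output
  set S : Conf n → Conf n → ℂ := fun a b => ⟪e a, σ (e b)⟫_ℂ with hS
  set SC : Conf n → Conf n → ℂ := fun a b => ⟪e a, ρC (e b)⟫_ℂ with hSC
  have hSCeq : ∀ x y, ampE κ S x y = SC x y := by
    intro x y
    rw [ampE_eq hκ]
    exact (hout x y).symm
  set D : Conf n → ℝ := fun x => (SC x x).re + thn (2 * κ - 1) x with hD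
  have hthn0 : ∀ x : Conf n, 0 ≤ thn (2 * κ - 1) x := (thn_isProb (by linarith only [hκ])).1
  have hD0 : ∀ x, 0 ≤ D x := fun x => add_nonneg (P369V.g3_nonneg hC x) (hthn0 x)
  set W : Conf n → ℝ := fun k => tot k * D k + Real.exp (-tot k) with hW
  have hWs : Summable W := by
    have h1 : Summable fun k : Conf n => tot k * (SC k k).re := eC
    have h2 : Summable fun k : Conf n => tot k * thn (2 * κ - 1) k := thn_energy (by linarith only [hκ])
    have h3 := (h1.add h2).add (P369.summable_exp_tot n)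
    refine h3.congr fun k => ?_
    simp only [hW, hD]
    ring
  have hcutB : ∀ M X, cut X (ampE κ (P369A.ext (B M))) =
      cut X (ampE κ (P369A.ext (A M))) + δ M • cut X (ampE κ (P369A.ext (TM n M))) := by
    intro M X
    simp only [hB]
    rw [cut_ampE_add, cut_ampE_smul]
  have hBdiag : ∀ M x, (ampE κ (P369A.ext (B M)) x x).re ≤ D x := by
    intro M x
    have h1 : ampE κ (P369A.ext (B M)) x x = ampE κ (P369A.ext (A M)) x x +
        ((δ M : ℝ) : ℂ) * ampE κ (P369A.ext (TM n M)) x x := by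
      simp only [hB]
      rw [ext_add, ampE_add, ext_smul, ampE_smul]
    rw [h1, Complex.add_re, Complex.re_ofReal_mul]
    have h2 := amp_cutm_diag hκ M (fun k => P369V.g3_nonneg hσ k) x
    rw [show ampE κ (fun a b => ⟪e a, σ (e b)⟫_ℂ) x x = SC x x from hSCeq x x] at h2
    obtain ⟨h3, h4⟩ := amp_TM_diag hκ M x
    have h5 : δ M ≤ 1 := (hδ1 M).trans (by
      rw [div_le_one (by (clear * -; positivity))]
      have : (0 : ℝ) ≤ M := Nat.cast_nonneg M
      linarith only [])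
    have h6 : δ M * (ampE κ (P369A.ext (TM n M)) x x).re ≤ thn (2 * κ - 1) x :=
      calc _ ≤ 1 * (ampE κ (P369A.ext (TM n M)) x x).re := mul_le_mul_of_nonneg_right h5 h3
        _ ≤ _ := by rw [one_mul]; exact h4
    simp only [hD]
    exact add_le_add h2 h6
  have hBps : ∀ M X, (cut X (ampE κ (P369A.ext (B M)))).PosSemidef := fun M X =>
    cut_ampE_posSemidef κ X (hBpd M).posSemidef
  have hDsum : ∀ X, ∑ x ∈ tb n X, D x ≤ 2 := by
    intro X
    simp only [hD]
    rw [Finset.sum_add_distrib]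
    have h1 := sum_le_hasSum (tb n X) (fun k _ => P369V.g3_nonneg hC k) (P369V.g3_hasSum hC)
    have h2 := sum_le_hasSum (tb n X) (fun k _ => hthn0 k) (thn_isProb (n := n)
      (r := 2 * κ - 1) (by linarith only [hκ])).2
    linarith only [h1, h2]
  have hBtr2 : ∀ M X, 0 ≤ (cut X (ampE κ (P369A.ext (B M)))).trace.re ∧
      (cut X (ampE κ (P369A.ext (B M)))).trace.re ≤ 2 := by
    intro M X
    constructor
    · have := (hBps M X).trace_nonneg
      rw [Complex.nonneg_iff] at this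
      exact this.1
    · refine le_trans ?_ (hDsum X)
      rw [← sum_tb X (fun k => D k), Matrix.trace, Complex.re_sum]
      exact Finset.sum_le_sum fun x _ => hBdiag M x.1
  -- for each `Y` and `ε`
  have key : ∀ ε > 0, ∀ Y, n * P369.g (κ * (N + 1) - 1) - ε ≤ ent (cut Y SC) +
      (∑' k, W k - ∑ k ∈ tb n Y, W k) := by
    intro ε hε Y
    set G := n * P369.g (κ * (N + 1) - 1) with hG
    set tail := ∑' k, W k - ∑ k ∈ tb n Y, W k with htail
    have h1 : ∀ᶠ M in atTop, G - ε ≤ (τ M)⁻¹ * (ent (cut Y (ampE κ (P369A.ext (B M)))) + tail) +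
        2 * (|Real.log (τ M)| * |(τ M)⁻¹|) := by
      filter_upwards [hentB, hτpos] with M hM hpos
      have hpd : (((τ M)⁻¹ : ℝ) • B M).PosDef := (hBpd M).smul (inv_pos.mpr hpos)
      have htr : (((τ M)⁻¹ : ℝ) • B M).trace = 1 := by
        rw [Matrix.trace_smul, hBtr, Complex.real_smul, ← Complex.ofReal_mul,
          inv_mul_cancel₀ hpos.ne', Complex.ofReal_one]
      obtain ⟨X, hX, hYX⟩ := ((hfd M _ hpd htr N hN hM ε hε).and (eventually_ge_atTop Y)).exists
      rw [cut_ampE_smul, P369V.g4_ent_smul (hBps M X) hpos] at hX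
      have h2 := tb_tail hD0 hW hWs hYX (hBps M X) (hBdiag M)
      have h3 : Real.log (τ M) / τ M * (cut X (ampE κ (P369A.ext (B M)))).trace.re ≤
          2 * (|Real.log (τ M)| * |(τ M)⁻¹|) := by
        have h4 := hBtr2 M X
        calc _ ≤ |Real.log (τ M) / τ M * (cut X (ampE κ (P369A.ext (B M)))).trace.re| :=
              le_abs_self _
          _ = (|Real.log (τ M)| * |(τ M)⁻¹|) * (cut X (ampE κ (P369A.ext (B M)))).trace.re := by
              rw [abs_mul, div_eq_mul_inv, abs_mul, abs_of_nonneg h4.1]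
          _ ≤ (|Real.log (τ M)| * |(τ M)⁻¹|) * 2 :=
              mul_le_mul_of_nonneg_left h4.2 (by (clear * - hpos; positivity))
          _ = _ := by ring
      have h5 := mul_le_mul_of_nonneg_left h2 (inv_nonneg.mpr hpos.le)
      linarith only [hX, h3, h5]
    have hlimA : Tendsto (fun M => cut Y (ampE κ (P369A.ext (B M)))) atTop (𝓝 (cut Y SC)) := by
      refine tendsto_pi_nhds.mpr fun x => tendsto_pi_nhds.mpr fun y => ?_
      have h2 : Tendsto (fun M => SC x.1 y.1 + ((δ M : ℝ) : ℂ) *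
          ampE κ (P369A.ext (TM n M)) x.1 y.1) atTop (𝓝 (SC x.1 y.1 + 0)) := by
        refine tendsto_const_nhds.add ?_
        rw [tendsto_zero_iff_norm_tendsto_zero]
        refine squeeze_zero (fun M => norm_nonneg _) (fun M => ?_)
          tendsto_one_div_add_atTop_nhds_zero_nat
        rw [norm_mul, Complex.norm_real, Real.norm_of_nonneg (hδ0 M).le]
        calc _ ≤ δ M * 1 := mul_le_mul_of_nonneg_left (norm_amp_TM hκ M _ _) (hδ0 M).le
          _ ≤ _ := by rw [mul_one]; exact hδ1 M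
      rw [add_zero] at h2
      refine h2.congr' ?_
      filter_upwards [eventually_ge_atTop Y] with M hM
      have hxM : ∀ (z : Ct n Y) (j : Fin n), z.1 j ≤ M := fun z j =>
        ((Finset.single_le_sum (f := fun i => z.1 i) (fun _ _ => Nat.zero_le _)
          (Finset.mem_univ j)).trans z.2).trans hM
      have h3 := amp_cutm_eq (κ := κ) e σ (hxM x) (hxM y)
      rw [show ampE κ (fun a b => ⟪e a, σ (e b)⟫_ℂ) x.1 y.1 = SC x.1 y.1 from hSCeq _ _] at h3
      rw [hcutB, Matrix.add_apply, Matrix.smul_apply, Complex.real_smul, ← h3]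
      rfl
    have hSCps : (cut Y SC).PosSemidef := by
      have hxY : ∀ (z : Ct n Y) (j : Fin n), z.1 j ≤ Y := fun z j =>
        (Finset.single_le_sum (f := fun i => z.1 i) (fun _ _ => Nat.zero_le _)
          (Finset.mem_univ j)).trans z.2
      have h3 : cut Y SC = (cutm e Y ρC).submatrix (fun z : Ct n Y => P369V.g8_tr z.1 (hxY z))
          (fun z : Ct n Y => P369V.g8_tr z.1 (hxY z)) := rfl
      rw [h3]
      exact (P369V.g8_cutm_posSemidef e Y hC.1).submatrix _
    have h4 := P369V.g4_tendsto_ent (fun M => hBps M Y) hSCps hlimA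
    have h5 : Tendsto (fun M => (τ M)⁻¹ * (ent (cut Y (ampE κ (P369A.ext (B M)))) + tail) +
        2 * (|Real.log (τ M)| * |(τ M)⁻¹|)) atTop
        (𝓝 ((1 : ℝ)⁻¹ * (ent (cut Y SC) + tail) + 2 * (|Real.log 1| * |(1 : ℝ)⁻¹|))) :=
      ((hτlim.inv₀ one_ne_zero).mul (h4.add_const _)).add
        (((hτlim.log one_ne_zero).abs.mul (hτlim.inv₀ one_ne_zero).abs).const_mul 2)
    rw [inv_one, one_mul, Real.log_one, abs_zero, zero_mul, mul_zero, add_zero] at h5
    exact ge_of_tendsto h5 h1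
  -- `Y → ∞`
  refine le_of_forall_pos_le_add fun ε hε => ?_
  have hlim : Tendsto (fun Y => entropy e ρC + (1 - ∑ k ∈ tb n Y, (⟪e k, ρC (e k)⟫_ℂ).re) +
      (∑' k, W k - ∑ k ∈ tb n Y, W k)) atTop
      (𝓝 (entropy e ρC + (1 - 1) + (∑' k, W k - ∑' k, W k))) := by
    refine ((tendsto_const_nhds.sub ?_).const_add _).add (tendsto_const_nhds.sub ?_)
    · exact (show Tendsto (fun s : Finset (Conf n) => ∑ k ∈ s, (⟪e k, ρC (e k)⟫_ℂ).re) atTop
        (𝓝 1) from P369V.g3_hasSum hC).comp (tendsto_tb n)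
    · exact (show Tendsto (fun s : Finset (Conf n) => ∑ k ∈ s, W k) atTop
        (𝓝 (∑' k, W k)) from hWs.hasSum).comp (tendsto_tb n)
  rw [sub_self, add_zero, sub_self, add_zero] at hlim
  have h6 : n * P369.g (κ * (N + 1) - 1) - ε ≤ entropy e ρC := by
    refine ge_of_tendsto' hlim fun Y => (key ε hε Y).trans ?_
    have := t7_ent_cut_le he hC eC Y
    exact add_le_add this le_rfl
  (clear hS hSC; linarith)

/-- T7: the entropy photon-number inequality for the amplifier -/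
theorem amp_state (hn : 1 ≤ n) {κ : ℝ} (hκ : 1 ≤ κ) (hfd : AmpFd n κ)
    {e : Conf n → H} (he : IsNumberBasis e) {σ ρC : H →L[ℂ] H} (hσ : IsState e σ)
    (eσ : FiniteEnergy e σ) (hC : IsState e ρC) (eC : FiniteEnergy e ρC)
    (hout : ∀ m m' : Conf n, ⟪e m, ρC (e m')⟫_ℂ = ∑ i ∈ below m,
      ((AAn κ m m' i : ℝ) : ℂ) * ⟪e (m - i), σ (e (m' - i))⟫_ℂ) :
    κ * (photonNumber e σ + 1) - 1 ≤ photonNumber e ρC := by
  have hn' : (0 : ℝ) < n := by exact_mod_cast hn
  obtain ⟨hNs, hgs⟩ := P369V.g8_photonNumber he hσ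
  obtain ⟨hNC, hgC⟩ := P369V.g8_photonNumber he hC
  have hpos : ∀ N : ℝ, 0 ≤ N → 0 ≤ κ * (N + 1) - 1 := fun N hN => by (clear * - hκ hN; nlinarith)
  rw [← P369.g_le_iff (hpos _ hNs) hNC, hgC, le_div_iff₀ hn', mul_comm]
  have hmain : ∀ N, 0 ≤ N → (N = 0 ∨ N < photonNumber e σ) →
      n * P369.g (κ * (N + 1) - 1) ≤ entropy e ρC := by
    intro N hN hlt
    refine t7_main hn hκ hfd he hσ eσ hC eC hout hN ?_
    rcases hlt with h | h
    · exact Or.inl h
    · right
      rw [← hgs]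
      exact P369.g_strictMono hN hNs h
  rcases hNs.eq_or_lt with h | h
  · rw [← h]
    exact hmain 0 le_rfl (Or.inl rfl)
  · have hc : Tendsto (fun N => n * P369.g (κ * (N + 1) - 1)) (𝓝[<] photonNumber e σ)
        (𝓝 (n * P369.g (κ * (photonNumber e σ + 1) - 1))) :=
      (((P369.continuous_g.comp (by fun_prop : Continuous fun N : ℝ => κ * (N + 1) - 1)).const_mul
        (n : ℝ)).tendsto _).mono_left nhdsWithin_le_nhds
    refine le_of_tendsto hc ?_
    filter_upwards [Ioo_mem_nhdsLT h] with N hN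
    exact hmain N hN.1.le (Or.inr hN.2)

end

end Vale.Agent.P369T
end
end

section

section

/-!
P369T, part 8: the entropy photon-number inequality with thermal second input.
-/

namespace Vale.Agent.P369T

open Vale.Agent.P369 (Conf)
open Vale.Agent.P369.Sys
open Vale.Agent.P369V
open scoped InnerProductSpace

noncomputable section

variable {n : ℕ}

theorem hasSum_mul_th {r : ℝ} (hr : 0 ≤ r) : HasSum (fun k : ℕ => (k : ℝ) * th r k) r := by
  have hq : ‖r / (r + 1)‖ < 1 := by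
    rw [Real.norm_of_nonneg (by positivity)]; exact th_ratio_lt hr
  have h := (hasSum_coe_mul_geometric_of_norm_lt_one hq).mul_right (r + 1)⁻¹
  have e : r / (r + 1) / (1 - r / (r + 1)) ^ 2 * (r + 1)⁻¹ = r := by
    have h1 : 1 - r / (r + 1) = 1 / (r + 1) := by field_simp; ring
    rw [h1]
    field_simp
  rw [e] at h
  refine h.congr_fun fun k => ?_
  rw [th_eq hr]; ring

theorem negMulLog_th {r : ℝ} (hr : 0 ≤ r) (k : ℕ) : Real.negMulLog (th r k) =
    Real.log (r + 1) * th r k + (Real.log (r + 1) - Real.log r) * (k * th r k) := by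
  rcases hr.eq_or_lt with h | h
  · subst h
    unfold th
    rcases Nat.eq_zero_or_pos k with hk | hk
    · subst hk; simp
    · simp only [ne_eq, hk.ne', not_false_eq_true, zero_pow, zero_add, one_pow, div_one, Real.negMulLog_zero, Real.log_one, mul_zero, Real.log_zero, sub_self, add_zero]
  · have hr1 : (0 : ℝ) < r + 1 := by linarith
    have hl : Real.log (th r k) = k * Real.log r - (k + 1) * Real.log (r + 1) := by
      unfold th
      rw [Real.log_div (by positivity) (by positivity), Real.log_pow, Real.log_pow]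
      push_cast; ring
    unfold Real.negMulLog
    rw [hl]
    ring

theorem hasSum_negMulLog_th {r : ℝ} (hr : 0 ≤ r) :
    HasSum (fun k => Real.negMulLog (th r k)) (P369.g r) := by
  have h := ((hasSum_th hr).mul_left (Real.log (r + 1))).add
    ((hasSum_mul_th hr).mul_left (Real.log (r + 1) - Real.log r))
  have e : Real.log (r + 1) * 1 + (Real.log (r + 1) - Real.log r) * r = P369.g r := by
    unfold P369.g; ring
  rw [e] at h
  exact h.congr_fun fun k => negMulLog_th hr k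

theorem negMulLog_prod {m : ℕ} (f : Fin m → ℝ) :
    Real.negMulLog (∏ j, f j) = ∑ j, ∏ i, if i = j then Real.negMulLog (f i) else f i := by
  have h1 : ∀ j, (∏ i, if i = j then Real.negMulLog (f i) else f i) =
      Real.negMulLog (f j) * ∏ i ∈ Finset.univ.erase j, f i := by
    intro j
    rw [← Finset.mul_prod_erase Finset.univ _ (Finset.mem_univ j), if_pos rfl]
    congr 1
    apply Finset.prod_congr rfl
    intro i hi
    rw [if_neg (Finset.ne_of_mem_erase hi)]
  simp only [h1]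
  have h2 : ∀ j, Real.negMulLog (f j) * ∏ i ∈ Finset.univ.erase j, f i =
      -(Real.log (f j) * ∏ i, f i) := by
    intro j
    rw [← Finset.mul_prod_erase Finset.univ f (Finset.mem_univ j)]
    unfold Real.negMulLog
    ring
  simp only [h2]
  by_cases h0 : ∃ j, f j = 0
  · obtain ⟨j, hj⟩ := h0
    rw [Finset.prod_eq_zero (Finset.mem_univ j) hj]
    simp only [Real.negMulLog_zero, mul_zero, neg_zero, Finset.sum_const_zero]
  · push Not at h0
    unfold Real.negMulLog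
    rw [Real.log_prod (fun j _ => h0 j), Finset.sum_neg_distrib, ← Finset.sum_mul]
    ring

theorem Hs_thn {r : ℝ} (hr : 0 ≤ r) : P369.Hs (thn (n := n) r) = n * P369.g r := by
  unfold P369.Hs
  have h : ∀ j : Fin n, HasSum (fun k : Conf n =>
      ∏ i, if i = j then Real.negMulLog (th r (k i)) else th r (k i)) (P369.g r) := by
    intro j
    have h1 : ∀ i : Fin n, HasSum (fun k : ℕ => if i = j then Real.negMulLog (th r k) else th r k)
        (if i = j then P369.g r else 1) := by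
      intro i
      by_cases hi : i = j
      · simp only [hi, if_true]
        exact hasSum_negMulLog_th hr
      · simp only [hi, if_false]
        exact hasSum_th hr
    have h2 := hasSum_pi_prod h1
    rw [Finset.prod_ite_eq' Finset.univ j (fun _ => P369.g r), if_pos (Finset.mem_univ j)] at h2
    exact h2
  have h3 := hasSum_sum (s := Finset.univ) fun j _ => h j
  have h4 : (fun k : Conf n => Real.negMulLog (thn r k)) = fun k : Conf n => ∑ j,
      ∏ i, if i = j then Real.negMulLog (th r (k i)) else th r (k i) := by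
    funext k
    exact negMulLog_prod fun j => th r (k j)
  rw [h4, h3.tsum_eq]
  simp only [Finset.sum_const, Finset.card_univ, Fintype.card_fin, nsmul_eq_mul]

variable {H K : Type} [NormedAddCommGroup H] [InnerProductSpace ℂ H] [CompleteSpace H]
  [NormedAddCommGroup K] [InnerProductSpace ℂ K] [CompleteSpace K]

theorem photonNumber_thermal (hn : 1 ≤ n) {r : ℝ} (hr : 0 ≤ r) {e : Conf n → H}
    (he : IsNumberBasis e) {ρB : H →L[ℂ] H} (hS : IsState e ρB)
    (hB : ∀ k, ρB (e k) = (thn r k : ℂ) • e k) : photonNumber e ρB = r := by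
  obtain ⟨h1, h2⟩ := g8_photonNumber he hS
  have hn0 : (n : ℝ) ≠ 0 := by positivity
  rw [P369.entropy_sys e he.1 ρB hS _ hB, Hs_thn hr, mul_div_cancel_left₀ _ hn0] at h2
  apply le_antisymm
  · rw [← P369.g_le_iff h1 hr, h2]
  · rw [← P369.g_le_iff hr h1, h2]

/-- the entropy photon-number inequality with thermal second input -/
theorem epni_thermal (hfd : ∀ κ : ℝ, 1 ≤ κ → AmpFd n κ) (hn : 1 ≤ n) {η : ℝ} (h0 : 0 ≤ η)
    (h1 : η ≤ 1) (e : Conf n → H) (he : IsNumberBasis e)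
    (f : Conf n → Conf n → K) (hf : IsNumberBasis fun x : Conf n × Conf n => f x.1 x.2)
    (ρA ρB : H →L[ℂ] H) (hA : IsState e ρA) (eA : FiniteEnergy e ρA) (hS : IsState e ρB)
    {r : ℝ} (hr : 0 ≤ r) (hB : ∀ k, ρB (e k) = (thn r k : ℂ) • e k) :
    (∃ ρC : H →L[ℂ] H, IsOutput η e f ρA ρB ρC) ∧
    ∀ ρC : H →L[ℂ] H, IsOutput η e f ρA ρB ρC → IsState e ρC ∧ FiniteEnergy e ρC ∧
      η * photonNumber e ρA + (1 - η) * photonNumber e ρB ≤ photonNumber e ρC := by
  obtain ⟨hex, hall⟩ := thermal_setup h0 h1 hr he hf hA eA hB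
  refine ⟨hex, fun ρC hO => ?_⟩
  obtain ⟨hC, eC, ρ0, σ, s0, v0, hOσ, sσ, eσ, helem⟩ := hall ρC hO
  refine ⟨hC, eC, ?_⟩
  have hκ0 := kap_pos h1 hr
  have hκ : 1 ≤ kap η r := by
    unfold kap
    have : 0 ≤ (1 - η) * r := mul_nonneg (by linarith only [h1]) hr
    linarith only [this]
  have hx0 : 0 ≤ η / kap η r := div_nonneg h0 hκ0.le
  have hx1 : η / kap η r ≤ 1 := by rw [div_le_one hκ0]; linarith only [h1, hκ]
  have e1 := ((epni_vacuum hn hx0 hx1 e he f hf ρA ρ0 hA eA s0 v0).2 σ hOσ).2.2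
  rw [g8_photonNumber_vac he s0 v0, mul_zero, add_zero] at e1
  have e2 := amp_state hn hκ (hfd _ hκ) he sσ eσ hC eC helem
  rw [photonNumber_thermal hn hr he hS hB]
  have e3 : kap η r * (η / kap η r * photonNumber e ρA) = η * photonNumber e ρA := by
    (clear hfd hn h0 he f hf ρB hA eA hS hB hex hall ρC hO hC eC ρ0 σ s0 v0 hOσ sσ eσ helem hκ hx0 hx1 e1 e2; field_simp)
  have e4 := mul_le_mul_of_nonneg_left e1 hκ0.le
  rw [e3] at e4
  have e5 : kap η r = 1 + (1 - η) * r := rfl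
  (clear h0 f hf ρB hA eA hS hB hex hall hO ρ0 s0 v0 hOσ hκ0 hx0 hx1 e1 e3; linarith)

end

end Vale.Agent.P369T
end
end

section

section

/-!
P369A: the two families `Ck`, `Dk`: composition, limits of the complementary channel.
-/

namespace Vale.Agent.P369A

open Matrix Filter Topology
open Vale.Agent.P369 (Conf up down)
open scoped ComplexOrder

noncomputable section

variable {n : ℕ}

theorem hasSum_pi_prod {n : ℕ} {F : Fin n → ℕ → ℝ} {a : Fin n → ℝ} (h : ∀ j, HasSum (F j) (a j)) :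
    HasSum (fun b : Fin n → ℕ => ∏ j, F j (b j)) (∏ j, a j) := by
  induction n with
  | zero =>
    simp only [Finset.univ_eq_empty, Finset.prod_empty]
    exact hasSum_unique (fun _ : Fin 0 → ℕ => (1 : ℝ))
  | succ n ih =>
    have h1 := h 0
    have h2 := ih (F := fun j => F j.succ) (a := fun j => a j.succ) (fun j => h j.succ)
    have h3 : Summable fun x : ℕ × (Fin n → ℕ) => F 0 x.1 * ∏ j, F (Fin.succ j) (x.2 j) := by
      have h1n : Summable fun x : ℕ => ‖F 0 x‖ := h1.summable.norm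
      have h2n : Summable fun x : Fin n → ℕ => ‖∏ j, F (Fin.succ j) (x j)‖ := h2.summable.norm
      exact summable_mul_of_summable_norm (f := fun x => F 0 x)
        (g := fun x : Fin n → ℕ => ∏ j, F (Fin.succ j) (x j)) h1n h2n
    have h4 := h1.mul h2 h3
    rw [Fin.prod_univ_succ]
    rw [← (Fin.consEquiv (fun _ => ℕ)).hasSum_iff]
    refine h4.congr_fun fun x => ?_
    simp only [Function.comp, Fin.consEquiv]
    rw [Fin.prod_univ_succ]
    simp only [Equiv.coe_fn_mk, Fin.cons_zero, Fin.cons_succ]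

/-! ### one mode -/

theorem choose_mul_choose (u l i : ℕ) :
    (u + i + l).choose l * (u + i).choose i = (u + l).choose l * (u + l + i).choose i := by
  have h1 : (u + i + l).choose l * ((u + i).factorial * l.factorial) = (u + i + l).factorial := by
    have := Nat.add_choose_mul_factorial_mul_factorial (u + i) l
    rw [← mul_assoc]
    exact this
  have h2 : (u + i).choose i * (u.factorial * i.factorial) = (u + i).factorial := by
    have := Nat.add_choose_mul_factorial_mul_factorial u i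
    rw [← mul_assoc]
    exact this
  have h3 : (u + l).choose l * (u.factorial * l.factorial) = (u + l).factorial := by
    have := Nat.add_choose_mul_factorial_mul_factorial u l
    rw [← mul_assoc]
    exact this
  have h4 : (u + l + i).choose i * ((u + l).factorial * i.factorial) = (u + l + i).factorial := by
    have := Nat.add_choose_mul_factorial_mul_factorial (u + l) i
    rw [← mul_assoc]
    exact this
  have hpos : 0 < u.factorial * l.factorial * i.factorial := by positivity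
  apply Nat.eq_of_mul_eq_mul_right hpos
  have h5 : u + i + l = u + l + i := by ring
  calc (u + i + l).choose l * (u + i).choose i * (u.factorial * l.factorial * i.factorial)
      = (u + i + l).choose l * (((u + i).choose i * (u.factorial * i.factorial)) *
        l.factorial) := by ring
    _ = (u + i + l).factorial := by rw [h2, h1]
    _ = (u + l + i).choose i * (((u + l).choose l * (u.factorial * l.factorial)) *
        i.factorial) := by rw [h3, h4, h5]
    _ = _ := by ring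

theorem c1_mul_c1 (k k0 : ℝ) (u l i : ℕ) :
    c1 k (u + i) l * c1 k0 u i = Real.sqrt ((u + l).choose l : ℕ) *
      Real.sqrt ((u + l + i).choose i : ℕ) * (Real.sqrt k)⁻¹ ^ (u + i + 1) *
      Real.sqrt (1 - 1 / k) ^ l * (Real.sqrt k0)⁻¹ ^ (u + 1) * Real.sqrt (1 - 1 / k0) ^ i := by
  unfold c1
  have h : Real.sqrt ((u + i + l).choose l : ℕ) * Real.sqrt ((u + i).choose i : ℕ) =
      Real.sqrt ((u + l).choose l : ℕ) * Real.sqrt ((u + l + i).choose i : ℕ) := by
    rw [← Real.sqrt_mul (by positivity), ← Real.sqrt_mul (by positivity)]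
    congr 1
    exact_mod_cast choose_mul_choose u l i
  linear_combination ((Real.sqrt k)⁻¹ ^ (u + i + 1) * Real.sqrt (1 - 1 / k) ^ l *
    (Real.sqrt k0)⁻¹ ^ (u + 1) * Real.sqrt (1 - 1 / k0) ^ i) * h

theorem sqrt_inv_sq {k : ℝ} (hk : 0 < k) : (Real.sqrt k)⁻¹ * (Real.sqrt k)⁻¹ = k⁻¹ := by
  rw [← mul_inv, Real.mul_self_sqrt hk.le]

theorem one_sub_inv_nonneg {k : ℝ} (hk : 1 ≤ k) : 0 ≤ 1 - 1 / k := by
  rw [sub_nonneg, div_le_one (by linarith only [hk])]
  exact hk

/-- the negative binomial series behind the composition of the channels -/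
theorem hasSum_c1 {k k0 : ℝ} (hk : 1 ≤ k) (hk0 : 1 ≤ k0) {u u' l l' : ℕ}
    (h : u + l = u' + l') :
    HasSum (fun i => c1 k (u + i) l * c1 k (u' + i) l' * (c1 k0 u i * c1 k0 u' i))
      (c1 (1 + (k - 1) * k0) u l * c1 (1 + (k - 1) * k0) u' l') := by
  have hkp : 0 < k := by linarith only [hk]
  have hk0p : 0 < k0 := by linarith only [hk0]
  set K := 1 + (k - 1) * k0 with hK
  have hK1 : 1 ≤ K := by
    rw [hK]
    nlinarith only [hk, hk0]
  have hKp : 0 < K := by linarith only [hK1]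
  set z := (1 - 1 / k0) / k with hz
  have hz0 : 0 ≤ z := div_nonneg (one_sub_inv_nonneg hk0) hkp.le
  have hz1' : 1 - z = K / (k * k0) := by
    rw [hz, hK]
    field_simp
    ring
  have hz1 : z < 1 := by
    have : 0 < 1 - z := by
      rw [hz1']
      (clear * - hk hk0; positivity)
    linarith only [this]
  have hzn : ‖z‖ < 1 := by
    rw [Real.norm_of_nonneg hz0]
    exact hz1
  have hs := hasSum_choose_mul_geometric_of_norm_lt_one (u + l) hzn
  set A := Real.sqrt ((u + l).choose l : ℕ) * Real.sqrt ((u' + l').choose l' : ℕ) *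
    ((Real.sqrt k)⁻¹ ^ (u + 1) * (Real.sqrt k)⁻¹ ^ (u' + 1)) *
    (Real.sqrt (1 - 1 / k) ^ l * Real.sqrt (1 - 1 / k) ^ l') *
    ((Real.sqrt k0)⁻¹ ^ (u + 1) * (Real.sqrt k0)⁻¹ ^ (u' + 1)) with hA
  have hs2 := hs.mul_left A
  have e1 : ∀ i : ℕ, A * (((i + (u + l)).choose (u + l) : ℕ) * z ^ i) =
      c1 k (u + i) l * c1 k (u' + i) l' * (c1 k0 u i * c1 k0 u' i) := by
    intro i
    have h1 := c1_mul_c1 k k0 u l i
    have h2 := c1_mul_c1 k k0 u' l' i
    have h3 : Real.sqrt ((u + l + i).choose i : ℕ) * Real.sqrt ((u' + l' + i).choose i : ℕ) =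
        ((i + (u + l)).choose (u + l) : ℕ) := by
      rw [← h, Real.mul_self_sqrt (by (clear * -; positivity))]
      have : (i + (u + l)).choose (u + l) = (u + l + i).choose i := by
        rw [add_comm i]
        exact Nat.choose_symm_of_eq_add rfl
      rw [this]
    have h4 : z ^ i = ((Real.sqrt k)⁻¹ * (Real.sqrt k)⁻¹) ^ i *
        (Real.sqrt (1 - 1 / k0) * Real.sqrt (1 - 1 / k0)) ^ i := by
      rw [sqrt_inv_sq hkp, Real.mul_self_sqrt (one_sub_inv_nonneg hk0), hz, ← mul_pow,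
        div_eq_mul_inv, mul_comm]
    calc A * (((i + (u + l)).choose (u + l) : ℕ) * z ^ i)
        = A * ((Real.sqrt ((u + l + i).choose i : ℕ) *
          Real.sqrt ((u' + l' + i).choose i : ℕ)) * (((Real.sqrt k)⁻¹ * (Real.sqrt k)⁻¹) ^ i *
        (Real.sqrt (1 - 1 / k0) * Real.sqrt (1 - 1 / k0)) ^ i)) := by rw [h3, h4]
      _ = (Real.sqrt ((u + l).choose l : ℕ) *
          Real.sqrt ((u + l + i).choose i : ℕ) * (Real.sqrt k)⁻¹ ^ (u + i + 1) *
          Real.sqrt (1 - 1 / k) ^ l * (Real.sqrt k0)⁻¹ ^ (u + 1) * Real.sqrt (1 - 1 / k0) ^ i) *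
          (Real.sqrt ((u' + l').choose l' : ℕ) *
          Real.sqrt ((u' + l' + i).choose i : ℕ) * (Real.sqrt k)⁻¹ ^ (u' + i + 1) *
          Real.sqrt (1 - 1 / k) ^ l' * (Real.sqrt k0)⁻¹ ^ (u' + 1) *
          Real.sqrt (1 - 1 / k0) ^ i) := by
          rw [hA, mul_pow, mul_pow]
          ring
      _ = (c1 k (u + i) l * c1 k0 u i) * (c1 k (u' + i) l' * c1 k0 u' i) := by rw [h1, h2]
      _ = _ := by ring
  have e2 : A * (1 / (1 - z) ^ (u + l + 1)) = c1 K u l * c1 K u' l' := by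
    have hq : Real.sqrt (1 - 1 / K) = Real.sqrt (1 - 1 / k) * (Real.sqrt k * Real.sqrt k0) *
        (Real.sqrt K)⁻¹ := by
      rw [← Real.sqrt_mul hkp.le, ← Real.sqrt_mul (one_sub_inv_nonneg hk), ← Real.sqrt_inv,
        ← Real.sqrt_mul (by
          have := one_sub_inv_nonneg hk
          (clear * - this hk hk0; positivity))]
      congr 1
      have h8 : (1 - 1 / k) * (k * k0) = K - 1 := by
        rw [hK]
        field_simp
        ring
      rw [h8]
      (clear * - hK1; field_simp)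
    have hsk : 0 < Real.sqrt k := Real.sqrt_pos.2 hkp
    have hsk0 : 0 < Real.sqrt k0 := Real.sqrt_pos.2 hk0p
    have hsK : 0 < Real.sqrt K := Real.sqrt_pos.2 hKp
    have hzz : (1 / (1 - z) ^ (u + l + 1)) = ((Real.sqrt k * Real.sqrt k0) *
        (Real.sqrt K)⁻¹) ^ ((u + 1) + (u' + 1) + l + l') := by
      have h5 : (u + 1) + (u' + 1) + l + l' = 2 * (u + l + 1) := by omega
      have h6 : 1 / (1 - z) = ((Real.sqrt k * Real.sqrt k0) * (Real.sqrt K)⁻¹) ^ 2 := by
        rw [hz1', mul_pow, mul_pow, inv_pow, Real.sq_sqrt hkp.le, Real.sq_sqrt hk0p.le,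
          Real.sq_sqrt hKp.le]
        (clear * - hk0 hk hK1; field_simp)
      rw [h5, pow_mul, ← h6, one_div, one_div, inv_pow]
    rw [hzz]
    unfold c1
    rw [hq]
    have h7 : (Real.sqrt k)⁻¹ * (Real.sqrt k0)⁻¹ * ((Real.sqrt k * Real.sqrt k0) *
        (Real.sqrt K)⁻¹) = (Real.sqrt K)⁻¹ := by
      (clear * - hk hk0 hK1; field_simp)
    calc A * ((Real.sqrt k * Real.sqrt k0) * (Real.sqrt K)⁻¹) ^ ((u + 1) + (u' + 1) + l + l')
        = Real.sqrt ((u + l).choose l : ℕ) * Real.sqrt ((u' + l').choose l' : ℕ) *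
          ((Real.sqrt k)⁻¹ * (Real.sqrt k0)⁻¹ * ((Real.sqrt k * Real.sqrt k0) *
            (Real.sqrt K)⁻¹)) ^ (u + 1) *
          ((Real.sqrt k)⁻¹ * (Real.sqrt k0)⁻¹ * ((Real.sqrt k * Real.sqrt k0) *
            (Real.sqrt K)⁻¹)) ^ (u' + 1) *
          (Real.sqrt (1 - 1 / k) * (Real.sqrt k * Real.sqrt k0) * (Real.sqrt K)⁻¹) ^ l *
          (Real.sqrt (1 - 1 / k) * (Real.sqrt k * Real.sqrt k0) * (Real.sqrt K)⁻¹) ^ l' := by
          rw [hA, pow_add, pow_add, pow_add]
          simp only [mul_pow]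
          ring
      _ = _ := by
          rw [h7]
          ring
  rw [← e2]
  exact hs2.congr_fun fun i => (e1 i).symm

/-- the binomial sum behind the semigroup property -/
theorem sum_c1 {k k0 : ℝ} (hk : 1 ≤ k) (hk0 : 1 ≤ k0) (u u' p : ℕ) :
    ∑ i ∈ Finset.range (p + 1), c1 k (u + i) (p - i) * c1 k (u' + i) (p - i) *
      (c1 k0 u i * c1 k0 u' i) = c1 (k * k0) u p * c1 (k * k0) u' p := by
  have hkp : 0 < k := by linarith only [hk]
  have hk0p : 0 < k0 := by linarith only [hk0]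
  have hsum : (1 - 1 / (k * k0)) ^ p = ∑ i ∈ Finset.range (p + 1),
      ((1 - 1 / k0) / k) ^ i * (1 - 1 / k) ^ (p - i) * (p.choose i : ℕ) := by
    rw [← add_pow]
    congr 1
    field_simp
    ring
  have h1 : ∀ i ∈ Finset.range (p + 1), c1 k (u + i) (p - i) * c1 k (u' + i) (p - i) *
      (c1 k0 u i * c1 k0 u' i) = Real.sqrt ((u + p).choose p : ℕ) *
      Real.sqrt ((u' + p).choose p : ℕ) * ((Real.sqrt k)⁻¹ ^ (u + 1) *
      (Real.sqrt k)⁻¹ ^ (u' + 1)) * ((Real.sqrt k0)⁻¹ ^ (u + 1) *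
      (Real.sqrt k0)⁻¹ ^ (u' + 1)) *
      (((1 - 1 / k0) / k) ^ i * (1 - 1 / k) ^ (p - i) * (p.choose i : ℕ)) := by
    intro i hi
    have hip : i ≤ p := Nat.lt_succ_iff.1 (Finset.mem_range.1 hi)
    -- √C(u+i+(p-i), p-i) √C(u+i,i) = √C(u+p,p) √C(p,i)
    have key : ∀ v : ℕ, Real.sqrt ((v + i + (p - i)).choose (p - i) : ℕ) *
        Real.sqrt ((v + i).choose i : ℕ) =
        Real.sqrt ((v + p).choose p : ℕ) * Real.sqrt (p.choose i : ℕ) := by
      intro v
      rw [← Real.sqrt_mul (by (clear * -; positivity)), ← Real.sqrt_mul (by positivity)]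
      congr 1
      have h2 := choose_mul_choose v (p - i) i
      have h3 : v + (p - i) + i = v + p := by omega
      rw [h3] at h2
      rw [← Nat.cast_mul, h2]
      -- C(v+p-i, p-i) C(v+p, i) = C(v+p,p) C(p,i)
      have h4 := Nat.choose_mul (n := v + p) (k := p) (s := i) hip
      have h5 : v + p - i = v + (p - i) := by omega
      rw [h5] at h4
      rw [← Nat.cast_mul]
      congr 1
      rw [h4]
      ring
    have h4 : ((1 - 1 / k0) / k) ^ i = ((Real.sqrt k)⁻¹ * (Real.sqrt k)⁻¹) ^ i *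
        (Real.sqrt (1 - 1 / k0) * Real.sqrt (1 - 1 / k0)) ^ i := by
      rw [sqrt_inv_sq hkp, Real.mul_self_sqrt (one_sub_inv_nonneg hk0), ← mul_pow,
        div_eq_mul_inv, mul_comm]
    have h5 : (1 - 1 / k) ^ (p - i) = (Real.sqrt (1 - 1 / k) * Real.sqrt (1 - 1 / k)) ^ (p - i) := by
      rw [Real.mul_self_sqrt (one_sub_inv_nonneg hk)]
    have h6 : ((p.choose i : ℕ) : ℝ) = Real.sqrt (p.choose i : ℕ) * Real.sqrt (p.choose i : ℕ) :=
      (Real.mul_self_sqrt (by (clear * -; positivity))).symm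
    rw [h4, h5, h6]
    unfold c1
    have k1 := key u
    have k2 := key u'
    calc _ = (Real.sqrt ((u + i + (p - i)).choose (p - i) : ℕ) *
        Real.sqrt ((u + i).choose i : ℕ)) * (Real.sqrt ((u' + i + (p - i)).choose (p - i) : ℕ) *
        Real.sqrt ((u' + i).choose i : ℕ)) * ((Real.sqrt k)⁻¹ ^ (u + i + 1) *
        (Real.sqrt k)⁻¹ ^ (u' + i + 1)) * ((Real.sqrt k0)⁻¹ ^ (u + 1) *
        (Real.sqrt k0)⁻¹ ^ (u' + 1)) * ((Real.sqrt (1 - 1 / k) * Real.sqrt (1 - 1 / k)) ^ (p - i) *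
        (Real.sqrt (1 - 1 / k0) * Real.sqrt (1 - 1 / k0)) ^ i) := by
          rw [mul_pow, mul_pow]
          ring
      _ = _ := by
          rw [k1, k2]
          simp only [pow_add, mul_pow]
          ring
  rw [Finset.sum_congr rfl h1, ← Finset.mul_sum, ← hsum]
  unfold c1
  have h7 : (1 - 1 / (k * k0)) ^ p = Real.sqrt (1 - 1 / (k * k0)) ^ p *
      Real.sqrt (1 - 1 / (k * k0)) ^ p := by
    rw [← mul_pow, Real.mul_self_sqrt (one_sub_inv_nonneg (by nlinarith only [hk, hk0]))]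
  rw [h7, Real.sqrt_mul hkp.le, mul_inv, mul_pow, mul_pow]
  ring

/-! ### several modes -/

theorem hasSum_cc {k k0 : ℝ} (hk : 1 ≤ k) (hk0 : 1 ≤ k0) {u u' l l' : Conf n}
    (h : u + l = u' + l') :
    HasSum (fun i : Conf n => cc k (u + i) l * cc k (u' + i) l' * (cc k0 u i * cc k0 u' i))
      (cc (1 + (k - 1) * k0) u l * cc (1 + (k - 1) * k0) u' l') := by
  have h1 := hasSum_pi_prod (n := n)
    (F := fun j i => c1 k (u j + i) (l j) * c1 k (u' j + i) (l' j) *
      (c1 k0 (u j) i * c1 k0 (u' j) i))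
    (a := fun j => c1 (1 + (k - 1) * k0) (u j) (l j) * c1 (1 + (k - 1) * k0) (u' j) (l' j))
    (fun j => hasSum_c1 hk hk0 (congrFun h j))
  have e1 : (fun b : Fin n → ℕ => ∏ j, (c1 k (u j + b j) (l j) * c1 k (u' j + b j) (l' j) *
      (c1 k0 (u j) (b j) * c1 k0 (u' j) (b j)))) =
      fun i : Conf n => cc k (u + i) l * cc k (u' + i) l' * (cc k0 u i * cc k0 u' i) := by
    funext b
    simp only [Finset.prod_mul_distrib, cc_eq, Pi.add_apply]
  have e2 : (∏ j, (c1 (1 + (k - 1) * k0) (u j) (l j) * c1 (1 + (k - 1) * k0) (u' j) (l' j))) =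
      cc (1 + (k - 1) * k0) u l * cc (1 + (k - 1) * k0) u' l' := by
    simp only [Finset.prod_mul_distrib, cc_eq]
  rw [e2] at h1
  rw [← e1]
  exact h1

theorem sum_cc {k k0 : ℝ} (hk : 1 ≤ k) (hk0 : 1 ≤ k0) (u u' p : Conf n) :
    ∑ i ∈ Finset.Iic p, cc k (u + i) (p - i) * cc k (u' + i) (p - i) *
      (cc k0 u i * cc k0 u' i) = cc (k * k0) u p * cc (k * k0) u' p := by
  have e2 : cc (k * k0) u p * cc (k * k0) u' p =
      ∏ j, (c1 (k * k0) (u j) (p j) * c1 (k * k0) (u' j) (p j)) := by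
    simp only [Finset.prod_mul_distrib, cc_eq]
  rw [e2]
  have e3 : ∀ j, c1 (k * k0) (u j) (p j) * c1 (k * k0) (u' j) (p j) =
      ∑ i ∈ Finset.Iic (p j), c1 k (u j + i) (p j - i) * c1 k (u' j + i) (p j - i) *
        (c1 k0 (u j) i * c1 k0 (u' j) i) := by
    intro j
    rw [← sum_c1 hk hk0, Nat.range_succ_eq_Iic]
  simp only [e3]
  rw [Finset.prod_univ_sum]
  apply Finset.sum_congr rfl
  intro i _
  simp only [Finset.prod_mul_distrib, cc_eq, Pi.add_apply, Pi.sub_apply]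

/-- semigroup property of the amplifier -/
theorem ampE_ampE {k k0 : ℝ} (hk : 1 ≤ k) (hk0 : 1 ≤ k0) (s : Conf n → Conf n → ℂ) :
    ampE k (ampE k0 s) = ampE (k * k0) s := by
  funext x y
  have hR : ampE (k * k0) s x y = ∑ p ∈ Finset.Iic (x ⊓ y), ∑ i ∈ Finset.Iic p,
      (((cc k (x - p + i) (p - i) * cc k (y - p + i) (p - i) *
        (cc k0 (x - p) i * cc k0 (y - p) i) : ℝ)) : ℂ) * s (x - p) (y - p) := by
    unfold ampE
    apply Finset.sum_congr rfl
    intro p _
    rw [← sum_cc hk hk0, Complex.ofReal_sum, Finset.sum_mul]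
  have hL : ampE k (ampE k0 s) x y = ∑ l ∈ Finset.Iic (x ⊓ y),
      ∑ i ∈ Finset.Iic ((x - l) ⊓ (y - l)),
      (((cc k (x - l) l * cc k (y - l) l *
        (cc k0 (x - l - i) i * cc k0 (y - l - i) i) : ℝ)) : ℂ) * s (x - l - i) (y - l - i) := by
    unfold ampE
    apply Finset.sum_congr rfl
    intro l _
    rw [Finset.mul_sum]
    apply Finset.sum_congr rfl
    intro i _
    push_cast
    ring
  rw [hR, hL, Finset.sum_sigma', Finset.sum_sigma']
  refine Finset.sum_bij' (fun a _ => (⟨a.1 + a.2, a.2⟩ : (_ : Conf n) × Conf n))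
    (fun a _ => (⟨a.1 - a.2, a.2⟩ : (_ : Conf n) × Conf n)) ?_ ?_ ?_ ?_ ?_
  · rintro ⟨l, i⟩ h
    simp only [Finset.mem_sigma, Finset.mem_Iic, le_inf_iff] at h ⊢
    obtain ⟨⟨h1, h2⟩, h3, h4⟩ := h
    refine ⟨⟨fun j => ?_, fun j => ?_⟩, fun j => ?_⟩
    · have a1 : l j ≤ x j := h1 j
      have a2 : i j ≤ x j - l j := h3 j
      simp only [Pi.add_apply]
      omega
    · have a1 : l j ≤ y j := h2 j
      have a2 : i j ≤ y j - l j := h4 j
      simp only [Pi.add_apply]
      omega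
    · simp only [Pi.add_apply]
      omega
  · rintro ⟨p, i⟩ h
    simp only [Finset.mem_sigma, Finset.mem_Iic, le_inf_iff] at h ⊢
    obtain ⟨⟨h1, h2⟩, h3⟩ := h
    refine ⟨⟨fun j => ?_, fun j => ?_⟩, fun j => ?_, fun j => ?_⟩
    all_goals
      have a1 : p j ≤ x j := h1 j
      have a2 : p j ≤ y j := h2 j
      have a3 : i j ≤ p j := h3 j
      simp only [Pi.sub_apply]
      omega
  · rintro ⟨l, i⟩ _
    have : l + i - i = l := by
      funext j
      simp only [Pi.sub_apply, Pi.add_apply, add_tsub_cancel_right]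
    simp only [this]
  · rintro ⟨p, i⟩ h
    simp only [Finset.mem_sigma, Finset.mem_Iic, le_inf_iff] at h
    have : p - i + i = p := by
      funext j
      have a3 : i j ≤ p j := h.2 j
      simp only [Pi.add_apply, Pi.sub_apply]
      omega
    simp only [this]
  · rintro ⟨l, i⟩ h
    simp only [Finset.mem_sigma, Finset.mem_Iic, le_inf_iff] at h
    obtain ⟨⟨h1, h2⟩, h3, h4⟩ := h
    have e1 : x - l - i = x - (l + i) := by
      funext j
      simp only [Pi.sub_apply, Pi.add_apply]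
      omega
    have e2 : y - l - i = y - (l + i) := by
      funext j
      simp only [Pi.sub_apply, Pi.add_apply]
      omega
    have e3 : x - (l + i) + i = x - l := by
      funext j
      have a1 : l j ≤ x j := h1 j
      have a2 : i j ≤ x j - l j := h3 j
      simp only [Pi.sub_apply, Pi.add_apply]
      omega
    have e4 : y - (l + i) + i = y - l := by
      funext j
      have a1 : l j ≤ y j := h2 j
      have a2 : i j ≤ y j - l j := h4 j
      simp only [Pi.sub_apply, Pi.add_apply]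
      omega
    have e5 : l + i - i = l := by
      funext j
      simp only [Pi.sub_apply, Pi.add_apply, add_tsub_cancel_right]
    simp only [e1, e2, e3, e4, e5]

/-! ### the limit of the complementary channel -/

/-- the finite set of the `i` with `x + i`, `y + i` within the cutoff -/
def Fs (Y : ℕ) (x y : Conf n) : Finset (Conf n) :=
  ((Finset.univ : Finset (Ct n Y)).image Subtype.val).filter
    (fun i => ∑ j, (x + i) j ≤ Y ∧ ∑ j, (y + i) j ≤ Y)

theorem mem_Fs {Y : ℕ} {x y i : Conf n} :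
    i ∈ Fs Y x y ↔ ∑ j, (x + i) j ≤ Y ∧ ∑ j, (y + i) j ≤ Y := by
  unfold Fs
  rw [Finset.mem_filter, Finset.mem_image]
  constructor
  · intro h
    exact h.2
  · intro h
    refine ⟨⟨⟨i, ?_⟩, Finset.mem_univ _, rfl⟩, h⟩
    have h1 := h.1
    rw [sum_conf_add] at h1
    omega

theorem tendsto_Fs (x y : Conf n) : Tendsto (fun Y => Fs Y x y) atTop atTop := by
  apply Filter.tendsto_atTop_finset_of_monotone
  · intro Y Y' h i hi
    rw [mem_Fs] at hi ⊢
    exact ⟨hi.1.trans h, hi.2.trans h⟩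
  · intro i
    refine ⟨∑ j, (x + i) j + ∑ j, (y + i) j, ?_⟩
    rw [mem_Fs]
    omega

/-- `H_Y(x,y)` -/
theorem sum_T1_E1 {k k0 : ℝ} (Y : ℕ) (x y l l' : Conf n) :
    (∑ m : Ct n Y, ∑ m' : Ct n Y, if m.1 + l = m'.1 + l' then
      ((cc k m.1 l * cc k m'.1 l' : ℝ) : ℂ) * E1 k0 m'.1 m.1 x y else 0) =
    if y + l = x + l' then ∑ i ∈ Fs Y x y,
      ((cc k (y + i) l * cc k (x + i) l' * (cc k0 y i * cc k0 x i) : ℝ) : ℂ) else 0 := by
  classical
  by_cases h : y + l = x + l'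
  · rw [if_pos h, ← Finset.sum_product']
    symm
    apply Finset.sum_bij_ne_zero (fun (i : Conf n) hi _ =>
      ((⟨y + i, (mem_Fs.1 hi).2⟩, ⟨x + i, (mem_Fs.1 hi).1⟩) : Ct n Y × Ct n Y))
    · intro i _ _
      exact Finset.mem_product.2 ⟨Finset.mem_univ _, Finset.mem_univ _⟩
    · intro i _ _ i' _ _ h2
      have h3 : y + i = y + i' := congrArg (fun p : Ct n Y × Ct n Y => p.1.1) h2
      exact add_left_cancel h3
    · rintro ⟨m, m'⟩ _ hm
      by_cases c1 : m.1 + l = m'.1 + l'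
      · rw [if_pos c1] at hm
        have h0 : E1 k0 m'.1 m.1 x y ≠ 0 := fun h => hm (by simp only [Complex.ofReal_mul, h, mul_zero])
        rw [E1_eq] at h0
        by_cases c2 : (∀ j, y j ≤ m.1 j) ∧ x + (m.1 - y) = m'.1
        · have e2 : y + (m.1 - y) = m.1 := by
            funext j
            have := c2.1 j
            simp only [Pi.sub_apply, Pi.add_apply]
            (clear * - this; omega)
          have hi : m.1 - y ∈ Fs Y x y := by
            rw [mem_Fs, c2.2, e2]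
            exact ⟨m'.2, m.2⟩
          refine ⟨m.1 - y, hi, ?_, Prod.ext (Subtype.ext e2) (Subtype.ext c2.2)⟩
          rw [e2, c2.2]
          rw [E1_eq, if_pos c2] at hm
          intro h3
          apply hm
          rw [← Complex.ofReal_mul]
          exact h3
        · rw [if_neg c2] at h0
          exact absurd rfl h0
      · rw [if_neg c1] at hm
        exact absurd rfl hm
    · intro i hi _
      have c1 : y + i + l = x + i + l' := by
        calc y + i + l = (y + l) + i := by abel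
          _ = (x + l') + i := by rw [h]
          _ = _ := by abel
      simp only
      rw [if_pos c1]
      have e0 : y + i - y = i := by
        funext j
        simp only [Pi.sub_apply, Pi.add_apply, add_tsub_cancel_left]
      have c2 : (∀ j, y j ≤ (y + i) j) ∧ x + (y + i - y) = x + i := by
        refine ⟨fun j => by simp only [Pi.add_apply, le_add_iff_nonneg_right, zero_le], by rw [e0]⟩
      rw [E1_eq, if_pos c2, e0]
      push_cast
      ring
  · rw [if_neg h]
    apply Finset.sum_eq_zero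
    intro m _
    apply Finset.sum_eq_zero
    intro m' _
    by_cases c1 : m.1 + l = m'.1 + l'
    · rw [if_pos c1]
      rw [E1_eq]
      by_cases c2 : (∀ j, y j ≤ m.1 j) ∧ x + (m.1 - y) = m'.1
      · exfalso
        apply h
        have e2 : y + (m.1 - y) = m.1 := by
          funext j
          have := c2.1 j
          simp only [Pi.sub_apply, Pi.add_apply]
          omega
        have : (m.1 - y) + (y + l) = (m.1 - y) + (x + l') := by
          calc (m.1 - y) + (y + l) = (y + (m.1 - y)) + l := by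
                rw [← add_assoc, add_comm (m.1 - y) y]
            _ = m.1 + l := by rw [e2]
            _ = m'.1 + l' := c1
            _ = (x + (m.1 - y)) + l' := by rw [c2.2]
            _ = _ := by rw [add_comm x (m.1 - y), add_assoc]
        exact add_left_cancel this
      · rw [if_neg c2, mul_zero]
    · rw [if_neg c1]

theorem conE_ampE (k k0 : ℝ) (Y : ℕ) (s : Conf n → Conf n → ℂ) (l l' : Conf n) :
    conE k Y (ampE k0 s) l l' = ∑ x : Ct n Y, ∑ y : Ct n Y, s y.1 x.1 *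
      (if y.1 + l = x.1 + l' then ∑ i ∈ Fs Y x.1 y.1,
      ((cc k (y.1 + i) l * cc k (x.1 + i) l' * (cc k0 y.1 i * cc k0 x.1 i) : ℝ) : ℂ) else 0) := by
  simp only [← sum_T1_E1]
  unfold conE
  have h1 : ∀ m m' : Ct n Y, (if m.1 + l = m'.1 + l' then
      ((cc k m.1 l * cc k m'.1 l' : ℝ) : ℂ) * ampE k0 s m.1 m'.1 else 0) =
      ∑ x : Ct n Y, ∑ y : Ct n Y, s y.1 x.1 * (if m.1 + l = m'.1 + l' then
        ((cc k m.1 l * cc k m'.1 l' : ℝ) : ℂ) * E1 k0 m'.1 m.1 x.1 y.1 else 0) := by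
    intro m m'
    rw [← tau_E1 k0 Y s m'.1 m.1 m'.2 m.2]
    by_cases c : m.1 + l = m'.1 + l'
    · simp only [if_pos c]
      unfold tau
      rw [Finset.mul_sum]
      apply Finset.sum_congr rfl
      intro x _
      rw [Finset.mul_sum]
      apply Finset.sum_congr rfl
      intro y _
      ring
    · simp only [c, ↓reduceIte, mul_zero, Finset.sum_const_zero]
  simp only [h1]
  calc ∑ m : Ct n Y, ∑ m' : Ct n Y, ∑ x : Ct n Y, ∑ y : Ct n Y, s y.1 x.1 *
        (if m.1 + l = m'.1 + l' then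
        ((cc k m.1 l * cc k m'.1 l' : ℝ) : ℂ) * E1 k0 m'.1 m.1 x.1 y.1 else 0)
      = ∑ m : Ct n Y, ∑ x : Ct n Y, ∑ y : Ct n Y, ∑ m' : Ct n Y, s y.1 x.1 *
        (if m.1 + l = m'.1 + l' then
        ((cc k m.1 l * cc k m'.1 l' : ℝ) : ℂ) * E1 k0 m'.1 m.1 x.1 y.1 else 0) := by
        apply Finset.sum_congr rfl
        intro m _
        rw [Finset.sum_comm]
        apply Finset.sum_congr rfl
        intro x _
        rw [Finset.sum_comm]
    _ = ∑ x : Ct n Y, ∑ y : Ct n Y, ∑ m : Ct n Y, ∑ m' : Ct n Y, s y.1 x.1 *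
        (if m.1 + l = m'.1 + l' then
        ((cc k m.1 l * cc k m'.1 l' : ℝ) : ℂ) * E1 k0 m'.1 m.1 x.1 y.1 else 0) := by
        rw [Finset.sum_comm]
        apply Finset.sum_congr rfl
        intro x _
        rw [Finset.sum_comm]
    _ = _ := by
        apply Finset.sum_congr rfl
        intro x _
        apply Finset.sum_congr rfl
        intro y _
        rw [Finset.mul_sum]
        apply Finset.sum_congr rfl
        intro m _
        rw [Finset.mul_sum]

/-- a kernel supported on `|x| ≤ Y0`, `|y| ≤ Y0` -/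
def Supp (Y0 : ℕ) (s : Conf n → Conf n → ℂ) : Prop :=
  ∀ x y, ¬ (∑ j, x j ≤ Y0 ∧ ∑ j, y j ≤ Y0) → s x y = 0

theorem sum_supp {Y0 Y : ℕ} (hY : Y0 ≤ Y) (F : Conf n → Conf n → ℂ)
    (hF : Supp Y0 F) :
    ∑ x : Ct n Y, ∑ y : Ct n Y, F x.1 y.1 = ∑ x : Ct n Y0, ∑ y : Ct n Y0, F x.1 y.1 := by
  have h1 : ∀ x : Ct n Y, ∑ y : Ct n Y, F x.1 y.1 = if h : ∑ j, x.1 j ≤ Y0 then
      (fun x' : Ct n Y0 => ∑ y : Ct n Y0, F x'.1 y.1) ⟨x.1, h⟩ else 0 := by
    intro x
    by_cases h : ∑ j, x.1 j ≤ Y0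
    · rw [dif_pos h]
      have h2 : ∀ y : Ct n Y, F x.1 y.1 = if h : ∑ j, y.1 j ≤ Y0 then
          (fun y' : Ct n Y0 => F x.1 y'.1) ⟨y.1, h⟩ else 0 := by
        intro y
        by_cases h3 : ∑ j, y.1 j ≤ Y0
        · rw [dif_pos h3]
        · rw [dif_neg h3]
          exact hF _ _ (fun h4 => h3 h4.2)
      rw [Finset.sum_congr rfl (fun y _ => h2 y)]
      exact sum_restrict hY (fun y' : Ct n Y0 => F x.1 y'.1)
    · rw [dif_neg h]
      apply Finset.sum_eq_zero
      intro y _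
      exact hF _ _ (fun h4 => h h4.1)
  rw [Finset.sum_congr rfl (fun x _ => h1 x)]
  exact sum_restrict hY (fun x' : Ct n Y0 => ∑ y : Ct n Y0, F x'.1 y.1)

/-- the complementary channel of the composition -/
theorem tendsto_conE_ampE {k k0 : ℝ} (hk : 1 ≤ k) (hk0 : 1 ≤ k0) {Y0 : ℕ}
    {s : Conf n → Conf n → ℂ} (hs : Supp Y0 s) (l l' : Conf n) :
    Tendsto (fun Y => conE k Y (ampE k0 s) l l') atTop
      (𝓝 (conE (1 + (k - 1) * k0) Y0 s l l')) := by
  have h1 : conE (1 + (k - 1) * k0) Y0 s l l' = ∑ x : Ct n Y0, ∑ y : Ct n Y0, s y.1 x.1 *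
      (if y.1 + l = x.1 + l' then ((cc (1 + (k - 1) * k0) y.1 l * cc (1 + (k - 1) * k0) x.1 l' : ℝ) :
        ℂ) else 0) := by
    unfold conE
    rw [Finset.sum_comm]
    apply Finset.sum_congr rfl
    intro x _
    apply Finset.sum_congr rfl
    intro y _
    split_ifs
    · ring
    · ring
  rw [h1]
  have h2 : ∀ᶠ Y in atTop, conE k Y (ampE k0 s) l l' = ∑ x : Ct n Y0, ∑ y : Ct n Y0, s y.1 x.1 *
      (if y.1 + l = x.1 + l' then ∑ i ∈ Fs Y x.1 y.1,
      ((cc k (y.1 + i) l * cc k (x.1 + i) l' * (cc k0 y.1 i * cc k0 x.1 i) : ℝ) : ℂ) else 0) := by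
    filter_upwards [eventually_ge_atTop Y0] with Y hY
    rw [conE_ampE]
    rw [sum_supp hY (fun x y => s y x * (if y + l = x + l' then ∑ i ∈ Fs Y x y,
      ((cc k (y + i) l * cc k (x + i) l' * (cc k0 y i * cc k0 x i) : ℝ) : ℂ) else 0))]
    intro x y hxy
    change s y x * _ = 0
    rw [hs y x (fun h => hxy ⟨h.2, h.1⟩), zero_mul]
  refine Tendsto.congr' (EventuallyEq.symm h2) ?_
  apply tendsto_finsetSum
  intro x _
  apply tendsto_finsetSum
  intro y _
  apply Tendsto.const_mul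
  by_cases c : y.1 + l = x.1 + l'
  · simp only [if_pos c]
    have h3 := (hasSum_cc hk hk0 c).comp (tendsto_Fs x.1 y.1)
    have h4 := (Complex.continuous_ofReal.tendsto _).comp h3
    refine h4.congr fun Y => ?_
    simp only [Function.comp]
    rw [Complex.ofReal_sum]
  · simp only [if_neg c]
    exact tendsto_const_nhds

/-! ### the two families -/

section families

variable {M : ℕ} {ρ : Matrix (Fin n → Fin (M + 1)) (Fin n → Fin (M + 1)) ℂ}

theorem supp_ext : Supp (n * M) (ext ρ) := by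
  intro x y h
  unfold ext
  rw [dif_neg]
  intro h1
  apply h
  have h2 : ∀ z : Conf n, (∀ j, z j < M + 1) → ∑ j, z j ≤ n * M := by
    intro z hz
    calc ∑ j, z j ≤ ∑ _j : Fin n, M := Finset.sum_le_sum fun j _ => Nat.lt_succ_iff.1 (hz j)
      _ = n * M := by simp only [Finset.sum_const, Finset.card_univ, Fintype.card_fin, smul_eq_mul]
  exact ⟨h2 x h1.1, h2 y h1.2⟩

theorem ampE_Ck {t k₀ : ℝ} (ht : 1 ≤ t) (hk : 1 ≤ k₀) : ampE t (Ck ρ k₀) = Ck ρ (t * k₀) :=
  ampE_ampE ht hk _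

theorem tendsto_conE_Ck {t k₀ : ℝ} (ht : 1 ≤ t) (hk : 1 ≤ k₀) (l l' : Conf n) :
    Tendsto (fun Y => conE t Y (Ck ρ k₀) l l') atTop (𝓝 (Dk ρ (1 + (t - 1) * k₀) l l')) :=
  tendsto_conE_ampE ht hk supp_ext l l'

end families

/-! ### continuity in the gain -/

end

end Vale.Agent.P369A
end
end

section

section

/-!
P369A F5: the entropy of the environment of the amplifier is at most the entropy of its output.
-/

namespace Vale.Agent.P369A

open Matrix Filter
open Vale.Agent.P369 (Conf up down)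
open Vale.Agent.P369V (ent EigB eta b_ent_eq ment_eq eigB_matrix)
open scoped ComplexOrder Topology InnerProductSpace

noncomputable section

/-! ### monotonicity (Klein's inequality) -/

/-- if `X ≤ C` with `C` positive definite of trace at most `1`, then
`ent X ≤ ent C + tr (C - X)` -/
theorem ent_le_of_le {ι : Type} [Fintype ι] [DecidableEq ι] {X C : Matrix ι ι ℂ}
    (hX : X.PosSemidef) (hC : C.PosDef) (h : (C - X).PosSemidef) (h1 : C.trace.re ≤ 1) :
    ent X ≤ ent C + (C.trace.re - X.trace.re) := by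
  have hXe := eigB_matrix hX.isHermitian
  have hCe := eigB_matrix hC.isHermitian
  have hp : ∀ k, 0 ≤ hX.isHermitian.eigenvalues k := hX.eigenvalues_nonneg
  have hq : ∀ k, 0 < hC.isHermitian.eigenvalues k := hC.eigenvalues_pos
  have htrC : C.trace.re = ∑ i, hC.isHermitian.eigenvalues i := by
    rw [hC.isHermitian.trace_eq_sum_eigenvalues]
    simp only [Complex.coe_algebraMap, Complex.re_sum, Complex.ofReal_re]
  have htrX : X.trace.re = ∑ i, hX.isHermitian.eigenvalues i := by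
    rw [hX.isHermitian.trace_eq_sum_eigenvalues]
    simp only [Complex.coe_algebraMap, Complex.re_sum, Complex.ofReal_re]
  have hle := hXe.ent_le hCe hp hq
  have hlin := fun l => hXe.lin hCe l
  have hsum : ∑ l, RCLike.re ⟪hC.isHermitian.eigenvectorBasis l,
      Matrix.toEuclideanLin X (hC.isHermitian.eigenvectorBasis l) -
        Matrix.toEuclideanLin C (hC.isHermitian.eigenvectorBasis l)⟫_ℂ =
      X.trace.re - C.trace.re := by
    rw [htrX, htrC, P369V.sum_diff hX.isHermitian.eigenvectorBasis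
      hC.isHermitian.eigenvectorBasis (fun k => hX.isHermitian.eigenvalues k)
      (fun l => hC.isHermitian.eigenvalues l)]
    exact Finset.sum_congr rfl fun l _ => hlin l
  have hneg : ∀ l, RCLike.re ⟪hC.isHermitian.eigenvectorBasis l,
      Matrix.toEuclideanLin X (hC.isHermitian.eigenvectorBasis l) -
        Matrix.toEuclideanLin C (hC.isHermitian.eigenvectorBasis l)⟫_ℂ ≤ 0 := by
    intro l
    have e1 : Matrix.toEuclideanLin X (hC.isHermitian.eigenvectorBasis l) -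
        Matrix.toEuclideanLin C (hC.isHermitian.eigenvectorBasis l) =
        -(Matrix.toEuclideanLin (C - X) (hC.isHermitian.eigenvectorBasis l)) := by
      rw [map_sub, LinearMap.sub_apply, neg_sub]
    rw [e1, inner_neg_right, map_neg, neg_nonpos]
    have e2 := h.dotProduct_mulVec_nonneg
      ((hC.isHermitian.eigenvectorBasis l : EuclideanSpace ℂ ι) : ι → ℂ)
    have e3 : ⟪hC.isHermitian.eigenvectorBasis l,
        Matrix.toEuclideanLin (C - X) (hC.isHermitian.eigenvectorBasis l)⟫_ℂ =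
        star ((hC.isHermitian.eigenvectorBasis l : EuclideanSpace ℂ ι) : ι → ℂ) ⬝ᵥ
          ((C - X) *ᵥ ((hC.isHermitian.eigenvectorBasis l : EuclideanSpace ℂ ι) : ι → ℂ)) := by
      rw [EuclideanSpace.inner_eq_star_dotProduct, Matrix.toLpLin_apply, dotProduct_comm]
    rw [e3]
    exact (Complex.le_def.1 e2).1
  have hlog : ∀ l, Real.log (hC.isHermitian.eigenvalues l) ≤ 0 := by
    intro l
    apply Real.log_nonpos (hq l).le
    refine le_trans ?_ (htrC ▸ h1)
    exact Finset.single_le_sum (f := fun i => hC.isHermitian.eigenvalues i)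
      (fun i _ => (hq i).le) (Finset.mem_univ l)
  have hfin : -∑ l, (Real.log (hC.isHermitian.eigenvalues l) + 1) *
      RCLike.re ⟪hC.isHermitian.eigenvectorBasis l,
      Matrix.toEuclideanLin X (hC.isHermitian.eigenvectorBasis l) -
        Matrix.toEuclideanLin C (hC.isHermitian.eigenvectorBasis l)⟫_ℂ ≤
      C.trace.re - X.trace.re := by
    have : C.trace.re - X.trace.re = -∑ l, RCLike.re ⟪hC.isHermitian.eigenvectorBasis l,
      Matrix.toEuclideanLin X (hC.isHermitian.eigenvectorBasis l) -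
        Matrix.toEuclideanLin C (hC.isHermitian.eigenvectorBasis l)⟫_ℂ := by
      rw [hsum]; ring
    rw [this, neg_le_neg_iff]
    refine Finset.sum_le_sum fun l _ => ?_
    have := mul_nonneg_of_nonpos_of_nonpos (hlog l) (hneg l)
    linarith
  have e4 : ent X = eta hX.isHermitian.eigenvalues := by
    rw [b_ent_eq hX.isHermitian, ment_eq hX.isHermitian hXe]
  have e5 : ent C = eta hC.isHermitian.eigenvalues := by
    rw [b_ent_eq hC.isHermitian, ment_eq hC.isHermitian hCe]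
  rw [e4, e5]
  linarith only [hle, hfin]

variable {n : ℕ}

/-! ### compressions -/

theorem Reg.psd' {s : Ker n} {E : ℝ} (h : Reg s E) (X : ℕ) : (cut X s).PosSemidef :=
  (h.pos X).posSemidef

theorem Reg.trX_le' {s : Ker n} {E : ℝ} (h : Reg s E) (X : ℕ) : trX s X ≤ 1 :=
  (trX_mono h.psd').ge_of_tendsto h.tr X

theorem Reg.enX_le' {s : Ker n} {E : ℝ} (h : Reg s E) (X : ℕ) : enX s X ≤ E :=
  (enX_mono h.psd').ge_of_tendsto h.en X

variable {M : ℕ} {ρ : Matrix (Fin n → Fin (M + 1)) (Fin n → Fin (M + 1)) ℂ}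

theorem f5_ext_eq_zero {x y : Conf n} (h : n * M < ∑ j, x j) : ext ρ x y = 0 := by
  unfold ext
  rw [dif_neg]
  rintro ⟨h1, -⟩
  have : ∑ j, x j ≤ ∑ _j : Fin n, M := Finset.sum_le_sum fun j _ => Nat.lt_succ_iff.1 (h1 j)
  simp only [Finset.sum_const, Finset.card_univ, Fintype.card_fin, smul_eq_mul] at this
  omega

theorem f5_ext_eq_zero' {x y : Conf n} (h : n * M < ∑ j, y j) : ext ρ x y = 0 := by
  unfold ext
  rw [dif_neg]
  rintro ⟨-, h1⟩
  have : ∑ j, y j ≤ ∑ _j : Fin n, M := Finset.sum_le_sum fun j _ => Nat.lt_succ_iff.1 (h1 j)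
  simp only [Finset.sum_const, Finset.card_univ, Fintype.card_fin, smul_eq_mul] at this
  omega

theorem f5_cut_ext_psd (hρ : ρ.PosSemidef) (X : ℕ) : (cut X (ext ρ)).PosSemidef := by
  set V : Matrix (Ct n X) (Fin n → Fin (M + 1)) ℂ := fun x y =>
    if x.1 = fun j => (y j : ℕ) then 1 else 0 with hV
  have h := hρ.mul_mul_conjTranspose_same V
  have e : V * ρ * Vᴴ = cut X (ext ρ) := by
    ext x y
    rw [mul_apply]
    simp only [mul_apply, conjTranspose_apply]
    unfold cut ext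
    have hsum : ∀ (z : Ct n X) (f : (Fin n → Fin (M + 1)) → ℂ),
        ∑ w, V z w * f w = if h : ∀ j, z.1 j < M + 1 then f (fun j => ⟨z.1 j, h j⟩) else 0 := by
      intro z f
      by_cases hz : ∀ j, z.1 j < M + 1
      · rw [dif_pos hz, Finset.sum_eq_single (fun j => ⟨z.1 j, hz j⟩)]
        · rw [hV]
          simp only [↓reduceIte, one_mul]
        · intro w _ hw
          rw [hV]
          dsimp only
          rw [if_neg, zero_mul]
          intro h'
          apply hw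
          funext j
          apply Fin.ext
          exact (congrFun h' j).symm
        · intro h'
          exact absurd (Finset.mem_univ _) h'
      · rw [dif_neg hz]
        refine Finset.sum_eq_zero fun w _ => ?_
        rw [hV]
        dsimp only
        rw [if_neg, zero_mul]
        intro h'
        apply hz
        intro j
        rw [h']
        exact (w j).2
    have hreal : ∀ (z : Ct n X) (w : Fin n → Fin (M + 1)), star (V z w) = V z w := by
      intro z w
      rw [hV]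
      dsimp only
      split_ifs <;> simp
    simp only [hreal, hsum]
    rw [show (∑ w, (if h : ∀ j, x.1 j < M + 1 then ρ (fun j => ⟨x.1 j, h j⟩) w else 0) * V y w) =
      ∑ w, V y w * (if h : ∀ j, x.1 j < M + 1 then ρ (fun j => ⟨x.1 j, h j⟩) w else 0) from
      Finset.sum_congr rfl fun w _ => mul_comm _ _]
    rw [hsum]
    by_cases hx : ∀ j, x.1 j < M + 1
    · by_cases hy : ∀ j, y.1 j < M + 1
      · have hxy : (∀ j, x.1 j < M + 1) ∧ (∀ j, y.1 j < M + 1) := ⟨hx, hy⟩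
        rw [dif_pos hy, dif_pos hx, dif_pos hxy]
      · have hxy : ¬((∀ j, x.1 j < M + 1) ∧ (∀ j, y.1 j < M + 1)) := fun h => hy h.2
        rw [dif_neg hy, dif_neg hxy]
    · have hxy : ¬((∀ j, x.1 j < M + 1) ∧ (∀ j, y.1 j < M + 1)) := fun h => hx h.1
      rw [dif_neg hxy]
      by_cases hy : ∀ j, y.1 j < M + 1
      · rw [dif_pos hy, dif_neg hx]
      · rw [dif_neg hy]
  rwa [e] at h

/-- for `ext ρ` the cutoff of the base plays no role -/
theorem f5_JsJ {k : ℝ} {Γ L Y : ℕ} (hY : n * M ≤ Y) (xl xl' : Ct n Γ × Ct n L) :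
    JsJ k Γ L Y (ext ρ) xl xl' = jj k (ext ρ) xl.1.1 xl.2.1 xl'.1.1 xl'.2.1 := by
  rw [Jw_conj_apply]
  split_ifs with h
  · rfl
  · rw [not_and_or] at h
    unfold jj
    rcases h with h | h
    · rw [f5_ext_eq_zero (by omega), mul_zero, ite_self]
    · rw [f5_ext_eq_zero' (by omega), mul_zero, ite_self]

theorem f5_mar₁_le (hρ : ρ.PosSemidef) (k : ℝ) (L : ℕ) :
    (cut (n * M + L) (Ck ρ k) - mar₁ (JsJ k (n * M + L) L (n * M) (ext ρ))).PosSemidef := by
  set Γ := n * M + L with hΓ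
  have hLΓ : L ≤ Γ := by omega
  have hpsd : (JsJ (n := n) k Γ Γ Γ (ext ρ)).PosSemidef := by
    unfold JsJ
    exact (f5_cut_ext_psd hρ Γ).mul_mul_conjTranspose_same _
  have key : cut Γ (Ck ρ k) - mar₁ (JsJ k Γ L (n * M) (ext ρ)) =
      ∑ l : Ct n Γ, if ∑ j, l.1 j ≤ L then (0 : Matrix (Ct n Γ) (Ct n Γ) ℂ) else
        (JsJ (n := n) k Γ Γ Γ (ext ρ)).submatrix (fun x => (x, l)) (fun x => (x, l)) := by
    ext x x'
    rw [Matrix.sub_apply, Matrix.sum_apply]
    have h1 : cut Γ (Ck ρ k) x x' = ∑ l : Ct n Γ, jj k (ext ρ) x.1 l.1 x'.1 l.1 := by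
      have := mar₁_Jw k (Γ := Γ) (L := Γ) (Y := Γ) (ext ρ) x x' x.2 x.2 x'.2
      unfold cut Ck
      rw [← this]
      unfold mar₁
      refine Finset.sum_congr rfl fun l _ => ?_
      rw [f5_JsJ (by omega)]
    have h2 : mar₁ (JsJ k Γ L (n * M) (ext ρ)) x x' =
        ∑ l : Ct n Γ, if ∑ j, l.1 j ≤ L then jj k (ext ρ) x.1 l.1 x'.1 l.1 else 0 := by
      unfold mar₁
      simp only [f5_JsJ (le_refl (n * M))]
      have h3 : ∑ l : Ct n L, jj k (ext ρ) x.1 l.1 x'.1 l.1 =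
          ∑ l : Ct n L, (fun l : Conf n => if ∑ j, l j ≤ L then
            jj k (ext ρ) x.1 l x'.1 l else 0) l.1 :=
        Finset.sum_congr rfl fun l _ => by
          dsimp only
          rw [if_pos l.2]
      rw [h3]
      have h4 : ∑ l : Ct n L, (fun l : Conf n => if ∑ j, l j ≤ L then
            jj k (ext ρ) x.1 l x'.1 l else 0) l.1 =
          ∑ l ∈ (Finset.univ : Finset (Ct n L)).map ⟨inj hLΓ, inj_injective hLΓ⟩,
            (fun l : Conf n => if ∑ j, l j ≤ L then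
            jj k (ext ρ) x.1 l x'.1 l else 0) l.1 := by
        rw [Finset.sum_map]
        rfl
      rw [h4]
      refine Finset.sum_subset (Finset.subset_univ _) fun l _ hl => ?_
      dsimp only
      rw [if_neg]
      intro h5
      apply hl
      rw [Finset.mem_map]
      exact ⟨⟨l.1, h5⟩, Finset.mem_univ _, rfl⟩
    rw [h1, h2, ← Finset.sum_sub_distrib]
    refine Finset.sum_congr rfl fun l _ => ?_
    by_cases h5 : ∑ j, l.1 j ≤ L
    · rw [if_pos h5, if_pos h5, sub_self]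
      rfl
    · rw [if_neg h5, if_neg h5, sub_zero, Matrix.submatrix_apply, f5_JsJ (by omega)]
  rw [key]
  refine Matrix.posSemidef_sum _ fun l _ => ?_
  split_ifs
  · exact Matrix.PosSemidef.zero
  · exact hpsd.submatrix _

theorem f5_mar₂ (k : ℝ) (L : ℕ) :
    mar₂ (JsJ k (n * M + L) L (n * M) (ext ρ)) = cut L (Dk ρ k) := by
  ext l l'
  rw [mar₂_Jw k (ext ρ) l l' (Nat.add_le_add_left l.2 _)]
  rfl

theorem f5_trace {γ δ : Type} [Fintype γ] [Fintype δ] (T : Matrix (γ × δ) (γ × δ) ℂ) :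
    (mar₁ T).trace = (mar₂ T).trace := by
  unfold Matrix.trace mar₁ mar₂ Matrix.diag
  exact Finset.sum_comm

/-- F5 at finite cutoffs -/
theorem ent_cut_Dk_le (hρ : ρ.PosSemidef) (k : ℝ) (L : ℕ) (hC : (cut (n * M + L) (Ck ρ k)).PosDef)
    (ht : trX (Ck ρ k) (n * M + L) ≤ 1) :
    ent (cut L (Dk ρ k)) ≤ ent (cut (n * M + L) (Ck ρ k)) +
      (trX (Ck ρ k) (n * M + L) - trX (Dk ρ k) L) := by
  set Γ := n * M + L with hΓ
  have h1 : ent (pt2 (JsJ k Γ L (n * M) (ext ρ))) ≤ ent (pt1 (JsJ k Γ L (n * M) (ext ρ))) :=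
    ent_out_le (choiG_Jw le_rfl) (f5_cut_ext_psd hρ (n * M))
  have h2 : pt2 (JsJ k Γ L (n * M) (ext ρ)) = cut L (Dk ρ k) := f5_mar₂ k L
  have hT : (JsJ k Γ L (n * M) (ext ρ)).PosSemidef :=
    (f5_cut_ext_psd hρ (n * M)).mul_mul_conjTranspose_same _
  have h3 : (mar₁ (JsJ k Γ L (n * M) (ext ρ))).PosSemidef := by
    have e : mar₁ (JsJ k Γ L (n * M) (ext ρ)) = ∑ l : Ct n L,
        (JsJ k Γ L (n * M) (ext ρ)).submatrix (fun x => (x, l)) (fun x => (x, l)) := by
      ext x x'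
      rw [Matrix.sum_apply]
      rfl
    rw [e]
    exact Matrix.posSemidef_sum _ fun l _ => hT.submatrix _
  have h4 := ent_le_of_le h3 hC (f5_mar₁_le hρ k L) (by rw [← trX_eq]; exact ht)
  rw [f5_trace, f5_mar₂, ← trX_eq, ← trX_eq] at h4
  rw [h2] at h1
  exact h1.trans h4

/-- F5 from the entropy limits of the two families -/
theorem Sl_Dk_le_of (hρ : ρ.PosSemidef) {k : ℝ} (hp : ∀ X, (cut X (Ck ρ k)).PosDef)
    (ht : ∀ X, trX (Ck ρ k) X ≤ 1) (htD : Tendsto (trX (Dk ρ k)) atTop (𝓝 1))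
    (hC : ∀ X, ent (cut X (Ck ρ k)) ≤ Sl (Ck ρ k) + (1 - trX (Ck ρ k) X))
    (hD : Tendsto (fun X => ent (cut X (Dk ρ k))) atTop (𝓝 (Sl (Dk ρ k)))) :
    Sl (Dk ρ k) ≤ Sl (Ck ρ k) := by
  have h1 : ∀ L, ent (cut L (Dk ρ k)) ≤ Sl (Ck ρ k) + (1 - trX (Dk ρ k) L) := by
    intro L
    have h2 := ent_cut_Dk_le hρ k L (hp _) (ht _)
    have h3 := hC (n * M + L)
    (clear * - h2 h3; linarith)
  have h4 : Tendsto (fun L => Sl (Ck ρ k) + (1 - trX (Dk ρ k) L)) atTop (𝓝 (Sl (Ck ρ k))) := by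
    have := (tendsto_const_nhds (x := (1 : ℝ))).sub htD
    have := (tendsto_const_nhds (x := Sl (Ck ρ k))).add this
    simpa only [sub_self, add_zero] using this
  exact le_of_tendsto_of_tendsto' hD h4 h1

/-- F5 for regular families -/
theorem Sl_Dk_le_reg (hρ : ρ.PosSemidef) {k E E' : ℝ} (hC : Reg (Ck ρ k) E)
    (hD : Reg (Dk ρ k) E') : Sl (Dk ρ k) ≤ Sl (Ck ρ k) :=
  Sl_Dk_le_of hρ hC.pos hC.trX_le' hD.tr (ent_limit hC.psd' hC.trX_le' hC.enX_le').2.2
    (ent_limit hD.psd' hD.trX_le' hD.enX_le').1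

end

end Vale.Agent.P369A
end
end

section

section

/-!
P369A: positive definiteness of the compressions of the two families.
-/

namespace Vale.Agent.P369A

open Matrix Filter Topology
open Vale.Agent.P369 (Conf up down)
open scoped ComplexOrder

noncomputable section

variable {n : ℕ}

/-- a positive definite matrix dominates a multiple of a diagonal matrix unit -/
theorem exists_sub_single {ι : Type} [Fintype ι] [DecidableEq ι] {A : Matrix ι ι ℂ}
    (hA : A.PosDef) (i0 : ι) :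
    ∃ c : ℝ, 0 < c ∧ (A - (c : ℂ) • Matrix.single i0 i0 (1 : ℂ)).PosSemidef := by
  obtain ⟨T, p, hT1, hT2, hp, hAe, -⟩ := exists_eig hA
  have : Nonempty ι := ⟨i0⟩
  obtain ⟨i1, hi1⟩ := Finite.exists_min p
  refine ⟨p i1, hp i1, ?_⟩
  have h1 : (A - ((p i1 : ℝ) : ℂ) • (1 : Matrix ι ι ℂ)).PosSemidef := by
    have h2 : A - ((p i1 : ℝ) : ℂ) • (1 : Matrix ι ι ℂ) =
        T * Matrix.diagonal (fun i => ((p i - p i1 : ℝ) : ℂ)) * Tᴴ := by
      have h3 : Matrix.diagonal (fun i => ((p i - p i1 : ℝ) : ℂ)) =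
          P369V.e2_dg p - ((p i1 : ℝ) : ℂ) • (1 : Matrix ι ι ℂ) := by
        ext i j
        by_cases hij : i = j
        · subst hij
          simp only [Complex.ofReal_sub, diagonal_apply_eq, P369V.e2_dg, Complex.coe_smul, Matrix.sub_apply, Matrix.smul_apply, one_apply_eq, Complex.real_smul, mul_one]
        · simp only [Complex.ofReal_sub, ne_eq, hij, not_false_eq_true, diagonal_apply_ne, P369V.e2_dg, Complex.coe_smul, Matrix.sub_apply, Matrix.smul_apply, one_apply_ne, smul_zero, sub_self]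
      rw [h3, Matrix.mul_sub, Matrix.sub_mul, Matrix.mul_smul, Matrix.smul_mul, Matrix.mul_one]
      rw [← Matrix.star_eq_conjTranspose, hT2, ← hAe]
    rw [h2]
    apply Matrix.PosSemidef.mul_mul_conjTranspose_same
    apply Matrix.PosSemidef.diagonal
    intro i
    simp only [Pi.zero_apply]
    exact_mod_cast sub_nonneg.2 (hi1 i)
  have h4 : ((1 : Matrix ι ι ℂ) - Matrix.single i0 i0 (1 : ℂ)).PosSemidef := by
    have h5 : (1 : Matrix ι ι ℂ) - Matrix.single i0 i0 (1 : ℂ) =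
        Matrix.diagonal (fun i => if i = i0 then 0 else 1) := by
      ext i j
      by_cases hij : i = j
      · subst hij
        by_cases hi : i = i0
        · subst hi
          simp
        · have hi' : ¬ i0 = i := fun h => hi h.symm
          simp [hi, hi', Matrix.single_apply]
      · have : ¬ (i0 = i ∧ i0 = j) := fun h => hij (h.1.symm.trans h.2)
        simp [hij, Matrix.single_apply, this]
    rw [h5]
    apply Matrix.PosSemidef.diagonal
    intro i
    simp only [Pi.zero_apply]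
    split_ifs
    · exact le_rfl
    · exact zero_le_one
  have h6 : A - ((p i1 : ℝ) : ℂ) • Matrix.single i0 i0 (1 : ℂ) =
      (A - ((p i1 : ℝ) : ℂ) • (1 : Matrix ι ι ℂ)) +
      ((p i1 : ℝ) : ℂ) • ((1 : Matrix ι ι ℂ) - Matrix.single i0 i0 (1 : ℂ)) := by
    rw [smul_sub]
    abel
  rw [h6]
  apply h1.add
  apply h4.smul
  exact_mod_cast (hp i1).le

/-- the empty configuration -/
def c0 (n X : ℕ) : Ct n X := ⟨0, by simp⟩

theorem cc_zero_pos {k : ℝ} (hk : 1 < k) (l : Conf n) : 0 < cc k 0 l := by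
  rw [cc_eq]
  apply Finset.prod_pos
  intro j _
  unfold c1
  have h1 : 0 < Real.sqrt k := Real.sqrt_pos.2 (by linarith)
  have h2 : 0 < Real.sqrt (1 - 1 / k) := by
    apply Real.sqrt_pos.2
    rw [sub_pos, div_lt_one (by linarith)]
    exact hk
  have h3 : 0 < Real.sqrt (((0 : Conf n) j + l j).choose (l j) : ℕ) := by
    apply Real.sqrt_pos.2
    exact_mod_cast Nat.choose_pos (Nat.le_add_left _ _)
  (clear * - h3 hk h2; positivity)

section marg

variable {γ δ : Type} [Fintype γ] [DecidableEq γ] [Fintype δ] [DecidableEq δ]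

omit [DecidableEq γ] [DecidableEq δ] in
theorem pos_mar₁ {T : Matrix (γ × δ) (γ × δ) ℂ} (hT : T.PosSemidef) : (mar₁ T).PosSemidef := by
  classical
  have h : mar₁ T = ∑ l : δ, T.submatrix (fun x => (x, l)) (fun x => (x, l)) := by
    ext x y
    simp only [mar₁, Matrix.sum_apply, Matrix.submatrix_apply]
  rw [h]
  exact Matrix.posSemidef_sum _ fun l _ => hT.submatrix _

omit [DecidableEq γ] [DecidableEq δ] in
theorem pos_mar₂ {T : Matrix (γ × δ) (γ × δ) ℂ} (hT : T.PosSemidef) : (mar₂ T).PosSemidef := by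
  classical
  have h : mar₂ T = ∑ x : γ, T.submatrix (fun l => (x, l)) (fun l => (x, l)) := by
    ext l l'
    simp only [mar₂, Matrix.sum_apply, Matrix.submatrix_apply]
  rw [h]
  exact Matrix.posSemidef_sum _ fun l _ => hT.submatrix _

omit [DecidableEq γ] [DecidableEq δ] [Fintype γ] in
theorem pos_mar₁_add (A B : Matrix (γ × δ) (γ × δ) ℂ) (c : ℂ) :
    mar₁ (A + c • B) = mar₁ A + c • mar₁ B := by
  ext i j
  simp only [mar₁, Matrix.add_apply, Matrix.smul_apply, Finset.sum_add_distrib, smul_eq_mul,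
    Finset.mul_sum]

omit [DecidableEq γ] [DecidableEq δ] [Fintype δ] in
theorem pos_mar₂_add (A B : Matrix (γ × δ) (γ × δ) ℂ) (c : ℂ) :
    mar₂ (A + c • B) = mar₂ A + c • mar₂ B := by
  ext i j
  simp only [mar₂, Matrix.add_apply, Matrix.smul_apply, smul_eq_mul, Finset.sum_add_distrib, Finset.mul_sum]

end marg

theorem Jw_single (k : ℝ) (Γ L Y : ℕ) (xl xl' : Ct n Γ × Ct n L) :
    (Jw (n := n) k Γ L Y * Matrix.single (c0 n Y) (c0 n Y) (1 : ℂ) *
      (Jw (n := n) k Γ L Y)ᴴ) xl xl' =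
      (if xl.1.1 = xl.2.1 then ((cc k 0 xl.2.1 : ℝ) : ℂ) else 0) *
      (if xl'.1.1 = xl'.2.1 then ((cc k 0 xl'.2.1 : ℝ) : ℂ) else 0) := by
  rw [Matrix.mul_apply, Finset.sum_eq_single (c0 n Y)]
  · rw [Matrix.mul_single_apply_same, Matrix.conjTranspose_apply]
    simp only [Jw, c0, zero_add, mul_one]
    congr 1
    split_ifs
    · exact Complex.conj_ofReal _
    · exact star_zero _
  · intro m _ hm
    rw [Matrix.mul_single_apply_of_ne _ _ _ _ _ hm, zero_mul]
  · intro h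
    exact absurd (Finset.mem_univ _) h

theorem posDef_mar₁ {k : ℝ} (hk : 1 < k) {X : ℕ} {A : Matrix (Ct n X) (Ct n X) ℂ} {c : ℝ}
    (hc : 0 < c) (hA : (A - (c : ℂ) • Matrix.single (c0 n X) (c0 n X) (1 : ℂ)).PosSemidef) :
    (mar₁ (Jw (n := n) k X X X * A * (Jw (n := n) k X X X)ᴴ)).PosDef := by
  set S : Matrix (Ct n X) (Ct n X) ℂ := Matrix.single (c0 n X) (c0 n X) (1 : ℂ) with hS
  have h1 : Jw (n := n) k X X X * A * (Jw (n := n) k X X X)ᴴ =
      Jw (n := n) k X X X * (A - (c : ℂ) • S) * (Jw (n := n) k X X X)ᴴ +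
      (c : ℂ) • (Jw (n := n) k X X X * S * (Jw (n := n) k X X X)ᴴ) := by
    rw [Matrix.mul_sub, Matrix.sub_mul, Matrix.mul_smul, Matrix.smul_mul]
    abel
  rw [h1, pos_mar₁_add]
  have h2 : mar₁ (Jw (n := n) k X X X * S * (Jw (n := n) k X X X)ᴴ) =
      Matrix.diagonal (fun x : Ct n X => ((cc k 0 x.1 * cc k 0 x.1 : ℝ) : ℂ)) := by
    ext x y
    simp only [mar₁, hS, Jw_single]
    rw [Finset.sum_eq_single x]
    · by_cases hxy : x = y
      · subst hxy
        simp only [↓reduceIte, Complex.ofReal_mul, diagonal_apply_eq]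
      · have hne : ¬ y.1 = x.1 := fun h => hxy (Subtype.ext h.symm)
        simp only [↓reduceIte, hne, mul_zero, Complex.ofReal_mul, ne_eq, hxy, not_false_eq_true, diagonal_apply_ne]
    · intro l _ hl
      have : ¬ x.1 = l.1 := fun h => hl (Subtype.ext h.symm)
      simp only [this, ↓reduceIte, mul_ite, zero_mul, mul_zero, ite_self]
    · intro h
      exact absurd (Finset.mem_univ _) h
  rw [h2]
  apply Matrix.PosDef.posSemidef_add
  · exact pos_mar₁ (hA.mul_mul_conjTranspose_same _)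
  · apply Matrix.PosDef.smul _ (show (0 : ℂ) < (c : ℂ) by exact_mod_cast hc)
    apply Matrix.PosDef.diagonal
    intro x
    have := cc_zero_pos hk x.1
    exact_mod_cast mul_pos this this

theorem posDef_mar₂ {k : ℝ} (hk : 1 < k) {Y X : ℕ} {A : Matrix (Ct n Y) (Ct n Y) ℂ} {c : ℝ}
    (hc : 0 < c) (hA : (A - (c : ℂ) • Matrix.single (c0 n Y) (c0 n Y) (1 : ℂ)).PosSemidef) :
    (mar₂ (Jw (n := n) k (Y + X) X Y * A * (Jw (n := n) k (Y + X) X Y)ᴴ)).PosDef := by
  set S : Matrix (Ct n Y) (Ct n Y) ℂ := Matrix.single (c0 n Y) (c0 n Y) (1 : ℂ) with hS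
  have h1 : Jw (n := n) k (Y + X) X Y * A * (Jw (n := n) k (Y + X) X Y)ᴴ =
      Jw (n := n) k (Y + X) X Y * (A - (c : ℂ) • S) * (Jw (n := n) k (Y + X) X Y)ᴴ +
      (c : ℂ) • (Jw (n := n) k (Y + X) X Y * S * (Jw (n := n) k (Y + X) X Y)ᴴ) := by
    rw [Matrix.mul_sub, Matrix.sub_mul, Matrix.mul_smul, Matrix.smul_mul]
    abel
  rw [h1, pos_mar₂_add]
  have h2 : mar₂ (Jw (n := n) k (Y + X) X Y * S * (Jw (n := n) k (Y + X) X Y)ᴴ) =
      Matrix.diagonal (fun x : Ct n X => ((cc k 0 x.1 * cc k 0 x.1 : ℝ) : ℂ)) := by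
    ext l l'
    simp only [mar₂, hS, Jw_single]
    rw [Finset.sum_eq_single (⟨l.1, l.2.trans (Nat.le_add_left _ _)⟩ : Ct n (Y + X))]
    · by_cases hxy : l = l'
      · subst hxy
        simp only [↓reduceIte, Complex.ofReal_mul, diagonal_apply_eq]
      · have hne : ¬ l.1 = l'.1 := fun h => hxy (Subtype.ext h)
        simp only [↓reduceIte, hne, mul_zero, Complex.ofReal_mul, ne_eq, hxy, not_false_eq_true, diagonal_apply_ne]
    · intro x _ hx
      have : ¬ x.1 = l.1 := fun h => hx (Subtype.ext h)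
      simp only [this, ↓reduceIte, mul_ite, zero_mul, mul_zero, ite_self]
    · intro h
      exact absurd (Finset.mem_univ _) h
  rw [h2]
  apply Matrix.PosDef.posSemidef_add
  · exact pos_mar₂ (hA.mul_mul_conjTranspose_same _)
  · apply Matrix.PosDef.smul _ (show (0 : ℂ) < (c : ℂ) by exact_mod_cast hc)
    apply Matrix.PosDef.diagonal
    intro x
    have := cc_zero_pos hk x.1
    exact_mod_cast mul_pos this this

theorem cut_ampE_eq (k : ℝ) (X : ℕ) (s : Conf n → Conf n → ℂ) :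
    cut X (ampE k s) = mar₁ (Jw (n := n) k X X X * cut X s * (Jw (n := n) k X X X)ᴴ) := by
  ext x y
  exact (mar₁_Jw k s x y x.2 x.2 y.2).symm

theorem cut_conE_eq (k : ℝ) (Y X : ℕ) (s : Conf n → Conf n → ℂ) :
    cut X (conE k Y s) =
      mar₂ (Jw (n := n) k (Y + X) X Y * cut Y s * (Jw (n := n) k (Y + X) X Y)ᴴ) := by
  ext l l'
  exact (mar₂_Jw k s l l' (Nat.add_le_add_left l.2 _)).symm

section families

variable {M : ℕ} {ρ : Matrix (Fin n → Fin (M + 1)) (Fin n → Fin (M + 1)) ℂ}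

theorem exists_cut_ext (hρ : ρ.PosDef) : ∃ c : ℝ, 0 < c ∧ ∀ X,
    (cut X (ext ρ) - (c : ℂ) • Matrix.single (c0 n X) (c0 n X) (1 : ℂ)).PosSemidef := by
  obtain ⟨c, hc, hA⟩ := exists_sub_single hρ (fun _ => 0)
  refine ⟨c, hc, fun X => ?_⟩
  have h1 := f5_cut_ext_psd hA X
  convert h1 using 1
  ext x y
  simp only [Matrix.sub_apply, Matrix.smul_apply, cut, smul_eq_mul]
  unfold ext
  by_cases h : (∀ j, x.1 j < M + 1) ∧ (∀ j, y.1 j < M + 1)
  · rw [dif_pos h, dif_pos h]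
    simp only [Matrix.sub_apply, Matrix.smul_apply, smul_eq_mul]
    congr 2
    rw [Matrix.single_apply, Matrix.single_apply]
    have h2 : (c0 n X = x ∧ c0 n X = y) ↔
        ((fun _ => 0 : Fin n → Fin (M + 1)) = (fun j => ⟨x.1 j, h.1 j⟩) ∧
          (fun _ => 0 : Fin n → Fin (M + 1)) = (fun j => ⟨y.1 j, h.2 j⟩)) := by
      have h3 : ∀ (z : Ct n X) (hz : ∀ j, z.1 j < M + 1), (c0 n X = z) ↔
          ((fun _ => 0 : Fin n → Fin (M + 1)) = (fun j => ⟨z.1 j, hz j⟩)) := by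
        intro z hz
        constructor
        · intro h4
          funext j
          apply Fin.ext
          have := congrFun (congrArg Subtype.val h4) j
          simpa only [Fin.coe_ofNat_eq_mod, Nat.zero_mod, c0, Pi.zero_apply] using this
        · intro h4
          apply Subtype.ext
          funext j
          have := congrArg Fin.val (congrFun h4 j)
          simpa only [c0, Pi.zero_apply, Fin.coe_ofNat_eq_mod, Nat.zero_mod] using this
      rw [h3 x h.1, h3 y h.2]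
    simp only [h2]
  · rw [dif_neg h, dif_neg h]
    have : ¬ (c0 n X = x ∧ c0 n X = y) := by
      rintro ⟨h1, h2⟩
      apply h
      rw [← h1, ← h2]
      exact ⟨fun j => Nat.succ_pos _, fun j => Nat.succ_pos _⟩
    rw [Matrix.single_apply, if_neg this]
    simp

theorem posDef_Ck (hρ : ρ.PosDef) {k : ℝ} (hk : 1 < k) (X : ℕ) : (cut X (Ck ρ k)).PosDef := by
  obtain ⟨c, hc, hA⟩ := exists_cut_ext hρ
  unfold Ck
  rw [cut_ampE_eq]
  exact posDef_mar₁ hk hc (hA X)

theorem posDef_Dk (hρ : ρ.PosDef) {k : ℝ} (hk : 1 < k) (X : ℕ) : (cut X (Dk ρ k)).PosDef := by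
  obtain ⟨c, hc, hA⟩ := exists_cut_ext hρ
  unfold Dk
  rw [cut_conE_eq]
  exact posDef_mar₂ hk hc (hA _)

end families

end

end Vale.Agent.P369A
end
end

section

section

/-!
P369A, F1 (helper561, helper499, helper630): the two families are faithful states with explicit
energies.
-/

namespace Vale.Agent.P369A

open Matrix
open scoped ComplexOrder

noncomputable section

variable {n M : ℕ} {ρ : Matrix (Fin n → Fin (M + 1)) (Fin n → Fin (M + 1)) ℂ}

/-- F1 -/
theorem reg_Ck (hρ : ρ.PosDef) (ht : ρ.trace = 1) {k : ℝ} (hk : 1 < k) :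
    Reg (Ck ρ k) (k * en0 ρ + (k - 1) * n) := reg_Ck_of ht hk.le (posDef_Ck hρ hk)

theorem reg_Dk (hρ : ρ.PosDef) (ht : ρ.trace = 1) {k : ℝ} (hk : 1 < k) :
    Reg (Dk ρ k) ((k - 1) * (en0 ρ + n)) := reg_Dk_of ht hk.le (posDef_Dk hρ hk)

end

end Vale.Agent.P369A
end
end

section

section

/-!
P369A: derivative of the entropy of a matrix, without a condition on the trace.
-/

namespace Vale.Agent.P369A

open Matrix MeasureTheory Set
open Vale.Agent.P369V
open scoped Kronecker InnerProductSpace ComplexOrder Topology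

noncomputable section

section mat

variable {ι : Type} [Fintype ι] [DecidableEq ι]

/-- derivative of the entropy -/
theorem hasDerivAt_ent_herm {A : ℝ → Matrix ι ι ℂ} {A' : Matrix ι ι ℂ} {t : ℝ}
    (hA : ∀ i j, HasDerivAt (fun s => A s i j) (A' i j) t) (hp : (A t).PosDef)
    (hh : ∀ᶠ s in nhds t, (A s).IsHermitian) :
    HasDerivAt (fun s => ent (A s)) (-(A' * cfc Real.log (A t)).trace.re - A'.trace.re) t := by
  have hH : (A t).IsHermitian := hp.isHermitian
  -- positive semidefinite near `t`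
  have hps : ∀ᶠ s in 𝓝 t, (A s).PosSemidef := by
    rcases isEmpty_or_nonempty ι with hι | hι
    · filter_upwards [hh] with s hs
      rw [hs.posSemidef_iff_eigenvalues_nonneg]
      intro i
      exact (hι.false i).elim
    obtain ⟨l0, hl0⟩ := Finite.exists_min hH.eigenvalues
    have hm : 0 < hH.eigenvalues l0 := hp.eigenvalues_pos l0
    have hc : Filter.Tendsto (fun s => ∑ l, ‖Matrix.toEuclideanLin (A s) (hH.eigenvectorBasis l) -
        Matrix.toEuclideanLin (A t) (hH.eigenvectorBasis l)‖ ^ 2) (𝓝 t) (𝓝 0) := by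
      have h1 : ∀ l, Filter.Tendsto (fun s => ‖Matrix.toEuclideanLin (A s) (hH.eigenvectorBasis l) -
          Matrix.toEuclideanLin (A t) (hH.eigenvectorBasis l)‖ ^ 2) (𝓝 t) (𝓝 0) := by
        intro l
        have h2 := (hasDerivWithinAt_toEuclideanLin (t := univ)
          (fun i j => (hA i j).hasDerivWithinAt) (hH.eigenvectorBasis l)).continuousWithinAt
        rw [continuousWithinAt_univ] at h2
        have h3 : Filter.Tendsto (fun s => Matrix.toEuclideanLin (A s) (hH.eigenvectorBasis l) -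
            Matrix.toEuclideanLin (A t) (hH.eigenvectorBasis l)) (𝓝 t) (𝓝 0) := by
          have h4 := h2.tendsto.sub_const (Matrix.toEuclideanLin (A t) (hH.eigenvectorBasis l))
          rwa [sub_self] at h4
        have h5 := (h3.norm).pow 2
        simpa only [norm_zero, ne_eq, OfNat.ofNat_ne_zero, not_false_eq_true, zero_pow] using h5
      have h2 := tendsto_finsetSum (Finset.univ : Finset ι) fun l _ => h1 l
      simpa only [Finset.sum_const_zero] using h2
    filter_upwards [hh, hc.eventually (gt_mem_nhds (pow_pos hm 2))] with s hs h1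
    rw [hs.posSemidef_iff_eigenvalues_nonneg]
    intro k
    by_contra hk
    simp only [Pi.zero_apply, not_le] at hk
    have h2 := (eigB_matrix hs).hs (eigB_matrix hH)
    rw [h2] at h1
    have h3 : hH.eigenvalues l0 ^ 2 ≤ ∑ l, ∑ k', wt hs.eigenvectorBasis hH.eigenvectorBasis k' l *
        (hs.eigenvalues k' - hH.eigenvalues l) ^ 2 := by
      calc hH.eigenvalues l0 ^ 2
          = ∑ l, wt hs.eigenvectorBasis hH.eigenvectorBasis k l * hH.eigenvalues l0 ^ 2 := by
            rw [← Finset.sum_mul, sum_wt_right, one_mul]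
        _ ≤ _ := by
            refine Finset.sum_le_sum fun l _ => ?_
            refine le_trans ?_ (Finset.single_le_sum (f := fun k' =>
              wt hs.eigenvectorBasis hH.eigenvectorBasis k' l *
              (hs.eigenvalues k' - hH.eigenvalues l) ^ 2)
              (fun k' _ => mul_nonneg (wt_nonneg _ _ _ _) (sq_nonneg _)) (Finset.mem_univ k))
            refine mul_le_mul_of_nonneg_left ?_ (wt_nonneg _ _ _ _)
            have h4 := hl0 l
            nlinarith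
    linarith only [h1, h3]
  have h1 := hasDerivWithinAt_ment (t := univ) (s₀ := t) (M := A) (M' := A')
    (by rw [nhdsWithin_univ]; exact hps) hp (fun i j => (hA i j).hasDerivWithinAt)
    (eigB_matrix hH)
  rw [hasDerivWithinAt_univ] at h1
  have h2 : (-∑ l, (Real.log (hH.eigenvalues l) + 1) *
      RCLike.re ⟪hH.eigenvectorBasis l, Matrix.toEuclideanLin A' (hH.eigenvectorBasis l)⟫_ℂ) =
      -(A' * cfc Real.log (A t)).trace.re - A'.trace.re := by
    rw [b_trace_mul_cfc hH]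
    simp only [add_mul, one_mul, Finset.sum_add_distrib]
    have h3 : ∑ l, RCLike.re ⟪hH.eigenvectorBasis l,
        Matrix.toEuclideanLin A' (hH.eigenvectorBasis l)⟫_ℂ = A'.trace.re := by
      have h4 := b_trace_mul_cfc hH (fun _ => (1 : ℝ)) A'
      have h5 : cfc (fun _ => (1 : ℝ)) (A t) = 1 := by
        have := cfc_const_one ℝ (A t)
        exact this
      rw [h5, Matrix.mul_one] at h4
      simpa only [RCLike.re_to_complex, one_mul] using h4.symm
    rw [h3]
    ring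
  rw [h2] at h1
  refine h1.congr_of_eventuallyEq ?_
  filter_upwards [hh] with s hs using b_ent_eq hs

end mat

end

end Vale.Agent.P369A
end
end

section

section

/-!
P369A: the entropy production formulas for the amplifier flow and for its environment.
-/

namespace Vale.Agent.P369A

open Matrix MeasureTheory Set Filter
open Vale.Agent.P369 (Conf up down)
open Vale.Agent.P369V (ent e2_dg)
open scoped ComplexOrder Topology

noncomputable section

variable {n : ℕ}

/-! ### traces -/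

section tr

variable {κ : Type} [Fintype κ] [DecidableEq κ]

theorem mul_log_cfc {A : Matrix κ κ ℂ} (hA : A.PosDef) :
    A * cfc Real.log A = -cfc Real.negMulLog A ∧ cfc Real.log A * A = -cfc Real.negMulLog A := by
  obtain ⟨U, q, hU, -, -, hA1, hf⟩ := exists_eig hA
  have e1 : ∀ a b : κ → ℝ, (U * e2_dg a * star U) * (U * e2_dg b * star U) =
      U * e2_dg (fun i => a i * b i) * star U := by
    intro a b
    calc (U * e2_dg a * star U) * (U * e2_dg b * star U)
        = U * (e2_dg a * (star U * U) * e2_dg b) * star U := by simp only [Matrix.mul_assoc]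
      _ = U * (e2_dg a * e2_dg b) * star U := by rw [hU, Matrix.mul_one]
      _ = _ := by
          congr 2
          unfold e2_dg
          rw [diagonal_mul_diagonal]
          congr 1
          funext i
          push_cast
          rfl
  have e2 : -cfc Real.negMulLog A = U * e2_dg (fun i => q i * Real.log (q i)) * star U := by
    rw [hf, ← Matrix.neg_mul, ← Matrix.mul_neg]
    congr 2
    unfold e2_dg
    rw [diagonal_neg]
    congr 1
    funext i
    unfold Real.negMulLog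
    push_cast
    ring
  have e3 := hf Real.log
  rw [e2]
  constructor
  · conv_lhs => rw [e3]
    conv_lhs => rw [hA1]
    rw [e1]
  · conv_lhs => rw [e3]
    conv_lhs =>
      arg 2
      rw [hA1]
    rw [e1]
    congr 2
    congr 1
    funext i
    ring

omit [DecidableEq κ] in
theorem re_trace_smul_half (A : Matrix κ κ ℂ) :
    ((1 / 2 : ℂ) • A).trace.re = A.trace.re / 2 := by
  rw [trace_smul, smul_eq_mul]
  have h : (1 / 2 : ℂ) = ((1 / 2 : ℝ) : ℂ) := by push_cast; rfl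
  rw [h, Complex.re_ofReal_mul]
  ring

theorem re_trace_diag_mul (d : κ → ℝ) (A : Matrix κ κ ℂ) :
    (diagonal (fun x => ((d x : ℝ) : ℂ)) * A).trace.re = ∑ x, d x * (A x x).re := by
  rw [trace, Complex.re_sum]
  refine Finset.sum_congr rfl fun x _ => ?_
  rw [diag_apply, diagonal_mul, Complex.re_ofReal_mul]

end tr

theorem uB_eq (s : Ker n) (X : ℕ) :
    uB s X = (NN n X * cfc Real.negMulLog (cut X s)).trace.re := by
  unfold NN
  rw [re_trace_diag_mul]
  rfl

theorem wB_eq (s : Ker n) (X : ℕ) :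
    wB s X = (Nd n X * cfc Real.negMulLog (cut X s)).trace.re := by
  unfold Nd
  rw [re_trace_diag_mul]
  rfl

/-- `Tr (N+n) A - Tr N A = n Tr A` -/
theorem NN_sub_Nd (s : Ker n) (X : ℕ) :
    (NN n X * cut X s).trace.re - (Nd n X * cut X s).trace.re = n * trX s X := by
  unfold NN Nd
  rw [re_trace_diag_mul, re_trace_diag_mul, ← Finset.sum_sub_distrib]
  unfold trX
  rw [Finset.mul_sum]
  refine Finset.sum_congr rfl fun x _ => ?_
  show (tot x.1 + n) * (s x.1 x.1).re - tot x.1 * (s x.1 x.1).re = _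
  ring

/-! ### the generators -/

theorem genA_eq (s : Ker n) (X : ℕ) (x y : Ct n (X + 1)) : genA s x.1 y.1 = genC X s x y := by
  unfold genA genC
  rw [Matrix.sub_apply, Matrix.sum_apply, Matrix.smul_apply, Matrix.add_apply, smul_eq_mul]
  unfold NN
  rw [Matrix.diagonal_mul, Matrix.mul_diagonal]
  congr 1
  · refine Finset.sum_congr rfl fun j _ => ?_
    rw [conj_annR_mul]
    by_cases h : 1 ≤ x.1 j ∧ 1 ≤ y.1 j
    · rw [if_pos h]
    · rw [if_neg h]
      have h1 : x.1 j = 0 ∨ y.1 j = 0 := by omega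
      rcases h1 with h1 | h1
      · rw [h1]; simp only [CharP.cast_eq_zero, Real.sqrt_zero, zero_mul, Complex.ofReal_zero]
      · rw [h1]; simp only [CharP.cast_eq_zero, Real.sqrt_zero, mul_zero, Complex.ofReal_zero, zero_mul]
  · show _ = 1 / 2 * (((tot x.1 + n : ℝ) : ℂ) * s x.1 y.1 + s x.1 y.1 * ((tot y.1 + n : ℝ) : ℂ))
    unfold tot
    push_cast
    ring

theorem genL_eq (s : Ker n) (X : ℕ) (x y : Ct n X) : -genL s x.1 y.1 = genD X s x y := by
  unfold genL genD
  rw [Matrix.sub_apply, Matrix.sum_apply, Matrix.smul_apply, Matrix.add_apply, smul_eq_mul]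
  unfold Nd
  rw [Matrix.diagonal_mul, Matrix.mul_diagonal, neg_sub]
  congr 1
  · show _ = 1 / 2 * (((tot x.1 : ℝ) : ℂ) * s x.1 y.1 + s x.1 y.1 * ((tot y.1 : ℝ) : ℂ))
    unfold tot
    push_cast
    ring
  · exact Finset.sum_congr rfl fun j _ => (annR_mul_conj j s x y).symm

/-- P1: derivative of the entropy, no condition on the trace -/
theorem hasDerivAt_ent_gen {ι : Type} [Fintype ι] [DecidableEq ι] {A : ℝ → Matrix ι ι ℂ}
    {A' : Matrix ι ι ℂ} {t : ℝ} (hA : ∀ i j, HasDerivAt (fun s => A s i j) (A' i j) t)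
    (hp : (A t).PosDef) (hh : ∀ᶠ s in 𝓝 t, (A s).PosSemidef) :
    HasDerivAt (fun s => ent (A s)) (-(A' * cfc Real.log (A t)).trace.re - A'.trace.re) t :=
  hasDerivAt_ent_herm hA hp (hh.mono fun _ h => h.isHermitian)

/-- the entropy production of the amplifier generator -/
theorem prod_genC {s : Ker n} {X : ℕ} (h0 : (cut X s).PosDef) (h1 : (cut (X + 1) s).PosDef) :
    -(genC X s * cfc Real.log (cut (X + 1) s)).trace.re - (genC X s).trace.re =
      Pp s X + uB s X - uB s (X + 1) := by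
  set σ := cut X s with hσ
  set A := cut (X + 1) s with hA
  set L := cfc Real.log A with hL
  obtain ⟨hAL, hLA⟩ := mul_log_cfc h1
  rw [← hL] at hAL hLA
  -- the integral
  have hint : ∀ j : Fin n, IntervalIntegrable (fun m => Qf m σ A (annR X j * A - σ * annR X j))
      volume 0 1 := fun j => (int_Qf h0 h1 (annR X j)).1
  have hI : ∫ m in (0 : ℝ)..1, (1 - m) * FX m s X =
      -(NN n X * cfc Real.negMulLog σ).trace.re -
        (∑ j : Fin n, (σ * annR X j * L * (annR X j)ᴴ).trace.re) -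
        (NN n X * σ).trace.re + (Nd n (X + 1) * A).trace.re := by
    have e1 : ∫ m in (0 : ℝ)..1, (1 - m) * FX m s X =
        ∑ j : Fin n, ∫ m in (0 : ℝ)..1, (1 - m) * Qf m σ A (annR X j * A - σ * annR X j) := by
      rw [← intervalIntegral.integral_finsetSum]
      · refine intervalIntegral.integral_congr fun m _ => ?_
        show (1 - m) * FX m s X = _
        unfold FX
        rw [Finset.mul_sum]
        rfl
      · intro j _
        exact (hint j).continuousOn_mul (by fun_prop)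
    rw [e1, Finset.sum_congr rfl (fun j _ => (int_Qf h0 h1 (annR X j)).2.1)]
    rw [Finset.sum_add_distrib, Finset.sum_sub_distrib, Finset.sum_sub_distrib,
      Finset.sum_neg_distrib]
    have e2 : ∑ j : Fin n, (cfc Real.negMulLog σ * (annR X j * (annR X j)ᴴ)).trace.re =
        (NN n X * cfc Real.negMulLog σ).trace.re := by
      rw [← sum_annR_mul_conj, trace_mul_comm, Finset.mul_sum, trace_sum, Complex.re_sum]
    have e3 : ∑ j : Fin n, (σ * (annR X j * (annR X j)ᴴ)).trace.re = (NN n X * σ).trace.re := by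
      rw [← sum_annR_mul_conj, trace_mul_comm, Finset.mul_sum, trace_sum, Complex.re_sum]
    have e4 : ∑ j : Fin n, (A * ((annR X j)ᴴ * annR X j)).trace.re = (Nd n (X + 1) * A).trace.re := by
      rw [← sum_conj_mul_annR, trace_mul_comm, Finset.mul_sum, trace_sum, Complex.re_sum]
    rw [e2, e3, e4]
  -- the traces of the generator
  have t1 : (genC X s * L).trace.re = (∑ j : Fin n, (σ * annR X j * L * (annR X j)ᴴ).trace.re) +
      (NN n (X + 1) * cfc Real.negMulLog A).trace.re := by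
    unfold genC
    rw [Matrix.sub_mul, trace_sub, Complex.sub_re, Matrix.smul_mul, re_trace_smul_half,
      Matrix.add_mul, trace_add, Complex.add_re, Finset.sum_mul, trace_sum, Complex.re_sum,
      Matrix.mul_assoc (NN n (X + 1)) _ L]
    have e1 : (cut (X + 1) s * NN n (X + 1) * L).trace = (NN n (X + 1) * (L * A)).trace := by
      rw [Matrix.mul_assoc, trace_mul_comm, Matrix.mul_assoc]
    rw [e1, ← hA, hAL, hLA, Matrix.mul_neg, trace_neg, Complex.neg_re]
    have e2 : ∀ j : Fin n, ((annR X j)ᴴ * cut X s * annR X j * L).trace =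
        (σ * annR X j * L * (annR X j)ᴴ).trace := by
      intro j
      rw [Matrix.mul_assoc, Matrix.mul_assoc, trace_mul_comm]
      simp only [Matrix.mul_assoc]
      rfl
    rw [Finset.sum_congr rfl (fun j _ => congrArg Complex.re (e2 j))]
    ring
  have t2 : (genC X s).trace.re = (NN n X * σ).trace.re - (NN n (X + 1) * A).trace.re := by
    unfold genC
    rw [trace_sub, Complex.sub_re, re_trace_smul_half, trace_add, Complex.add_re, trace_sum,
      Complex.re_sum]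
    have e1 : (cut (X + 1) s * NN n (X + 1)).trace = (NN n (X + 1) * A).trace := trace_mul_comm _ _
    have e2 : ∀ j : Fin n, ((annR X j)ᴴ * cut X s * annR X j).trace =
        (annR X j * (annR X j)ᴴ * σ).trace := by
      intro j
      rw [trace_mul_comm, ← Matrix.mul_assoc]
    rw [e1, Finset.sum_congr rfl (fun j _ => congrArg Complex.re (e2 j)), ← hA,
      ← sum_annR_mul_conj X, Finset.sum_mul, trace_sum, Complex.re_sum]
    ring
  have t3 := NN_sub_Nd s (X + 1)
  unfold Pp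
  rw [t1, t2, hI, uB_eq, uB_eq]
  rw [← hA] at t3
  linarith only [t3]

/-- the entropy production of the loss generator -/
theorem prod_genD {s : Ker n} {X : ℕ} (h0 : (cut X s).PosDef) (h1 : (cut (X + 1) s).PosDef) :
    -(genD X s * cfc Real.log (cut X s)).trace.re - (genD X s).trace.re =
      Pm s X + wB s X - wB s (X + 1) := by
  set σ := cut X s with hσ
  set A := cut (X + 1) s with hA
  set L := cfc Real.log σ with hL
  obtain ⟨hAL, hLA⟩ := mul_log_cfc h0
  rw [← hL] at hAL hLA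
  have hint : ∀ j : Fin n, IntervalIntegrable (fun m => Qf m σ A (annR X j * A - σ * annR X j))
      volume 0 1 := fun j => (int_Qf h0 h1 (annR X j)).1
  have hI : ∫ m in (0 : ℝ)..1, m * FX m s X =
      (NN n X * σ).trace.re - (Nd n (X + 1) * A).trace.re -
        (∑ j : Fin n, (L * annR X j * A * (annR X j)ᴴ).trace.re) -
        (Nd n (X + 1) * cfc Real.negMulLog A).trace.re := by
    have e1 : ∫ m in (0 : ℝ)..1, m * FX m s X =
        ∑ j : Fin n, ∫ m in (0 : ℝ)..1, m * Qf m σ A (annR X j * A - σ * annR X j) := by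
      rw [← intervalIntegral.integral_finsetSum]
      · refine intervalIntegral.integral_congr fun m _ => ?_
        show m * FX m s X = _
        unfold FX
        rw [Finset.mul_sum]
        rfl
      · intro j _
        exact (hint j).continuousOn_mul (by fun_prop)
    rw [e1, Finset.sum_congr rfl (fun j _ => (int_Qf h0 h1 (annR X j)).2.2)]
    rw [Finset.sum_sub_distrib, Finset.sum_sub_distrib, Finset.sum_sub_distrib]
    have e2 : ∑ j : Fin n, (cfc Real.negMulLog A * ((annR X j)ᴴ * annR X j)).trace.re =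
        (Nd n (X + 1) * cfc Real.negMulLog A).trace.re := by
      rw [← sum_conj_mul_annR, trace_mul_comm, Finset.mul_sum, trace_sum, Complex.re_sum]
    have e3 : ∑ j : Fin n, (σ * (annR X j * (annR X j)ᴴ)).trace.re = (NN n X * σ).trace.re := by
      rw [← sum_annR_mul_conj, trace_mul_comm, Finset.mul_sum, trace_sum, Complex.re_sum]
    have e4 : ∑ j : Fin n, (A * ((annR X j)ᴴ * annR X j)).trace.re = (Nd n (X + 1) * A).trace.re := by
      rw [← sum_conj_mul_annR, trace_mul_comm, Finset.mul_sum, trace_sum, Complex.re_sum]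
    rw [e2, e3, e4]
  have t1 : (genD X s * L).trace.re = -(Nd n X * cfc Real.negMulLog σ).trace.re -
      (∑ j : Fin n, (L * annR X j * A * (annR X j)ᴴ).trace.re) := by
    unfold genD
    rw [Matrix.sub_mul, trace_sub, Complex.sub_re, Matrix.smul_mul, re_trace_smul_half,
      Matrix.add_mul, trace_add, Complex.add_re, Finset.sum_mul, trace_sum, Complex.re_sum,
      Matrix.mul_assoc (Nd n X) _ L]
    have e1 : (cut X s * Nd n X * L).trace = (Nd n X * (L * σ)).trace := by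
      rw [Matrix.mul_assoc, trace_mul_comm, Matrix.mul_assoc]
    rw [e1, ← hσ, hAL, hLA, Matrix.mul_neg, trace_neg, Complex.neg_re]
    have e2 : ∀ j : Fin n, (annR X j * cut (X + 1) s * (annR X j)ᴴ * L).trace =
        (L * annR X j * A * (annR X j)ᴴ).trace := by
      intro j
      rw [trace_mul_comm]
      simp only [Matrix.mul_assoc]
      rfl
    rw [Finset.sum_congr rfl (fun j _ => congrArg Complex.re (e2 j))]
    ring
  have t2 : (genD X s).trace.re = (Nd n X * σ).trace.re - (Nd n (X + 1) * A).trace.re := by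
    unfold genD
    rw [trace_sub, Complex.sub_re, re_trace_smul_half, trace_add, Complex.add_re, trace_sum,
      Complex.re_sum]
    have e1 : (cut X s * Nd n X).trace = (Nd n X * σ).trace := trace_mul_comm _ _
    have e2 : ∀ j : Fin n, (annR X j * cut (X + 1) s * (annR X j)ᴴ).trace =
        ((annR X j)ᴴ * annR X j * A).trace := by
      intro j
      rw [trace_mul_comm, ← Matrix.mul_assoc]
    rw [e1, Finset.sum_congr rfl (fun j _ => congrArg Complex.re (e2 j)), ← hσ,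
      ← sum_conj_mul_annR X, Finset.sum_mul, trace_sum, Complex.re_sum]
    ring
  have t3 := NN_sub_Nd s X
  unfold Pm
  rw [t1, t2, hI, wB_eq, wB_eq]
  rw [← hσ] at t3
  linarith only [t3]

/-- P2 -/
theorem deriv_C {s : ℝ → Ker n} {k : ℝ} (hp : ∀ X, (cut X (s k)).PosDef)
    (hh : ∀ X, ∀ᶠ t in 𝓝 k, (cut X (s t)).PosSemidef)
    (hd : ∀ x y, HasDerivAt (fun t => s t x y) (((1 / k : ℝ) : ℂ) * genA (s k) x y) k) (X : ℕ) :
    HasDerivAt (fun t => ent (cut (X + 1) (s t)))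
      (1 / k * (Pp (s k) X + uB (s k) X - uB (s k) (X + 1))) k := by
  have h1 : ∀ x y : Ct n (X + 1), HasDerivAt (fun t => cut (X + 1) (s t) x y)
      ((((1 / k : ℝ) : ℂ) • genC X (s k)) x y) k := by
    intro x y
    refine (hd x.1 y.1).congr_deriv ?_
    rw [Matrix.smul_apply, smul_eq_mul, genA_eq]
  have h2 := hasDerivAt_ent_gen h1 (hp (X + 1)) (hh (X + 1))
  refine h2.congr_deriv ?_
  rw [← prod_genC (hp X) (hp (X + 1)), Matrix.smul_mul, trace_smul, trace_smul, smul_eq_mul,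
    smul_eq_mul, Complex.re_ofReal_mul, Complex.re_ofReal_mul]
  ring

/-- P3 -/
theorem deriv_D {s : ℝ → Ker n} {k : ℝ} (hp : ∀ X, (cut X (s k)).PosDef)
    (hh : ∀ X, ∀ᶠ t in 𝓝 k, (cut X (s t)).PosSemidef)
    (hd : ∀ x y, HasDerivAt (fun t => s t x y) (-((1 / (k - 1) : ℝ) : ℂ) * genL (s k) x y) k)
    (X : ℕ) :
    HasDerivAt (fun t => ent (cut X (s t)))
      (1 / (k - 1) * (Pm (s k) X + wB (s k) X - wB (s k) (X + 1))) k := by
  have h1 : ∀ x y : Ct n X, HasDerivAt (fun t => cut X (s t) x y)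
      ((((1 / (k - 1) : ℝ) : ℂ) • genD X (s k)) x y) k := by
    intro x y
    refine (hd x.1 y.1).congr_deriv ?_
    rw [Matrix.smul_apply, smul_eq_mul, ← genL_eq]
    ring
  have h2 := hasDerivAt_ent_gen h1 (hp X) (hh X)
  refine h2.congr_deriv ?_
  rw [← prod_genD (hp X) (hp (X + 1)), Matrix.smul_mul, trace_smul, trace_smul, smul_eq_mul,
    smul_eq_mul, Complex.re_ofReal_mul, Complex.re_ofReal_mul]
  ring

/-! ### the families -/

theorem hasDerivAt_ampE_gen {k : ℝ} (hk : 1 < k) (s : Ker n) (x y : Conf n) :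
    HasDerivAt (fun t => ampE t s x y) (((1 / k : ℝ) : ℂ) * genA (ampE k s) x y) k := by
  refine (hasDerivAt_ampE hk s x y).congr_deriv ?_
  congr 1
  unfold genA
  congr 1
  refine Finset.sum_congr rfl fun j _ => ?_
  by_cases h : 1 ≤ x j ∧ 1 ≤ y j
  · rw [if_pos h]
  · rw [if_neg h]
    have h1 : x j = 0 ∨ y j = 0 := by omega
    rcases h1 with h1 | h1
    · rw [h1]; simp only [CharP.cast_eq_zero, Real.sqrt_zero, zero_mul, Complex.ofReal_zero]
    · rw [h1]; simp

theorem hasDerivAt_conE_gen {k : ℝ} (hk : 1 < k) (Y : ℕ) (s : Ker n) (x y : Conf n) :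
    HasDerivAt (fun t => conE t Y s x y)
      (-((1 / (k - 1) : ℝ) : ℂ) * genL (conE k Y s) x y) k := by
  refine (hasDerivAt_conE hk Y s x y).congr_deriv ?_
  unfold genL tot
  ring

variable {M : ℕ} {ρ : Matrix (Fin n → Fin (M + 1)) (Fin n → Fin (M + 1)) ℂ}

/-- F2 -/
theorem hasDerivAt_Ck {k : ℝ} (hk : 1 < k) (x y : Conf n) :
    HasDerivAt (fun t => Ck ρ t x y) (((1 / k : ℝ) : ℂ) * genA (Ck ρ k) x y) k :=
  hasDerivAt_ampE_gen hk (ext ρ) x y

theorem hasDerivAt_Dk {k : ℝ} (hk : 1 < k) (x y : Conf n) :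
    HasDerivAt (fun t => Dk ρ t x y) (-((1 / (k - 1) : ℝ) : ℂ) * genL (Dk ρ k) x y) k :=
  hasDerivAt_conE_gen hk (n * M) (ext ρ) x y

end

end Vale.Agent.P369A
end
end

section

section

/-!
P369A, module G4 (helper630): continuity of the functionals along a family.
-/

namespace Vale.Agent.P369A

open Matrix MeasureTheory Set Filter
open Vale.Agent.P369 (Conf up down)
open Vale.Agent.P369V (ent)
open scoped ComplexOrder Topology

noncomputable section

section cf

open scoped Matrix.Norms.L2Operator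

theorem g4_cfc {ι : Type} [Fintype ι] [DecidableEq ι] {S : Set ℝ} {A : ℝ → Matrix ι ι ℂ}
    (hA : ContinuousOn A S) (hh : ∀ k ∈ S, (A k).IsHermitian) :
    ContinuousOn (fun k => cfc Real.negMulLog (A k)) S := by
  refine ContinuousOn.cfc_of_mem_nhdsSet (s := univ) _ ?_ hA ?_ ?_
  · exact univ_mem
  · intro k hk
    exact hh k hk
  · exact Real.continuous_negMulLog.continuousOn

end cf

/-- continuity of parametric integrals -/
theorem g4_param {F : ℝ → ℝ → ℝ} {S : Set ℝ}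
    (hF : ContinuousOn (Function.uncurry F) (S ×ˢ Icc (0 : ℝ) 1)) :
    ContinuousOn (fun t => ∫ l in (0 : ℝ)..1, F t l) S := by
  intro t0 ht0
  have hslice : ∀ t ∈ S, ContinuousOn (F t) (Icc 0 1) := fun t ht =>
    hF.comp (f := fun l => (t, l)) (by fun_prop) (fun l hl => ⟨ht, hl⟩)
  -- local bound
  have hb : ∃ C : ℝ, ∀ᶠ t in 𝓝[S] t0, ∀ l ∈ Icc (0 : ℝ) 1, ‖F t l‖ ≤ C := by
    obtain ⟨C, hC⟩ := isCompact_Icc.exists_bound_of_continuousOn (hslice t0 ht0)
    refine ⟨C + 1, ?_⟩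
    have h1 : ∀ l ∈ Icc (0 : ℝ) 1, ∀ᶠ p : ℝ × ℝ in 𝓝[S] t0 ×ˢ 𝓝[Icc 0 1] l,
        ‖F p.1 p.2‖ < C + 1 := by
      intro l hl
      have h2 := hF (t0, l) ⟨ht0, hl⟩
      rw [ContinuousWithinAt, nhdsWithin_prod_eq] at h2
      have h3 := h2.norm
      refine h3.eventually_lt_const ?_
      have := hC l hl
      simp only [Function.uncurry_apply_pair]
      linarith only [this]
    have h2 := isCompact_Icc.eventually_forall_of_forall_eventually (K := Icc (0 : ℝ) 1)
      (x₀ := t0) (P := fun t l => t ∈ S → l ∈ Icc (0 : ℝ) 1 → ‖F t l‖ < C + 1) ?_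
    · rw [eventually_nhdsWithin_iff]
      filter_upwards [h2] with t ht hS l hl
      exact (ht l hl hS hl).le
    · intro l hl
      have h3 := h1 l hl
      rw [← nhdsWithin_prod_eq, eventually_nhdsWithin_iff] at h3
      filter_upwards [h3] with z hz h4 h5
      exact hz ⟨h4, h5⟩
  obtain ⟨C, hC⟩ := hb
  refine intervalIntegral.continuousWithinAt_of_dominated_interval (bound := fun _ => C) ?_ ?_
    intervalIntegrable_const ?_
  · filter_upwards [self_mem_nhdsWithin] with t ht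
    rw [uIoc_of_le zero_le_one]
    exact ((hslice t ht).mono Ioc_subset_Icc_self).aestronglyMeasurable measurableSet_Ioc
  · filter_upwards [hC] with t ht
    refine Eventually.of_forall fun l hl => ?_
    rw [uIoc_of_le zero_le_one] at hl
    exact ht l (Ioc_subset_Icc_self hl)
  · refine Eventually.of_forall fun l hl => ?_
    rw [uIoc_of_le zero_le_one] at hl
    exact (hF.comp (f := fun t => (t, l)) (by fun_prop)
      (fun t ht => ⟨ht, Ioc_subset_Icc_self hl⟩)) t0 ht0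

variable {n : ℕ}

theorem g4_cut {S : Set ℝ} {s : ℝ → Ker n} (hc : ∀ x y, ContinuousOn (fun k => s k x y) S)
    (X : ℕ) : ContinuousOn (fun k => cut X (s k)) S :=
  continuousOn_pi.2 fun x => continuousOn_pi.2 fun y => hc x.1 y.1

theorem g4_Zr {S : Set ℝ} {s : ℝ → Ker n} {r : ℝ → ℝ}
    (hc : ∀ x y, ContinuousOn (fun k => s k x y) S) (hr : ContinuousOn r S) (X : ℕ) (j : Fin n) :
    ContinuousOn (fun k => Zr (r k) (s k) X j) S := by
  refine continuousOn_pi.2 fun x => continuousOn_pi.2 fun y => ?_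
  simp only [Zr, Matrix.sub_apply, Matrix.smul_apply, Matrix.mul_apply, smul_eq_mul]
  have h1 : ContinuousOn (fun k => ((r k : ℝ) : ℂ)) S := Complex.continuous_ofReal.comp_continuousOn hr
  have h2 : ContinuousOn (fun k => ((r k + 1 : ℝ) : ℂ)) S :=
    Complex.continuous_ofReal.comp_continuousOn (hr.add continuousOn_const)
  refine ContinuousOn.sub (h2.mul ?_) (h1.mul ?_)
  · exact continuousOn_finsetSum _ fun i _ => continuousOn_const.mul (hc i.1 y.1)
  · exact continuousOn_finsetSum _ fun i _ => (hc x.1 i.1).mul continuousOn_const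

theorem g4_Z {S : Set ℝ} {s : ℝ → Ker n}
    (hc : ∀ x y, ContinuousOn (fun k => s k x y) S) (X : ℕ) (j : Fin n) :
    ContinuousOn (fun k => annR X j * cut (X + 1) (s k) - cut X (s k) * annR X j) S := by
  refine continuousOn_pi.2 fun x => continuousOn_pi.2 fun y => ?_
  simp only [Matrix.sub_apply, Matrix.mul_apply]
  refine ContinuousOn.sub ?_ ?_
  · exact continuousOn_finsetSum _ fun i _ => continuousOn_const.mul (hc i.1 y.1)
  · exact continuousOn_finsetSum _ fun i _ => (hc x.1 i.1).mul continuousOn_const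

theorem g4_Qf3 {ι κ : Type} [Fintype ι] [DecidableEq ι] [Fintype κ] [DecidableEq κ] {S : Set ℝ}
    {A : ℝ → Matrix ι ι ℂ} {B : ℝ → Matrix κ κ ℂ} {Z : ℝ → Matrix ι κ ℂ}
    (h1 : ContinuousOn (fun p : ℝ × ℝ => (p.2, A p.1, B p.1, Z p.1)) (S ×ˢ Icc 0 1))
    (h2 : MapsTo (fun p : ℝ × ℝ => (p.2, A p.1, B p.1, Z p.1)) (S ×ˢ Icc (0 : ℝ) 1)
      (Icc (0 : ℝ) 1 ×ˢ ({σ : Matrix ι ι ℂ | σ.PosDef} ×ˢ
      ({ρ : Matrix κ κ ℂ | ρ.PosDef} ×ˢ Set.univ)))) :
    ContinuousOn (fun p : ℝ × ℝ => Qf p.2 (A p.1) (B p.1) (Z p.1)) (S ×ˢ Icc 0 1) := by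
  have h3 := ContinuousOn.comp (@continuousOn_Qf ι κ _ _ _ _) h1 h2
  exact h3

theorem g4_Qf2 {ι κ : Type} {S : Set ℝ}
    {A : ℝ → Matrix ι ι ℂ} {B : ℝ → Matrix κ κ ℂ} {Z : ℝ → Matrix ι κ ℂ}
    (hA : ContinuousOn A S) (hB : ContinuousOn B S) (hZ : ContinuousOn Z S) :
    ContinuousOn (fun p : ℝ × ℝ => (p.2, A p.1, B p.1, Z p.1)) (S ×ˢ Icc 0 1) := by
  have hm : MapsTo (Prod.fst : ℝ × ℝ → ℝ) (S ×ˢ Icc (0 : ℝ) 1) S := fun p hp => hp.1
  have hA1 : ContinuousOn (fun p : ℝ × ℝ => A p.1) (S ×ˢ Icc 0 1) := hA.comp continuousOn_fst hm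
  have hB1 : ContinuousOn (fun p : ℝ × ℝ => B p.1) (S ×ˢ Icc 0 1) := hB.comp continuousOn_fst hm
  have hZ1 : ContinuousOn (fun p : ℝ × ℝ => Z p.1) (S ×ˢ Icc 0 1) := hZ.comp continuousOn_fst hm
  exact continuousOn_snd.prodMk (hA1.prodMk (hB1.prodMk hZ1))

theorem g4_Qf {ι κ : Type} [Fintype ι] [DecidableEq ι] [Fintype κ] [DecidableEq κ] {S : Set ℝ}
    {A : ℝ → Matrix ι ι ℂ} {B : ℝ → Matrix κ κ ℂ} {Z : ℝ → Matrix ι κ ℂ}
    (hA : ContinuousOn A S) (hB : ContinuousOn B S) (hZ : ContinuousOn Z S)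
    (hA' : ∀ k ∈ S, (A k).PosDef) (hB' : ∀ k ∈ S, (B k).PosDef) :
    ContinuousOn (fun p : ℝ × ℝ => Qf p.2 (A p.1) (B p.1) (Z p.1)) (S ×ˢ Icc 0 1) :=
  g4_Qf3 (g4_Qf2 hA hB hZ) fun p hp => ⟨hp.2, hA' p.1 hp.1, hB' p.1 hp.1, mem_univ _⟩

/-- G4: continuity along a family -/
theorem continuousOn_IX {S : Set ℝ} {s : ℝ → Ker n} {r : ℝ → ℝ}
    (hs : ∀ k ∈ S, ∀ X, (cut X (s k)).PosDef) (hc : ∀ x y, ContinuousOn (fun k => s k x y) S)
    (hr : ContinuousOn r S) (X : ℕ) :
    ContinuousOn (fun p : ℝ × ℝ => IX p.2 (r p.1) (s p.1) X) (S ×ˢ Icc 0 1) := by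
  unfold IX
  exact continuousOn_finsetSum _ fun j _ => g4_Qf (A := fun k => cut X (s k))
    (B := fun k => cut (X + 1) (s k)) (Z := fun k => Zr (r k) (s k) X j) (g4_cut hc X)
    (g4_cut hc (X + 1)) (g4_Zr hc hr X j) (fun k hk => hs k hk X) (fun k hk => hs k hk (X + 1))

theorem continuousOn_FX {S : Set ℝ} {s : ℝ → Ker n}
    (hs : ∀ k ∈ S, ∀ X, (cut X (s k)).PosDef) (hc : ∀ x y, ContinuousOn (fun k => s k x y) S)
    (X : ℕ) : ContinuousOn (fun p : ℝ × ℝ => FX p.2 (s p.1) X) (S ×ˢ Icc 0 1) := by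
  unfold FX
  exact continuousOn_finsetSum _ fun j _ => g4_Qf (A := fun k => cut X (s k))
    (B := fun k => cut (X + 1) (s k))
    (Z := fun k => annR X j * cut (X + 1) (s k) - cut X (s k) * annR X j) (g4_cut hc X)
    (g4_cut hc (X + 1)) (g4_Z hc X j) (fun k hk => hs k hk X) (fun k hk => hs k hk (X + 1))

theorem continuousOn_trX {S : Set ℝ} {s : ℝ → Ker n}
    (hc : ∀ x y, ContinuousOn (fun k => s k x y) S) (X : ℕ) :
    ContinuousOn (fun k => trX (s k) X) S := by
  unfold trX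
  exact continuousOn_finsetSum _ fun x _ => Complex.continuous_re.comp_continuousOn (hc x.1 x.1)

theorem continuousOn_enX {S : Set ℝ} {s : ℝ → Ker n}
    (hc : ∀ x y, ContinuousOn (fun k => s k x y) S) (X : ℕ) :
    ContinuousOn (fun k => enX (s k) X) S := by
  unfold enX
  exact continuousOn_finsetSum _ fun x _ =>
    continuousOn_const.mul (Complex.continuous_re.comp_continuousOn (hc x.1 x.1))

theorem continuousOn_Pp {S : Set ℝ} {s : ℝ → Ker n}
    (hs : ∀ k ∈ S, ∀ X, (cut X (s k)).PosDef) (hc : ∀ x y, ContinuousOn (fun k => s k x y) S)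
    (X : ℕ) : ContinuousOn (fun k => Pp (s k) X) S := by
  unfold Pp
  refine (continuousOn_const.mul (continuousOn_trX hc (X + 1))).add ?_
  refine g4_param (F := fun k m => (1 - m) * FX m (s k) X) ?_
  exact ContinuousOn.mul (f := fun p : ℝ × ℝ => 1 - p.2) (by fun_prop) (continuousOn_FX hs hc X)

theorem continuousOn_Pm {S : Set ℝ} {s : ℝ → Ker n}
    (hs : ∀ k ∈ S, ∀ X, (cut X (s k)).PosDef) (hc : ∀ x y, ContinuousOn (fun k => s k x y) S)
    (X : ℕ) : ContinuousOn (fun k => Pm (s k) X) S := by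
  unfold Pm
  refine (continuousOn_const.mul (continuousOn_trX hc X)).sub ?_
  refine g4_param (F := fun k m => m * FX m (s k) X) ?_
  exact ContinuousOn.mul (f := fun p : ℝ × ℝ => p.2) (by fun_prop) (continuousOn_FX hs hc X)

theorem g4_nml {S : Set ℝ} {s : ℝ → Ker n}
    (hs : ∀ k ∈ S, ∀ X, (cut X (s k)).PosDef) (hc : ∀ x y, ContinuousOn (fun k => s k x y) S)
    (X : ℕ) (x : Ct n X) :
    ContinuousOn (fun k => ((cfc Real.negMulLog (cut X (s k))) x x).re) S := by
  have h := g4_cfc (g4_cut hc X) (fun k hk => (hs k hk X).isHermitian)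
  exact Complex.continuous_re.comp_continuousOn (continuousOn_pi.1 (continuousOn_pi.1 h x) x)

theorem continuousOn_uB {S : Set ℝ} {s : ℝ → Ker n}
    (hs : ∀ k ∈ S, ∀ X, (cut X (s k)).PosDef) (hc : ∀ x y, ContinuousOn (fun k => s k x y) S)
    (X : ℕ) : ContinuousOn (fun k => uB (s k) X) S := by
  unfold uB
  exact continuousOn_finsetSum _ fun x _ => continuousOn_const.mul (g4_nml hs hc X x)

theorem continuousOn_wB {S : Set ℝ} {s : ℝ → Ker n}
    (hs : ∀ k ∈ S, ∀ X, (cut X (s k)).PosDef) (hc : ∀ x y, ContinuousOn (fun k => s k x y) S)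
    (X : ℕ) : ContinuousOn (fun k => wB (s k) X) S := by
  unfold wB
  exact continuousOn_finsetSum _ fun x _ => continuousOn_const.mul (g4_nml hs hc X x)

end

end Vale.Agent.P369A
end
end

section

section

/-!
P369A, modules E1 and E2 (helper283): bounds for the boundary terms and for the entropy of a
compression by the energy.
-/

namespace Vale.Agent.P369A

open Matrix MeasureTheory Set Filter
open Vale.Agent.P369 (Conf up down)
open Vale.Agent.P369V (ent)
open scoped ComplexOrder Topology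

noncomputable section

section mat

variable {ι : Type} [Fintype ι] [DecidableEq ι]

/-- the diagonal of a function of a hermitian matrix -/
theorem e1_diag {A : Matrix ι ι ℂ} (hA : A.IsHermitian) (f : ℝ → ℝ) (x : ι) :
    ((cfc f A) x x).re =
      ∑ i, Complex.normSq ((hA.eigenvectorUnitary : Matrix ι ι ℂ) x i) * f (hA.eigenvalues i) := by
  rw [hA.cfc_eq, Matrix.IsHermitian.cfc, Unitary.conjStarAlgAut_apply, Matrix.mul_apply,
    Complex.re_sum]
  refine Finset.sum_congr rfl fun i _ => ?_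
  rw [Matrix.mul_diagonal, Matrix.star_apply]
  simp only [Function.comp_apply, RCLike.star_def]
  rw [mul_right_comm, Complex.mul_conj]
  exact (Complex.re_ofReal_mul _ _).trans (by simp)

theorem e1_one {A : Matrix ι ι ℂ} (hA : A.IsHermitian) (x : ι) :
    ∑ i, Complex.normSq ((hA.eigenvectorUnitary : Matrix ι ι ℂ) x i) = 1 := by
  have h := hA.eigenvectorUnitary.2
  rw [Matrix.mem_unitaryGroup_iff] at h
  have h2 := congrFun (congrFun h x) x
  rw [Matrix.mul_apply, Matrix.one_apply_eq] at h2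
  have h3 := congrArg Complex.re h2
  rw [Complex.re_sum, Complex.one_re] at h3
  rw [← h3]
  refine Finset.sum_congr rfl fun i _ => ?_
  rw [Matrix.star_apply, RCLike.star_def, Complex.mul_conj, Complex.ofReal_re]

theorem e1_entry {A : Matrix ι ι ℂ} (hA : A.IsHermitian) (x : ι) :
    (A x x).re =
      ∑ i, Complex.normSq ((hA.eigenvectorUnitary : Matrix ι ι ℂ) x i) * hA.eigenvalues i := by
  have h := e1_diag hA (fun t => t) x
  rw [cfc_id' ℝ A (show IsSelfAdjoint A from hA)] at h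
  exact h

/-- Young's inequality on the diagonal -/
theorem e1_diag_le {A : Matrix ι ι ℂ} (hA : A.PosSemidef) (E : ℝ) (x : ι) :
    ((cfc Real.negMulLog A) x x).re ≤ E * (A x x).re + Real.exp (-E) := by
  rw [e1_diag hA.1, e1_entry hA.1, ← mul_one (Real.exp (-E)), ← e1_one hA.1 x, Finset.mul_sum,
    Finset.mul_sum, ← Finset.sum_add_distrib]
  refine Finset.sum_le_sum fun i _ => ?_
  have h := mul_le_mul_of_nonneg_left
    (P369.negMulLog_le (E := E) (hA.eigenvalues_nonneg i))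
    (Complex.normSq_nonneg ((hA.1.eigenvectorUnitary : Matrix ι ι ℂ) x i))
  linarith only [h]

theorem e1_diag_nonneg {A : Matrix ι ι ℂ} (hA : A.PosSemidef) (h1 : A.trace.re ≤ 1) (x : ι) :
    0 ≤ ((cfc Real.negMulLog A) x x).re := by
  rw [e1_diag hA.1]
  refine Finset.sum_nonneg fun i _ => mul_nonneg (Complex.normSq_nonneg _) ?_
  refine Real.negMulLog_nonneg (hA.eigenvalues_nonneg i) ?_
  have h3 : A.trace.re = ∑ j, hA.1.eigenvalues j := by
    rw [hA.1.trace_eq_sum_eigenvalues, Complex.re_sum]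
    exact Finset.sum_congr rfl fun a _ => Complex.ofReal_re _
  have h4 := Finset.single_le_sum (f := fun j => hA.1.eigenvalues j)
    (fun j _ => hA.eigenvalues_nonneg j) (Finset.mem_univ i)
  linarith

end mat

variable {n : ℕ}

theorem e1_summable_exp {δ : ℝ} (hδ : 0 < δ) :
    Summable fun x : Conf n => Real.exp (-(δ * ∑ j, (x j : ℝ))) := by
  induction n with
  | zero => exact (hasSum_fintype _).summable
  | succ n ih =>
    have h1 : Summable fun k : ℕ => Real.exp (-(δ * (k : ℝ))) := by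
      have h := Real.summable_exp_nat_mul_iff.2 (neg_lt_zero.2 hδ)
      refine h.congr fun k => ?_
      congr 1
      ring
    have h2 := h1.mul_of_nonneg ih (fun _ => (Real.exp_pos _).le) (fun _ => (Real.exp_pos _).le)
    have h3 := (Fin.consEquiv (fun _ : Fin (n + 1) => ℕ)).summable_iff
      (f := fun k : Fin (n + 1) → ℕ => Real.exp (-(δ * ∑ j, (k j : ℝ))))
    apply h3.mp
    refine h2.congr ?_
    intro x
    simp only [Function.comp, Fin.consEquiv, Equiv.coe_fn_mk, Fin.sum_univ_succ, Fin.cons_zero,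
      Fin.cons_succ]
    rw [← Real.exp_add]
    congr 1
    ring

theorem e1_summable_mul {δ : ℝ} (hδ : 0 < δ) (c : ℝ) (hc : 0 ≤ c) :
    Summable fun x : Conf n => ((∑ j, (x j : ℝ)) + c) * Real.exp (-(δ * ∑ j, (x j : ℝ))) := by
  have h1 := (e1_summable_exp (n := n) (half_pos hδ)).mul_left (2 / δ + c)
  refine Summable.of_nonneg_of_le (fun x => ?_) (fun x => ?_) h1
  · exact mul_nonneg (add_nonneg (Finset.sum_nonneg fun _ _ => Nat.cast_nonneg _) hc)
      (Real.exp_pos _).le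
  · set t : ℝ := ∑ j, (x j : ℝ) with ht
    have ht0 : 0 ≤ t := Finset.sum_nonneg fun _ _ => Nat.cast_nonneg _
    have e1 : Real.exp (-(δ * t)) = Real.exp (-(δ / 2 * t)) * Real.exp (-(δ / 2 * t)) := by
      rw [← Real.exp_add]
      congr 1
      ring
    have e2 : Real.exp (-(δ / 2 * t)) ≤ 1 := Real.exp_le_one_iff.2 (by
      have : 0 ≤ δ / 2 * t := by (clear * - hδ; positivity)
      linarith)
    have e3 : t * Real.exp (-(δ / 2 * t)) ≤ 2 / δ := by
      have h := Real.add_one_le_exp (δ / 2 * t)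
      have h5 : Real.exp (-(δ / 2 * t)) * Real.exp (δ / 2 * t) = 1 := by
        rw [← Real.exp_add]
        simp only [neg_add_cancel, Real.exp_zero]
      have h6 : δ / 2 * (t * Real.exp (-(δ / 2 * t))) ≤ 1 := by
        calc δ / 2 * (t * Real.exp (-(δ / 2 * t))) =
            Real.exp (-(δ / 2 * t)) * (δ / 2 * t) := by ring
          _ ≤ Real.exp (-(δ / 2 * t)) * Real.exp (δ / 2 * t) :=
            mul_le_mul_of_nonneg_left (by linarith only [h]) (Real.exp_pos _).le
          _ = 1 := h5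
      rw [le_div_iff₀ hδ]
      linarith only [h6]
    rw [e1]
    have h7 : (t + c) * Real.exp (-(δ / 2 * t)) ≤ 2 / δ + c := by
      have : c * Real.exp (-(δ / 2 * t)) ≤ c := by
        calc c * Real.exp (-(δ / 2 * t)) ≤ c * 1 := mul_le_mul_of_nonneg_left e2 hc
          _ = c := mul_one c
      linarith only [e3, this]
    calc (t + c) * (Real.exp (-(δ / 2 * t)) * Real.exp (-(δ / 2 * t))) =
        (t + c) * Real.exp (-(δ / 2 * t)) * Real.exp (-(δ / 2 * t)) := by ring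
      _ ≤ _ := mul_le_mul_of_nonneg_right h7 (Real.exp_pos _).le

/-- E1 (Jensen in the diagonal, Young `η(p) ≤ δ t p + exp(-δ t)`) -/
theorem uB_bound {δ : ℝ} (hδ : 0 < δ) : ∃ C : ℝ, 0 ≤ C ∧ ∀ (s : Ker n) (X : ℕ),
    (cut X s).PosSemidef → trX s X ≤ 1 →
      0 ≤ wB s X ∧ wB s X ≤ uB s X ∧ uB s X ≤ δ * (X + n) * enX s X + C := by
  have hsum := e1_summable_mul (n := n) hδ n (Nat.cast_nonneg n)
  have hpos : ∀ x : Conf n, 0 ≤ ((∑ j, (x j : ℝ)) + n) * Real.exp (-(δ * ∑ j, (x j : ℝ))) :=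
    fun x => mul_nonneg (add_nonneg (Finset.sum_nonneg fun _ _ => Nat.cast_nonneg _)
      (Nat.cast_nonneg n)) (Real.exp_pos _).le
  refine ⟨∑' x : Conf n, ((∑ j, (x j : ℝ)) + n) * Real.exp (-(δ * ∑ j, (x j : ℝ))),
    tsum_nonneg hpos, fun s X hs ht => ?_⟩
  rw [trX_eq] at ht
  have h0 := e1_diag_nonneg hs ht
  have hN : ∀ x : Ct n X, 0 ≤ ∑ j, (x.1 j : ℝ) := fun x =>
    Finset.sum_nonneg fun _ _ => Nat.cast_nonneg _
  have hX : ∀ x : Ct n X, (∑ j, (x.1 j : ℝ)) ≤ X := fun x => by exact_mod_cast x.2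
  have hp : ∀ x : Ct n X, 0 ≤ (s x.1 x.1).re := fun x =>
    (Complex.le_def.1 (hs.diag_nonneg (i := x))).1
  refine ⟨Finset.sum_nonneg fun x _ => mul_nonneg (hN x) (h0 x), ?_, ?_⟩
  · refine Finset.sum_le_sum fun x _ => ?_
    exact mul_le_mul_of_nonneg_right (le_add_of_nonneg_right (Nat.cast_nonneg n)) (h0 x)
  · have h1 : ∑ x : Ct n X, ((∑ j, (x.1 j : ℝ)) + n) * Real.exp (-(δ * ∑ j, (x.1 j : ℝ))) ≤
        ∑' x : Conf n, ((∑ j, (x j : ℝ)) + n) * Real.exp (-(δ * ∑ j, (x j : ℝ))) := by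
      rw [← sum_ctF X (fun x : Conf n => ((∑ j, (x j : ℝ)) + n) *
        Real.exp (-(δ * ∑ j, (x j : ℝ))))]
      exact hsum.sum_le_tsum _ fun x _ => hpos x
    refine le_trans ?_ (add_le_add le_rfl h1)
    unfold uB enX
    rw [Finset.mul_sum, ← Finset.sum_add_distrib]
    refine Finset.sum_le_sum fun x _ => ?_
    have h2 := e1_diag_le hs (δ * ∑ j, (x.1 j : ℝ)) x
    have h3 : 0 ≤ (∑ j, (x.1 j : ℝ)) + (n : ℝ) := add_nonneg (hN x) (Nat.cast_nonneg n)
    have h4 := mul_le_mul_of_nonneg_left h2 h3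
    have h5 : ((∑ j, (x.1 j : ℝ)) + (n : ℝ)) * (δ * (∑ j, (x.1 j : ℝ)) * (s x.1 x.1).re) ≤
        δ * (X + n) * ((∑ j, (x.1 j : ℝ)) * (s x.1 x.1).re) := by
      have h6 : 0 ≤ δ * ((∑ j, (x.1 j : ℝ)) * (s x.1 x.1).re) :=
        mul_nonneg hδ.le (mul_nonneg (hN x) (hp x))
      have h7 := mul_le_mul_of_nonneg_right (add_le_add (hX x) (le_refl (n : ℝ))) h6
      linarith
    have h8 : (cut X s x x).re = (s x.1 x.1).re := rfl
    rw [h8] at h4
    linarith

end

end Vale.Agent.P369A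
end
end

section

section

/-!
P369A, Z1 and Z2 (helper630): the amplifier flow and the environment flow of a faithful finite
matrix.
-/

namespace Vale.Agent.P369A

open Matrix MeasureTheory Set Filter
open Vale.Agent.P369 (Conf up down)
open Vale.Agent.P369V (ent)
open scoped ComplexOrder Topology

noncomputable section

variable {n : ℕ}

theorem z_intervalIntegrable {s : Ker n} (hs : ∀ X, (cut X s).PosDef) {w : ℝ → ℝ}
    (hw : Continuous w) (X : ℕ) :
    IntervalIntegrable (fun m => w m * FX m s X) volume 0 1 := by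
  have h1 : ContinuousOn (fun p : ℝ × ℝ => FX p.2 ((fun _ => s) p.1) X) (univ ×ˢ Icc (0 : ℝ) 1) :=
    continuousOn_FX (S := univ) (s := fun _ => s) (fun _ _ => hs) (fun _ _ => continuousOn_const) X
  have h2 : ContinuousOn (fun m : ℝ => FX m s X) (Icc 0 1) := by
    have h3 : ContinuousOn (fun m : ℝ => ((0 : ℝ), m)) (Icc 0 1) := by fun_prop
    have h5 := ContinuousOn.comp h1 h3 (fun m hm => ⟨mem_univ _, hm⟩)
    simpa only [Function.comp_def] using h5
  have h4 : ContinuousOn (fun m => w m * FX m s X) (uIcc 0 1) := by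
    rw [uIcc_of_le zero_le_one]
    exact hw.continuousOn.mul h2
  exact h4.intervalIntegrable

theorem z_int_mono {s : Ker n} (hs : ∀ X, (cut X s).PosDef) {w : ℝ → ℝ} (hw : Continuous w)
    (hw0 : ∀ m ∈ Icc (0 : ℝ) 1, 0 ≤ w m) :
    Monotone fun X => ∫ m in (0 : ℝ)..1, w m * FX m s X := by
  intro X X' h
  refine intervalIntegral.integral_mono_on zero_le_one (z_intervalIntegrable hs hw X)
    (z_intervalIntegrable hs hw X') fun m hm => ?_
  exact mul_le_mul_of_nonneg_left (FX_mono hs hm h) (hw0 m hm)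

theorem Pp_mono {s : Ker n} (hs : ∀ X, (cut X s).PosDef) : Monotone fun X => Pp s X := by
  intro X X' h
  unfold Pp
  refine add_le_add ?_ (z_int_mono hs (w := fun m => 1 - m) (by (clear * -; fun_prop))
    (fun m hm => by linarith only [hm.2]) h)
  exact mul_le_mul_of_nonneg_left (trX_mono (fun X => (hs X).posSemidef) (by omega))
    (Nat.cast_nonneg n)

/-- uniform bound for the boundary terms -/
theorem z_boundary {s : ℝ → Ker n} {a b E : ℝ} (hE : 0 ≤ E)
    (hr : ∀ k ∈ Icc a b, (∀ X, (cut X (s k)).PosSemidef) ∧ (∀ X, trX (s k) X ≤ 1) ∧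
      ∀ X, enX (s k) X ≤ E) {ε : ℝ} (hε : 0 < ε) :
    ∀ᶠ X : ℕ in atTop, ∀ k ∈ Icc a b, uB (s k) X ≤ ε * X := by
  set δ : ℝ := ε / (2 * (E + 1)) with hδ
  have hδ0 : 0 < δ := by positivity
  obtain ⟨C, hC0, hC⟩ := uB_bound (n := n) hδ0
  have h1 : Tendsto (fun X : ℕ => ε / 2 * (X : ℝ)) atTop atTop :=
    tendsto_natCast_atTop_atTop.const_mul_atTop (by positivity)
  filter_upwards [h1.eventually_ge_atTop (ε / 2 * n + C)] with X hX k hk
  obtain ⟨hp, ht, he⟩ := hr k hk
  have h2 := (hC (s k) X (hp X) (ht X)).2.2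
  have h3 : δ * (X + n) * enX (s k) X ≤ δ * (X + n) * (E + 1) :=
    mul_le_mul_of_nonneg_left (by linarith only [he X]) (by (clear * - hε hE; positivity))
  have h4 : δ * (X + n) * (E + 1) = ε / 2 * X + ε / 2 * n := by
    rw [hδ]; (clear * - hE hε; field_simp)
  linarith

variable {M : ℕ} {ρ : Matrix (Fin n → Fin (M + 1)) (Fin n → Fin (M + 1)) ℂ}

theorem en0_nonneg (hρ : ρ.PosDef) : 0 ≤ en0 ρ := by
  refine Finset.sum_nonneg fun x _ => mul_nonneg (Finset.sum_nonneg fun _ _ => Nat.cast_nonneg _) ?_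
  exact (Complex.le_def.1 (hρ.posSemidef.diag_nonneg (i := x))).1

/-- Z1: amplifier flow -/
theorem flow_C (hρ : ρ.PosDef) (ht : ρ.trace = 1) {a b : ℝ} (ha : 1 < a) (hab : a ≤ b) :
    (∀ X, ∫ k in a..b, 1 / k * Pp (Ck ρ k) X ≤ Sl (Ck ρ b) - Sl (Ck ρ a)) ∧
      ∀ ε > 0, ∀ᶠ X in atTop,
        Sl (Ck ρ b) - Sl (Ck ρ a) - ε ≤ ∫ k in a..b, 1 / k * Pp (Ck ρ k) X := by
  have hr : ∀ k ∈ Icc a b, Reg (Ck ρ k) (k * en0 ρ + (k - 1) * n) := fun k hk =>
    reg_Ck hρ ht (ha.trans_le hk.1)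
  have hpos : ∀ k ∈ Icc a b, ∀ X, (cut X (Ck ρ k)).PosDef := fun k hk => (hr k hk).pos
  have hc : ∀ x y, ContinuousOn (fun k => Ck ρ k x y) (Icc a b) := fun x y k hk =>
    (hasDerivAt_Ck (ha.trans_le hk.1) x y).continuousAt.continuousWithinAt
  have hE : ∀ k ∈ Icc a b, ∀ X, enX (Ck ρ k) X ≤ b * en0 ρ + b * n := by
    intro k hk X
    refine ((hr k hk).en_le X).trans ?_
    have h1 := mul_le_mul_of_nonneg_right hk.2 (en0_nonneg hρ)
    have h2 := mul_le_mul_of_nonneg_right (show k - 1 ≤ b by linarith only [hk.2]) (Nat.cast_nonneg (α := ℝ) n)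
    linarith
  have hb0 : 0 ≤ b := by linarith
  refine flow_avg (y := fun X k => ent (cut X (Ck ρ k))) (P := fun X k => Pp (Ck ρ k) X)
    (u := fun X k => uB (Ck ρ k) X) (w := fun k => 1 / k) hab ?_ ?_ ?_ ?_ ?_ ?_ ?_ ?_ ?_ ?_
  · refine continuousOn_const.div continuousOn_id fun k hk => ?_
    have h1 : a ≤ k := hk.1
    have h2 : 0 < k := by linarith
    exact h2.ne'
  · intro k hk
    have := hk.1
    exact one_div_nonneg.2 (by linarith only [ha, this])
  · intro X k hk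
    have hk1 : 1 < k := ha.trans_le hk.1
    refine deriv_C (s := Ck ρ) (hpos k hk) (fun X => ?_) (fun x y => hasDerivAt_Ck hk1 x y) X
    filter_upwards [eventually_gt_nhds hk1] with t ht1
    exact ((reg_Ck hρ ht ht1).pos X).posSemidef
  · intro X; exact continuousOn_Pp hpos hc X
  · intro X; exact continuousOn_uB hpos hc X
  · intro k hk; exact Pp_mono (hpos k hk)
  · intro X k hk
    obtain ⟨C, _, hC⟩ := uB_bound (n := n) one_pos
    have h := hC (Ck ρ k) X (hpos k hk X).posSemidef ((hr k hk).tr_le X)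
    exact h.1.trans h.2.1
  · intro ε hε
    exact z_boundary (E := b * en0 ρ + b * n)
      (add_nonneg (mul_nonneg hb0 (en0_nonneg hρ)) (mul_nonneg hb0 (Nat.cast_nonneg n)))
      (fun k hk => ⟨fun X => (hpos k hk X).posSemidef, (hr k hk).tr_le, hE k hk⟩) hε
  · exact (hr a ⟨le_rfl, hab⟩).limit
  · exact (hr b ⟨hab, le_rfl⟩).limit

/-- Z2: environment flow -/
theorem flow_D (hρ : ρ.PosDef) (ht : ρ.trace = 1) {a b : ℝ} (ha : 1 < a) (hab : a ≤ b) :
    ∀ ε > 0, ∀ᶠ X in atTop, ∫ k in a..b, 1 / (k - 1) *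
      (n * trX (Dk ρ k) X - ∫ m in (0 : ℝ)..1, m * FX m (Dk ρ k) (2 * X)) ≤
        Sl (Dk ρ b) - Sl (Dk ρ a) + ε := by
  have hr : ∀ k ∈ Icc a b, Reg (Dk ρ k) ((k - 1) * (en0 ρ + n)) := fun k hk =>
    reg_Dk hρ ht (ha.trans_le hk.1)
  have hpos : ∀ k ∈ Icc a b, ∀ X, (cut X (Dk ρ k)).PosDef := fun k hk => (hr k hk).pos
  have hc : ∀ x y, ContinuousOn (fun k => Dk ρ k x y) (Icc a b) := fun x y k hk =>
    (hasDerivAt_Dk (ha.trans_le hk.1) x y).continuousAt.continuousWithinAt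
  have hE : ∀ k ∈ Icc a b, ∀ X, enX (Dk ρ k) X ≤ b * (en0 ρ + n) := by
    intro k hk X
    refine ((hr k hk).en_le X).trans ?_
    exact mul_le_mul_of_nonneg_right (by linarith [hk.2])
      (add_nonneg (en0_nonneg hρ) (Nat.cast_nonneg n))
  have hb0 : 0 ≤ b := by linarith
  have hGc : ∀ X, ContinuousOn (fun k => ∫ m in (0 : ℝ)..1, m * FX m (Dk ρ k) X) (Icc a b) := by
    intro X
    have h1 := continuousOn_Pm hpos hc X
    have h2 : ContinuousOn (fun k => (n : ℝ) * trX (Dk ρ k) X) (Icc a b) := by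
      refine continuousOn_const.mul ?_
      unfold trX
      exact continuousOn_finsetSum _ fun x _ => Complex.continuous_re.comp_continuousOn (hc _ _)
    refine (h2.sub h1).congr fun k _ => ?_
    simp only [Pm, Pi.sub_apply]
    ring
  have hTc : ∀ X, ContinuousOn (fun k => (n : ℝ) * trX (Dk ρ k) X) (Icc a b) := by
    intro X
    refine continuousOn_const.mul ?_
    unfold trX
    exact continuousOn_finsetSum _ fun x _ => Complex.continuous_re.comp_continuousOn (hc _ _)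
  refine flow_avg_D (y := fun X k => ent (cut X (Dk ρ k))) (T := fun X k => n * trX (Dk ρ k) X)
    (G := fun X k => ∫ m in (0 : ℝ)..1, m * FX m (Dk ρ k) X)
    (u := fun X k => wB (Dk ρ k) X) (w := fun k => 1 / (k - 1)) hab ?_ ?_ ?_ ?_ ?_ ?_ ?_ ?_ ?_ ?_
    ?_ ?_
  · refine continuousOn_const.div (by fun_prop) fun k hk => ?_
    have := hk.1
    linarith only [ha, this]
  · intro k hk
    have := hk.1
    exact one_div_nonneg.2 (by linarith only [ha, this])
  · intro X k hk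
    have hk1 : 1 < k := ha.trans_le hk.1
    refine deriv_D (s := Dk ρ) (hpos k hk) (fun X => ?_) (fun x y => hasDerivAt_Dk hk1 x y) X
    filter_upwards [eventually_gt_nhds hk1] with t ht1
    exact ((reg_Dk hρ ht ht1).pos X).posSemidef
  · exact hTc
  · exact hGc
  · intro X; exact continuousOn_wB hpos hc X
  · intro k hk X X' h
    exact mul_le_mul_of_nonneg_left (trX_mono (fun X => (hpos k hk X).posSemidef) h)
      (Nat.cast_nonneg n)
  · intro k hk
    exact z_int_mono (hpos k hk) (w := fun m => m) continuous_id (fun m hm => hm.1)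
  · intro X k hk
    obtain ⟨C, _, hC⟩ := uB_bound (n := n) one_pos
    exact (hC (Dk ρ k) X (hpos k hk X).posSemidef ((hr k hk).tr_le X)).1
  · intro ε hε
    have h1 := z_boundary (s := Dk ρ) (a := a) (b := b) (E := b * (en0 ρ + n))
      (mul_nonneg hb0 (add_nonneg (en0_nonneg hρ) (Nat.cast_nonneg n)))
      (fun k hk => ⟨fun X => (hpos k hk X).posSemidef, (hr k hk).tr_le, hE k hk⟩) hε
    filter_upwards [h1] with X hX k hk
    obtain ⟨C, _, hC⟩ := uB_bound (n := n) one_pos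
    exact (hC (Dk ρ k) X (hpos k hk X).posSemidef ((hr k hk).tr_le X)).2.1.trans (hX k hk)
  · exact (hr a ⟨le_rfl, hab⟩).limit
  · exact (hr b ⟨hab, le_rfl⟩).limit

end

end Vale.Agent.P369A
end
end

section

section

/-!
P369A, F3 and F4: the amplifier family at gain `1`; entropy of the extension by zero.
-/

namespace Vale.Agent.P369A

open Matrix MeasureTheory Set Filter
open Vale.Agent.P369 (Conf up down)
open Vale.Agent.P369V (ent)
open scoped ComplexOrder Topology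

noncomputable section

variable {n : ℕ}

variable {M : ℕ} {ρ : Matrix (Fin n → Fin (M + 1)) (Fin n → Fin (M + 1)) ℂ}

theorem cc_one_zero (m : Conf n) : cc 1 m 0 = 1 := by
  simp only [cc, Pi.zero_apply, add_zero, Nat.choose_zero_right, Nat.cast_one, Real.sqrt_one, inv_one, one_pow, mul_one, ne_eq, one_ne_zero, not_false_eq_true, div_self, sub_self, Real.sqrt_zero, pow_zero, Finset.prod_const_one]

theorem cc_one_ne {m l : Conf n} (hl : l ≠ 0) : cc 1 m l = 0 := by
  obtain ⟨j, hj⟩ := Function.ne_iff.1 hl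
  refine Finset.prod_eq_zero (Finset.mem_univ j) ?_
  have : l j ≠ 0 := hj
  simp only [Real.sqrt_one, inv_one, one_pow, mul_one, ne_eq, one_ne_zero, not_false_eq_true, div_self, sub_self, Real.sqrt_zero, this, zero_pow, mul_zero]

theorem ampE_one (s : Conf n → Conf n → ℂ) : ampE 1 s = s := by
  funext x y
  unfold ampE
  rw [Finset.sum_eq_single 0]
  · rw [cc_one_zero, cc_one_zero]
    simp only [mul_one, Complex.ofReal_one, tsub_zero, one_mul]
  · intro l _ hl
    rw [cc_one_ne hl]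
    simp
  · intro h
    exact absurd (Finset.mem_Iic.2 (fun j => Nat.zero_le _)) h

/-- F3 -/
theorem Ck_one : Ck ρ 1 = ext ρ := ampE_one _

theorem continuousAt_cc (m l : Conf n) : ContinuousAt (fun t => cc t m l) 1 := by
  unfold cc
  refine tendsto_finsetProd _ fun j _ => ?_
  have h1 : ContinuousAt (fun t : ℝ => (Real.sqrt t)⁻¹) 1 :=
    (Real.continuous_sqrt.continuousAt).inv₀ (by simp)
  have h2 : ContinuousAt (fun t : ℝ => Real.sqrt (1 - 1 / t)) 1 :=
    (continuousAt_const.sub (continuousAt_const.div continuousAt_id one_ne_zero)).sqrt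
  exact ((continuousAt_const.mul (h1.pow _)).mul (h2.pow _))

theorem continuousAt_ampE_one (s : Conf n → Conf n → ℂ) (x y : Conf n) :
    ContinuousAt (fun t => ampE t s x y) 1 := by
  unfold ampE
  refine tendsto_finsetSum _ fun l _ => ?_
  exact (Complex.continuous_ofReal.continuousAt.comp
    ((continuousAt_cc _ _).mul (continuousAt_cc _ _))).mul continuousAt_const

theorem tendsto_Ck_one (x y : Conf n) :
    Tendsto (fun t => Ck ρ t x y) (𝓝[>] 1) (𝓝 (ext ρ x y)) := by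
  have h := continuousAt_ampE_one (ext ρ) x y
  have h1 : ampE 1 (ext ρ) x y = ext ρ x y := by rw [ampE_one]
  have h2 : Tendsto (fun t => ampE t (ext ρ) x y) (𝓝 1) (𝓝 (ampE 1 (ext ρ) x y)) := h
  rw [h1] at h2
  exact h2.mono_left nhdsWithin_le_nhds

/-- entropy of an isometric image -/
theorem ent_isometry {ι κ : Type} [Fintype ι] [DecidableEq ι] [Fintype κ] [DecidableEq κ]
    {A : Matrix ι ι ℂ} (hA : A.IsHermitian) {V : Matrix κ ι ℂ} (hV : Vᴴ * V = 1) :
    ent (V * A * Vᴴ) = ent A := by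
  have hB : (V * A * Vᴴ).IsHermitian := Matrix.isHermitian_mul_mul_conjTranspose V hA
  rw [ent_roots hA, ent_roots hB]
  have h := Matrix.charpoly_mul_comm' (V * A) Vᴴ
  rw [← Matrix.mul_assoc, hV, Matrix.one_mul] at h
  have h2 := congrArg (fun p : Polynomial ℂ =>
    (p.roots.map fun z => Real.negMulLog z.re).sum) h
  have hX : ∀ k : ℕ, (Polynomial.X ^ k : Polynomial ℂ) ≠ 0 := fun k =>
    pow_ne_zero _ Polynomial.X_ne_zero
  beta_reduce at h2
  rw [Polynomial.roots_mul (mul_ne_zero (hX _) (Matrix.charpoly_monic _).ne_zero),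
    Polynomial.roots_mul (mul_ne_zero (hX _) (Matrix.charpoly_monic _).ne_zero)] at h2
  simpa only [Polynomial.roots_pow, Polynomial.roots_X, Multiset.map_add, Multiset.map_nsmul,     Multiset.map_singleton, Complex.zero_re, Real.negMulLog_zero, Multiset.sum_add, Multiset.sum_nsmul,     Multiset.sum_singleton, nsmul_zero, zero_add] using h2

theorem ent_cut_ext_aux {X : ℕ} (hX : n * M ≤ X) :
    ∃ V : Matrix (Ct n X) (Fin n → Fin (M + 1)) ℂ, Vᴴ * V = 1 ∧
      ∀ ρ : Matrix (Fin n → Fin (M + 1)) (Fin n → Fin (M + 1)) ℂ,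
        cut X (ext ρ) = V * ρ * Vᴴ := by
  classical
  have he : ∀ c : Fin n → Fin (M + 1), ∑ j, (c j : ℕ) ≤ X := fun c => by
    refine (Finset.sum_le_sum fun j _ => Nat.le_of_lt_succ (c j).2).trans ?_
    simpa only [Finset.sum_const, Finset.card_univ, Fintype.card_fin, smul_eq_mul] using hX
  let e : (Fin n → Fin (M + 1)) → Ct n X := fun c => ⟨fun j => (c j : ℕ), he c⟩
  have einj : Function.Injective e := fun c d h => by
    funext j
    exact Fin.ext (congrFun (congrArg Subtype.val h) j)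
  let V : Matrix (Ct n X) (Fin n → Fin (M + 1)) ℂ := fun x c => if x = e c then 1 else 0
  have hVa : ∀ x c, V x c = if x = e c then 1 else 0 := fun _ _ => rfl
  have hVs : ∀ x c, Vᴴ c x = if x = e c then 1 else 0 := fun x c => by
    rw [Matrix.conjTranspose_apply, hVa]
    split_ifs <;> simp
  refine ⟨V, ?_, ?_⟩
  · ext c d
    rw [Matrix.mul_apply, Finset.sum_eq_single (e c)]
    · rw [hVa, hVs, if_pos rfl, one_mul, Matrix.one_apply]
      exact if_congr einj.eq_iff rfl rfl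
    · intro b _ hb
      rw [hVs, if_neg hb, zero_mul]
    · intro h
      exact absurd (Finset.mem_univ _) h
  · intro ρ
    ext x y
    have hin : ∀ (x : Ct n X), (∀ j, x.1 j < M + 1) ∨ ¬ (∀ j, x.1 j < M + 1) := fun x => em _
    have hne : ∀ x : Ct n X, ¬ (∀ j, x.1 j < M + 1) → ∀ c, x ≠ e c := by
      rintro x hx c rfl
      exact hx fun j => (c j).2
    have heq : ∀ (x : Ct n X) (h : ∀ j, x.1 j < M + 1), x = e (fun j => ⟨x.1 j, h j⟩) :=
      fun x h => Subtype.ext rfl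
    rw [Matrix.mul_apply]
    unfold cut ext
    split_ifs with h
    · rw [Finset.sum_eq_single (fun j => ⟨y.1 j, h.2 j⟩), Matrix.mul_apply,
        Finset.sum_eq_single (fun j => ⟨x.1 j, h.1 j⟩)]
      · rw [hVa, hVs, if_pos (heq x h.1), if_pos (heq y h.2), one_mul, mul_one]
      · intro b _ hb
        rw [hVa, if_neg, zero_mul]
        intro h'
        exact hb (einj (h'.symm.trans (heq x h.1)))
      · intro h'
        exact absurd (Finset.mem_univ _) h'
      · intro b _ hb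
        rw [hVs, if_neg, mul_zero]
        intro h'
        exact hb (einj (h'.symm.trans (heq y h.2)))
      · intro h'
        exact absurd (Finset.mem_univ _) h'
    · symm
      refine Finset.sum_eq_zero fun b _ => ?_
      rw [not_and_or] at h
      rcases h with h | h
      · rw [Matrix.mul_apply, Finset.sum_eq_zero, zero_mul]
        intro c _
        rw [hVa, if_neg (hne x h c), zero_mul]
      · rw [hVs, if_neg (hne y h b), mul_zero]

/-- F4: entropy of `ext ρ` -/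
theorem ent_cut_ext {X : ℕ} (hX : n * M ≤ X) (hρ : ρ.PosSemidef) : ent (cut X (ext ρ)) = ent ρ := by
  obtain ⟨V, hV, h⟩ := ent_cut_ext_aux (n := n) hX
  rw [h, ent_isometry hρ.1 hV]

end

end Vale.Agent.P369A
end
end

section

section

/-!
P369A: `pair_final`, the pair inequality for the families `Ck`, `Dk`.
-/

namespace Vale.Agent.P369A

open Matrix Filter Set
open Vale.Agent.P369 (Conf up down)
open scoped Kronecker ComplexOrder Topology

noncomputable section

variable {n M : ℕ} {ρ : Matrix (Fin n → Fin (M + 1)) (Fin n → Fin (M + 1)) ℂ}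

/-- Q: the pair inequality -/
theorem pair_final (hρ : ρ.PosDef) (_ht : ρ.trace = 1) {k₀ R : ℝ} (hk : 1 < k₀) (_hR : 0 < R)
    (X X' : ℕ) : ∃ idY : ℕ → ℝ → ℝ → ℝ,
      (∀ᶠ Y in atTop,
        (∀ t₁ T, 1 < t₁ → ContinuousOn (Function.uncurry (idY Y)) (Icc t₁ T ×ˢ Icc 0 1)) ∧
        (∀ t, 1 < t → ∀ μ ∈ Icc (0 : ℝ) 1, 0 ≤ idY Y t μ) ∧
        (∀ t, 1 < t → ∀ l ν : ℝ, 0 ≤ l → l ≤ ν → ν ≤ 1 →
          (1 - ν) * (IX ν (t * (R + 1) - 1) (Ck ρ (t * k₀)) X / t) + (ν - l) * idY Y t (ν - l) ≤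
            (1 - l) * IX l R (Ck ρ k₀) Y) ∧
        (∀ t, 1 ≤ t → ∀ ν ∈ Icc (0 : ℝ) 1,
          IX ν (t * (R + 1) - 1) (Ck ρ (t * k₀)) X / t ≤ IX ν R (Ck ρ k₀) Y) ∧
        (∀ t, 1 < t → ∀ l ∈ Icc (0 : ℝ) 1, ∀ μ ∈ Icc (0 : ℝ) 1,
          idY Y t μ ≤ IX l R (Ck ρ k₀) Y)) ∧
      (∀ t, 1 < t → ∀ μ ∈ Icc (0 : ℝ) 1, Tendsto (fun Y => idY Y t μ) atTop
        (𝓝 (IX μ ((t - 1) * (R + 1)) (Dk ρ (1 + (t - 1) * k₀)) X' / (t - 1)))) := by
  refine pair_final_gen (s := Ck ρ k₀) (C := fun t => Ck ρ (t * k₀))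
    (D := fun t => Dk ρ (1 + (t - 1) * k₀)) (posDef_Ck hρ hk) (ampE_one _)
    (fun t ht => ampE_Ck ht hk.le) (fun t ht X => posDef_Ck hρ ?_ X) (fun t ht X => posDef_Dk hρ ?_ X)
    (fun t ht l l' => tendsto_conE_Ck ht.le hk.le l l') R X X'
  · nlinarith only [hk, ht]
  · nlinarith only [ht, hk]

end

end Vale.Agent.P369A
end
end

section

section

/-!
P369A, Z3: the isoperimetric inequality for the amplifier output.
-/

namespace Vale.Agent.P369A

open Matrix MeasureTheory Set Filter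
open Vale.Agent.P369 (Conf up down)
open Vale.Agent.P369V (ent)
open scoped ComplexOrder Topology

noncomputable section

variable {n : ℕ} {M : ℕ} {ρ : Matrix (Fin n → Fin (M + 1)) (Fin n → Fin (M + 1)) ℂ}

theorem z3_cont_C {k₀ : ℝ} (hk : 1 < k₀) (T : ℝ) (x y : Conf n) :
    ContinuousOn (fun t => Ck ρ (t * k₀) x y) (Icc 1 T) := by
  intro t ht
  have h1 := (hasDerivAt_Ck (ρ := ρ) (k := t * k₀) (by nlinarith only [hk, ht.1]) x y).continuousAt
  exact (ContinuousAt.comp (f := fun t => t * k₀) h1 (by fun_prop)).continuousWithinAt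

theorem z3_cont_D {k₀ : ℝ} (hk : 1 < k₀) {t₁ : ℝ} (ht₁ : 1 < t₁) (T : ℝ) (x y : Conf n) :
    ContinuousOn (fun t => Dk ρ (1 + (t - 1) * k₀) x y) (Icc t₁ T) := by
  intro t ht
  have h2 : 0 < (t - 1) * k₀ := mul_pos (by linarith [ht.1]) (by linarith only [hk])
  have h1 := (hasDerivAt_Dk (ρ := ρ) (k := 1 + (t - 1) * k₀) (by linarith) x y).continuousAt
  exact (ContinuousAt.comp (f := fun t => 1 + (t - 1) * k₀) h1 (by fun_prop)).continuousWithinAt

theorem z3_tr_abs {s : Ker n} {E : ℝ} (h : Reg s E) (X : ℕ) : |trX s X| ≤ 1 := by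
  have h0 : 0 ≤ trX s X := Finset.sum_nonneg fun x _ =>
    diag_nonneg_of_cut (fun X => (h.pos X).posSemidef) x.1
  rw [abs_of_nonneg h0]
  exact h.tr_le X

theorem z3_en_abs {s : Ker n} {E : ℝ} (h : Reg s E) (X : ℕ) : |enX s X| ≤ E := by
  have h0 : 0 ≤ enX s X := Finset.sum_nonneg fun x _ =>
    mul_nonneg (Finset.sum_nonneg fun _ _ => Nat.cast_nonneg _)
      (diag_nonneg_of_cut (fun X => (h.pos X).posSemidef) x.1)
  rw [abs_of_nonneg h0]
  exact h.en_le X

theorem z3_en0_nonneg (hρ : ρ.PosDef) : 0 ≤ en0 ρ :=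
  Finset.sum_nonneg fun x _ => mul_nonneg (Finset.sum_nonneg fun _ _ => Nat.cast_nonneg _)
    (Complex.le_def.1 (hρ.posSemidef.diag_nonneg (i := x))).1

/-- the production of the amplifier in terms of `IX` -/
theorem z3_Pp {s : Ker n} (hs : ∀ X, (cut X s).PosDef) {r : ℝ} (hr : 0 < r) (X : ℕ) :
    Pp s X = n * trX s (X + 1) +
      (∫ m in (0 : ℝ)..1, (1 - m) * IX m r s X / (r + m) ^ 2) -
      1 / r * enX s (X + 1) + Real.log (1 + 1 / r) * (enX s X + n * trX s X) := by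
  have h := int_IX_C hs hr X
  have e : ∫ m in (0 : ℝ)..1, (1 - m) * IX m r s X / (r + m) ^ 2 =
      ∫ m in (0 : ℝ)..1, (1 - m) / (r + m) ^ 2 * IX m r s X :=
    intervalIntegral.integral_congr fun m _ => by ring
  rw [e, h]
  unfold Pp
  ring

theorem z3_GD {s : Ker n} (hs : ∀ X, (cut X s).PosDef) {r : ℝ} (hr : 0 < r) (X : ℕ) :
    ∫ m in (0 : ℝ)..1, m * FX m s X =
      (∫ m in (0 : ℝ)..1, m * IX m r s X / (r + m) ^ 2) - Real.log (1 + 1 / r) * enX s (X + 1) +
        1 / (1 + r) * (enX s X + n * trX s X) := by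
  have h := int_IX_D hs hr X
  have e : ∫ m in (0 : ℝ)..1, m * IX m r s X / (r + m) ^ 2 =
      ∫ m in (0 : ℝ)..1, m / (r + m) ^ 2 * IX m r s X :=
    intervalIntegral.integral_congr fun m _ => by ring
  rw [e, h]
  ring

theorem z3_Pp_nonneg {s : Ker n} {E : ℝ} (h : Reg s E) (X : ℕ) : 0 ≤ Pp s X := by
  have h0 : 0 ≤ trX s (X + 1) := Finset.sum_nonneg fun x _ =>
    diag_nonneg_of_cut (fun X => (h.pos X).posSemidef) x.1
  unfold Pp
  refine add_nonneg (mul_nonneg (Nat.cast_nonneg _) h0) ?_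
  exact intervalIntegral.integral_nonneg zero_le_one fun m hm =>
    mul_nonneg (by linarith [hm.2]) (FX_nonneg h.pos hm X)

theorem z3_Sl_mono
    (hregC : ∀ k, 1 < k → Reg (Ck ρ k) (k * en0 ρ + (k - 1) * n))
    (hflowC : ∀ a b, 1 < a → a ≤ b → (∀ X, ∫ k in a..b, 1 / k * Pp (Ck ρ k) X ≤
      Sl (Ck ρ b) - Sl (Ck ρ a))) {a b : ℝ} (ha : 1 < a) (hab : a ≤ b) :
    Sl (Ck ρ a) ≤ Sl (Ck ρ b) := by
  have h := hflowC a b ha hab 0
  have h0 : 0 ≤ ∫ k in a..b, 1 / k * Pp (Ck ρ k) 0 :=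
    intervalIntegral.integral_nonneg hab fun k hk => by
      have hk1 : 1 < k := ha.trans_le hk.1
      exact mul_nonneg (by (clear * - hk1; positivity)) (z3_Pp_nonneg (hregC k hk1) 0)
  linarith

/-- Z3: ISO, from the properties of the families -/
theorem iso_C_of (hn : 1 ≤ n) (hρ : ρ.PosDef) {k₀ : ℝ} (hk : 1 < k₀) {R : ℝ}
    (hR : 0 < R) (hg : P369.g R = Sl (Ck ρ k₀) / n)
    (hregC : ∀ k, 1 < k → Reg (Ck ρ k) (k * en0 ρ + (k - 1) * n))
    (hregD : ∀ k, 1 < k → Reg (Dk ρ k) ((k - 1) * (en0 ρ + n)))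
    (hSl : ∀ k, 1 < k → Sl (Dk ρ k) ≤ Sl (Ck ρ k))
    (hflowC : ∀ a b, 1 < a → a ≤ b →
      (∀ X, ∫ k in a..b, 1 / k * Pp (Ck ρ k) X ≤ Sl (Ck ρ b) - Sl (Ck ρ a)) ∧
        ∀ ε > 0, ∀ᶠ X in atTop,
          Sl (Ck ρ b) - Sl (Ck ρ a) - ε ≤ ∫ k in a..b, 1 / k * Pp (Ck ρ k) X)
    (hflowD : ∀ a b, 1 < a → a ≤ b → ∀ ε > 0, ∀ᶠ X in atTop, ∫ k in a..b, 1 / (k - 1) *
      (n * trX (Dk ρ k) X - ∫ m in (0 : ℝ)..1, m * FX m (Dk ρ k) (2 * X)) ≤
        Sl (Dk ρ b) - Sl (Dk ρ a) + ε)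
    (hpair : ∀ X X' : ℕ, ∃ idY : ℕ → ℝ → ℝ → ℝ,
      (∀ᶠ Y in atTop,
        (∀ t₁ T, 1 < t₁ → ContinuousOn (Function.uncurry (idY Y)) (Icc t₁ T ×ˢ Icc 0 1)) ∧
        (∀ t, 1 < t → ∀ μ ∈ Icc (0 : ℝ) 1, 0 ≤ idY Y t μ) ∧
        (∀ t, 1 < t → ∀ l ν : ℝ, 0 ≤ l → l ≤ ν → ν ≤ 1 →
          (1 - ν) * (IX ν (t * (R + 1) - 1) (Ck ρ (t * k₀)) X / t) + (ν - l) * idY Y t (ν - l) ≤
            (1 - l) * IX l R (Ck ρ k₀) Y) ∧
        (∀ t, 1 ≤ t → ∀ ν ∈ Icc (0 : ℝ) 1,
          IX ν (t * (R + 1) - 1) (Ck ρ (t * k₀)) X / t ≤ IX ν R (Ck ρ k₀) Y) ∧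
        (∀ t, 1 < t → ∀ l ∈ Icc (0 : ℝ) 1, ∀ μ ∈ Icc (0 : ℝ) 1,
          idY Y t μ ≤ IX l R (Ck ρ k₀) Y)) ∧
      (∀ t, 1 < t → ∀ μ ∈ Icc (0 : ℝ) 1, Tendsto (fun Y => idY Y t μ) atTop
        (𝓝 (IX μ ((t - 1) * (R + 1)) (Dk ρ (1 + (t - 1) * k₀)) X' / (t - 1)))))
    {ε : ℝ} (hε : 0 < ε) :
    ∀ᶠ X in atTop, hamp R - ε ≤ Pp (Ck ρ k₀) X / n := by
  have hn' : (0 : ℝ) < n := by exact_mod_cast hn
  have hk0 : 0 < k₀ := by linarith only [hk]
  set e : ℝ := k₀ * (en0 ρ + n) with he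
  have he0 : 0 ≤ e := mul_nonneg hk0.le (add_nonneg (z3_en0_nonneg hρ) hn'.le)
  have hC : ∀ t, 1 ≤ t → Reg (Ck ρ (t * k₀)) (t * e - n) := fun t h1 => by
    have h := hregC (t * k₀) (by nlinarith only [hk, h1])
    have e1 : t * k₀ * en0 ρ + (t * k₀ - 1) * n = t * e - n := by rw [he]; ring
    rwa [e1] at h
  have hD : ∀ t, 1 < t → Reg (Dk ρ (1 + (t - 1) * k₀)) ((t - 1) * e) := fun t h1 => by
    have h2 : 0 < (t - 1) * k₀ := mul_pos (by linarith only [h1]) (by linarith only [hk])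
    have h := hregD (1 + (t - 1) * k₀) (by linarith only [h2])
    have e1 : (1 + (t - 1) * k₀ - 1) * (en0 ρ + n) = (t - 1) * e := by rw [he]; ring
    rwa [e1] at h
  have hrCc : ∀ S : Set ℝ, ContinuousOn (fun t : ℝ => t * (R + 1) - 1) S := fun S => by fun_prop
  have hrDc : ∀ S : Set ℝ, ContinuousOn (fun t : ℝ => (t - 1) * (R + 1)) S := fun S => by fun_prop
  have hiC : ∀ X T, ContinuousOn (Function.uncurry fun t m =>
      IX m (t * (R + 1) - 1) (Ck ρ (t * k₀)) X) (Icc 1 T ×ˢ Icc (0 : ℝ) 1) := fun X T =>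
    continuousOn_IX (s := fun t => Ck ρ (t * k₀)) (r := fun t => t * (R + 1) - 1)
      (fun t h => (hC t h.1).pos) (z3_cont_C hk T) (hrCc _) X
  have hiD : ∀ X t₁ T, 1 < t₁ → ContinuousOn (Function.uncurry fun t m =>
      IX m ((t - 1) * (R + 1)) (Dk ρ (1 + (t - 1) * k₀)) X) (Icc t₁ T ×ˢ Icc (0 : ℝ) 1) :=
    fun X t₁ T h1 => continuousOn_IX (s := fun t => Dk ρ (1 + (t - 1) * k₀))
      (r := fun t => (t - 1) * (R + 1)) (fun t h => (hD t (h1.trans_le h.1)).pos)
      (z3_cont_D hk h1 T) (hrDc _) X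
  have hp0 : ∀ X, (cut X (Ck ρ k₀)).PosDef := (hregC k₀ hk).pos
  have hIc : ∀ Y, ContinuousOn (fun m => IX m R (Ck ρ k₀) Y) (Icc 0 1) := fun Y => by
    have h1 := hiC Y 1
    have h2 : ContinuousOn (fun m : ℝ => ((1 : ℝ), m)) (Icc (0 : ℝ) 1) := by fun_prop
    have h3 := h1.comp h2 fun m hm => ⟨⟨le_rfl, le_rfl⟩, hm⟩
    have e1 : (fun m => IX m R (Ck ρ k₀) Y) = (Function.uncurry fun t m =>
      IX m (t * (R + 1) - 1) (Ck ρ (t * k₀)) Y) ∘ fun m : ℝ => ((1 : ℝ), m) := by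
      funext m
      simp [Function.uncurry]
    rw [e1]
    exact h3
  -- stage A
  have hA : ∀ T, 1 ≤ T → ∀ ε > 0, ∀ᶠ X in atTop,
      (PhiC n R e 1 - Sl (Ck ρ (1 * k₀))) - (PhiC n R e T - Sl (Ck ρ (T * k₀))) ≤
        (∫ t in (1 : ℝ)..T, ∫ m in (0 : ℝ)..1,
        (1 - m) * (IX m (t * (R + 1) - 1) (Ck ρ (t * k₀)) X / t) /
          (t * (R + 1) - 1 + m) ^ 2) + ε := by
    intro T hT
    refine z3_stageA hR le_rfl hT (yC := fun t => Sl (Ck ρ (t * k₀)))
      (PC := fun X t => Pp (Ck ρ (t * k₀)) X) (trC := fun X t => trX (Ck ρ (t * k₀)) X)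
      (enC := fun X t => enX (Ck ρ (t * k₀)) X)
      (iC := fun X t m => IX m (t * (R + 1) - 1) (Ck ρ (t * k₀)) X) (M := 1 + T * e)
      (fun X t h => z3_Pp (hC t h.1).pos (hR.trans_le (z3_rC hR h.1)) X) (fun X => hiC X T)
      (fun X => continuousOn_trX (z3_cont_C hk T) X)
      (fun X => continuousOn_enX (z3_cont_C hk T) X) ?_ ?_ (fun t h => (hC t h.1).tr)
      (fun t h => (hC t h.1).en) ?_
    · intro X t h
      have h1 := z3_tr_abs (hC t h.1) X
      have h2 : 0 ≤ T * e := mul_nonneg (by linarith only [hT]) he0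
      linarith only [h1, h2]
    · intro X t h
      have h1 := z3_en_abs (hC t h.1) X
      have h2 : t * e ≤ T * e := mul_le_mul_of_nonneg_right h.2 he0
      linarith only [h1, h2]
    · intro ε hε
      filter_upwards [(hflowC (1 * k₀) (T * k₀) (by linarith only [hk])
        (mul_le_mul_of_nonneg_right hT hk0.le)).2 ε hε] with X hX
      refine hX.trans (le_of_eq ?_)
      have h1 := intervalIntegral.mul_integral_comp_mul_right (a := (1 : ℝ)) (b := T)
        (f := fun k => 1 / k * Pp (Ck ρ k) X) k₀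
      rw [← h1, ← intervalIntegral.integral_const_mul]
      refine intervalIntegral.integral_congr fun t h => ?_
      rw [uIcc_of_le hT] at h
      have ht0 : t ≠ 0 := by linarith only [h.1]
      have := hk0.ne'
      (clear * - this ht0; field_simp)
  -- stage B
  have hAD : ∀ t₁ T, 1 < t₁ → t₁ ≤ T → ∀ ε > 0, ∀ᶠ X in atTop,
      (PsiD n R e T - Sl (Dk ρ (1 + (T - 1) * k₀))) -
        (PsiD n R e t₁ - Sl (Dk ρ (1 + (t₁ - 1) * k₀))) ≤ (∫ t in t₁..T, ∫ m in (0 : ℝ)..1,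
        m * (IX m ((t - 1) * (R + 1)) (Dk ρ (1 + (t - 1) * k₀)) (2 * X) / (t - 1)) /
          ((t - 1) * (R + 1) + m) ^ 2) + ε := by
    intro t₁ T ht₁ hT
    refine z3_stageB hR ht₁ hT (yD := fun t => Sl (Dk ρ (1 + (t - 1) * k₀)))
      (GD := fun X t => ∫ m in (0 : ℝ)..1, m * FX m (Dk ρ (1 + (t - 1) * k₀)) X)
      (trD := fun X t => trX (Dk ρ (1 + (t - 1) * k₀)) X)
      (enD := fun X t => enX (Dk ρ (1 + (t - 1) * k₀)) X)
      (iD := fun X t m => IX m ((t - 1) * (R + 1)) (Dk ρ (1 + (t - 1) * k₀)) X) (M := 1 + T * e)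
      (fun X t h => z3_GD (hD t (ht₁.trans_le h.1)).pos (z3_rD hR (ht₁.trans_le h.1)) X)
      (fun X => hiD X t₁ T ht₁) (fun X => continuousOn_trX (z3_cont_D hk ht₁ T) X)
      (fun X => continuousOn_enX (z3_cont_D hk ht₁ T) X) ?_ ?_
      (fun t h => (hD t (ht₁.trans_le h.1)).tr) (fun t h => (hD t (ht₁.trans_le h.1)).en) ?_
    · intro X t h
      have h1 := z3_tr_abs (hD t (ht₁.trans_le h.1)) X
      have h2 : 0 ≤ T * e := mul_nonneg (by linarith only [ht₁, hT]) he0
      linarith only [h1, h2]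
    · intro X t h
      have h1 := z3_en_abs (hD t (ht₁.trans_le h.1)) X
      have h2 : (t - 1) * e ≤ T * e := mul_le_mul_of_nonneg_right (by linarith only [h.2]) he0
      linarith only [h1, h2]
    · intro ε hε
      have p1 : 0 < (t₁ - 1) * k₀ := mul_pos (by linarith only [ht₁]) hk0
      have p2 : (t₁ - 1) * k₀ ≤ (T - 1) * k₀ := mul_le_mul_of_nonneg_right (by linarith only [hT]) hk0.le
      filter_upwards [hflowD (1 + (t₁ - 1) * k₀) (1 + (T - 1) * k₀) (by linarith only [p1])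
        (by linarith only [p2]) ε hε] with X hX
      refine le_trans (le_of_eq ?_) hX
      have h1 := intervalIntegral.mul_integral_comp_mul_add (a := t₁) (b := T)
        (f := fun k => 1 / (k - 1) * (n * trX (Dk ρ k) X -
          ∫ m in (0 : ℝ)..1, m * FX m (Dk ρ k) (2 * X))) k₀ (1 - k₀)
      have e1 : k₀ * t₁ + (1 - k₀) = 1 + (t₁ - 1) * k₀ := by ring
      have e2 : k₀ * T + (1 - k₀) = 1 + (T - 1) * k₀ := by ring
      rw [e1, e2] at h1
      rw [← h1, ← intervalIntegral.integral_const_mul]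
      refine intervalIntegral.integral_congr fun t h => ?_
      rw [uIcc_of_le hT] at h
      have ht0 : t - 1 ≠ 0 := by linarith only [ht₁, h.1]
      have := hk0.ne'
      have e3 : k₀ * t + (1 - k₀) = 1 + (t - 1) * k₀ := by ring
      have e4 : k₀ * t + (1 - k₀) - 1 = (t - 1) * k₀ := by ring
      rw [e3]
      have e5 : 1 + (t - 1) * k₀ - 1 = (t - 1) * k₀ := by ring
      rw [e5, ← mul_assoc]
      congr 1
      field_simp
  have hn0 : (n : ℝ) ≠ 0 := hn'.ne'
  have hfin := z3_final (n := (n : ℝ)) (R := R) (e := e) (y := Sl (Ck ρ k₀)) hR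
    (P := fun Y => Pp (Ck ρ k₀) Y)
    (G := fun Y => ∫ m in (0 : ℝ)..1, (1 - m) / (R + m) ^ 2 * IX m R (Ck ρ k₀) Y)
    (tr := fun Y => trX (Ck ρ k₀) Y) (en := fun Y => enX (Ck ρ k₀) Y)
    (by rw [hg]; (clear * - hn0; field_simp)) ?_ ?_ ?_ ?_ ?_ (n * ε) (by positivity)
  · filter_upwards [hfin] with X hX
    rw [le_div_iff₀ hn']
    linarith only [hX]
  · -- monotone
    intro Y Y' hY
    have cw : ContinuousOn (fun m : ℝ => (1 - m) / (R + m) ^ 2) (Icc 0 1) :=
      ContinuousOn.div (by fun_prop) (by fun_prop) fun m hm => by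
        have : 0 < R + m := by linarith only [hR, hm.1]
        (clear * - this; positivity)
    refine intervalIntegral.integral_mono_on zero_le_one ?_ ?_ fun m hm => ?_
    · apply ContinuousOn.intervalIntegrable
      rw [uIcc_of_le zero_le_one]
      exact cw.mul (hIc Y)
    · apply ContinuousOn.intervalIntegrable
      rw [uIcc_of_le zero_le_one]
      exact cw.mul (hIc Y')
    · exact mul_le_mul_of_nonneg_left (IX_mono hp0 hm R hY)
        (div_nonneg (by linarith only [hm.2]) (sq_nonneg _))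
  · exact (hregC k₀ hk).tr
  · have h := (hC 1 le_rfl).en
    rwa [one_mul, one_mul] at h
  · intro Y
    have h := z3_Pp hp0 hR Y
    have e1 : ∫ m in (0 : ℝ)..1, (1 - m) * IX m R (Ck ρ k₀) Y / (R + m) ^ 2 =
      ∫ m in (0 : ℝ)..1, (1 - m) / (R + m) ^ 2 * IX m R (Ck ρ k₀) Y :=
      intervalIntegral.integral_congr fun m _ => by ring
    rw [e1] at h
    exact h
  · intro B hB
    have h := z3_core (n := (n : ℝ)) (R := R) (e := e) (B := B) hR
      (yC := fun t => Sl (Ck ρ (t * k₀))) (yD := fun t => Sl (Dk ρ (1 + (t - 1) * k₀)))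
      (iC := fun X t m => IX m (t * (R + 1) - 1) (Ck ρ (t * k₀)) X)
      (iD := fun X t m => IX m ((t - 1) * (R + 1)) (Dk ρ (1 + (t - 1) * k₀)) X)
      (I := fun Y m => IX m R (Ck ρ k₀) Y) (fun t h => (hD t h).Sl_nonneg) ?_ hIc
      (fun Y => IX_convex hp0 R Y) (fun Y m hm => IX_nonneg hp0 hm R Y) hiC hA hAD ?_ hB
    · simpa only [one_mul] using h
    · intro t h1
      have p1 : 0 < (t - 1) * k₀ := mul_pos (by linarith only [h1]) hk0
      have h2 := hSl (1 + (t - 1) * k₀) (by linarith only [p1])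
      have h3 := z3_Sl_mono hregC (fun a b h1 h2 => (hflowC a b h1 h2).1)
        (a := 1 + (t - 1) * k₀) (b := t * k₀) (by linarith only [p1]) (by linarith only [hk])
      exact h2.trans h3
    · intro X
      exact hpair X (2 * X)

end

end Vale.Agent.P369A
end
end

section

section

/-!
P369A, Z4 and Z5 (helper213): assembly of the amplifier theorem for faithful finite matrices. The
inputs (regularity of the family, continuity of the production, the flow inequality, the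
isoperimetric inequality) are hypotheses here.
-/

namespace Vale.Agent.P369A

open Matrix MeasureTheory Set Filter
open Vale.Agent.P369 (Conf up down)
open Vale.Agent.P369V (ent)
open scoped ComplexOrder Topology

noncomputable section

variable {n : ℕ} {M : ℕ} {ρ : Matrix (Fin n → Fin (M + 1)) (Fin n → Fin (M + 1)) ℂ}

theorem Sl_Ck_one (hρ : ρ.PosSemidef) : Sl (Ck ρ 1) = ent ρ := by
  have h : Tendsto (fun X => ent (cut X (Ck ρ 1))) atTop (𝓝 (ent ρ)) := by
    refine tendsto_const_nhds.congr' ?_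
    filter_upwards [eventually_ge_atTop (n * M)] with X hX
    rw [Ck_one, ent_cut_ext hX hρ]
  exact h.limUnder_eq

theorem trX_ext (ht : ρ.trace = 1) : trX (ext ρ) (n * M) = 1 := by
  obtain ⟨V, hV, h⟩ := ent_cut_ext_aux (n := n) (M := M) (X := n * M) le_rfl
  rw [trX_eq, h ρ, Matrix.trace_mul_comm, ← Matrix.mul_assoc, hV, Matrix.one_mul, ht]
  simp

/-- the entropy at gain one is a lower bound -/
theorem ent_le_Sl_Ck (hρ : ρ.PosSemidef) (ht : ρ.trace = 1)
    (hreg : ∀ k, 1 < k → ∃ E, Reg (Ck ρ k) E)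
    (hmono : ∀ a b, 1 < a → a ≤ b → Sl (Ck ρ a) ≤ Sl (Ck ρ b)) {k : ℝ} (hk : 1 < k) :
    ent ρ ≤ Sl (Ck ρ k) := by
  set tt : ℕ → ℝ := fun m => 1 + (k - 1) / (m + 1) with htt
  have ht1 : ∀ m, 1 < tt m := fun m => by
    have : 0 < (k - 1) / ((m : ℝ) + 1) := by
      have : 0 < k - 1 := by linarith only [hk]
      positivity
    simp only [htt]
    linarith only [this]
  have htk : ∀ m, tt m ≤ k := fun m => by
    have h1 : (k - 1) / ((m : ℝ) + 1) ≤ k - 1 := by
      apply div_le_self (by linarith only [hk])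
      have : (0 : ℝ) ≤ m := Nat.cast_nonneg m
      linarith only []
    simp only [htt]
    linarith only [h1]
  have hlim : Tendsto tt atTop (𝓝 1) := by
    have h1 : Tendsto (fun m : ℕ => (k - 1) / ((m : ℝ) + 1)) atTop (𝓝 0) := by
      have := tendsto_one_div_add_atTop_nhds_zero_nat (𝕜 := ℝ)
      have h2 := this.const_mul (k - 1)
      rw [mul_zero] at h2
      refine h2.congr fun m => ?_
      rw [mul_one_div]
    have h2 := h1.const_add 1
    rw [add_zero] at h2
    exact h2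
  have hlim' : Tendsto tt atTop (𝓝[>] 1) :=
    tendsto_nhdsWithin_iff.2 ⟨hlim, Eventually.of_forall ht1⟩
  have hC : ∀ x y : Conf n, Tendsto (fun m => Ck ρ (tt m) x y) atTop (𝓝 (ext ρ x y)) := fun x y =>
    (tendsto_Ck_one x y).comp hlim'
  have hcut : Tendsto (fun m => cut (n * M) (Ck ρ (tt m))) atTop (𝓝 (cut (n * M) (ext ρ))) := by
    refine tendsto_pi_nhds.2 fun x => tendsto_pi_nhds.2 fun y => ?_
    exact hC x.1 y.1
  have hpe : (cut (n * M) (ext ρ)).PosSemidef := by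
    obtain ⟨V, -, h⟩ := ent_cut_ext_aux (n := n) (M := M) (X := n * M) le_rfl
    rw [h ρ]
    exact hρ.mul_mul_conjTranspose_same V
  have hE := P369V.g4_tendsto_ent (fun m => by
    obtain ⟨E, hE⟩ := hreg (tt m) (ht1 m)
    exact (hE.pos (n * M)).posSemidef) hpe hcut
  rw [ent_cut_ext le_rfl hρ] at hE
  have htr : Tendsto (fun m => trX (Ck ρ (tt m)) (n * M)) atTop (𝓝 1) := by
    rw [← trX_ext (n := n) (M := M) (ρ := ρ) ht]
    unfold trX
    refine tendsto_finsetSum _ fun x _ => ?_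
    exact (Complex.continuous_re.tendsto _).comp (hC x.1 x.1)
  have hR : Tendsto (fun m => Sl (Ck ρ k) + (1 - trX (Ck ρ (tt m)) (n * M))) atTop
      (𝓝 (Sl (Ck ρ k) + (1 - 1))) := tendsto_const_nhds.add (tendsto_const_nhds.sub htr)
  rw [sub_self, add_zero] at hR
  refine le_of_tendsto_of_tendsto' hE hR fun m => ?_
  obtain ⟨E, hE'⟩ := hreg (tt m) (ht1 m)
  have h1 := hE'.ent_le (n * M)
  have h2 := hmono (tt m) k (ht1 m) (htk m)
  linarith only [h1, h2]

theorem trX_pos {s : Ker n} (hs : ∀ X, (cut X s).PosDef) (X : ℕ) : 0 < trX s X := by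
  unfold trX
  have hne : Nonempty (Ct n X) := ⟨⟨0, by simp only [Pi.zero_apply, Finset.sum_const_zero, zero_le]⟩⟩
  refine Finset.sum_pos (fun x _ => ?_) Finset.univ_nonempty
  have h := (hs X).diag_pos (i := x)
  exact (Complex.lt_def.1 h).1

/-- Z4, inputs as hypotheses -/
theorem amp_Sl_aux (hn : 1 ≤ n) (hρ : ρ.PosSemidef) (ht : ρ.trace = 1)
    (hreg : ∀ k, 1 < k → ∃ E, Reg (Ck ρ k) E)
    (hPc : ∀ X, ContinuousOn (fun k => Pp (Ck ρ k) X) (Ioi 1))
    (hflow : ∀ a b, 1 < a → a ≤ b → ∀ X,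
      ∫ k in a..b, 1 / k * Pp (Ck ρ k) X ≤ Sl (Ck ρ b) - Sl (Ck ρ a))
    (hiso : ∀ k₀, 1 < k₀ → ∀ R, 0 < R → P369.g R = Sl (Ck ρ k₀) / n → ∀ ε > 0,
      ∀ᶠ X in atTop, hamp R - ε ≤ Pp (Ck ρ k₀) X / n)
    {N : ℝ} (hN : 0 ≤ N) (hg : P369.g N ≤ ent ρ / n) {k : ℝ} (hk : 1 ≤ k) :
    P369.g (k * (N + 1) - 1) ≤ Sl (Ck ρ k) / n := by
  have hn0 : (0 : ℝ) < n := by exact_mod_cast hn
  have hP0 : ∀ k, 1 < k → ∀ X, 0 < Pp (Ck ρ k) X := fun k hk X => by
    obtain ⟨E, hE⟩ := hreg k hk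
    have h1 := trX_pos hE.pos (X + 1)
    have h2 : 0 ≤ ∫ m in (0 : ℝ)..1, (1 - m) * FX m (Ck ρ k) X :=
      intervalIntegral.integral_nonneg zero_le_one fun m hm =>
        mul_nonneg (sub_nonneg.2 hm.2) (FX_nonneg hE.pos hm X)
    unfold Pp
    have : 0 < (n : ℝ) * trX (Ck ρ k) (X + 1) := mul_pos hn0 h1
    linarith only [h2, this]
  have hcw : ∀ a b, 1 < a → a ≤ b → ∀ X, ContinuousOn (fun k => 1 / k * Pp (Ck ρ k) X) (Icc a b) := by
    intro a b ha hab X
    refine ContinuousOn.mul (continuousOn_const.div continuousOn_id fun x hx => ?_)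
      ((hPc X).mono fun x hx => lt_of_lt_of_le ha hx.1)
    have h1 : 1 < x := lt_of_lt_of_le ha hx.1
    have h2 : x ≠ 0 := by linarith only [h1]
    exact h2
  have hmono : ∀ a b, 1 < a → a ≤ b → Sl (Ck ρ a) ≤ Sl (Ck ρ b) := by
    intro a b ha hab
    have h1 := hflow a b ha hab 0
    have h2 : 0 ≤ ∫ k in a..b, 1 / k * Pp (Ck ρ k) 0 := by
      refine intervalIntegral.integral_nonneg hab fun x hx => ?_
      have hx1 : 1 < x := lt_of_lt_of_le ha hx.1
      have := hP0 x hx1 0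
      (clear * - hx1 this; positivity)
    linarith only [h1, h2]
  have hpos : ∀ b, 1 < b → 0 < Sl (Ck ρ b) := by
    intro b hb
    have ha : 1 < (1 + b) / 2 := by linarith only [hb]
    have hab : (1 + b) / 2 < b := by linarith only [hb]
    have h1 := hflow _ b ha hab.le 0
    have h2 : 0 < ∫ k in ((1 + b) / 2)..b, 1 / k * Pp (Ck ρ k) 0 := by
      refine intervalIntegral.intervalIntegral_pos_of_pos_on ?_ ?_ hab
      · apply ContinuousOn.intervalIntegrable
        rw [uIcc_of_le hab.le]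
        exact hcw _ b ha hab.le 0
      · intro x hx
        have hx1 : 1 < x := lt_trans ha hx.1
        have := hP0 x hx1 0
        (clear * - hx1 this; positivity)
    obtain ⟨E, hE⟩ := hreg _ ha
    have h3 := hE.Sl_nonneg
    linarith only [h1, h2, h3]
  refine amp_compare (y := fun k => Sl (Ck ρ k) / n) (JX := fun X k => Pp (Ck ρ k) X / n) hk
    ?_ ?_ ?_ ?_ ?_ ?_ hN ?_
  · intro a ha b hb hab
    refine div_le_div_of_nonneg_right ?_ hn0.le
    rcases ha.1.eq_or_lt with h | h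
    · rcases hb.1.eq_or_lt with h' | h'
      · rw [← h, ← h']
      · rw [← h, Sl_Ck_one hρ]
        exact ent_le_Sl_Ck hρ ht hreg hmono h'
    · exact hmono a b h hab
  · intro x hx
    exact div_pos (hpos x hx.1) hn0
  · intro X
    exact ((hPc X).mono fun x hx => hx.1).div_const _
  · intro X x hx
    exact div_nonneg (hP0 x hx.1 X).le hn0.le
  · intro x hx R hR hRg ε hε
    exact hiso x hx.1 R hR hRg ε hε
  · intro a b ha hab hb ε hε
    refine Eventually.of_forall fun X => ?_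
    have h1 := hflow a b ha hab X
    have h2 : ∫ k in a..b, Pp (Ck ρ k) X / n / k = (∫ k in a..b, 1 / k * Pp (Ck ρ k) X) / n := by
      rw [← intervalIntegral.integral_div]
      refine intervalIntegral.integral_congr fun x _ => ?_
      ring
    rw [h2]
    have h3 : (∫ k in a..b, 1 / k * Pp (Ck ρ k) X) / n ≤ (Sl (Ck ρ b) - Sl (Ck ρ a)) / n :=
      div_le_div_of_nonneg_right h1 hn0.le
    rw [sub_div] at h3
    linarith only [hε, h3]
  · rw [Sl_Ck_one hρ]
    exact hg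

/-- Z5, from Z4 -/
theorem amp_fd_aux (hn : 1 ≤ n) (hρ : ρ.PosSemidef)
    (hreg : ∀ k, 1 < k → ∃ E, Reg (Ck ρ k) E) {N k : ℝ} (hk : 1 ≤ k)
    (h : P369.g (k * (N + 1) - 1) ≤ Sl (Ck ρ k) / n) {ε : ℝ} (hε : 0 < ε) :
    ∀ᶠ X in atTop, n * P369.g (k * (N + 1) - 1) - ε ≤ ent (cut X (ampE k (ext ρ))) := by
  have hn0 : (0 : ℝ) < n := by exact_mod_cast hn
  have h1 : n * P369.g (k * (N + 1) - 1) ≤ Sl (Ck ρ k) := by
    rw [le_div_iff₀ hn0] at h
    linarith only [h]
  rcases hk.eq_or_lt with h' | h'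
  · subst h'
    filter_upwards [eventually_ge_atTop (n * M)] with X hX
    have h2 : ent (cut X (ampE 1 (ext ρ))) = ent ρ := by
      rw [ampE_one, ent_cut_ext hX hρ]
    rw [Sl_Ck_one hρ] at h1
    rw [h2]
    linarith only [hε, h1]
  · obtain ⟨E, hE⟩ := hreg k h'
    have h2 := hE.limit
    filter_upwards [h2.eventually (eventually_gt_nhds (show Sl (Ck ρ k) - ε < Sl (Ck ρ k) by linarith only [hε]))]
      with X hX
    have h3 : ent (cut X (Ck ρ k)) = ent (cut X (ampE k (ext ρ))) := rfl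
    rw [← h3]
    linarith only [h1, hX]

end

end Vale.Agent.P369A
end
end

section

section

/-!
P369A, final assembly: the amplifier inequality for faithful finite matrices.
-/

namespace Vale.Agent.P369A

open Matrix MeasureTheory Set Filter
open Vale.Agent.P369 (Conf up down)
open Vale.Agent.P369V (ent)
open scoped ComplexOrder Topology

noncomputable section

variable {n : ℕ} {M : ℕ} {ρ : Matrix (Fin n → Fin (M + 1)) (Fin n → Fin (M + 1)) ℂ}

/-- F5: the environment has at most the entropy of the output -/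
theorem Sl_Dk_le (hρ : ρ.PosDef) (ht : ρ.trace = 1) {k : ℝ} (hk : 1 < k) :
    Sl (Dk ρ k) ≤ Sl (Ck ρ k) :=
  Sl_Dk_le_reg hρ.posSemidef (reg_Ck hρ ht hk) (reg_Dk hρ ht hk)

/-- Z3: the isoperimetric inequality of the amplifier -/
theorem iso_C (hn : 1 ≤ n) (hρ : ρ.PosDef) (ht : ρ.trace = 1) {k₀ : ℝ} (hk : 1 < k₀) {R : ℝ}
    (hR : 0 < R) (hg : P369.g R = Sl (Ck ρ k₀) / n) {ε : ℝ} (hε : 0 < ε) :
    ∀ᶠ X in atTop, hamp R - ε ≤ Pp (Ck ρ k₀) X / n :=
  iso_C_of hn hρ hk hR hg (fun _ h => reg_Ck hρ ht h) (fun _ h => reg_Dk hρ ht h)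
    (fun _ h => Sl_Dk_le hρ ht h) (fun _ _ h1 h2 => flow_C hρ ht h1 h2)
    (fun _ _ h1 h2 => flow_D hρ ht h1 h2) (pair_final hρ ht hk hR) hε

/-- Z4: final theorem for faithful finite matrices -/
theorem amp_Sl (hn : 1 ≤ n) (hρ : ρ.PosDef) (ht : ρ.trace = 1) {N : ℝ} (hN : 0 ≤ N)
    (hg : P369.g N ≤ ent ρ / n) {k : ℝ} (hk : 1 ≤ k) :
    P369.g (k * (N + 1) - 1) ≤ Sl (Ck ρ k) / n := by
  have hc : ∀ x y, ContinuousOn (fun k => Ck ρ k x y) (Ioi 1) := fun x y k hk =>
    (hasDerivAt_Ck hk x y).continuousAt.continuousWithinAt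
  exact amp_Sl_aux hn hρ.posSemidef ht (fun k hk => ⟨_, reg_Ck hρ ht hk⟩)
    (fun X => continuousOn_Pp (fun k hk => (reg_Ck hρ ht hk).pos) hc X)
    (fun a b ha hab => (flow_C hρ ht ha hab).1)
    (fun k₀ hk R hR hg ε hε => iso_C hn hρ ht hk hR hg hε) hN hg hk

/-- Z5: the interface theorem for the infinite-dimensional end -/
theorem amp_fd (hn : 1 ≤ n) (hρ : ρ.PosDef) (ht : ρ.trace = 1) {N : ℝ} (hN : 0 ≤ N)
    (hg : P369.g N ≤ ent ρ / n) {k : ℝ} (hk : 1 ≤ k) {ε : ℝ} (hε : 0 < ε) :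
    ∀ᶠ X in atTop, n * P369.g (k * (N + 1) - 1) - ε ≤ ent (cut X (ampE k (ext ρ))) :=
  amp_fd_aux hn hρ.posSemidef (fun _ hk => ⟨_, reg_Ck hρ ht hk⟩) hk
    (amp_Sl hn hρ ht hN hg hk) hε

/-- the finite-dimensional amplifier theorem -/
theorem ampFd (hn : 1 ≤ n) {κ : ℝ} (hκ : 1 ≤ κ) : P369T.AmpFd n κ :=
  fun _ _ hρ ht _ hN hg _ hε => amp_fd hn hρ ht hN hg hκ hε

end

end Vale.Agent.P369A
end
end
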